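import Vale.Agent.P100C.Apriori

/-!
No positive entire solution when `p * q ≤ 1`: at scale `l` the mean value inequality and the mass
of the source give `l ^ (2 * (p + 1)) ≤ A ^ (p + 1) * u 0 ^ (1 - p * q)`, for every `l > 0`.
-/

open MeasureTheory Filter Topology Laplacian Set
open scoped ContDiff

noncomputable section

namespace Vale.Agent.P100T

open Vale.Agent.P100 Vale.Agent.P100C

variable {n : ℕ}

/-- The two inequalities between the masses on the unit ball at a fixed scale. -/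
theorem sublinear_step (hn : 3 ≤ n) : ∃ c A : ℝ, 0 < c ∧ 0 < A ∧
    ∀ (u v : Euc n → ℝ) (r s k : ℝ), 0 < r → 0 ≤ k → Continuous u → Continuous v →
      (∀ x, 0 < u x) → (∀ x, 0 < v x) → ContDiffOn ℝ 2 u {x | x ≠ 0} →
      ContDiffOn ℝ 2 v {x | x ≠ 0} → (∀ x, x ≠ 0 → -(Δ u x) = k * v x ^ r) →
      (∀ x, x ≠ 0 → -(Δ v x) = k * u x ^ s) →
        k * (c * ∫ z in Metric.closedBall (0 : Euc n) 1, v z) ^ r ≤
            A * (c * ∫ z in Metric.closedBall (0 : Euc n) 1, u z) ∧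
          c * (∫ z in Metric.closedBall (0 : Euc n) 1, u z) ≤ u 0 := by
  obtain ⟨c, hc, hmv⟩ := mean_value n 1 one_pos
  obtain ⟨D, hD0, hsrc⟩ := source_bound hn 1 one_pos
  set T := ∫ x, tb ((1 : ℝ) ^ 2) (0 : Euc n) x with hTd
  have hTi : Integrable (tb ((1 : ℝ) ^ 2) (0 : Euc n)) :=
    (contDiff_tb _ _).continuous.integrable_of_hasCompactSupport (hasCompactSupport_tb _ _)
  have hT : 0 < T := by
    refine (contDiff_tb ((1 : ℝ) ^ 2)
      (0 : Euc n)).continuous.integral_pos_of_hasCompactSupport_nonneg_nonzero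
      (hasCompactSupport_tb _ _) (fun y => ppow_nonneg _ _) (x := 0) ?_
    simp [tb, ppow]
  refine ⟨c, D / (c * T) + 1, hc, by positivity,
    fun u v r s k hr hk hu hv hu0 hv0 hu2 hv2 hequ heqv => ?_⟩
  have hmean : ∀ (w g : Euc n → ℝ), Continuous w → Continuous g → (∀ x, 0 ≤ w x) → (∀ x, 0 ≤ g x) →
      ContDiffOn ℝ 2 w {x | x ≠ 0} → (∀ x, x ≠ 0 → -(Δ w x) = g x) →
      ∀ x ∈ Metric.closedBall (0 : Euc n) (3 * 1),
        c * (∫ z in Metric.closedBall (0 : Euc n) 1, w z) ≤ w x := by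
    intro w g hw hg hw0 hg0 hw2 he
    refine hmv w hw hw0 fun t x => ?_
    rw [weak_eq hn hw hg hw2 he (contDiff_tb t x) (hasCompactSupport_tb t x)]
    exact neg_nonpos.2 (integral_nonneg fun z => mul_nonneg (hg0 z) (ppow_nonneg _ _))
  have hg : Continuous fun x => k * v x ^ r :=
    continuous_const.mul (hv.rpow_const fun x => Or.inl (hv0 x).ne')
  have hg' : Continuous fun x => k * u x ^ s :=
    continuous_const.mul (hu.rpow_const fun x => Or.inl (hu0 x).ne')
  have hgn : ∀ x, 0 ≤ k * v x ^ r := fun x => mul_nonneg hk (Real.rpow_nonneg (hv0 x).le _)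
  have hgn' : ∀ x, 0 ≤ k * u x ^ s := fun x => mul_nonneg hk (Real.rpow_nonneg (hu0 x).le _)
  refine ⟨?_, hmean u _ hu hg (fun x => (hu0 x).le) hgn hu2 hequ 0 (by simp)⟩
  have hlow := hmean v _ hv hg' (fun x => (hv0 x).le) hgn' hv2 heqv
  set Iu := ∫ z in Metric.closedBall (0 : Euc n) 1, u z
  set Iv := ∫ z in Metric.closedBall (0 : Euc n) 1, v z
  have hIu : 0 ≤ Iu := integral_nonneg fun x => (hu0 x).le
  have h1 : ∫ x, k * v x ^ r * tb ((1 : ℝ) ^ 2) 0 x ≤ D * Iu :=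
    hsrc u _ hu hg (fun x => (hu0 x).le) hu2 hequ
  have h2 : k * (c * Iv) ^ r * T ≤ ∫ x, k * v x ^ r * tb ((1 : ℝ) ^ 2) 0 x := by
    rw [hTd, ← integral_const_mul]
    refine integral_mono (hTi.const_mul _)
      ((hg.mul (contDiff_tb _ _).continuous).integrable_of_hasCompactSupport
        (hasCompactSupport_tb _ _).mul_left) fun x => ?_
    by_cases hx : x ∈ Metric.closedBall (0 : Euc n) (3 * 1)
    · exact mul_le_mul_of_nonneg_right (mul_le_mul_of_nonneg_left (Real.rpow_le_rpow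
        (mul_nonneg hc.le (integral_nonneg fun z => (hv0 z).le)) (hlow x hx) hr.le) hk)
        (ppow_nonneg _ _)
    · rw [mem_closedBall_zero_iff, not_le] at hx
      have : 1 - ‖x‖ ^ 2 ≤ 0 := by nlinarith
      simp [tb, ppow, max_eq_right this]
  have h3 : k * (c * Iv) ^ r ≤ D / T * Iu := by
    rw [div_mul_eq_mul_div, le_div_iff₀ hT]
    exact h2.trans h1
  refine h3.trans (le_trans (le_of_eq ?_) (mul_le_mul_of_nonneg_right
    (le_add_of_nonneg_right zero_le_one) (mul_nonneg hc.le hIu)))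
  field_simp

/-- No positive entire solution for `p * q ≤ 1`. -/
theorem no_solution_sublinear {n : ℕ} (hn : 3 ≤ n) {p q : ℝ} (hp : 0 < p) (hq : 0 < q)
    (hpq : p * q ≤ 1) :
    ¬ ∃ u v : Euc n → ℝ, P100.IsPositiveEntireSolution p q u v := by
  rintro ⟨u, v, huc, hvc, hu2, hv2, hup, hvp, heq⟩
  obtain ⟨c, A, hc, hA, hstep⟩ := sublinear_step (n := n) hn
  have hu00 : 0 < u 0 := hup 0
  have hp1 : 0 < p + 1 := by linarith
  set e := 1 - p * q with he_def
  have he : 0 ≤ e := by rw [he_def]; linarith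
  set M := A * (u 0 ^ e) ^ (1 / (p + 1)) with hM
  have hM0 : 0 < M := mul_pos hA (Real.rpow_pos_of_pos (Real.rpow_pos_of_pos hu00 _) _)
  set l := M + 1 with hl
  have hl0 : 0 < l := by rw [hl]; linarith
  have hl2 : M < l ^ 2 := by rw [hl]; nlinarith
  set ul : Euc n → ℝ := fun x => u (l • x) with hul
  set vl : Euc n → ℝ := fun x => v (l • x) with hvl
  have hmap : Set.MapsTo (fun x : Euc n => l • x) {x | x ≠ 0} {x | x ≠ 0} :=
    fun x hx => smul_ne_zero hl0.ne' hx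
  have hsm : ContDiff ℝ 2 (fun x : Euc n => l • x) := contDiff_const_smul l
  have hlap : ∀ {f : Euc n → ℝ}, ContDiffOn ℝ 2 f {x | x ≠ 0} → ∀ x : Euc n, x ≠ 0 →
      Δ (fun y => f (l • y)) x = l ^ 2 * Δ f (l • x) := by
    intro f hf x hx
    have h := laplacian_scale (c := 1) (hf.contDiffAt (isOpen_ne.mem_nhds (hmap hx)))
    simpa only [one_mul] using h
  have eu : ∀ x, x ≠ 0 → -(Δ ul x) = l ^ 2 * vl x ^ p := fun x hx => by
    rw [hul, hvl, hlap hu2 x hx, ← mul_neg, (heq _ (hmap hx)).1]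
  have ev : ∀ x, x ≠ 0 → -(Δ vl x) = l ^ 2 * ul x ^ q := fun x hx => by
    rw [hul, hvl, hlap hv2 x hx, ← mul_neg, (heq _ (hmap hx)).2]
  have cu : Continuous ul := huc.comp (continuous_const_smul l)
  have cv : Continuous vl := hvc.comp (continuous_const_smul l)
  have du : ContDiffOn ℝ 2 ul {x | x ≠ 0} := hu2.comp hsm.contDiffOn hmap
  have dv : ContDiffOn ℝ 2 vl {x | x ≠ 0} := hv2.comp hsm.contDiffOn hmap
  obtain ⟨s1, hX0⟩ := hstep ul vl p q (l ^ 2) hp (sq_nonneg l) cu cv (fun x => hup _)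
    (fun x => hvp _) du dv eu ev
  obtain ⟨s2, -⟩ := hstep vl ul q p (l ^ 2) hq (sq_nonneg l) cv cu (fun x => hvp _)
    (fun x => hup _) dv du ev eu
  set X := c * ∫ z in Metric.closedBall (0 : Euc n) 1, ul z
  set Y := c * ∫ z in Metric.closedBall (0 : Euc n) 1, vl z with hY
  have hXpos : 0 < X := by
    refine mul_pos hc ((setIntegral_pos_iff_support_of_nonneg_ae
      (Eventually.of_forall fun x => (hup (l • x)).le)
      (cu.continuousOn.integrableOn_compact (isCompact_closedBall _ _))).2 ?_)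
    rw [show Function.support ul = univ from eq_univ_of_forall fun x => (hup (l • x)).ne', univ_inter]
    exact Metric.measure_closedBall_pos _ _ one_pos
  have hXu : X ≤ u 0 := by simpa [hul] using hX0
  have hY0 : 0 ≤ Y := mul_nonneg hc.le (integral_nonneg fun x => (hvp _).le)
  have e1 : (l ^ 2 * X ^ q) ^ p ≤ (A * Y) ^ p :=
    Real.rpow_le_rpow (mul_nonneg (sq_nonneg l) (Real.rpow_nonneg hXpos.le q)) s2 hp.le
  rw [Real.mul_rpow (sq_nonneg l) (Real.rpow_nonneg hXpos.le q), Real.mul_rpow hA.le hY0,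
    ← Real.rpow_mul hXpos.le, mul_comm q p] at e1
  have e2 : (l ^ 2) ^ (p + 1) * X ^ (p * q) ≤ A ^ (p + 1) * X := by
    rw [Real.rpow_add_one (by positivity : (l ^ 2 : ℝ) ≠ 0), Real.rpow_add_one hA.ne']
    calc (l ^ 2) ^ p * l ^ 2 * X ^ (p * q) = l ^ 2 * ((l ^ 2) ^ p * X ^ (p * q)) := by ring
      _ ≤ l ^ 2 * (A ^ p * Y ^ p) := mul_le_mul_of_nonneg_left e1 (sq_nonneg l)
      _ = A ^ p * (l ^ 2 * Y ^ p) := by ring
      _ ≤ A ^ p * (A * X) := mul_le_mul_of_nonneg_left s1 (Real.rpow_nonneg hA.le p)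
      _ = A ^ p * A * X := by ring
  have e3 : (l ^ 2) ^ (p + 1) ≤ A ^ (p + 1) * u 0 ^ e := by
    refine le_trans ?_ (mul_le_mul_of_nonneg_left (Real.rpow_le_rpow hXpos.le hXu he)
      (Real.rpow_nonneg hA.le _))
    rw [he_def, Real.rpow_sub hXpos, Real.rpow_one, ← mul_div_assoc,
      le_div_iff₀ (Real.rpow_pos_of_pos hXpos _)]
    exact e2
  have e4 : M ^ (p + 1) = A ^ (p + 1) * u 0 ^ e := by
    rw [hM, Real.mul_rpow hA.le (Real.rpow_nonneg (Real.rpow_nonneg hu00.le _) _),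
      ← Real.rpow_mul (Real.rpow_nonneg hu00.le _), one_div_mul_cancel hp1.ne', Real.rpow_one]
  exact absurd (e4 ▸ e3) (not_le.2 (Real.rpow_lt_rpow hM0.le hl2 hp1))

end Vale.Agent.P100T
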