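import Vale.Agent.P100.Est

/-!
Multipliers that depend on `τ = log (v^(p+1) / u^(q+1))`: the integrand and the reduction of
its positivity to an inequality in four scalar variables.
-/

noncomputable section

namespace Vale.Agent.P100T

open Vale.Agent.P100

/-- Multipliers: the weight is `(u^q/v)^s · exp (Psi τ)`, the field has coefficients
`cc, dd, kX, kY`; `lam, cc', dd', kX', kY'` are the derivatives. -/
structure TPar where
  s : ℝ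
  Psi : ℝ → ℝ
  lam : ℝ → ℝ
  cc : ℝ → ℝ
  cc' : ℝ → ℝ
  dd : ℝ → ℝ
  dd' : ℝ → ℝ
  kX : ℝ → ℝ
  kX' : ℝ → ℝ
  kY : ℝ → ℝ
  kY' : ℝ → ℝ

namespace TPar

variable (Φ : TPar) (p q τ : ℝ)

/-- The multipliers frozen at `τ`. -/
def froz : Par where
  a := Φ.s * q - (q + 1) * Φ.lam τ
  b := -Φ.s + (p + 1) * Φ.lam τ
  c := Φ.cc τ
  d := Φ.dd τ
  k1 := 0
  k2 := Φ.kX τ
  k3 := 0
  k4 := Φ.kY τ

/-- The derivative terms of the integrand, `A = |X|²`, `C = X·Y`, `B = |Y|²`. -/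
def extra (A C B Q : ℝ) : ℝ :=
  (Φ.cc' τ * B + Φ.kX' τ * Q) * ((p + 1) * C - (q + 1) * A)
    + (Φ.dd' τ * B + Φ.kY' τ * Q) * ((p + 1) * B - (q + 1) * C)

/-- The integrand without its terms in the Hessian. -/
def rest (A C B Q : ℝ) : ℝ :=
  -(Q * (q * C - B))
  + Φ.cc τ * (((Φ.froz p q τ).a * A + (Φ.froz p q τ).b * C) * B
      + (-(Real.exp τ * Q) - A) * B)
  + Φ.dd τ * (((Φ.froz p q τ).a * C + (Φ.froz p q τ).b * B) * B + (-Q - B) * B)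
  + Φ.kX τ * Q * (-(Real.exp τ * Q) + ((Φ.froz p q τ).a - 1 + q) * A
      + ((Φ.froz p q τ).b - 1) * C)
  + Φ.kY τ * Q * (-Q + ((Φ.froz p q τ).a + q) * C + ((Φ.froz p q τ).b - 2) * B)
  + Φ.extra p q τ A C B Q

/-- The scalar minorant of the integrand in dimension `N`. -/
def scalF (N A C B Q : ℝ) : ℝ :=
  let m1 := (Φ.froz p q τ).m1
  let m2 := (Φ.froz p q τ).m2
  let U := m1 * C + m2 * B
  ((-Q - B) ^ 2 + U * (-Q - B)) / N
    - (m1 ^ 2 * (A * B + C ^ 2) / 2 + 2 * m1 * m2 * C * B + m2 ^ 2 * B ^ 2 - U ^ 2 / N) / 4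
    + Φ.rest p q τ A C B Q

/-- The quantity that the minorant has to control. -/
def scalM (A B Q : ℝ) : ℝ := A * B + B ^ 2 + Q * A + Q * B + Q ^ 2

/-- Uniform positivity of the minorant on the comparison range. -/
def Coercive (n : ℕ) (τb e : ℝ) : Prop :=
  ∀ τ ≤ τb, ∀ A C B Q : ℝ, 0 ≤ A → 0 ≤ B → C ^ 2 ≤ A * B → 0 ≤ Q →
    e * scalM A B Q ≤ Φ.scalF p q τ n A C B Q

/-- The multipliers are bounded on the comparison range. -/
def Bounded (τb K : ℝ) : Prop :=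
  ∀ τ ≤ τb, Φ.Psi τ ≤ K ∧ |Φ.lam τ| ≤ K ∧ |Φ.cc τ| ≤ K ∧ |Φ.dd τ| ≤ K ∧
    |Φ.kX τ| ≤ K ∧ |Φ.kY τ| ≤ K

/-- The listed derivatives are the derivatives, and they are continuous. -/
def Smooth : Prop :=
  (∀ t, HasDerivAt Φ.Psi (Φ.lam t) t) ∧ (∀ t, HasDerivAt Φ.cc (Φ.cc' t) t) ∧
  (∀ t, HasDerivAt Φ.dd (Φ.dd' t) t) ∧ (∀ t, HasDerivAt Φ.kX (Φ.kX' t) t) ∧
  (∀ t, HasDerivAt Φ.kY (Φ.kY' t) t) ∧ Continuous Φ.lam ∧ Continuous Φ.cc' ∧
  Continuous Φ.dd' ∧ Continuous Φ.kX' ∧ Continuous Φ.kY'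

/-- Passing from a calibration in real dimension `N` to a smaller dimension. -/
lemma scalF_dim {N n : ℝ} (hN : N ≠ 0) (hn : n ≠ 0) (A C B Q : ℝ) :
    Φ.scalF p q τ n A C B Q = Φ.scalF p q τ N A C B Q
      + (1 / n - 1 / N) * ((-Q - B) + ((Φ.froz p q τ).m1 * C + (Φ.froz p q τ).m2 * B) / 2) ^ 2 := by
  simp only [scalF]
  field_simp
  ring

variable {Φ p q τ}

lemma scalM_nonneg {A B Q : ℝ} (hA : 0 ≤ A) (hB : 0 ≤ B) (hQ : 0 ≤ Q) : 0 ≤ scalM A B Q := by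
  unfold scalM; positivity

end TPar

section

variable {n : ℕ}

/-- The integrand with variable multipliers. -/
def JT (Φ : TPar) (p q τ : ℝ) (G : Fin n → Fin n → ℝ) (X Y : Fin n → ℝ) (Q : ℝ) : ℝ :=
  Jfun (Φ.froz p q τ) p q G X Y (Real.exp τ * Q) Q
    + Φ.extra p q τ (dot X X) (dot X Y) (dot Y Y) Q

lemma JT_eq (Φ : TPar) (p q τ : ℝ) (G : Fin n → Fin n → ℝ) (X Y : Fin n → ℝ) (Q : ℝ) :
    JT Φ p q τ G X Y Q = P100.sq G + (Φ.froz p q τ).m1 * quad G X Y + (Φ.froz p q τ).m2 * quad G Y Y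
      + Φ.rest p q τ (dot X X) (dot X Y) (dot Y Y) Q := by
  simp only [JT, Jfun, TPar.rest, TPar.froz, Par.m1, Par.m2]
  ring

/-- The error from lowering the coefficient of `|G|²` to `1 - ε`. -/
lemma perturb {N ε e m m1 m2 t T A B C Q R S H : ℝ} (hN : 0 < N) (hε : 0 < ε) (hε1 : ε ≤ 1 / 2)
    (he : ε * (2 * (2 / N + 4 * m ^ 2 + 1) + 2 * (T + T ^ 2 + 1) + 2) ≤ e)
    (hm1 : |m1| ≤ m) (hm2 : |m2| ≤ m) (ht0 : 0 ≤ t) (ht : t ≤ T) (hA : 0 ≤ A) (hB : 0 ≤ B)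
    (hC : C ^ 2 ≤ A * B) (hQ : 0 ≤ Q)
    (hF : e * TPar.scalM A B Q ≤ ((-Q - B) ^ 2 + (m1 * C + m2 * B) * (-Q - B)) / N
      - (m1 ^ 2 * (A * B + C ^ 2) / 2 + 2 * m1 * m2 * C * B + m2 ^ 2 * B ^ 2
          - (m1 * C + m2 * B) ^ 2 / N) / 4 + R)
    (hT : ((1 - ε) * (-Q - B) ^ 2 + (m1 * C + m2 * B) * (-Q - B)) / N
      - (m1 ^ 2 * (A * B + C ^ 2) / 2 + 2 * m1 * m2 * C * B + m2 ^ 2 * B ^ 2
          - (m1 * C + m2 * B) ^ 2 / N) / (4 * (1 - ε)) ≤ (1 - ε) * S + H) :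
    ε * (S + A * B + B ^ 2 + t * Q * (A + B) + Q * (A + B) + (t * Q) ^ 2 + Q ^ 2) ≤ S + H + R := by
  have hT0 : 0 ≤ T := ht0.trans ht
  have hq1 : m1 ^ 2 ≤ m ^ 2 := sq_le_sq' (abs_le.1 hm1).1 (abs_le.1 hm1).2
  have hq2 : m2 ^ 2 ≤ m ^ 2 := sq_le_sq' (abs_le.1 hm2).1 (abs_le.1 hm2).2
  have hAB : 0 ≤ A * B := mul_nonneg hA hB
  set M := TPar.scalM A B Q with hM
  have hM0 : 0 ≤ M := TPar.scalM_nonneg hA hB hQ
  set Z := m1 ^ 2 * (A * B + C ^ 2) / 2 + 2 * m1 * m2 * C * B + m2 ^ 2 * B ^ 2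
    - (m1 * C + m2 * B) ^ 2 / N with hZ
  set T2 := (-Q - B) ^ 2 with hT2
  have b1 : m1 ^ 2 * C ^ 2 ≤ m ^ 2 * (A * B) :=
    mul_le_mul hq1 hC (sq_nonneg _) (sq_nonneg _)
  have b2 : m1 ^ 2 * (A * B) ≤ m ^ 2 * (A * B) := mul_le_mul_of_nonneg_right hq1 hAB
  have b3 : m2 ^ 2 * B ^ 2 ≤ m ^ 2 * B ^ 2 := mul_le_mul_of_nonneg_right hq2 (sq_nonneg _)
  have b4 : 2 * m1 * m2 * C * B ≤ m1 ^ 2 * C ^ 2 + m2 ^ 2 * B ^ 2 := by
    linarith [two_mul_le_add_sq (m1 * C) (m2 * B)]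
  have q0 : 0 ≤ Q * A := mul_nonneg hQ hA
  have q1 : 0 ≤ Q * B := mul_nonneg hQ hB
  have hZM : Z ≤ 2 * m ^ 2 * M := by
    have : 0 ≤ (m1 * C + m2 * B) ^ 2 / N := by positivity
    have : 0 ≤ m ^ 2 * (Q * A + Q * B + Q ^ 2) := by positivity
    simp only [hZ, hM, TPar.scalM]; linarith
  have hTM : T2 / N ≤ 2 / N * M := by
    rw [div_mul_eq_mul_div]
    refine (div_le_div_iff_of_pos_right hN).2 ?_
    simp only [hT2, hM, TPar.scalM]; linarith [sq_nonneg Q, sq_nonneg B]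
  have hk : 0 ≤ 1 / (4 * (1 - ε)) - 1 / 4 ∧ 1 / (4 * (1 - ε)) - 1 / 4 ≤ ε / 2 := by
    have : 1 / (4 * (1 - ε)) - 1 / 4 = ε / (4 * (1 - ε)) := by
      field_simp [show 1 - ε ≠ 0 by linarith]; ring
    rw [this]
    exact ⟨div_nonneg hε.le (by linarith),
      div_le_div_of_nonneg_left hε.le two_pos (by linarith)⟩
  have h1 : (1 / (4 * (1 - ε)) - 1 / 4) * Z ≤ ε * m ^ 2 * M := by
    calc _ ≤ (1 / (4 * (1 - ε)) - 1 / 4) * (2 * m ^ 2 * M) :=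
          mul_le_mul_of_nonneg_left hZM hk.1
      _ ≤ ε / 2 * (2 * m ^ 2 * M) := mul_le_mul_of_nonneg_right hk.2 (by positivity)
      _ = _ := by ring
  have h2 := mul_le_mul_of_nonneg_left hTM hε.le
  have h3 : A * B + B ^ 2 + t * Q * (A + B) + Q * (A + B) + (t * Q) ^ 2 + Q ^ 2
      ≤ (1 + T + T ^ 2) * M := by
    have p1 : t * (Q * A + Q * B) ≤ T * (Q * A + Q * B) :=
      mul_le_mul_of_nonneg_right ht (by positivity)
    have p2 : t ^ 2 * Q ^ 2 ≤ T ^ 2 * Q ^ 2 :=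
      mul_le_mul_of_nonneg_right (pow_le_pow_left₀ ht0 ht 2) (sq_nonneg _)
    have p3 : 0 ≤ (T + T ^ 2) * (A * B + B ^ 2) := by positivity
    have p4 : 0 ≤ T ^ 2 * (Q * A + Q * B) := by positivity
    have p5 : 0 ≤ T * Q ^ 2 := by positivity
    simp only [hM, TPar.scalM]; linarith
  have h4 := mul_le_mul_of_nonneg_left h3 hε.le
  have h5 := mul_le_mul_of_nonneg_right he hM0
  have h6 : 0 ≤ ε * M := by positivity
  have h6a : 0 ≤ ε * M * m ^ 2 := by positivity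
  have h6b : 0 ≤ ε * M * T := by positivity
  have h6c : 0 ≤ ε * M * T ^ 2 := by positivity
  have h7 : 0 ≤ ε * M * (2 / N) := by positivity
  have key : ((1 - ε) * T2 + (m1 * C + m2 * B) * (-Q - B)) / N - Z / (4 * (1 - ε))
      = (T2 + (m1 * C + m2 * B) * (-Q - B)) / N - Z / 4
        - ε * (T2 / N) - (1 / (4 * (1 - ε)) - 1 / 4) * Z := by ring
  rw [key] at hT
  linarith

/-- A coercive minorant controls the integrand. -/
lemma exists_pointwise (hn : 2 ≤ n) {Φ : TPar} {p q τb K e : ℝ} (hp : 0 ≤ p) (hq : 0 ≤ q)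
    (he : 0 < e) (hK : Φ.Bounded τb K) (hc : Φ.Coercive p q n τb e) :
    ∃ e' : ℝ, 0 < e' ∧ ∀ τ ≤ τb, ∀ G : Fin n → Fin n → ℝ, (∀ i j, G i j = G j i) →
      ∀ (X Y : Fin n → ℝ) (Q : ℝ), 0 ≤ Q → (∑ i, G i i = -Q - dot Y Y) →
        e' * Mfun G X Y (Real.exp τ * Q) Q ≤ JT Φ p q τ G X Y Q := by
  obtain ⟨m, hm0, hm⟩ : ∃ m : ℝ, 0 ≤ m ∧ ∀ τ ≤ τb,
      |(Φ.froz p q τ).m1| ≤ m ∧ |(Φ.froz p q τ).m2| ≤ m := by
    refine ⟨|Φ.s| * (q + 1) + (p + q + 2) * |K| + 2 * |K| + 2, by positivity, fun τ hτ => ?_⟩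
    obtain ⟨-, h1, h2, h3, -, -⟩ := hK τ hτ
    have k1 := h1.trans (le_abs_self K)
    have k2 := h2.trans (le_abs_self K)
    have k3 := h3.trans (le_abs_self K)
    rw [abs_le] at k1 k2 k3
    have s1 : |Φ.s * q| = |Φ.s| * q := by rw [abs_mul, abs_of_nonneg hq]
    have s2 := abs_le.1 (le_refl |Φ.s|)
    have s3 := abs_le.1 s1.le
    have l1 := mul_le_mul_of_nonneg_left k1.1 (by linarith : 0 ≤ q + 1)
    have l2 := mul_le_mul_of_nonneg_left k1.2 (by linarith : 0 ≤ q + 1)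
    have l3 := mul_le_mul_of_nonneg_left k1.1 (by linarith : 0 ≤ p + 1)
    have l4 := mul_le_mul_of_nonneg_left k1.2 (by linarith : 0 ≤ p + 1)
    have z1 : 0 ≤ (p + 1) * |K| := by positivity
    have z2 : 0 ≤ (q + 1) * |K| := by positivity
    have z3 : 0 ≤ |Φ.s| * q := by positivity
    simp only [TPar.froz, Par.m1, Par.m2, abs_le]
    refine ⟨⟨?_, ?_⟩, ?_, ?_⟩ <;> linarith [abs_nonneg Φ.s]
  set C1 := 2 / (n : ℝ) + 4 * m ^ 2 + 1 with hC1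
  have hn0 : (0 : ℝ) < n := by exact_mod_cast (by omega : 0 < n)
  have hC1p : 0 < C1 := by positivity
  set T := Real.exp τb with hT
  set e' := min (1 / 2) (e / (2 * C1 + 2 * (T + T ^ 2 + 1) + 2)) with he'
  have hT0 : 0 < T := Real.exp_pos _
  have he'0 : 0 < e' := lt_min (by norm_num) (by positivity)
  refine ⟨e', he'0, fun τ hτ G hG X Y Q hQ htr => ?_⟩
  have he1 : e' ≤ 1 / 2 := min_le_left _ _
  have he2 : e' * (2 * C1 + 2 * (T + T ^ 2 + 1) + 2) ≤ e := by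
    have := min_le_right (1 / 2) (e / (2 * C1 + 2 * (T + T ^ 2 + 1) + 2))
    rwa [le_div_iff₀ (by positivity)] at this
  obtain ⟨hm1, hm2⟩ := hm τ hτ
  have ht : Real.exp τ ≤ T := Real.exp_le_exp.2 hτ
  have ht0 := Real.exp_pos τ
  set t := Real.exp τ with htdef
  rw [JT_eq, add_assoc (P100.sq G)]
  set m1 := (Φ.froz p q τ).m1
  set m2 := (Φ.froz p q τ).m2
  have hA := dot_self_nonneg X
  have hB := dot_self_nonneg Y
  have hC := dot_sq_le X Y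
  have hF := hc τ hτ (dot X X) (dot X Y) (dot Y Y) Q hA hB hC hQ
  have hT' := trace_lower (by omega) G hG X Y m1 m2 (1 - e') (by linarith)
  rw [htr] at hT'
  have hS := P100.sq_nonneg' G
  have hT2 := hT'.trans_eq (add_assoc _ _ _)
  exact perturb hn0 he'0 he1 he2 hm1 hm2 ht0.le ht hA hB hC hQ hF hT2

end

end Vale.Agent.P100T
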