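import Vale.Agent.P100T.Five.Main
import Vale.Agent.P100T.Sublinear

/-!
Every dimension `n ≥ 5`: certificates for all critical triples with `N > 6` reduce the whole
subcritical range to dimension five, the diagonal and the range `pq ≤ 1`.
-/

noncomputable section

namespace Vale.Agent.P100T

open Vale.Agent.P100

/-- Certificates for every critical triple with `6 < N` give the whole range in every `n ≥ 5`. -/
theorem no_solution_all_of_certificates
    (hcert : ∀ N p q : ℝ, 6 < N → 0 < q → q < p → 1 < p * q →
      N * ((p + 1) * (q + 1) - (p + 1) - (q + 1)) = 2 * (p + 1) * (q + 1) →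
      (1 < q ∨ N - 1 ≤ (p + 1) * (q * (N - 3) - 2)) → HasCertificate N p q)
    {n : ℕ} (hn : 5 ≤ n) {p q : ℝ} (hp : 0 < p) (hq : 0 < q)
    (hsub : ((n : ℝ) - 2) / n < 1 / (p + 1) + 1 / (q + 1)) :
    ¬ ∃ u v : Euc n → ℝ, IsPositiveEntireSolution p q u v := by
  rcases hn.eq_or_lt with rfl | h6
  · exact Five.no_solution_five_full hp hq (by norm_num at hsub ⊢; exact hsub)
  have h6' : (6 : ℝ) ≤ n := by exact_mod_cast h6
  refine no_solution_of_certificates hn (fun N p q hN => hcert N p q (h6'.trans_lt hN))
    (fun p hp h => no_solution_diag hn hp h)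
    (fun p q hp hq h => no_solution_sublinear (by omega) hp hq h) hp hq ?_
  rw [div_lt_iff₀ (by linarith)] at hsub
  linarith [show (1 / (p + 1) + 1 / (q + 1)) * (n : ℝ) = n / (p + 1) + n / (q + 1) by ring]

end Vale.Agent.P100T
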