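import Mathlib

/-!
Calibration of the certificate of the Lane-Emden system at one point `(σ, R, t)`: coefficients,
their derivatives along the critical orbit, and the exact decomposition of the quadratic bound.
-/

noncomputable section

namespace Vale.Agent.P100T

/-- Coefficients of a certificate at one point, with the derivatives in `τ = log t`. -/
structure Coef where
  a : ℝ
  b : ℝ
  c : ℝ
  d : ℝ
  kX : ℝ
  kY : ℝ
  c' : ℝ
  d' : ℝ
  kX' : ℝ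
  kY' : ℝ

namespace Coef

variable (C : Coef) (p q r t : ℝ)

def m1 : ℝ := C.a + 2 * C.c
def m2 : ℝ := C.b - 2 + 2 * C.d
def e2 : ℝ := C.c * (C.a - 1) - (q + 1) * C.c' - C.m1 ^ 2 * (1 - r) / 4
def e1 : ℝ := C.c * C.b + (p + 1) * C.c' + C.a * C.d - (q + 1) * C.d' - C.m1 * r
  - C.m1 * C.m2 * (1 - r) / 2
def e0 : ℝ := C.d * (C.b - 1) + (p + 1) * C.d' + r - C.m2 * r - C.m2 ^ 2 * (1 - r) / 4
def rho : ℝ := C.kX * (C.a - 1 + q) - (q + 1) * C.kX'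
def mm : ℝ := C.kX * (C.b - 1) + (p + 1) * C.kX' + C.kY * (C.a + q) - (q + 1) * C.kY'
  - C.m1 * r - q
def nu : ℝ := -C.c * t + C.kY * (C.b - 2) + (p + 1) * C.kY' + 1 + 2 * r - C.m2 * r - C.d
def zeta : ℝ := -C.kX * t - C.kY + r
def alpha : ℝ := C.c * (C.a - 1) - (q + 1) * C.c' - C.m1 ^ 2 / 8

end Coef

/-- A point of the orbit, with the exponents, the dimension of criticality, the free constant
`M` and the free function `c` with its derivative. -/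
structure Pt where
  N : ℝ
  p : ℝ
  q : ℝ
  σ : ℝ
  R : ℝ
  t : ℝ
  M : ℝ
  c : ℝ
  c' : ℝ

namespace Pt

variable (P : Pt)

def L : ℝ := (P.p + 1) - (P.q + 1) * P.σ
def K : ℝ := (P.p + 1) + (P.q + 1) * P.σ
def mu : ℝ := (P.N - 1) * (P.p + 1) * (P.q + 1) / (P.N * P.K)
/-- `T₁ = t/(p+1) + 1/(q+1)`. -/
def T1 : ℝ := ((P.q + 1) * P.t + (P.p + 1)) / ((P.p + 1) * (P.q + 1))
/-- `1/η` by the Pohozaev identity. -/
def e : ℝ := ((P.p + 1) * (P.q + 1) * P.σ + P.R * ((P.q + 1) * P.t + (P.p + 1))) / (P.N * P.K)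
def E1 : ℝ := (2 - P.N) * P.e + 1 + P.R
def Kp : ℝ := 2 * P.E1 - 2 * P.e + P.q * P.σ - 1
def V : ℝ := P.R * (P.σ - P.t)
def W : ℝ := P.V - P.σ * (P.σ - 1)
/-- `β e - 1`. -/
def be1 : ℝ := P.N / (P.p + 1) * P.e - 1
def dσ : ℝ := P.W / P.L
def dR : ℝ := P.R * P.Kp / P.L
def de : ℝ := ((P.p + 1) * (P.q + 1) * P.dσ + P.dR * ((P.q + 1) * P.t + (P.p + 1))
  + P.R * (P.q + 1) * P.t - P.N * P.e * (P.q + 1) * P.dσ) / (P.N * P.K)
def dmu : ℝ := -(P.mu * (P.q + 1) * P.dσ / P.K)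
def H : ℝ := -2 * (P.N * P.e - 1 - P.R) + 2 * P.mu * P.σ
def k : ℝ := P.mu * P.be1 - P.c
def dk : ℝ := P.dmu * P.be1 + P.mu * (P.N / (P.p + 1) * P.de) - P.c'
def a : ℝ := ((P.p + 1) * P.M - P.H) * (P.q + 1) / P.L
def b : ℝ := P.H - P.a * P.σ
def d : ℝ := 1 - (P.mu + P.c) * P.σ
def dd : ℝ := -((P.dmu + P.c') * P.σ + (P.mu + P.c) * P.dσ)
def kX : ℝ := P.k / P.R
def dkX : ℝ := P.dk / P.R - P.k * P.dR / P.R ^ 2
def kY : ℝ := 1 - P.mu * P.T1 - P.σ * P.kX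
def dkY : ℝ := -(P.dmu * P.T1 + P.mu * P.t / (P.p + 1) + P.dσ * P.kX + P.σ * P.dkX)

/-- The calibrated coefficients. -/
def coef : Coef :=
  { a := P.a, b := P.b, c := P.c, d := P.d, kX := P.kX, kY := P.kY
    c' := P.c', d' := P.dd, kX' := P.dkX, kY' := P.dkY }

def ce : ℝ := -(P.mu * (-P.be1 + P.R / (P.p + 1)))
/-- The value at `x = σ`, `Q = R B`. -/
def P0 : ℝ := P.V * (P.ce - P.c)
/-- The mixed coefficient. -/
def P0' : ℝ := -(P.mu / (P.p + 1) * P.V * (P.a + 2 * P.c))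
  + P.W * (P.q + 1) / (P.L * P.K) * (P.c * (3 * (P.p + 1) - (P.q + 1) * P.σ) + P.mu * (P.p + 1))
  + P.L * P.c'
/-- The curvature at `x = σ`. -/
def P2 : ℝ := P.c * (P.a - 1) - (P.q + 1) * P.c' - (P.N - 1) / (4 * P.N) * (P.a + 2 * P.c) ^ 2
/-- `R` times the coefficient `rho`. -/
def rhoR : ℝ := P.k * (P.a - 1 + P.q) + (P.q + 1) / P.L * (P.Kp * P.k
    + P.mu * P.be1 * P.W * (P.q + 1) / P.K - P.mu * (P.be1 + 1) * P.E1) + (P.q + 1) * P.c'

/-- Side conditions at a point. -/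
structure Good : Prop where
  hN : P.N ≠ 0
  hp : P.p + 1 ≠ 0
  hq : P.q + 1 ≠ 0
  hK : P.K ≠ 0
  hL : P.L ≠ 0
  hR : P.R ≠ 0
  crit : P.N * ((P.p + 1) * (P.q + 1) - (P.p + 1) - (P.q + 1)) = 2 * (P.p + 1) * (P.q + 1)

variable {P}

lemma coef_e2 (h : P.Good) : P.coef.e2 P.q (1 / P.N) = P.P2 := by
  have := h.hN
  simp only [Coef.e2, Coef.m1, coef, P2]
  field_simp

lemma t_eq (h : P.Good) : P.t = P.σ - P.V / P.R := by
  have := h.hR
  simp only [V]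
  field_simp
  ring

lemma V_eq (h : P.Good) :
    P.V = P.σ * (P.p + 1) + P.K * (P.R - P.N * P.e) / (P.q + 1) := by
  obtain ⟨hN, hp, hq, hK, hL, hR, hc⟩ := h
  simp only [V, e]
  field_simp
  simp only [K]
  ring

lemma T1_eq (h : P.Good) :
    P.T1 = P.K / ((P.p + 1) * (P.q + 1)) - P.V / (P.R * (P.p + 1)) := by
  obtain ⟨hN, hp, hq, hK, hL, hR, hc⟩ := h
  simp only [T1, V]
  field_simp
  simp only [K]
  ring

/-- Along the orbit `d e / d τ = e E₁ / L`. -/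
lemma de_eq (h : P.Good) : P.de = P.e * P.E1 / P.L := by
  have hV := V_eq h
  have ht := t_eq h
  obtain ⟨hN, hp, hq, hK, hL, hR, hc⟩ := h
  simp only [de, dσ, dR, W, Kp, E1]
  simp only [ht, hV]
  generalize P.e = w
  obtain ⟨N, p, q, σ, R, t, M, c, c'⟩ := P
  simp only [K, L] at *
  field_simp
  linear_combination (σ * w) * hc

lemma coef_rho (h : P.Good) : P.coef.rho P.q = P.rhoR / P.R := by
  have hV := V_eq h
  have hT := T1_eq h
  have ht := t_eq h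
  have hde := de_eq h
  obtain ⟨hN, hp, hq, hK, hL, hR, hc⟩ := h
  simp only [Coef.e1, Coef.e0, Coef.rho, Coef.mm, Coef.nu, Coef.zeta, Coef.m1, Coef.m2, coef,
    P0, P0', P2, rhoR, ce, kY, dkY, dkX, kX, dk, k, dd, d, b, a, H, dmu, dσ, dR, W, Kp, be1, mu]
  simp only [hde, hT, E1, ht, hV]
  generalize P.e = w
  obtain ⟨N, p, q, σ, R, t, M, c, c'⟩ := P
  simp only [K, L] at *
  field_simp
  linear_combination 0 * hc

lemma coef_e1 (h : P.Good) : P.coef.e1 P.p P.q (1 / P.N) = -2 * P.σ * P.P2 + P.P0' := by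
  have hV := V_eq h
  have hT := T1_eq h
  have ht := t_eq h
  have hde := de_eq h
  obtain ⟨hN, hp, hq, hK, hL, hR, hc⟩ := h
  simp only [Coef.e1, Coef.e0, Coef.rho, Coef.mm, Coef.nu, Coef.zeta, Coef.m1, Coef.m2, coef,
    P0, P0', P2, rhoR, ce, kY, dkY, dkX, kX, dk, k, dd, d, b, a, H, dmu, dσ, dR, W, Kp, be1, mu]
  simp only [hde, hT, E1, ht, hV]
  generalize P.e = w
  obtain ⟨N, p, q, σ, R, t, M, c, c'⟩ := P
  simp only [K, L] at *
  rw [← sub_eq_zero]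
  refine Eq.trans ?_ (show ((2) * σ * c) / (N * (p + 1 + (q + 1) * σ)) *
      (N * ((p + 1) * (q + 1) - (p + 1) - (q + 1)) - 2 * (p + 1) * (q + 1)) = 0 by
    rw [sub_eq_zero.2 hc, mul_zero])
  field_simp
  ring

lemma coef_e0 (h : P.Good) : P.coef.e0 P.p (1 / P.N) = P.σ ^ 2 * P.P2 - P.σ * P.P0' + P.P0 := by
  have hV := V_eq h
  have hT := T1_eq h
  have ht := t_eq h
  have hde := de_eq h
  obtain ⟨hN, hp, hq, hK, hL, hR, hc⟩ := h
  simp only [Coef.e1, Coef.e0, Coef.rho, Coef.mm, Coef.nu, Coef.zeta, Coef.m1, Coef.m2, coef,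
    P0, P0', P2, rhoR, ce, kY, dkY, dkX, kX, dk, k, dd, d, b, a, H, dmu, dσ, dR, W, Kp, be1, mu]
  simp only [hde, hT, E1, ht, hV]
  generalize P.e = w
  obtain ⟨N, p, q, σ, R, t, M, c, c'⟩ := P
  simp only [K, L] at *
  rw [← sub_eq_zero]
  refine Eq.trans ?_ (show ((1) * σ ^ 2 + (1) * q * σ ^ 2 + (1) * p * σ ^ 2 + (1) * p * q * σ ^ 2 + (-1) * N * σ ^ 2 + (-2) * N * σ ^ 2 * c + (-2) * N * σ ^ 3 * c + (-1) * N * q * σ ^ 2 + (-2) * N * q * σ ^ 3 * c + (-1) * N * p * σ ^ 2 + (-2) * N * p * σ ^ 2 * c + (-1) * N * p * q * σ ^ 2) / (N ^ 2 * (p + 1 + (q + 1) * σ) ^ 2) *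
      (N * ((p + 1) * (q + 1) - (p + 1) - (q + 1)) - 2 * (p + 1) * (q + 1)) = 0 by
    rw [sub_eq_zero.2 hc, mul_zero])
  field_simp
  ring

lemma coef_mm (h : P.Good) : P.coef.mm P.p P.q (1 / P.N) = -(P.P0' / P.R) - 2 * P.σ * (P.rhoR / P.R) := by
  have hV := V_eq h
  have hT := T1_eq h
  have ht := t_eq h
  have hde := de_eq h
  obtain ⟨hN, hp, hq, hK, hL, hR, hc⟩ := h
  simp only [Coef.e1, Coef.e0, Coef.rho, Coef.mm, Coef.nu, Coef.zeta, Coef.m1, Coef.m2, coef,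
    P0, P0', P2, rhoR, ce, kY, dkY, dkX, kX, dk, k, dd, d, b, a, H, dmu, dσ, dR, W, Kp, be1, mu]
  simp only [hde, hT, E1, ht, hV]
  generalize P.e = w
  obtain ⟨N, p, q, σ, R, t, M, c, c'⟩ := P
  simp only [K, L] at *
  rw [← sub_eq_zero]
  refine Eq.trans ?_ (show ((1) * σ + (1) * q * σ + (1) * p * σ + (1) * p * q * σ + (1) * N * w + (-1) * N * σ + (-2) * N * σ * c + (-2) * N * σ ^ 2 * c + (-1) * N * q * σ + (-2) * N * q * σ ^ 2 * c + (1) * N * p * w + (-1) * N * p * σ + (-2) * N * p * σ * c + (-1) * N * p * q * σ + (-1) * N ^ 2 * w + (-1) * N ^ 2 * p * w) / (N ^ 2 * (p + 1 + (q + 1) * σ) ^ 2 * R) *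
      (N * ((p + 1) * (q + 1) - (p + 1) - (q + 1)) - 2 * (p + 1) * (q + 1)) = 0 by
    rw [sub_eq_zero.2 hc, mul_zero])
  field_simp
  ring

lemma coef_line (h : P.Good) :
    P.coef.rho P.q * P.σ ^ 2 + P.coef.mm P.p P.q (1 / P.N) * P.σ
      + P.coef.nu P.p (1 / P.N) P.t = -(2 * P.P0 / P.R) := by
  have h1 : P.coef.rho P.q * P.σ ^ 2 + P.coef.mm P.p P.q (1 / P.N) * P.σ
      + P.coef.nu P.p (1 / P.N) P.t = P.kX * P.σ * (P.H - P.σ + P.q * P.σ - 1)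
        + P.kY * (P.H + P.q * P.σ - 2) - P.L * (P.dmu * P.T1 + P.mu * P.t / (P.p + 1))
        - P.L * P.dσ * P.kX - (P.H - 2 * P.mu * P.σ) / P.N - P.q * P.σ - P.c * P.t + 1
        + 2 / P.N - (1 - P.mu * P.σ - P.c * P.σ) := by
    simp only [Coef.rho, Coef.mm, Coef.nu, Coef.m1, Coef.m2, coef, b, d, dkY, L]
    ring
  rw [h1]
  have hV := V_eq h
  have hT := T1_eq h
  have ht := t_eq h
  obtain ⟨hN, hp, hq, hK, hL, hR, hc⟩ := h
  simp only [P0, ce, kY, kX, k, H, dmu, dσ, W, be1, mu]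
  simp only [hT, ht, hV]
  generalize P.e = w
  obtain ⟨N, p, q, σ, R, t, M, c, c'⟩ := P
  simp only [K, L] at *
  rw [← sub_eq_zero]
  refine Eq.trans ?_ (show (-σ ^ 2 - q * σ ^ 2 - p * σ ^ 2 - p * q * σ ^ 2 + N * σ * w + N * σ ^ 2
      + N * σ ^ 2 * w + N * q * σ ^ 2 + N * q * σ ^ 2 * w + N * p * σ * w + N * p * σ ^ 2
      + N * p * q * σ ^ 2 - N ^ 2 * σ * w - N ^ 2 * σ ^ 2 * w - N ^ 2 * q * σ ^ 2 * w
      - N ^ 2 * p * σ * w) / (N ^ 2 * (p + 1 + (q + 1) * σ) ^ 2 * R) *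
      (N * ((p + 1) * (q + 1) - (p + 1) - (q + 1)) - 2 * (p + 1) * (q + 1)) = 0 by
    rw [sub_eq_zero.2 hc, mul_zero])
  field_simp
  ring

lemma coef_zeta (h : P.Good) : P.coef.zeta (1 / P.N) P.t = P.P0 / P.R ^ 2 := by
  have hV := V_eq h
  have hT := T1_eq h
  have ht := t_eq h
  have hde := de_eq h
  obtain ⟨hN, hp, hq, hK, hL, hR, hc⟩ := h
  simp only [Coef.e1, Coef.e0, Coef.rho, Coef.mm, Coef.nu, Coef.zeta, Coef.m1, Coef.m2, coef,
    P0, P0', P2, rhoR, ce, kY, dkY, dkX, kX, dk, k, dd, d, b, a, H, dmu, dσ, dR, W, Kp, be1, mu]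
  simp only [hde, hT, E1, ht, hV]
  generalize P.e = w
  obtain ⟨N, p, q, σ, R, t, M, c, c'⟩ := P
  simp only [K, L] at *
  field_simp
  linear_combination 0 * hc

lemma m_line (P : Pt) : P.coef.m1 * P.σ + P.coef.m2 = -2 * (P.N * P.e - 1 - P.R) := by
  simp only [Coef.m1, Coef.m2, coef, b, d, H]
  ring

/-- The quadratic bound, written in `A = |X|²`, `C = X·Y`, `B = |Y|²` and `Q`. -/
def scal (P : Pt) (r A C B Q : ℝ) : ℝ :=
  P.coef.e2 P.q r * C ^ 2 + P.coef.e1 P.p P.q r * C * B + P.coef.e0 P.p r * B ^ 2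
    + Q * (P.coef.mm P.p P.q r * C + P.coef.nu P.p r P.t * B + P.coef.rho P.q * A)
    + P.coef.zeta r P.t * Q ^ 2 + P.coef.alpha P.q * (A * B - C ^ 2)

/-- The exact decomposition of the calibrated bound. -/
theorem scal_eq (h : P.Good) (r A C B Q : ℝ) :
    P.scal r A C B Q = P.P2 * (C - P.σ * B) ^ 2 + P.P0' * (C - P.σ * B) * (B - Q / P.R)
      + P.P0 * (B - Q / P.R) ^ 2 + P.rhoR / P.R * (Q * (A - 2 * P.σ * C + P.σ ^ 2 * B))
      + P.coef.alpha P.q * (A * B - C ^ 2)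
      + (r - 1 / P.N) * (B + Q - (P.coef.m1 * C + P.coef.m2 * B) / 2) ^ 2 := by
  have hnu : P.coef.nu P.p (1 / P.N) P.t = -(2 * P.P0 / P.R) - P.coef.rho P.q * P.σ ^ 2
      - P.coef.mm P.p P.q (1 / P.N) * P.σ := by linarith [coef_line h]
  have hs : P.scal r A C B Q = P.scal (1 / P.N) A C B Q
      + (r - 1 / P.N) * (B + Q - (P.coef.m1 * C + P.coef.m2 * B) / 2) ^ 2 := by
    simp only [scal, Coef.e2, Coef.e1, Coef.e0, Coef.mm, Coef.nu, Coef.zeta]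
    ring
  rw [hs]
  congr 1
  simp only [scal]
  rw [coef_e2 h, coef_e1 h, coef_e0 h, hnu, coef_mm h, coef_rho h, coef_zeta h]
  ring

/-- The alpha coefficient dominates the curvature. -/
lemma P2_le_alpha (hN : 2 ≤ P.N) : P.P2 ≤ P.coef.alpha P.q := by
  have h1 : (P.N - 1) / (4 * P.N) - 1 / 8 = (P.N - 2) / (8 * P.N) := by
    field_simp
    ring
  have h2 : 0 ≤ (P.N - 2) / (8 * P.N) := div_nonneg (by linarith) (by linarith)
  have h3 : P.coef.alpha P.q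
      = P.P2 + ((P.N - 1) / (4 * P.N) - 1 / 8) * (P.a + 2 * P.c) ^ 2 := by
    simp only [Coef.alpha, Coef.m1, coef, P2]
    ring
  rw [h3, h1]
  linarith [mul_nonneg h2 (sq_nonneg (P.a + 2 * P.c))]

/-- Nonnegativity of the bound from the four inequalities, with the gain in a dimension
`1 / r` below the critical one. -/
theorem scal_ge (h : P.Good) (hN : 2 ≤ P.N) (hR : 0 < P.R) (h2 : 0 ≤ P.P2) (h0 : 0 ≤ P.P0)
    (hd : P.P0' ^ 2 ≤ 4 * P.P2 * P.P0) (hrho : 0 ≤ P.rhoR) {r A C B Q : ℝ} (hA : 0 ≤ A)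
    (hB : 0 ≤ B) (hC : C ^ 2 ≤ A * B) (hQ : 0 ≤ Q) :
    (r - 1 / P.N) * (B + Q - (P.coef.m1 * C + P.coef.m2 * B) / 2) ^ 2 ≤ P.scal r A C B Q := by
  rw [scal_eq h]
  have t1 : 0 ≤ A - 2 * P.σ * C + P.σ ^ 2 * B := by
    rcases hB.eq_or_lt with rfl | hB'
    · have : C = 0 := by nlinarith [sq_nonneg C]
      subst this
      simpa using hA
    · have : 0 ≤ B * (A - 2 * P.σ * C + P.σ ^ 2 * B) := by
        nlinarith [sq_nonneg (C - P.σ * B)]
      exact (mul_nonneg_iff_of_pos_left hB').1 this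
  have t2 : 0 ≤ P.rhoR / P.R * (Q * (A - 2 * P.σ * C + P.σ ^ 2 * B)) :=
    mul_nonneg (div_nonneg hrho hR.le) (mul_nonneg hQ t1)
  have t3 : 0 ≤ P.coef.alpha P.q * (A * B - C ^ 2) :=
    mul_nonneg (h2.trans (P2_le_alpha hN)) (sub_nonneg.2 hC)
  set u := C - P.σ * B
  set v := B - Q / P.R
  have t4 : 0 ≤ P.P2 * u ^ 2 + P.P0' * u * v + P.P0 * v ^ 2 := by
    rcases h2.eq_or_lt with h2' | h2'
    · have : P.P0' = 0 := by
        have : P.P0' ^ 2 ≤ 0 := by rw [← h2'] at hd; linarith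
        simpa using le_antisymm this (sq_nonneg _)
      rw [← h2', this]
      simpa using mul_nonneg h0 (sq_nonneg v)
    · have : 0 ≤ 4 * P.P2 * (P.P2 * u ^ 2 + P.P0' * u * v + P.P0 * v ^ 2) := by
        nlinarith [sq_nonneg (2 * P.P2 * u + P.P0' * v), mul_nonneg (sub_nonneg.2 hd) (sq_nonneg v)]
      exact (mul_nonneg_iff_of_pos_left (by linarith)).1 this
  linarith

/-- The gain does not degenerate on the zero set of the calibrated form. -/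
lemma gain_at_zero (P : Pt) (B : ℝ) :
    B + P.R * B - (P.coef.m1 * (P.σ * B) + P.coef.m2 * B) / 2 = P.N * P.e * B := by
  linear_combination (-(B / 2)) * m_line P

end Pt

end Vale.Agent.P100T
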