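import Vale.Agent.P100T.Algebra

/-!
From a calibration in real dimension `N` to coercivity in a dimension `n < N`.

At a point of the calibration curve with slope `σ` the minorant in dimension `N` vanishes only on
the ray `C = σ B`, `(B, Q) ∝ (cQ, cB)`, and there the extra square of dimension `n` is positive.
The weights may have either sign, so that the orbit may pass through `cQ = 0`.
-/

noncomputable section

namespace Vale.Agent.P100T

/-- The nonnegative quantities that a strict calibration controls. -/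
def gapM (σ cB cQ A C B Q : ℝ) : ℝ :=
  (C - σ * B) ^ 2 + (cB * B - cQ * Q) ^ 2 + (A * B - C ^ 2)
    + Q * (A - 2 * σ * C + σ ^ 2 * B)

lemma cross_nonneg {σ A C B : ℝ} (hA : 0 ≤ A) (hB : 0 ≤ B) (hC : C ^ 2 ≤ A * B) :
    0 ≤ A - 2 * σ * C + σ ^ 2 * B := by
  have h : (2 * σ * C) ^ 2 ≤ (A + σ ^ 2 * B) ^ 2 := by
    have h1 := mul_le_mul_of_nonneg_left hC (sq_nonneg σ)
    nlinarith [sq_nonneg (A - σ ^ 2 * B)]
  have := abs_le_of_sq_le_sq h (by positivity)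
  linarith [le_abs_self (2 * σ * C)]

/-- The quantity `scalM` is controlled by the gap and the square added by a smaller dimension. -/
lemma scalM_le_gap {a K σ cB cQ l m A C B Q : ℝ} (ha : 0 < a) (hσ : |σ| ≤ K) (hl : |l| ≤ K)
    (hm : |m| ≤ K) (h0 : |cB| ≤ K) (h1 : |cQ| ≤ K) (hdet : a ≤ cB + cQ * l)
    (hA : 0 ≤ A) (hB : 0 ≤ B) (hC : C ^ 2 ≤ A * B) (hQ : 0 ≤ Q) :
    TPar.scalM A B Q ≤ (1 + 2 * (1 + K)) *
      (1 + (2 * (1 + K) * K ^ 2 + K + 2) * (4 * (1 + K ^ 2) / a ^ 2)) *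
      ((2 + K ^ 2) * (gapM σ cB cQ A C B Q + (Q + l * B - m * (C - σ * B) / 2) ^ 2)) := by
  have hK : 0 ≤ K := (abs_nonneg σ).trans hσ
  set u := C - σ * B with hu
  set w := cB * B - cQ * Q with hw
  set L := Q + l * B with hL
  set H := A - 2 * σ * C + σ ^ 2 * B with hH
  set T := Q + l * B - m * u / 2 with hT
  set det := cB + cQ * l with hdd
  have hH0 : 0 ≤ H := cross_nonneg hA hB hC
  have hQH : 0 ≤ Q * H := mul_nonneg hQ hH0
  have hp : 0 ≤ A * B - C ^ 2 := sub_nonneg.2 hC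
  have hσ2 : σ ^ 2 ≤ K ^ 2 := sq_le_sq' (abs_le.1 hσ).1 (abs_le.1 hσ).2
  have hl2 : l ^ 2 ≤ K ^ 2 := sq_le_sq' (abs_le.1 hl).1 (abs_le.1 hl).2
  have hm2 : m ^ 2 ≤ K ^ 2 := sq_le_sq' (abs_le.1 hm).1 (abs_le.1 hm).2
  have hL2 : L ^ 2 ≤ 2 * T ^ 2 + K ^ 2 / 2 * u ^ 2 := by
    have e : L = T + m * u / 2 := by ring
    rw [e]
    have := mul_le_mul_of_nonneg_right hm2 (sq_nonneg u)
    linarith [two_mul_le_add_sq T (m * u / 2)]
  have hda : a ^ 2 ≤ det ^ 2 := pow_le_pow_left₀ ha.le hdet 2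
  have hBQ : a ^ 2 * (B ^ 2 + Q ^ 2) ≤ 4 * (1 + K ^ 2) * (w ^ 2 + L ^ 2) := by
    have eB : det * B = w + cQ * L := by simp only [hdd, hw, hL]; ring
    have eQ : det * Q = cB * L - l * w := by simp only [hdd, hw, hL]; ring
    have s1 : (cQ * L) ^ 2 ≤ K ^ 2 * L ^ 2 := by
      have := mul_le_mul_of_nonneg_right (sq_le_sq' (abs_le.1 h1).1 (abs_le.1 h1).2) (sq_nonneg L)
      linarith
    have s2 : (cB * L) ^ 2 ≤ K ^ 2 * L ^ 2 := by
      have := mul_le_mul_of_nonneg_right (sq_le_sq' (abs_le.1 h0).1 (abs_le.1 h0).2) (sq_nonneg L)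
      linarith
    have s3 : (l * w) ^ 2 ≤ K ^ 2 * w ^ 2 := by
      have := mul_le_mul_of_nonneg_right hl2 (sq_nonneg w)
      linarith
    have b1 : (det * B) ^ 2 ≤ 2 * w ^ 2 + 2 * (K ^ 2 * L ^ 2) := by
      rw [eB]; linarith [two_mul_le_add_sq w (cQ * L)]
    have b2 : (det * Q) ^ 2 ≤ 2 * (K ^ 2 * L ^ 2) + 2 * (K ^ 2 * w ^ 2) := by
      rw [eQ]; linarith [two_mul_le_add_sq (cB * L) (-(l * w))]
    have := mul_le_mul_of_nonneg_right hda (by positivity : 0 ≤ B ^ 2 + Q ^ 2)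
    have : 0 ≤ K ^ 2 * L ^ 2 := by positivity
    have : 0 ≤ K ^ 2 * w ^ 2 := by positivity
    linarith [sq_nonneg w, sq_nonneg L]
  set S := u ^ 2 + w ^ 2 + L ^ 2 + (A * B - C ^ 2) + Q * H with hS
  have hBQ' : B ^ 2 + Q ^ 2 ≤ 4 * (1 + K ^ 2) / a ^ 2 * S := by
    rw [div_mul_eq_mul_div, le_div_iff₀ (by positivity)]
    have : 0 ≤ 4 * (1 + K ^ 2) * (u ^ 2 + (A * B - C ^ 2) + Q * H) := by positivity
    simp only [hS]; linarith
  have hC2 : C ^ 2 ≤ 2 * u ^ 2 + 2 * (K ^ 2 * B ^ 2) := by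
    have e : C = u + σ * B := by ring
    rw [e]
    have := mul_le_mul_of_nonneg_right hσ2 (sq_nonneg B)
    linarith [two_mul_le_add_sq u (σ * B)]
  have hQC : 2 * σ * (Q * C) ≤ K * (Q ^ 2 + C ^ 2) := by
    calc 2 * σ * (Q * C) ≤ |σ * (2 * Q * C)| := by
          rw [show 2 * σ * (Q * C) = σ * (2 * Q * C) by ring]; exact le_abs_self _
      _ = |σ| * |2 * Q * C| := abs_mul _ _
      _ ≤ K * (Q ^ 2 + C ^ 2) := by
          refine mul_le_mul hσ ?_ (abs_nonneg _) hK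
          rw [abs_le]; constructor <;>
            linarith [two_mul_le_add_sq Q C, two_mul_le_add_sq Q (-C)]
  have hM : TPar.scalM A B Q ≤ (1 + 2 * (1 + K)) * S
      + (2 * (1 + K) * K ^ 2 + K + 2) * (B ^ 2 + Q ^ 2) := by
    have e : Q * A = Q * H + 2 * σ * (Q * C) - σ ^ 2 * (Q * B) := by ring
    have : 0 ≤ σ ^ 2 * (Q * B) := by positivity
    have : 0 ≤ (1 + 2 * (1 + K)) * (w ^ 2 + L ^ 2) := by positivity
    have := mul_le_mul_of_nonneg_left hC2 (by linarith : 0 ≤ 1 + K)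
    have : 0 ≤ 2 * (1 + K) * ((A * B - C ^ 2) + Q * H) := by positivity
    have : 0 ≤ 2 * (1 + K) * K ^ 2 * Q ^ 2 := by positivity
    have : 0 ≤ K * B ^ 2 := by positivity
    simp only [TPar.scalM, hS]
    linarith [two_mul_le_add_sq B Q, sq_nonneg u, sq_nonneg B, sq_nonneg Q]
  have hS0 : 0 ≤ S := by
    simp only [hS]; positivity
  have hSle : S ≤ (2 + K ^ 2) * (gapM σ cB cQ A C B Q + T ^ 2) := by
    have : 0 ≤ (1 + K ^ 2) * (w ^ 2 + (A * B - C ^ 2) + Q * H) := by positivity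
    have : 0 ≤ K ^ 2 * T ^ 2 := by positivity
    have : 0 ≤ K ^ 2 * u ^ 2 := by positivity
    simp only [hS, gapM, ← hu, ← hw, ← hH]
    linarith [sq_nonneg u]
  set Z := (2 * (1 + K) * K ^ 2 + K + 2) * (4 * (1 + K ^ 2) / a ^ 2) with hZ
  have hZ0 : 0 ≤ Z := by positivity
  calc TPar.scalM A B Q ≤ (1 + 2 * (1 + K)) * S + Z * S := by
        have := mul_le_mul_of_nonneg_left hBQ'
          (by positivity : 0 ≤ 2 * (1 + K) * K ^ 2 + K + 2)
        simp only [hZ]; linarith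
    _ ≤ (1 + 2 * (1 + K)) * (1 + Z) * S := by
        have : 0 ≤ 2 * (1 + K) * (Z * S) := by positivity
        linarith
    _ ≤ _ := mul_le_mul_of_nonneg_left hSle (by positivity)

/-- At `τ` the multipliers are strictly calibrated in dimension `N`, with margin `a`. -/
def TPar.Calibrated (Φ : TPar) (p q N a K τ : ℝ) : Prop :=
  ∃ σ cB cQ : ℝ, |σ| ≤ K ∧ |cB| ≤ K ∧ |cQ| ≤ K ∧ |(Φ.froz p q τ).m1| ≤ K ∧
    |1 - ((Φ.froz p q τ).m1 * σ + (Φ.froz p q τ).m2) / 2| ≤ K ∧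
    a ≤ cB + cQ * (1 - ((Φ.froz p q τ).m1 * σ + (Φ.froz p q τ).m2) / 2) ∧
    ∀ A C B Q : ℝ, 0 ≤ A → 0 ≤ B → C ^ 2 ≤ A * B → 0 ≤ Q →
      a * gapM σ cB cQ A C B Q ≤ Φ.scalF p q τ N A C B Q

/-- A uniform calibration in dimension `N > n`, or direct uniform positivity, gives coercivity
in dimension `n`. -/
theorem coercive_of_calibrated {Φ : TPar} {p q N τb a K : ℝ} {n : ℕ} (hn : 0 < n)
    (hnN : (n : ℝ) < N) (ha : 0 < a) (hK : 0 ≤ K)
    (h : ∀ τ ≤ τb, Φ.Calibrated p q N a K τ ∨ ∀ A C B Q : ℝ, 0 ≤ A → 0 ≤ B → C ^ 2 ≤ A * B →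
      0 ≤ Q → a * TPar.scalM A B Q ≤ Φ.scalF p q τ n A C B Q) :
    ∃ e : ℝ, 0 < e ∧ Φ.Coercive p q n τb e := by
  have hn0 : (0 : ℝ) < n := by exact_mod_cast hn
  set δ := 1 / (n : ℝ) - 1 / N with hδ
  have hδ0 : 0 < δ := sub_pos.2 (one_div_lt_one_div_of_lt hn0 hnN)
  set M := (1 + 2 * (1 + K)) *
      (1 + (2 * (1 + K) * K ^ 2 + K + 2) * (4 * (1 + K ^ 2) / a ^ 2)) * (2 + K ^ 2) with hM
  have hM0 : 0 < M := by positivity
  set e := min a (min a δ / M)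
  have he : 0 < e := lt_min ha (div_pos (lt_min ha hδ0) hM0)
  refine ⟨e, he, fun τ hτ A C B Q hA hB hC hQ => ?_⟩
  have hM' := TPar.scalM_nonneg hA hB hQ
  rcases h τ hτ with ⟨σ, cB, cQ, hσ, h0, h1, hm1, hl, hdet, hgap⟩ | hd
  swap
  · exact (mul_le_mul_of_nonneg_right (min_le_left _ _) hM').trans (hd A C B Q hA hB hC hQ)
  have hb := scalM_le_gap ha hσ hl hm1 h0 h1 hdet hA hB hC hQ
  set m1 := (Φ.froz p q τ).m1
  set m2 := (Φ.froz p q τ).m2
  set T := Q + (1 - (m1 * σ + m2) / 2) * B - m1 * (C - σ * B) / 2 with hT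
  have hg : 0 ≤ gapM σ cB cQ A C B Q := by
    have := mul_nonneg hQ (cross_nonneg (σ := σ) hA hB hC)
    have : 0 ≤ A * B - C ^ 2 := sub_nonneg.2 hC
    simp only [gapM]; positivity
  rw [Φ.scalF_dim p q τ (hn0.trans hnN).ne' hn0.ne', ← hδ,
    show ((-Q - B) + (m1 * C + m2 * B) / 2) ^ 2 = T ^ 2 by simp only [hT]; ring]
  have h3 := hgap A C B Q hA hB hC hQ
  calc e * TPar.scalM A B Q ≤ min a δ / M * TPar.scalM A B Q :=
        mul_le_mul_of_nonneg_right (min_le_right _ _) hM'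
    _ ≤ min a δ / M * (M * (gapM σ cB cQ A C B Q + T ^ 2)) := by
        refine mul_le_mul_of_nonneg_left ?_ (div_pos (lt_min ha hδ0) hM0).le
        simp only [hM]; linarith
    _ = min a δ * gapM σ cB cQ A C B Q + min a δ * T ^ 2 := by
        field_simp
    _ ≤ a * gapM σ cB cQ A C B Q + δ * T ^ 2 :=
        add_le_add (mul_le_mul_of_nonneg_right (min_le_left _ _) hg)
          (mul_le_mul_of_nonneg_right (min_le_right _ _) (sq_nonneg _))
    _ ≤ _ := by linarith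

/-- A positive quadratic form in `(u, w)`. -/
lemma form2_lower {a K e2 c b u w : ℝ} (ha : 0 < a) (hK : a ≤ K) (he : e2 ≤ K) (hb : b ≤ K)
    (hea : a ≤ e2) (hd : c ^ 2 + a ≤ 4 * e2 * b) :
    a / (8 * K) * (u ^ 2 + w ^ 2) ≤ e2 * u ^ 2 + c * u * w + b * w ^ 2 := by
  have hK0 : 0 < K := ha.trans_le hK
  set g := a / (8 * K) with hg
  have hg0 : 0 < g := by positivity
  have hga : g * (8 * K) = a := by rw [hg]; field_simp
  have h1 : 0 < e2 - g := by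
    have h8 : g * (8 * a) ≤ g * (8 * K) := by gcongr
    by_contra hc
    rw [not_lt, sub_nonpos] at hc
    have h9 : e2 * (8 * K) ≤ g * (8 * K) := mul_le_mul_of_nonneg_right hc (by linarith)
    have h10 : 4 * e2 * b ≤ 4 * e2 * K := mul_le_mul_of_nonneg_left hb (by linarith)
    linarith [sq_nonneg c]
  have h2 : c ^ 2 ≤ 4 * (e2 - g) * (b - g) := by
    have := mul_le_mul_of_nonneg_left (add_le_add he hb) hg0.le
    linarith [sq_nonneg g]
  have h3 : 0 ≤ 4 * (e2 - g) * ((e2 - g) * u ^ 2 + c * u * w + (b - g) * w ^ 2) := by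
    have := mul_nonneg (sub_nonneg.2 h2) (sq_nonneg w)
    linarith [sq_nonneg (2 * (e2 - g) * u + c * w)]
  have h4 := nonneg_of_mul_nonneg_right h3 (by linarith : 0 < 4 * (e2 - g))
  linarith

/-- Strict inequalities (i)-(iv) give a calibration gap: `F` is the minorant written in the
calibrated variables `u = C - σ B` and `w = cB B - cQ Q`. -/
lemma gap_of_form {a K σ cB cQ e2 c b α ρ A C B Q F : ℝ} (ha : 0 < a) (hK : a ≤ K) (he : e2 ≤ K)
    (hb : b ≤ K) (hea : a ≤ e2) (hd : c ^ 2 + a ≤ 4 * e2 * b) (hα : a ≤ α) (hρ : a ≤ ρ)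
    (hA : 0 ≤ A) (hB : 0 ≤ B) (hC : C ^ 2 ≤ A * B) (hQ : 0 ≤ Q)
    (hF : F = α * (A * B - C ^ 2) + e2 * (C - σ * B) ^ 2
      + c * (C - σ * B) * (cB * B - cQ * Q) + b * (cB * B - cQ * Q) ^ 2
      + ρ * (Q * (A - 2 * σ * C + σ ^ 2 * B))) :
    min (a / (8 * K)) a * gapM σ cB cQ A C B Q ≤ F := by
  have h := form2_lower ha hK he hb hea hd (u := C - σ * B) (w := cB * B - cQ * Q)
  have hp : 0 ≤ A * B - C ^ 2 := sub_nonneg.2 hC
  have hH := mul_nonneg hQ (cross_nonneg (σ := σ) hA hB hC)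
  set g := min (a / (8 * K)) a
  have g1 : g ≤ a / (8 * K) := min_le_left _ _
  have g2 : g ≤ a := min_le_right _ _
  have s1 := mul_le_mul_of_nonneg_right g1
    (by positivity : 0 ≤ (C - σ * B) ^ 2 + (cB * B - cQ * Q) ^ 2)
  have s2 := mul_le_mul_of_nonneg_right (g2.trans hα) hp
  have s3 := mul_le_mul_of_nonneg_right (g2.trans hρ) hH
  simp only [gapM, hF]
  linarith

end Vale.Agent.P100T
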