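import Vale.Agent.P100T.Algebra
import Vale.Agent.P100T.Calib
import Vale.Agent.P100T.Criterion

/-!
A point of the calibration (`Calib`) read as multipliers (`TPar`), and the passage over a single
excluded value of `τ` (where `R` is infinite) by continuity.
-/

open Filter Topology

noncomputable section

namespace Vale.Agent.P100T

open Vale.Agent.P100

/-- The multipliers take at `τ` the values, and derivatives, of the calibrated point `P`. -/
structure Matches (Φ : TPar) (τ : ℝ) (P : Pt) : Prop where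
  ht : Real.exp τ = P.t
  ha : (Φ.froz P.p P.q τ).a = P.a
  hb : (Φ.froz P.p P.q τ).b = P.b
  hc : Φ.cc τ = P.c
  hd : Φ.dd τ = P.d
  hkX : Φ.kX τ = P.kX
  hkY : Φ.kY τ = P.kY
  hc' : Φ.cc' τ = P.c'
  hd' : Φ.dd' τ = P.dd
  hkX' : Φ.kX' τ = P.dkX
  hkY' : Φ.kY' τ = P.dkY

lemma Matches.scalF_eq {Φ : TPar} {τ : ℝ} {P : Pt} (h : Matches Φ τ P) (N A C B Q : ℝ) :
    Φ.scalF P.p P.q τ N A C B Q = P.scal (1 / N) A C B Q := by
  have hm : ∀ x : Par, x = ⟨x.a, x.b, x.c, x.d, x.k1, x.k2, x.k3, x.k4⟩ := fun x => rfl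
  simp only [TPar.scalF, TPar.rest, TPar.extra, Par.m1, Par.m2, h.ha, h.hb, h.ht, h.hkX, h.hkY,
    h.hd, h.hc, h.hc', h.hd', h.hkX', h.hkY']
  simp only [show (Φ.froz P.p P.q τ).c = P.c from h.hc, show (Φ.froz P.p P.q τ).d = P.d from h.hd]
  simp only [Pt.scal, Coef.e2, Coef.e1, Coef.e0, Coef.rho, Coef.mm, Coef.nu, Coef.zeta,
    Coef.alpha, Coef.m1, Coef.m2, Pt.coef]
  ring

/-- The strict inequalities at a calibrated point, with a free normalisation `s` of `B - Q/R`. -/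
theorem Matches.calibrated {Φ : TPar} {τ : ℝ} {P : Pt} (h : Matches Φ τ P) (hg : P.Good)
    {s a K : ℝ} (hs : s ≠ 0) (ha : 0 < a) (haK : a ≤ K) (hN : 2 ≤ P.N)
    (hσ : |P.σ| ≤ K) (hsK : |s| ≤ K) (hsR : |s / P.R| ≤ K) (hm : |P.a + 2 * P.c| ≤ K)
    (hl : |P.N * P.e - P.R| ≤ K) (hdet : a ≤ s * P.N * P.e / P.R)
    (h2 : a ≤ P.P2) (h2K : P.P2 ≤ K) (h0K : P.P0 / s ^ 2 ≤ K)
    (hd : (P.P0' / s) ^ 2 + a ≤ 4 * P.P2 * (P.P0 / s ^ 2)) (hrho : a ≤ P.rhoR / P.R) :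
    Φ.Calibrated P.p P.q P.N (min (a / (8 * K)) a) K τ := by
  have hR := hg.hR
  have hK : 0 < K := ha.trans_le haK
  have hm1 : (Φ.froz P.p P.q τ).m1 = P.a + 2 * P.c := by
    simp only [Par.m1, h.ha]; rw [show (Φ.froz P.p P.q τ).c = P.c from h.hc]
  have hm2 : (Φ.froz P.p P.q τ).m2 = P.b - 2 + 2 * P.d := by
    simp only [Par.m2, h.hb]; rw [show (Φ.froz P.p P.q τ).d = P.d from h.hd]
  have hl' : 1 - ((Φ.froz P.p P.q τ).m1 * P.σ + (Φ.froz P.p P.q τ).m2) / 2 = P.N * P.e - P.R := by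
    rw [hm1, hm2]
    have := Pt.m_line P
    simp only [Coef.m1, Coef.m2, Pt.coef] at this
    linarith
  refine ⟨P.σ, s, s / P.R, hσ, hsK, hsR, hm1 ▸ hm, hl' ▸ hl, ?_, fun A C B Q hA hB hC hQ => ?_⟩
  · rw [hl']
    refine (min_le_right _ _).trans (hdet.trans (le_of_eq ?_))
    field_simp
    ring
  · refine gap_of_form (e2 := P.P2) (c := P.P0' / s) (b := P.P0 / s ^ 2) (α := P.coef.alpha P.q)
      (ρ := P.rhoR / P.R) ha haK h2K h0K h2 hd (h2.trans (Pt.P2_le_alpha hN)) hrho hA hB hC hQ ?_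
    rw [h.scalF_eq, Pt.scal_eq hg, sub_self, zero_mul, add_zero]
    have e1 : s * B - s / P.R * Q = s * (B - Q / P.R) := by ring
    rw [e1]
    field_simp
    ring

/-- Coercivity extends over one excluded value of `τ`. -/
theorem coercive_of_punctured {Φ : TPar} {p q τb τ0 e : ℝ} {n : ℕ} (hΦ : Φ.Smooth)
    (h : ∀ τ ≤ τb, τ ≠ τ0 → ∀ A C B Q : ℝ, 0 ≤ A → 0 ≤ B → C ^ 2 ≤ A * B → 0 ≤ Q →
      e * TPar.scalM A B Q ≤ Φ.scalF p q τ n A C B Q) :
    Φ.Coercive p q n τb e := by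
  intro τ hτ A C B Q hA hB hC hQ
  by_cases hτ0 : τ = τ0
  swap
  · exact h τ hτ hτ0 A C B Q hA hB hC hQ
  subst hτ0
  have c1 : Continuous Φ.cc := continuous_iff_continuousAt.2 fun t => (hΦ.2.1 t).continuousAt
  have c2 : Continuous Φ.dd := continuous_iff_continuousAt.2 fun t => (hΦ.2.2.1 t).continuousAt
  have c3 : Continuous Φ.kX := continuous_iff_continuousAt.2 fun t => (hΦ.2.2.2.1 t).continuousAt
  have c4 : Continuous Φ.kY := continuous_iff_continuousAt.2 fun t => (hΦ.2.2.2.2.1 t).continuousAt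
  obtain ⟨-, -, -, -, -, c5, c6, c7, c8, c9⟩ := hΦ
  have hF : Continuous fun x => Φ.scalF p q x n A C B Q := by
    simp only [TPar.scalF, TPar.rest, TPar.extra, Par.m1, Par.m2, TPar.froz]
    fun_prop
  refine ge_of_tendsto ((hF.tendsto τ).mono_left (nhdsWithin_le_nhds (s := Set.Iio τ))) ?_
  filter_upwards [self_mem_nhdsWithin] with x (hx : x < τ)
  exact h x (hx.le.trans hτ) hx.ne A C B Q hA hB hC hQ

end Vale.Agent.P100T
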