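import Vale.Agent.P100T.Calib

/-!
The calibrated certificate along an orbit in the variables `σ`, `W = L dσ/dτ`, `z = 1/R`,
with `c` affine in `σ`: all quantities extend continuously through `z = 0`.
-/

noncomputable section

namespace Vale.Agent.P100T

/-- Dimension, exponents and the free constants of a certificate: `M` and `c = c1 - G (σ - si)`. -/
structure CPar where
  N : ℝ
  p : ℝ
  q : ℝ
  M : ℝ
  c1 : ℝ
  G : ℝ
  si : ℝ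

namespace CPar

variable (C : CPar) (s W z : ℝ)

def L : ℝ := (C.p + 1) - (C.q + 1) * s
def K : ℝ := (C.p + 1) + (C.q + 1) * s
def mu : ℝ := (C.N - 1) * (C.p + 1) * (C.q + 1) / (C.N * C.K s)
def nu : ℝ := C.mu s / (C.p + 1)
def V : ℝ := s * (s - 1) + W
/-- `N e - R`. -/
def l : ℝ := ((C.p + 1) * s - V s W) * (C.q + 1) / C.K s
def a : ℝ := ((C.p + 1) * C.M - (2 - 2 * C.l s W + 2 * C.mu s * s)) * (C.q + 1) / C.L s
def c : ℝ := C.c1 - C.G * (s - C.si)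
def c' : ℝ := -(C.G * (W / C.L s))
def ce : ℝ := -(C.mu s * (1 - C.l s W / (C.p + 1)))
/-- `k/R`. -/
def kz : ℝ := (C.ce s W - C.c s) * z + C.nu s
def E0 : ℝ := (2 - C.N) * C.l s W / C.N + 1
def Kp0 : ℝ := 2 * C.E0 s W - 2 * C.l s W / C.N + C.q * s - 1
/-- The right side of `d z / d τ`. -/
def dz : ℝ := -((z * C.Kp0 s W + 2 / C.N) / C.L s)
def P2 : ℝ := C.c s * (C.a s W - 1) - (C.q + 1) * C.c' s W
  - (C.N - 1) / (4 * C.N) * (C.a s W + 2 * C.c s) ^ 2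
def P0 : ℝ := V s W * (C.ce s W - C.c s)
def P1 : ℝ := -(C.nu s * V s W * (C.a s W + 2 * C.c s))
  + W * (C.q + 1) / (C.L s * C.K s)
    * (C.c s * (3 * (C.p + 1) - (C.q + 1) * s) + C.mu s * (C.p + 1))
  + C.L s * C.c' s W
/-- `rho R / R`, affine in `z`. -/
def rho : ℝ := C.kz s W z * (C.a s W - 1 + C.q)
  + (C.q + 1) / C.L s * (C.Kp0 s W * C.kz s W z + 2 / C.N * (C.ce s W - C.c s)
      - C.nu s * (C.E0 s W * (C.l s W * z + 1)) - 2 / C.N * (C.nu s * C.l s W)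
      + (C.nu s * (C.l s W * z + 1) - C.mu s * z) * (W * (C.q + 1) / C.K s))
  + (C.q + 1) * C.c' s W * z

/-- The point of the orbit with `R = 1/z`. -/
def pt : Pt where
  N := C.N
  p := C.p
  q := C.q
  σ := s
  R := 1 / z
  t := s - z * V s W
  M := C.M
  c := C.c s
  c' := C.c' s W

variable {C : CPar} {s W z : ℝ}

lemma pt_V (hz : z ≠ 0) : (C.pt s W z).V = V s W := by
  simp only [Pt.V, pt]; field_simp; ring

lemma pt_W (hz : z ≠ 0) : (C.pt s W z).W = W := by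
  rw [Pt.W, pt_V hz, show (C.pt s W z).σ = s from rfl, V]; ring

lemma pt_mu : (C.pt s W z).mu = C.mu s := rfl

lemma pt_e (hz : z ≠ 0) (hp : C.p + 1 ≠ 0) (hq : C.q + 1 ≠ 0) (hK : C.K s ≠ 0) :
    (C.pt s W z).e = (C.l s W + 1 / z) / C.N := by
  simp only [Pt.e, pt, l, Pt.K, V]
  simp only [K] at hK ⊢
  field_simp
  ring

lemma pt_El (hz : z ≠ 0) (hN : C.N ≠ 0) (hp : C.p + 1 ≠ 0) (hq : C.q + 1 ≠ 0) (hK : C.K s ≠ 0) :
    (C.pt s W z).N * (C.pt s W z).e - (C.pt s W z).R = C.l s W := by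
  rw [pt_e hz hp hq hK]; simp only [pt]; field_simp; ring

lemma pt_H (hz : z ≠ 0) (hN : C.N ≠ 0) (hp : C.p + 1 ≠ 0) (hq : C.q + 1 ≠ 0) (hK : C.K s ≠ 0) :
    (C.pt s W z).H = 2 - 2 * C.l s W + 2 * C.mu s * s := by
  have := pt_El (W := W) hz hN hp hq hK
  simp only [Pt.H, pt_mu]
  rw [show (C.pt s W z).σ = s from rfl]
  linear_combination (-2) * this

lemma pt_a (hz : z ≠ 0) (hN : C.N ≠ 0) (hp : C.p + 1 ≠ 0) (hq : C.q + 1 ≠ 0) (hK : C.K s ≠ 0) :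
    (C.pt s W z).a = C.a s W := by
  simp only [Pt.a, pt_H hz hN hp hq hK]; rfl

lemma pt_ce (hz : z ≠ 0) (hN : C.N ≠ 0) (hp : C.p + 1 ≠ 0) (hq : C.q + 1 ≠ 0) (hK : C.K s ≠ 0) :
    (C.pt s W z).ce = C.ce s W := by
  have := pt_e (W := W) hz hp hq hK
  simp only [Pt.ce, pt_mu, Pt.be1, this]
  simp only [pt, ce]
  field_simp
  ring

lemma pt_kX (hz : z ≠ 0) (hN : C.N ≠ 0) (hp : C.p + 1 ≠ 0) (hq : C.q + 1 ≠ 0) (hK : C.K s ≠ 0) :
    (C.pt s W z).kX = C.kz s W z := by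
  have := pt_e (W := W) hz hp hq hK
  simp only [Pt.kX, Pt.k, pt_mu, Pt.be1, this]
  simp only [pt, kz, ce, nu]
  field_simp
  ring

lemma pt_P2 (hz : z ≠ 0) (hN : C.N ≠ 0) (hp : C.p + 1 ≠ 0) (hq : C.q + 1 ≠ 0) (hK : C.K s ≠ 0) :
    (C.pt s W z).P2 = C.P2 s W := by
  simp only [Pt.P2, pt_a hz hN hp hq hK]; rfl

lemma pt_P0 (hz : z ≠ 0) (hN : C.N ≠ 0) (hp : C.p + 1 ≠ 0) (hq : C.q + 1 ≠ 0) (hK : C.K s ≠ 0) :
    (C.pt s W z).P0 = C.P0 s W := by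
  simp only [Pt.P0, pt_V hz, pt_ce hz hN hp hq hK]; rfl

lemma pt_P1 (hz : z ≠ 0) (hN : C.N ≠ 0) (hp : C.p + 1 ≠ 0) (hq : C.q + 1 ≠ 0) (hK : C.K s ≠ 0) :
    (C.pt s W z).P0' = C.P1 s W := by
  simp only [Pt.P0', pt_V hz, pt_W hz, pt_a hz hN hp hq hK, pt_mu, P1, nu]
  simp only [pt, Pt.L, Pt.K, L, K]

lemma pt_Kp (hz : z ≠ 0) (hN : C.N ≠ 0) (hp : C.p + 1 ≠ 0) (hq : C.q + 1 ≠ 0) (hK : C.K s ≠ 0) :
    (C.pt s W z).Kp = C.Kp0 s W + 2 / (C.N * z) := by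
  have := pt_e (W := W) hz hp hq hK
  simp only [Pt.Kp, Pt.E1, this]
  simp only [pt, Kp0, E0]
  field_simp
  ring

lemma pt_rho (hz : z ≠ 0) (hN : C.N ≠ 0) (hp : C.p + 1 ≠ 0) (hq : C.q + 1 ≠ 0) (hK : C.K s ≠ 0)
    (hL : C.L s ≠ 0) : (C.pt s W z).rhoR / (C.pt s W z).R = C.rho s W z := by
  have := pt_e (W := W) hz hp hq hK
  have e2 := pt_Kp (W := W) hz hN hp hq hK
  simp only [Pt.rhoR, Pt.k, pt_W hz, pt_a hz hN hp hq hK, pt_mu, e2, Pt.be1, Pt.E1, this]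
  simp only [pt, Pt.L, Pt.K, rho, kz, ce, E0, nu]
  simp only [L, K] at hL hK ⊢
  field_simp
  ring

end CPar

end Vale.Agent.P100T
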