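import Vale.Agent.P100T.Algebra

/-!
The integral identity with variable multipliers and the cut-off estimate.
-/

open MeasureTheory Filter Topology
open scoped ContDiff

noncomputable section

namespace Vale.Agent.P100T

open Vale.Agent.P100

variable {n : ℕ}

variable (u v : Euc n → ℝ) (Φ : TPar) (p q : ℝ)

/-- `τ = log (v^(p+1) / u^(q+1))` -/
def tauf (x : Euc n) : ℝ := (p + 1) * Real.log (v x) - (q + 1) * Real.log (u x)

/-- the weight -/
def wT (x : Euc n) : ℝ :=
  Real.exp (Φ.s * (q * Real.log (u x) - Real.log (v x)) + Φ.Psi (tauf u v p q x))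

def K1T (x : Euc n) : ℝ :=
  Φ.cc (tauf u v p q x) * Bf v x + Φ.kX (tauf u v p q x) * Pf v u q x

def K2T (x : Euc n) : ℝ :=
  (Φ.dd (tauf u v p q x) - 1) * Bf v x + (Φ.kY (tauf u v p q x) - 1) * Pf v u q x

def phiT (ζ : Euc n → ℝ) (x : Euc n) : ℝ := ζ x * (wT u v Φ p q x / v x ^ 2)

/-- the commutation part of the identity -/
def IcommT (ζ : Euc n → ℝ) (x : Euc n) : ℝ :=
  ∑ i, ∑ j, (pd i (fun y => phiT u v Φ p q ζ y * pd j v y) x * pd j (pd i v) x
    - pd j (fun y => phiT u v Φ p q ζ y * pd j v y) x * pd i (pd i v) x)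

/-- the divergence part of the identity -/
def IdivT (ζ : Euc n → ℝ) (x : Euc n) : ℝ :=
  ∑ i, pd i (fun y => ζ y * (wT u v Φ p q y * (K1T u v Φ p q y * Xf u i y
    + K2T u v Φ p q y * Xf v i y))) x

/-- The full integrand. -/
def ItotT (ζ : Euc n → ℝ) (x : Euc n) : ℝ :=
  IcommT u v Φ p q ζ x + IdivT u v Φ p q ζ x

variable {u v Φ p q}

lemma contDiff_one_of_hasDerivAt {f f' : ℝ → ℝ} (h : ∀ t, HasDerivAt f (f' t) t)
    (hc : Continuous f') : ContDiff ℝ 1 f :=
  contDiff_one_iff_deriv.2 ⟨fun t => (h t).differentiableAt, by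
    rwa [show deriv f = f' from funext fun t => (h t).deriv]⟩

section Smooth

variable (hu : ContDiff ℝ 2 u) (hv : ContDiff ℝ 2 v) (hup : ∀ x, 0 < u x) (hvp : ∀ x, 0 < v x)
  (hΦ : Φ.Smooth)

include hu hv hup hvp in
lemma contDiff_tauf : ContDiff ℝ 1 (tauf u v p q) :=
  (contDiff_const.mul ((hv.of_le one_le_two).log fun x => (hvp x).ne')).sub
    (contDiff_const.mul ((hu.of_le one_le_two).log fun x => (hup x).ne'))

include hu hv hup hvp hΦ in
lemma contDiff_wT : ContDiff ℝ 1 (wT u v Φ p q) :=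
  ((contDiff_const.mul ((contDiff_const.mul ((hu.of_le one_le_two).log fun x => (hup x).ne')).sub
    ((hv.of_le one_le_two).log fun x => (hvp x).ne'))).add
    ((contDiff_one_of_hasDerivAt hΦ.1 hΦ.2.2.2.2.2.1).comp (contDiff_tauf hu hv hup hvp))).exp

include hu hv hup hvp hΦ in
lemma contDiff_K1T : ContDiff ℝ 1 (K1T u v Φ p q) :=
  (((contDiff_one_of_hasDerivAt hΦ.2.1 hΦ.2.2.2.2.2.2.1).comp
      (contDiff_tauf hu hv hup hvp)).mul (contDiff_Bf hv hvp)).add
    (((contDiff_one_of_hasDerivAt hΦ.2.2.2.1 hΦ.2.2.2.2.2.2.2.2.1).comp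
      (contDiff_tauf hu hv hup hvp)).mul (contDiff_Pf hv hu hvp hup q))

include hu hv hup hvp hΦ in
lemma contDiff_K2T : ContDiff ℝ 1 (K2T u v Φ p q) :=
  ((((contDiff_one_of_hasDerivAt hΦ.2.2.1 hΦ.2.2.2.2.2.2.2.1).comp
      (contDiff_tauf hu hv hup hvp)).sub contDiff_const).mul (contDiff_Bf hv hvp)).add
    ((((contDiff_one_of_hasDerivAt hΦ.2.2.2.2.1 hΦ.2.2.2.2.2.2.2.2.2).comp
      (contDiff_tauf hu hv hup hvp)).sub contDiff_const).mul (contDiff_Pf hv hu hvp hup q))

include hu hv hup hvp in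
lemma pd_tauf (i : Fin n) (x : Euc n) :
    pd i (tauf u v p q) x = (p + 1) * Xf v i x - (q + 1) * Xf u i x := by
  have hdu := (hu.of_le one_le_two).differentiable one_ne_zero x
  have hdv := (hv.of_le one_le_two).differentiable one_ne_zero x
  have h1 := hdu.log (hup x).ne'
  have h2 := hdv.log (hvp x).ne'
  have e1 : pd i (fun y => Real.log (u y)) x = (u x)⁻¹ * pd i u x :=
    pd_comp hdu (Real.hasDerivAt_log (hup x).ne') i
  have e2 : pd i (fun y => Real.log (v y)) x = (v x)⁻¹ * pd i v x :=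
    pd_comp hdv (Real.hasDerivAt_log (hvp x).ne') i
  have heq : tauf u v p q
      = fun y => (p + 1) * Real.log (v y) + -(q + 1) * Real.log (u y) := by
    funext y; simp only [tauf]; ring
  rw [heq, pd_add' (h2.const_mul (p + 1)) (h1.const_mul (-(q + 1))), pd_const_mul _ h2,
    pd_const_mul _ h1, e1, e2, Xf, Xf]
  ring

include hu hv hup hvp in
/-- Differentiation of a multiplier composed with `τ`. -/
lemma pd_tau_comp {f : ℝ → ℝ} {f' : ℝ} {x : Euc n} (hf : HasDerivAt f f' (tauf u v p q x))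
    (i : Fin n) : pd i (fun y => f (tauf u v p q y)) x
      = f' * ((p + 1) * Xf v i x - (q + 1) * Xf u i x) := by
  rw [pd_comp ((contDiff_tauf hu hv hup hvp).differentiable one_ne_zero x) hf,
    pd_tauf hu hv hup hvp]

include hu hv hup hvp hΦ in
lemma pd_wT (i : Fin n) (x : Euc n) :
    pd i (wT u v Φ p q) x = wT u v Φ p q x * ((Φ.froz p q (tauf u v p q x)).a * Xf u i x
      + (Φ.froz p q (tauf u v p q x)).b * Xf v i x) := by
  have hdu := (hu.of_le one_le_two).differentiable one_ne_zero x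
  have hdv := (hv.of_le one_le_two).differentiable one_ne_zero x
  have h1 := hdu.log (hup x).ne'
  have h2 := hdv.log (hvp x).ne'
  have e1 : pd i (fun y => Real.log (u y)) x = (u x)⁻¹ * pd i u x :=
    pd_comp hdu (Real.hasDerivAt_log (hup x).ne') i
  have e2 : pd i (fun y => Real.log (v y)) x = (v x)⁻¹ * pd i v x :=
    pd_comp hdv (Real.hasDerivAt_log (hvp x).ne') i
  have hP := hΦ.1 (tauf u v p q x)
  have dP : DifferentiableAt ℝ (fun y => Φ.Psi (tauf u v p q y)) x :=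
    hP.differentiableAt.comp x ((contDiff_tauf hu hv hup hvp).differentiable one_ne_zero x)
  have h3 := pd_comp (((h1.const_mul (Φ.s * q)).fun_add (h2.const_mul (-Φ.s))).fun_add dP)
    (Real.hasDerivAt_exp _) i
  have heq : wT u v Φ p q = fun y => Real.exp (Φ.s * q * Real.log (u y)
      + -Φ.s * Real.log (v y) + Φ.Psi (tauf u v p q y)) := by
    funext y; simp only [wT]; congr 1; ring
  rw [heq, h3, pd_add' ((h1.const_mul _).fun_add (h2.const_mul _)) dP,
    pd_add' (h1.const_mul _) (h2.const_mul _), pd_const_mul _ h1, pd_const_mul _ h2,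
    pd_tau_comp hu hv hup hvp hP, e1, e2]
  simp only [TPar.froz, Xf]
  ring

include hu hv hup hvp hΦ in
lemma contDiff_phiT {ζ : Euc n → ℝ} (hζ : ContDiff ℝ 1 ζ) : ContDiff ℝ 1 (phiT u v Φ p q ζ) :=
  hζ.mul ((contDiff_wT hu hv hup hvp hΦ).div ((hv.of_le one_le_two).pow 2)
    fun x => (pow_pos (hvp x) 2).ne')

include hu hv hup hvp hΦ in
lemma integrable_ItotT {ζ : Euc n → ℝ} (hζ : ContDiff ℝ 1 ζ) (hc : HasCompactSupport ζ) :
    Integrable (ItotT u v Φ p q ζ) ∧ ∫ x, ItotT u v Φ p q ζ x = 0 := by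
  have hψ : ∀ j, ContDiff ℝ 1 (fun y => phiT u v Φ p q ζ y * pd j v y) := fun j =>
    (contDiff_phiT hu hv hup hvp hΦ hζ).mul (contDiff_pd hv j)
  have hψc : ∀ j, HasCompactSupport (fun y => phiT u v Φ p q ζ y * pd j v y) := fun j =>
    (hc.mul_right).mul_right
  have hi : ∀ i j k l : Fin n, Integrable (fun x =>
      pd i (fun y => phiT u v Φ p q ζ y * pd j v y) x * pd k (pd l v) x) := fun i j k l =>
    ((continuous_pd (hψ j) i).mul
      (continuous_pd (contDiff_pd hv l) k)).integrable_of_hasCompactSupport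
      ((hasCompactSupport_pd (hψc j) i).mul_right)
  have hF : ∀ i : Fin n, ContDiff ℝ 1 (fun y => ζ y * (wT u v Φ p q y
      * (K1T u v Φ p q y * Xf u i y + K2T u v Φ p q y * Xf v i y))) := fun i =>
    hζ.mul ((contDiff_wT hu hv hup hvp hΦ).mul
      (((contDiff_K1T hu hv hup hvp hΦ).mul (contDiff_Xf hu hup i)).add
        ((contDiff_K2T hu hv hup hvp hΦ).mul (contDiff_Xf hv hvp i))))
  have hFi : ∀ i : Fin n, Integrable (pd i (fun y => ζ y * (wT u v Φ p q y
      * (K1T u v Φ p q y * Xf u i y + K2T u v Φ p q y * Xf v i y)))) := fun i =>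
    (continuous_pd (hF i) i).integrable_of_hasCompactSupport
      (hasCompactSupport_pd hc.mul_right i)
  have hc1 : Integrable (IcommT u v Φ p q ζ) :=
    integrable_finsetSum _ fun i _ => integrable_finsetSum _ fun j _ =>
      (hi i j j i).sub (hi j j i i)
  have hc2 : Integrable (IdivT u v Φ p q ζ) := integrable_finsetSum _ fun i _ => hFi i
  refine ⟨hc1.add hc2, ?_⟩
  change ∫ x, (IcommT u v Φ p q ζ x + IdivT u v Φ p q ζ x) = 0
  have z1 : ∫ x, IcommT u v Φ p q ζ x = 0 := by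
    simp only [IcommT]
    rw [integral_finsetSum]
    · refine Finset.sum_eq_zero fun i _ => ?_
      rw [integral_finsetSum]
      · refine Finset.sum_eq_zero fun j _ => ?_
        rw [integral_sub (hi i j j i) (hi j j i i),
          integral_pd_comm (hψ j) (hψc j) (contDiff_pd hv i) i j, sub_self]
      · exact fun j _ => (hi i j j i).sub (hi j j i i)
    · exact fun i _ => integrable_finsetSum _ fun j _ => (hi i j j i).sub (hi j j i i)
  have z2 : ∫ x, IdivT u v Φ p q ζ x = 0 := by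
    simp only [IdivT]
    rw [integral_finsetSum _ fun i _ => hFi i]
    exact Finset.sum_eq_zero fun i _ => integral_pd_eq_zero (hF i) hc.mul_right i
  rw [integral_add hc1 hc2, z1, z2, add_zero]

include hu hv hup hvp hΦ in
lemma ItotT_eq {ζ : Euc n → ℝ} (hζ : ContDiff ℝ 1 ζ) {x : Euc n}
    (e1 : ∑ i, pd i (pd i u) x = -(v x ^ p)) (e2 : ∑ i, pd i (pd i v) x = -(u x ^ q)) :
    (∑ i, Gf v i i x = -Pf v u q x - dot (fun i => Xf v i x) (fun i => Xf v i x)) ∧
    ItotT u v Φ p q ζ x =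
      ζ x * wT u v Φ p q x * JT Φ p q (tauf u v p q x) (fun i j => Gf v i j x)
          (fun i => Xf u i x) (fun i => Xf v i x) (Pf v u q x)
      + wT u v Φ p q x * ∑ i, pd i ζ x * Vfun (Φ.froz p q (tauf u v p q x))
          (fun i j => Gf v i j x) (fun i => Xf u i x) (fun i => Xf v i x)
          (Pf u v p x) (Pf v u q x) i := by
  have hv0 := (hvp x).ne'
  have tru : ∀ {f g : Euc n → ℝ} {r : ℝ}, ∑ i, pd i (pd i f) x = -(g x ^ r) →
      ∑ i, Gf f i i x = -Pf f g r x - dot (fun i => Xf f i x) (fun i => Xf f i x) := by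
    intro f g r h
    simp only [Gf, Finset.sum_sub_distrib, ← Finset.sum_div, h, Pf, dot]
    ring
  have hGsym : ∀ i j, Gf v i j x = Gf v j i x := by
    intro i j; simp only [Gf]; rw [pd_symm hv i j x]; ring
  have htr := tru (g := u) (r := q) e2
  refine ⟨htr, ?_⟩
  set τ := tauf u v p q x with hτ
  set π := Φ.froz p q τ with hπ
  set w := wT u v Φ p q x
  set X := fun i => Xf u i x with hX
  set Y := fun i => Xf v i x with hY
  set P := Pf u v p x with hPdef
  set Q := Pf v u q x with hQdef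
  have hPQ : P = Real.exp τ * Q := by
    simp only [hPdef, hQdef, hτ, tauf, Pf, Real.rpow_def_of_pos (hvp x),
      Real.rpow_def_of_pos (hup x)]
    rw [← Real.exp_log (hup x), ← Real.exp_log (hvp x)]
    simp only [Real.log_exp]
    rw [← Real.exp_sub, ← Real.exp_sub, ← Real.exp_add]
    congr 1; ring
  have hexp : ζ x * w * JT Φ p q τ (fun i j => Gf v i j x) X Y Q
        + w * ∑ i, pd i ζ x * Vfun π (fun i j => Gf v i j x) X Y P Q i
      = (ζ x * w * Jfun π p q (fun i j => Gf v i j x) X Y P Q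
          + w * ∑ i, pd i ζ x * Vfun π (fun i j => Gf v i j x) X Y P Q i)
        + ∑ i, ζ x * w * ((Φ.cc' τ * dot Y Y + Φ.kX' τ * Q)
            * ((p + 1) * Y i - (q + 1) * X i) * X i
          + (Φ.dd' τ * dot Y Y + Φ.kY' τ * Q) * ((p + 1) * Y i - (q + 1) * X i) * Y i) := by
    have hs : ∑ i, ζ x * w * ((Φ.cc' τ * dot Y Y + Φ.kX' τ * Q)
            * ((p + 1) * Y i - (q + 1) * X i) * X i
          + (Φ.dd' τ * dot Y Y + Φ.kY' τ * Q) * ((p + 1) * Y i - (q + 1) * X i) * Y i)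
        = ζ x * w * Φ.extra p q τ (dot X X) (dot X Y) (dot Y Y) Q := by
      simp only [TPar.extra]
      generalize Φ.cc' τ * dot Y Y + Φ.kX' τ * Q = a
      generalize Φ.dd' τ * dot Y Y + Φ.kY' τ * Q = b
      simp only [dot, Finset.mul_sum, mul_add, mul_sub, ← Finset.sum_add_distrib,
        ← Finset.sum_sub_distrib]
      exact Finset.sum_congr rfl fun i _ => by ring
    rw [hs, JT, ← hPQ, ← hπ]
    ring
  rw [hexp, ← expand π p q (fun i j => Gf v i j x) hGsym X Y (fun i => pd i ζ x)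
    (fun i => Gf u i i x) (fun i => Gf v i i x) (ζ x) w P Q htr (tru (g := v) (r := p) e1) rfl,
    add_assoc, ← Finset.sum_add_distrib]
  have dζ := hζ.differentiable one_ne_zero x
  have dw := (contDiff_wT (p := p) (q := q) hu hv hup hvp hΦ).differentiable one_ne_zero x
  have dv := (hv.of_le one_le_two).differentiable one_ne_zero x
  have dv2 : DifferentiableAt ℝ (fun y => v y ^ 2) x := dv.pow 2
  have hphi : ∀ i, pd i (phiT u v Φ p q ζ) x = w / v x ^ 2
      * (pd i ζ x + ζ x * (π.a * X i + (π.b - 2) * Y i)) := by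
    intro i
    change pd i (fun y => ζ y * (wT u v Φ p q y / v y ^ 2)) x = _
    have dwv : DifferentiableAt ℝ (fun y => wT u v Φ p q y / v y ^ 2) x :=
      ((contDiff_wT hu hv hup hvp hΦ).div ((hv.of_le one_le_two).pow 2)
        fun z => (pow_pos (hvp z) 2).ne').differentiable one_ne_zero x
    rw [pd_mul' dζ dwv, pd_div dw dv2 (pow_ne_zero 2 hv0),
      pd_comp dv (hasDerivAt_pow 2 (v x)), pd_wT hu hv hup hvp hΦ]
    simp only [hX, hY, hπ, hτ, Xf, w]
    field_simp
    ring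
  have hH : ∀ i j, pd i (pd j v) x = v x * (Gf v i j x + Y i * Y j) := by
    intro i j; simp only [hY, Gf]; field_simp; ring
  have hψ : ∀ i j, pd i (fun y => phiT u v Φ p q ζ y * pd j v y) x =
      pd i (phiT u v Φ p q ζ) x * pd j v x + phiT u v Φ p q ζ x * pd i (pd j v) x := fun i j =>
    pd_mul' ((contDiff_phiT hu hv hup hvp hΦ hζ).differentiable one_ne_zero x)
      ((contDiff_pd hv j).differentiable one_ne_zero x) i
  refine congrArg₂ (· + ·) ?_ ?_
  · simp only [IcommT]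
    refine Finset.sum_congr rfl fun i _ => Finset.sum_congr rfl fun j _ => ?_
    rw [hψ i j, hψ j j, hphi i, hphi j, hH i j, hH j i, hH i i, hH j j]
    simp only [phiT, hY, Xf, w]
    field_simp
  · simp only [IdivT]
    refine Finset.sum_congr rfl fun i _ => ?_
    have dK1 := (contDiff_K1T (p := p) (q := q) hu hv hup hvp hΦ).differentiable one_ne_zero x
    have dK2 := (contDiff_K2T (p := p) (q := q) hu hv hup hvp hΦ).differentiable one_ne_zero x
    have dX := (contDiff_Xf hu hup i).differentiable one_ne_zero x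
    have dY := (contDiff_Xf hv hvp i).differentiable one_ne_zero x
    have dB := (contDiff_Bf hv hvp).differentiable one_ne_zero x
    have dQ := (contDiff_Pf hv hu hvp hup q).differentiable one_ne_zero x
    have dτ := (contDiff_tauf (p := p) (q := q) hu hv hup hvp).differentiable one_ne_zero x
    have hK : ∀ (f g : ℝ → ℝ) (f' g' : ℝ), HasDerivAt f f' τ → HasDerivAt g g' τ →
        pd i (fun y => f (tauf u v p q y) * Bf v y + g (tauf u v p q y) * Pf v u q y) x
        = f' * ((p + 1) * Y i - (q + 1) * X i) * dot Y Y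
          + f τ * (2 * ∑ j, Gf v i j x * Y j)
          + g' * ((p + 1) * Y i - (q + 1) * X i) * Q + g τ * (Q * (q * X i - Y i)) := by
      intro f g f' g' hf hg
      have df : DifferentiableAt ℝ (fun y => f (tauf u v p q y)) x :=
        hf.differentiableAt.comp x dτ
      have dg : DifferentiableAt ℝ (fun y => g (tauf u v p q y)) x :=
        hg.differentiableAt.comp x dτ
      rw [pd_add' (df.fun_mul dB) (dg.fun_mul dQ), pd_mul' df dB, pd_mul' dg dQ, pd_Bf hv hvp,
        pd_Pf hv hu hvp hup, pd_tau_comp hu hv hup hvp hf, pd_tau_comp hu hv hup hvp hg]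
      simp only [← hτ, Bf, hX, hY, hQdef, dot]
      ring
    have hK1 : pd i (K1T u v Φ p q) x = Φ.cc' τ * ((p + 1) * Y i - (q + 1) * X i) * dot Y Y
          + Φ.cc τ * (2 * ∑ j, Gf v i j x * Y j)
          + Φ.kX' τ * ((p + 1) * Y i - (q + 1) * X i) * Q + Φ.kX τ * (Q * (q * X i - Y i)) :=
      hK Φ.cc Φ.kX _ _ (hΦ.2.1 τ) (hΦ.2.2.2.1 τ)
    have hK2 : pd i (K2T u v Φ p q) x = Φ.dd' τ * ((p + 1) * Y i - (q + 1) * X i) * dot Y Y
          + (Φ.dd τ - 1) * (2 * ∑ j, Gf v i j x * Y j)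
          + Φ.kY' τ * ((p + 1) * Y i - (q + 1) * X i) * Q
          + (Φ.kY τ - 1) * (Q * (q * X i - Y i)) :=
      hK (fun t => Φ.dd t - 1) (fun t => Φ.kY t - 1) _ _ ((hΦ.2.2.1 τ).sub_const 1)
        ((hΦ.2.2.2.2.1 τ).sub_const 1)
    rw [pd_mul' dζ (dw.fun_mul ((dK1.fun_mul dX).fun_add (dK2.fun_mul dY))),
      pd_mul' dw ((dK1.fun_mul dX).fun_add (dK2.fun_mul dY)),
      pd_add' (dK1.fun_mul dX) (dK2.fun_mul dY), pd_mul' dK1 dX, pd_mul' dK2 dY,
      pd_wT hu hv hup hvp hΦ, pd_Xf hu hup, pd_Xf hv hvp, hK1, hK2]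
    simp only [hπ, hτ, TPar.froz, K1T, K2T, Bf, hX, hY, hQdef, dot, w]
    ring

end Smooth

lemma wT_le {q p : ℝ} (Φ : TPar) (u v : Euc n → ℝ) (x : Euc n) (hu : 0 < u x) (hv : 0 < v x)
    {τb K : ℝ} (hK : Φ.Bounded τb K) (hτ : tauf u v p q x ≤ τb) :
    wT u v Φ p q x ≤ Real.exp K * Pf v u q x ^ Φ.s := by
  have hQ : Pf v u q x = Real.exp (q * Real.log (u x) - Real.log (v x)) := by
    simp only [Pf, Real.rpow_def_of_pos hu, Real.exp_sub, Real.exp_log hv]
    ring_nf
  rw [hQ, ← Real.exp_mul, ← Real.exp_add, wT]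
  refine Real.exp_le_exp.2 ?_
  linarith [(hK _ hτ).1]

/-- The pointwise estimate for a cut-off `η ^ k`. -/
theorem pointwise_cutoff (hn : 2 ≤ n) {Φ : TPar} {p q τb K e : ℝ} (hp : 0 ≤ p) (hq : 0 ≤ q)
    (hΦ : Φ.Smooth) (hK : Φ.Bounded τb K) (he : 0 < e) (hcoer : Φ.Coercive p q n τb e)
    (hs : 0 ≤ Φ.s) :
    ∃ (k : ℕ) (κ C : ℝ), 1 ≤ k ∧ 0 < κ ∧ 0 ≤ C ∧
      ∀ (u v η : Euc n → ℝ), ContDiff ℝ 2 u → ContDiff ℝ 2 v → (∀ x, 0 < u x) →
        (∀ x, 0 < v x) → ContDiff ℝ 1 η → (∀ x, 0 ≤ η x ∧ η x ≤ 1) →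
        ∀ x, ((∑ i, pd i (pd i u) x = -(v x ^ p)) ∧ (∑ i, pd i (pd i v) x = -(u x ^ q)) ∧
              tauf u v p q x ≤ τb ∨ x ∉ tsupport η) →
          κ * (η x ^ k * (wT u v Φ p q x * (Pf u v p x + Pf v u q x) ^ 2)) ≤
              ItotT u v Φ p q (fun y => η y ^ k) x + C * (wT u v Φ p q x * grad2 η x ^ 2) ∧
          κ * (η x ^ k * (wT u v Φ p q x * (Pf u v p x + Pf v u q x) ^ 2)) ≤
              ItotT u v Φ p q (fun y => η y ^ k) x + C * grad2 η x ^ (Φ.s + 2) := by
  obtain ⟨e', he', hJ'⟩ := exists_pointwise hn hp hq he hK hcoer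
  set E := Real.exp K with hE
  have hEp : 0 < E := Real.exp_pos K
  set C0 := 2 + 4 * |K| with hC0
  have hC0p : 0 < C0 := by positivity
  set δ := e' / (4 * C0) with hδ
  have hδp : 0 < δ := by positivity
  set D := C0 / (64 * δ ^ 3) with hD
  have hDp : 0 < D := by positivity
  set k := ⌈2 * (Φ.s + 2)⌉₊ with hk
  have hk1 : 1 ≤ k := Nat.one_le_iff_ne_zero.2 (by
    simp only [hk, ne_eq, Nat.ceil_eq_zero, not_le]; linarith)
  have hkR : 2 * (Φ.s + 2) ≤ (k : ℝ) := Nat.le_ceil _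
  set κ0 := Real.sqrt (e' / (8 * D)) with hκ0
  have hκ0p : 0 < κ0 := Real.sqrt_pos.2 (by positivity)
  set C := D * ((k : ℝ) ^ 2) ^ (2 : ℝ) + D * κ0⁻¹ ^ Φ.s * ((k : ℝ) ^ 2) ^ (Φ.s + 2) with hC
  have hC0' : 0 ≤ C := by positivity
  refine ⟨k, e' / 8, C + E * C, hk1, by positivity, by positivity, ?_⟩
  intro u v η hu hv hup hvp hη hηb x hx
  have hw : 0 < wT u v Φ p q x := Real.exp_pos _
  have hS := grad2_nonneg η x
  rcases hx with ⟨e1, e2, hτ⟩ | hx
  swap
  · have hz : ∀ᶠ y in 𝓝 x, η y = 0 := notMem_tsupport_iff_eventuallyEq.1 hx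
    have hζ0 : (fun y => η y ^ k) =ᶠ[𝓝 x] fun _ => (0 : ℝ) :=
      hz.mono fun y hy => by simp [hy, zero_pow (by omega : k ≠ 0)]
    have hI : ItotT u v Φ p q (fun y => η y ^ k) x = 0 := by
      have hz' : ∀ (f : Euc n → ℝ) i, pd i (fun y => η y ^ k * f y) x = 0 := by
        intro f i
        have : (fun y => η y ^ k * f y) =ᶠ[𝓝 x] fun _ => (0 : ℝ) :=
          hζ0.mono fun y hy => by simp only at hy; simp [hy]
        simp [pd, this.fderiv_eq]
      simp [ItotT, IcommT, IdivT, phiT, mul_assoc, hz']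
    rw [hI, hz.self_of_nhds, zero_pow (by omega : k ≠ 0)]
    constructor <;> simp only [zero_mul, mul_zero, zero_add] <;> positivity
  have hζ : ContDiff ℝ 1 (fun y => η y ^ k) := hη.pow k
  obtain ⟨htr, hI⟩ := ItotT_eq (p := p) (q := q) hu hv hup hvp hΦ hζ e1 e2
  have hdζ : ∀ i, pd i (fun y => η y ^ k) x = (k : ℝ) * η x ^ (k - 1) * pd i η x := fun i =>
    pd_comp (hη.differentiable one_ne_zero x) (hasDerivAt_pow k (η x)) i
  simp only [hdζ] at hI
  rw [hI]
  set τ := tauf u v p q x with hτdef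
  set π := Φ.froz p q τ with hπ
  set w := wT u v Φ p q x
  set G := fun i j => Gf v i j x
  set X := fun i => Xf u i x
  set Y := fun i => Xf v i x
  set P := Pf u v p x with hPdef
  set Q := Pf v u q x with hQdef
  have hP : 0 < P := div_pos (Real.rpow_pos_of_pos (hvp x) _) (hup x)
  have hQ : 0 < Q := div_pos (Real.rpow_pos_of_pos (hup x) _) (hvp x)
  rcases eq_or_lt_of_le (hηb x).1 with h0 | h0
  · have hk2 : 2 ≤ k := by exact_mod_cast (le_trans (by linarith) hkR : (2 : ℝ) ≤ k)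
    rw [← h0, zero_pow (by omega : k ≠ 0), zero_pow (by omega : k - 1 ≠ 0)]
    constructor <;> simp <;> positivity
  have hPQ : P = Real.exp τ * Q := by
    simp only [hPdef, hQdef, hτdef, tauf, Pf, Real.rpow_def_of_pos (hvp x),
      Real.rpow_def_of_pos (hup x)]
    rw [← Real.exp_log (hup x), ← Real.exp_log (hvp x)]
    simp only [Real.log_exp]
    rw [← Real.exp_sub, ← Real.exp_sub, ← Real.exp_add]
    congr 1; ring
  have hGsym : ∀ i j, G i j = G j i := fun i j => by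
    simp only [G, Gf]; rw [pd_symm hv i j x]; ring
  have hJ := hJ' τ hτ G hGsym X Y Q hQ.le htr
  rw [← hPQ] at hJ
  set r : Fin n → ℝ := fun i => (k : ℝ) * pd i η x / η x with hr
  have hb := boundary_bound π G X Y r P Q hP.le hQ.le hδp
  have hcoef : 2 + |π.c| + |π.d| + |π.k1| + |π.k2| + |π.k3| + |π.k4| ≤ C0 := by
    obtain ⟨-, -, c1, c2, c3, c4⟩ := hK τ hτ
    simp only [hπ, TPar.froz, hC0, abs_zero]
    linarith [le_abs_self K]
  have hsum : ∑ i, (k : ℝ) * η x ^ (k - 1) * pd i η x * Vfun π G X Y P Q i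
      = η x ^ k * ∑ i, r i * Vfun π G X Y P Q i := by
    rw [Finset.mul_sum]
    refine Finset.sum_congr rfl fun i _ => ?_
    rw [show η x ^ k = η x ^ (k - 1) * η x by rw [← pow_succ]; congr 1; omega, hr]
    field_simp
  rw [hsum]
  have hR : dot r r = (k : ℝ) ^ 2 * grad2 η x / η x ^ 2 := by
    simp only [dot, hr, grad2, Finset.mul_sum, Finset.sum_div]
    exact Finset.sum_congr rfl fun i _ => by field_simp
  rw [hR] at hb
  set S := grad2 η x
  set R := (k : ℝ) ^ 2 * S / η x ^ 2 with hRdef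
  have hR0 : 0 ≤ R := by positivity
  have hM : (P + Q) ^ 2 ≤ 2 * Mfun G X Y P Q := Mfun_lower G X Y hP.le hQ.le
  have hM0 : 0 ≤ Mfun G X Y P Q := by
    linarith [sq_nonneg (P + Q)]
  have hkey : e' / 4 * (P + Q) ^ 2 ≤ JT Φ p q τ G X Y Q
      + (∑ i, r i * Vfun π G X Y P Q i) + D * R ^ 2 := by
    have hb' : |∑ i, r i * Vfun π G X Y P Q i|
        ≤ C0 * (2 * δ * Mfun G X Y P Q + R ^ 2 / (64 * δ ^ 3)) :=
      hb.trans (mul_le_mul_of_nonneg_right hcoef (by positivity))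
    have hb'' := (abs_le.1 hb').1
    have : C0 * (2 * δ * Mfun G X Y P Q + R ^ 2 / (64 * δ ^ 3))
        = e' / 2 * Mfun G X Y P Q + D * R ^ 2 := by
      simp only [hδ, hD]; field_simp; ring
    rw [this] at hb''
    have := mul_le_mul_of_nonneg_left hM (by linarith : (0 : ℝ) ≤ e' / 4)
    linarith
  have hwT : w / E ≤ (P + Q) ^ Φ.s := by
    rw [div_le_iff₀ hEp, mul_comm]
    exact (wT_le Φ u v x (hup x) (hvp x) hK hτ).trans (mul_le_mul_of_nonneg_left
      (Real.rpow_le_rpow hQ.le (le_add_of_nonneg_left hP.le) hs) hEp.le)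
  obtain ⟨f1, f2⟩ := scalar_fin h0 (hηb x).2 hS (div_pos hw hEp) (by linarith : 0 ≤ P + Q) he'
    hDp hs hk1 hkR hwT hkey
  rw [show η x ^ k * w * JT Φ p q τ G X Y Q + w * (η x ^ k * ∑ i, r i * Vfun π G X Y P Q i)
      = η x ^ k * w * (JT Φ p q τ G X Y Q + ∑ i, r i * Vfun π G X Y P Q i) by ring]
  simp only [← hκ0, ← hC] at f1 f2
  have g1 := mul_le_mul_of_nonneg_left f1 hEp.le
  have g2 := mul_le_mul_of_nonneg_left f2 hEp.le
  have hwE : E * (w / E) = w := by field_simp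
  have i1 : ∀ Z : ℝ, E * (e' / 8 * (η x ^ k * (w / E * Z))) = e' / 8 * (η x ^ k * (w * Z)) :=
    fun Z => by rw [← hwE]; field_simp
  have i2 : ∀ Z : ℝ, E * (η x ^ k * (w / E) * Z) = η x ^ k * w * Z :=
    fun Z => by rw [← hwE]; field_simp
  have i3 : E * (C * (w / E * S ^ 2)) = C * (w * S ^ 2) := by field_simp
  rw [mul_add, i1, i2, i3] at g1
  rw [mul_add, i1, i2] at g2
  have : 0 ≤ E * C * (w * S ^ 2) := by positivity
  have : 0 ≤ C * S ^ (Φ.s + 2) := by positivity
  constructor <;> linarith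

end Vale.Agent.P100T
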