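import Vale.Agent.P100.Main
import Vale.Agent.P100T.Est

/-!
The comparison `v^(p+1)/(p+1) ≤ u^(q+1)/(q+1)` for positive entire solutions: the difference
`h = v - σ u^r` satisfies `Δh ≥ k h^m`, `m > 1`, where positive, and a boundary blow-up
supersolution on balls forces `h ≤ 0`.
-/

open Filter Topology Laplacian
open scoped ContDiff

noncomputable section

namespace Vale.Agent.P100T

open Vale.Agent.P100

lemma second_le {g g' : ℝ → ℝ} {g'' : ℝ} (hm : IsLocalMax g 0)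
    (h1 : ∀ᶠ t in 𝓝 0, HasDerivAt g (g' t) t) (h2 : HasDerivAt g' g'' 0) : g'' ≤ 0 := by
  by_contra hpos
  rw [not_le] at hpos
  have hd : deriv g =ᶠ[𝓝 0] g' := h1.mono fun t ht => ht.deriv
  have hdd : deriv (deriv g) 0 = g'' := by rw [hd.deriv_eq, h2.deriv]
  have hmin : IsLocalMin g 0 := isLocalMin_of_deriv_deriv_pos (by rw [hdd]; exact hpos)
    hm.deriv_eq_zero h1.self_of_nhds.continuousAt
  have hc : g =ᶠ[𝓝 0] fun _ => g 0 := (hm.and hmin).mono fun t ht => le_antisymm ht.1 ht.2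
  have h0 : deriv (deriv g) 0 = 0 := by
    rw [hc.deriv.deriv_eq]; simp
  linarith

lemma algebraic_gap {p q u v σ r : ℝ} (hpq : 1 < p * q) (hq : 0 < q) (hqp : q ≤ p)
    (hu : 0 < u) (hr : r = (q + 1) / (p + 1)) (hσ0 : 0 < σ) (hσ : r * σ ^ (p + 1) = 1)
    (hv : σ * u ^ r < v) :
    r * σ ^ (1 / r) * (v - σ * u ^ r) ^ ((p + 1) * q / (q + 1)) ≤
      σ * r * u ^ (r - 1) * v ^ p - u ^ q := by
  have hp1 : 1 ≤ p := by nlinarith
  have hr0 : 0 < r := by rw [hr]; positivity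
  set s := σ * u ^ r with hs
  have hs0 : 0 < s := mul_pos hσ0 (Real.rpow_pos_of_pos hu _)
  set h := v - s with hh
  have hh0 : 0 < h := by linarith
  set m := (p + 1) * q / (q + 1) with hm
  have hmr : m = p + 1 - 1 / r := by
    rw [hm, hr]; field_simp; ring
  have hm1 : 0 < m - 1 := by
    have : m - 1 = (p * q - 1) / (q + 1) := by rw [hm]; field_simp; ring
    rw [this]; exact div_pos (by linarith) (by linarith)
  have hqe : u ^ q = σ * r * u ^ (r - 1) * s ^ p := by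
    have e1 : s ^ p = σ ^ p * u ^ (r * p) := by
      rw [hs, Real.mul_rpow hσ0.le (Real.rpow_nonneg hu.le _), ← Real.rpow_mul hu.le]
    have e2 : r - 1 + r * p = q := by rw [hr]; field_simp; ring
    rw [e1]
    calc u ^ q = (r * σ ^ (p + 1)) * u ^ (r - 1 + r * p) := by rw [hσ, one_mul, e2]
      _ = _ := by rw [Real.rpow_add hu, Real.rpow_add_one hσ0.ne']; ring
  have hu1 : σ * r * u ^ (r - 1) = r * σ ^ (1 / r) * s ^ (1 - 1 / r) := by
    have e1 : s ^ (1 - 1 / r) = σ ^ (1 - 1 / r) * u ^ (r - 1) := by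
      rw [hs, Real.mul_rpow hσ0.le (Real.rpow_nonneg hu.le _), ← Real.rpow_mul hu.le,
        show r * (1 - 1 / r) = r - 1 by field_simp]
    have e2 : σ ^ (1 / r) * σ ^ (1 - 1 / r) = σ := by
      rw [← Real.rpow_add hσ0]; simp
    rw [e1]
    calc σ * r * u ^ (r - 1) = r * (σ ^ (1 / r) * σ ^ (1 - 1 / r)) * u ^ (r - 1) := by
          rw [e2]; ring
      _ = _ := by ring
  have hk : 0 < r * σ ^ (1 / r) := mul_pos hr0 (Real.rpow_pos_of_pos hσ0 _)
  have goal : h ^ m ≤ s ^ (1 - 1 / r) * (v ^ p - s ^ p) := by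
    have hvs : v = s + h := by ring
    rcases le_total s h with hsh | hsh
    · have h1 : h ^ p ≤ v ^ p - s ^ p := by
        have h3 := Real.add_rpow_le_rpow_add hs0.le hh0.le hp1
        rw [hvs]; linarith
      have he : 1 - 1 / r ≤ 0 := by
        rw [sub_nonpos, le_div_iff₀ hr0, one_mul, hr, div_le_one (by linarith)]; linarith
      calc h ^ m = h ^ (1 - 1 / r) * h ^ p := by rw [← Real.rpow_add hh0, hmr]; ring_nf
        _ ≤ s ^ (1 - 1 / r) * (v ^ p - s ^ p) :=
            mul_le_mul (Real.rpow_le_rpow_of_nonpos hs0 hsh he) h1 (by positivity) (by positivity)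
    · have h1 : s ^ (p - 1) * h ≤ v ^ p - s ^ p := by
        have hb := one_add_mul_self_le_rpow_one_add (s := h / s)
          (by linarith [div_pos hh0 hs0]) hp1
        have e : v ^ p = s ^ p * (1 + h / s) ^ p := by
          rw [← Real.mul_rpow hs0.le (by positivity), hvs]; field_simp
        have e2 : s ^ p * (h / s) = s ^ (p - 1) * h := by
          rw [Real.rpow_sub_one hs0.ne']; ring
        have hb2 := mul_le_mul_of_nonneg_left hb (Real.rpow_nonneg hs0.le p)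
        have h4 : 1 * (s ^ (p - 1) * h) ≤ p * (s ^ (p - 1) * h) :=
          mul_le_mul_of_nonneg_right hp1 (by positivity)
        have h5 : s ^ p * (p * (h / s)) = p * (s ^ (p - 1) * h) := by rw [← e2]; ring
        rw [e]; linarith
      calc h ^ m = h ^ (m - 1) * h := by
            rw [← Real.rpow_add_one hh0.ne']; ring_nf
        _ ≤ s ^ (m - 1) * h :=
            mul_le_mul_of_nonneg_right (Real.rpow_le_rpow hh0.le hsh hm1.le) hh0.le
        _ = s ^ (1 - 1 / r) * (s ^ (p - 1) * h) := by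
            rw [← mul_assoc, ← Real.rpow_add hs0, hmr]; ring_nf
        _ ≤ _ := mul_le_mul_of_nonneg_left h1 (by positivity)
  rw [hqe, hu1]
  calc r * σ ^ (1 / r) * h ^ m ≤ r * σ ^ (1 / r) * (s ^ (1 - 1 / r) * (v ^ p - s ^ p)) :=
        mul_le_mul_of_nonneg_left goal hk.le
    _ = _ := by ring

variable {n : ℕ}

lemma hasDerivAt_line (x : Euc n) (i : Fin n) (t : ℝ) :
    HasDerivAt (fun s : ℝ => x + s • ev i) (ev i) t := by
  simpa using ((hasDerivAt_id t).smul_const (ev i)).const_add x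

lemma deriv_line {f : Euc n → ℝ} {x : Euc n} (hf : ContDiffAt ℝ 2 f x) (i : Fin n) :
    (∀ᶠ t in 𝓝 (0 : ℝ), HasDerivAt (fun s : ℝ => f (x + s • ev i)) (pd i f (x + t • ev i)) t) ∧
      HasDerivAt (fun t : ℝ => pd i f (x + t • ev i)) (pd i (pd i f) x) 0 := by
  have hl : ∀ t, HasDerivAt (fun s : ℝ => x + s • ev i) (ev i) t := hasDerivAt_line x i
  have ht : Tendsto (fun s : ℝ => x + s • ev i) (𝓝 0) (𝓝 x) := by
    simpa using (hl 0).continuousAt.tendsto
  refine ⟨?_, ?_⟩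
  · filter_upwards [ht.eventually (hf.eventually (by simp))] with t h
    exact (h.differentiableAt (by norm_num)).hasFDerivAt.comp_hasDerivAt t (hl t)
  · have hd : DifferentiableAt ℝ (pd i f) x :=
      (((hf.fderiv_right (m := 1) (by norm_num)).differentiableAt one_ne_zero).clm_apply
        (differentiableAt_const _))
    have hx : x + (0 : ℝ) • ev i = x := by simp
    have := hd.hasFDerivAt
    rw [← hx] at this
    have h2 := this.comp_hasDerivAt (0 : ℝ) (hl 0)
    simpa [pd, Function.comp_def, hx] using h2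

lemma norm_sq_line (x : Euc n) (i : Fin n) (t : ℝ) :
    ‖x + t • ev i‖ ^ 2 = ‖x‖ ^ 2 + 2 * x i * t + t ^ 2 := by
  rw [norm_add_sq_real, norm_smul, norm_ev, mul_one, Real.norm_eq_abs, sq_abs, real_inner_smul_right]
  simp [ev, EuclideanSpace.inner_single_right]
  ring

/-- The second derivative test for `v - σ u^r` minus a radial function. -/
lemma laplace_test {u v : Euc n → ℝ} {x : Euc n} (hu : ContDiffAt ℝ 2 u x)
    (hv : ContDiffAt ℝ 2 v x) (hux : 0 < u x) {σ r : ℝ} (hσ : 0 ≤ σ) (hr0 : 0 ≤ r) (hr1 : r ≤ 1)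
    {φ φ' : ℝ → ℝ} {φ'' : ℝ} (hφ : ∀ᶠ s in 𝓝 (‖x‖ ^ 2), HasDerivAt φ (φ' s) s)
    (hφ2 : HasDerivAt φ' φ'' (‖x‖ ^ 2))
    (hmax : IsLocalMax (fun y => v y - σ * u y ^ r - φ (‖y‖ ^ 2)) x) :
    (∑ i, pd i (pd i v) x) - σ * r * u x ^ (r - 1) * (∑ i, pd i (pd i u) x)
      ≤ 4 * φ'' * ‖x‖ ^ 2 + 2 * n * φ' (‖x‖ ^ 2) := by
  have key : ∀ i, pd i (pd i v) x - σ * r * u x ^ (r - 1) * pd i (pd i u) x
      ≤ 4 * φ'' * x i ^ 2 + 2 * φ' (‖x‖ ^ 2) := by
    intro i
    obtain ⟨hv1, hv2⟩ := deriv_line hv i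
    obtain ⟨hu1, hu2⟩ := deriv_line hu i
    set N := ‖x‖ ^ 2
    set a := fun t : ℝ => u (x + t • ev i)
    set a' := fun t : ℝ => pd i u (x + t • ev i)
    have hx : x + (0 : ℝ) • ev i = x := by simp
    have hl : ∀ t, HasDerivAt (fun t : ℝ => N + 2 * x i * t + t ^ 2) (2 * x i + 2 * t) t := by
      intro t
      refine ((((hasDerivAt_id t).const_mul (2 * x i)).const_add N).fun_add
        (hasDerivAt_pow 2 t)).congr_deriv ?_
      norm_num
    have hlt : Tendsto (fun t : ℝ => N + 2 * x i * t + t ^ 2) (𝓝 0) (𝓝 N) := by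
      simpa using (hl 0).continuousAt.tendsto
    have ha0 : a 0 = u x := by simp [a]
    have hapos : ∀ᶠ t in 𝓝 (0 : ℝ), 0 < a t :=
      hu1.self_of_nhds.continuousAt.eventually (eventually_gt_nhds (ha0 ▸ hux))
    set g' := fun t : ℝ => pd i v (x + t • ev i) - σ * (a' t * r * a t ^ (r - 1))
      - φ' (N + 2 * x i * t + t ^ 2) * (2 * x i + 2 * t) with hg'
    have h1 : ∀ᶠ t in 𝓝 (0 : ℝ), HasDerivAt
        (fun t => v (x + t • ev i) - σ * a t ^ r - φ (N + 2 * x i * t + t ^ 2)) (g' t) t := by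
      filter_upwards [hv1, hu1, hapos, hlt.eventually hφ] with t tv tu tp tφ
      exact (tv.fun_sub ((tu.rpow_const (Or.inl tp.ne')).const_mul σ)).fun_sub (tφ.comp t (hl t))
    have hφN : HasDerivAt φ' φ'' (N + 2 * x i * 0 + 0 ^ 2) := by simpa using hφ2
    have hd1 : HasDerivAt (fun t => φ' (N + 2 * x i * t + t ^ 2) * (2 * x i + 2 * t))
        (φ'' * (2 * x i) * (2 * x i) + φ' N * 2) 0 := by
      refine ((hφN.comp 0 (hl 0)).fun_mul
        (((hasDerivAt_id (0 : ℝ)).const_mul 2).const_add (2 * x i))).congr_deriv ?_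
      simp
    have hd2 : HasDerivAt (fun t => a' t * r * a t ^ (r - 1))
        (pd i (pd i u) x * r * u x ^ (r - 1)
          + pd i u x * r * (pd i u x * (r - 1) * u x ^ (r - 1 - 1))) 0 := by
      refine ((hu2.mul_const r).fun_mul
        (hu1.self_of_nhds.rpow_const (Or.inl (ha0 ▸ hux.ne')))).congr_deriv ?_
      simp [a, a']
    have h2 : HasDerivAt g' (pd i (pd i v) x - σ * (pd i (pd i u) x * r * u x ^ (r - 1)
          + pd i u x * r * (pd i u x * (r - 1) * u x ^ (r - 1 - 1)))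
        - (φ'' * (2 * x i) * (2 * x i) + φ' N * 2)) 0 :=
      (hv2.fun_sub (hd2.const_mul σ)).fun_sub hd1
    have hm : IsLocalMax (fun t => v (x + t • ev i) - σ * a t ^ r
        - φ (N + 2 * x i * t + t ^ 2)) 0 := by
      have hlin : ContinuousAt (fun s : ℝ => x + s • ev i) 0 :=
        (hasDerivAt_line x i 0).continuousAt
      have hm' : IsLocalMax (fun y => v y - σ * u y ^ r - φ (‖y‖ ^ 2)) (x + (0 : ℝ) • ev i) := by
        rwa [hx]
      simpa only [Function.comp_def, norm_sq_line, IsLocalMax, a, N] using IsMaxFilter.comp_tendsto (g := fun s : ℝ => x + s • ev i) hm' hlin.tendsto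
    have := second_le hm h1 h2
    have hneg : σ * (pd i u x * r * (pd i u x * (r - 1) * u x ^ (r - 1 - 1))) ≤ 0 := by
      have : 0 ≤ σ * r * (pd i u x) ^ 2 * u x ^ (r - 1 - 1) := by positivity
      have := mul_nonneg this (sub_nonneg.2 hr1)
      linarith
    linarith
  have hs := Finset.sum_le_sum fun i (_ : i ∈ Finset.univ) => key i
  have hN : ∑ i, x i ^ 2 = ‖x‖ ^ 2 := by simp [EuclideanSpace.norm_sq_eq]
  rw [Finset.sum_sub_distrib, ← Finset.mul_sum, Finset.sum_add_distrib, ← Finset.mul_sum, hN,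
    Finset.sum_const, Finset.card_univ, Fintype.card_fin, nsmul_eq_mul] at hs
  linarith

/-- Souplet's comparison. -/
theorem tauf_le (hn : 3 ≤ n) {p q : ℝ} (hq : 0 < q) (hqp : q ≤ p) (hpq : 1 < p * q)
    {u v : Euc n → ℝ} (hs : IsPositiveEntireSolution p q u v) {x0 : Euc n} (hx0 : x0 ≠ 0) :
    tauf u v p q x0 ≤ Real.log ((p + 1) / (q + 1)) := by
  obtain ⟨huc, hvc, hu2, hv2, hup, hvp, heq⟩ := hs
  set r := (q + 1) / (p + 1) with hr
  have hr0 : 0 < r := div_pos (by linarith) (by linarith)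
  have hr1 : r ≤ 1 := (div_le_one (by linarith)).2 (by linarith)
  set σ := (1 / r) ^ (1 / (p + 1)) with hσd
  have hσ0 : 0 < σ := Real.rpow_pos_of_pos (by positivity) _
  have hσ : r * σ ^ (p + 1) = 1 := by
    rw [hσd, ← Real.rpow_mul (by positivity), one_div_mul_cancel (by linarith), Real.rpow_one]
    field_simp
  suffices hle : v x0 ≤ σ * u x0 ^ r by
    have h1 := Real.log_le_log (hvp x0) hle
    rw [Real.log_mul hσ0.ne' (Real.rpow_pos_of_pos (hup x0) _).ne', Real.log_rpow (hup x0), hσd,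
      Real.log_rpow (by positivity)] at h1
    have h2 := mul_le_mul_of_nonneg_left h1 (by linarith : (0 : ℝ) ≤ p + 1)
    have e : (p + 1) * (1 / (p + 1) * Real.log (1 / r) + r * Real.log (u x0))
        = Real.log (1 / r) + (q + 1) * Real.log (u x0) := by
      rw [hr]; field_simp [show p + 1 ≠ 0 by linarith]
    rw [e] at h2
    have e2 : Real.log (1 / r) = Real.log ((p + 1) / (q + 1)) := by rw [hr, one_div_div]
    simp only [tauf]
    linarith
  set m := (p + 1) * q / (q + 1) with hm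
  have hm1 : 0 < m - 1 := by
    have : m - 1 = (p * q - 1) / (q + 1) := by rw [hm]; field_simp; ring
    rw [this]; exact div_pos (by linarith) (by linarith)
  set α := 2 / (m - 1) with hα
  have hα0 : 0 < α := div_pos two_pos hm1
  set k := r * σ ^ (1 / r) with hk
  have hk0 : 0 < k := mul_pos hr0 (Real.rpow_pos_of_pos hσ0 _)
  set K0 := 2 * n * α + 4 * α * (α + 1) with hK0
  have hK0p : 0 < K0 := by positivity
  set C0 := (K0 / k) ^ (1 / (m - 1)) with hC0
  have hC0p : 0 < C0 := Real.rpow_pos_of_pos (div_pos hK0p hk0) _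
  have hn2 : (0 : ℝ) < (n : ℝ) - 2 := by
    have : (3 : ℝ) ≤ n := by exact_mod_cast hn
    linarith
  set c := (2 - (n : ℝ)) / 2 with hc
  have hc0 : c < 0 := by rw [hc]; linarith
  have main : ∀ R : ℝ, ‖x0‖ < R → ∀ ε : ℝ, 0 < ε → v x0 - σ * u x0 ^ r
      ≤ C0 * R ^ α * (R ^ 2 - ‖x0‖ ^ 2) ^ (-α) + ε * (‖x0‖ ^ 2) ^ c := by
    intro R hR ε hε
    have hx0p : 0 < ‖x0‖ := norm_pos_iff.2 hx0
    have hR0 : 0 < R := hx0p.trans hR
    set Cst := C0 * R ^ α
    have hCst : 0 < Cst := mul_pos hC0p (Real.rpow_pos_of_pos hR0 _)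
    set φ := fun s : ℝ => Cst * (R ^ 2 - s) ^ (-α) + ε * s ^ c with hφ
    set f := fun y : Euc n => v y - σ * u y ^ r - φ (‖y‖ ^ 2) with hf
    by_contra hlt
    rw [not_le] at hlt
    have hfx0 : 0 < f x0 := by simp only [hf, hφ]; linarith
    have hhc : Continuous fun y : Euc n => v y - σ * u y ^ r :=
      hvc.sub (continuous_const.mul (huc.rpow_const fun y => Or.inl (hup y).ne'))
    obtain ⟨M, hM⟩ := (isCompact_closedBall (0 : Euc n) R).exists_bound_of_continuousOn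
      hhc.continuousOn
    obtain ⟨g, ⟨hgM, hgsmall⟩, hg0⟩ : ∃ g, (M + 1 < Cst * g ^ (-α) ∧ g < R ^ 2 - ‖x0‖ ^ 2) ∧
        0 < g := by
      have t := (tendsto_rpow_neg_nhdsGT_zero (neg_lt_zero.2 hα0)).eventually (eventually_gt_atTop ((M + 1) / Cst))
      have hpos : 0 < R ^ 2 - ‖x0‖ ^ 2 := sub_pos.2 (pow_lt_pow_left₀ hR (norm_nonneg _) two_ne_zero)
      obtain ⟨g, ⟨g1, g2⟩, g0⟩ := ((t.and (mem_nhdsWithin_of_mem_nhds
        (Iio_mem_nhds hpos))).and self_mem_nhdsWithin).exists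
      exact ⟨g, ⟨by rw [div_lt_iff₀ hCst] at g1; linarith, g2⟩, g0⟩
    obtain ⟨d, ⟨hdM, hdsmall⟩, hd0⟩ : ∃ d, (M + 1 < ε * d ^ c ∧ d < ‖x0‖ ^ 2) ∧ 0 < d := by
      have t := (tendsto_rpow_neg_nhdsGT_zero hc0).eventually (eventually_gt_atTop ((M + 1) / ε))
      obtain ⟨d, ⟨g1, g2⟩, g0⟩ := ((t.and (mem_nhdsWithin_of_mem_nhds
        (Iio_mem_nhds (by positivity : (0 : ℝ) < ‖x0‖ ^ 2)))).and self_mem_nhdsWithin).exists
      exact ⟨d, ⟨by rw [div_lt_iff₀ hε] at g1; linarith, g2⟩, g0⟩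
    set A : Set (Euc n) := {y | d ≤ ‖y‖ ^ 2 ∧ ‖y‖ ^ 2 ≤ R ^ 2 - g} with hA
    have hsub : A ⊆ Metric.closedBall 0 R := by
      intro y hy
      simp only [Metric.mem_closedBall, dist_zero_right]
      refine le_of_pow_le_pow_left₀ two_ne_zero hR0.le ?_
      linarith [hy.2]
    have hAc : IsCompact A := (isCompact_closedBall (0 : Euc n) R).of_isClosed_subset
      ((isClosed_le continuous_const (continuous_norm.pow 2)).inter
        (isClosed_le (continuous_norm.pow 2) continuous_const)) hsub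
    have hfc : ContinuousOn f A := by
      refine hhc.continuousOn.sub (ContinuousOn.add ?_ ?_)
      · exact continuousOn_const.mul ((continuousOn_const.sub (continuous_norm.pow 2).continuousOn
          ).rpow_const fun y hy => Or.inl (by linarith [hy.2] : (0:ℝ) < R ^ 2 - ‖y‖ ^ 2).ne')
      · exact continuousOn_const.mul ((continuous_norm.pow 2).continuousOn.rpow_const
          fun y hy => Or.inl (hd0.trans_le hy.1).ne')
    have hx0A : x0 ∈ A := ⟨hdsmall.le, by linarith⟩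
    obtain ⟨y, hyA, hymax⟩ := hAc.exists_isMaxOn ⟨x0, hx0A⟩ hfc
    have hfy : 0 < f y := hfx0.trans_le (hymax hx0A)
    have hN0 : 0 < ‖y‖ ^ 2 := hd0.trans_le hyA.1
    have hRN : 0 < R ^ 2 - ‖y‖ ^ 2 := by linarith [hyA.2]
    have hΦ0 : 0 < Cst * (R ^ 2 - ‖y‖ ^ 2) ^ (-α) := by positivity
    have hΓ0 : 0 < ε * (‖y‖ ^ 2) ^ c := by positivity
    have hbd : v y - σ * u y ^ r ≤ M := (le_abs_self _).trans (hM y (hsub hyA))
    have hy1 : d < ‖y‖ ^ 2 := by
      refine lt_of_le_of_ne hyA.1 fun he => ?_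
      simp only [hf, hφ, ← he] at hfy hΦ0
      linarith
    have hy2 : ‖y‖ ^ 2 < R ^ 2 - g := by
      refine lt_of_le_of_ne hyA.2 fun he => ?_
      have e2 : R ^ 2 - (R ^ 2 - g) = g := by ring
      simp only [hf, hφ, he, e2] at hfy
      rw [he] at hΓ0
      linarith
    have hAn : A ∈ 𝓝 y :=
      mem_of_superset (((isOpen_lt continuous_const (continuous_norm.pow 2)).inter
        (isOpen_lt (continuous_norm.pow 2) continuous_const)).mem_nhds ⟨hy1, hy2⟩)
        fun z hz => ⟨(le_of_lt hz.1), (le_of_lt hz.2)⟩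
    have hy0 : y ≠ 0 := by rintro rfl; simp at hN0
    have hcu := hu2.contDiffAt (isOpen_ne.mem_nhds hy0)
    have hcv := hv2.contDiffAt (isOpen_ne.mem_nhds hy0)
    set φ' := fun s : ℝ => Cst * α * (R ^ 2 - s) ^ (-α - 1) + ε * c * s ^ (c - 1)
    set φ'' := Cst * α * (α + 1) * (R ^ 2 - ‖y‖ ^ 2) ^ (-α - 2)
      + ε * c * (c - 1) * (‖y‖ ^ 2) ^ (c - 2)
    have hd : ∀ᶠ s in 𝓝 (‖y‖ ^ 2), HasDerivAt φ (φ' s) s := by
      filter_upwards [eventually_gt_nhds hN0, eventually_lt_nhds (sub_pos.1 hRN)] with s s0 sR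
      refine ((((hasDerivAt_id s).const_sub (R ^ 2)).rpow_const (p := -α)
        (Or.inl (sub_pos.2 sR).ne')).const_mul Cst).fun_add
        ((Real.hasDerivAt_rpow_const (Or.inl s0.ne')).const_mul ε) |>.congr_deriv ?_
      simp only [φ', id_eq]; ring
    have hd2 : HasDerivAt φ' φ'' (‖y‖ ^ 2) := by
      refine ((((hasDerivAt_id (‖y‖ ^ 2)).const_sub (R ^ 2)).rpow_const (p := -α - 1)
        (Or.inl hRN.ne')).const_mul (Cst * α)).fun_add
        ((Real.hasDerivAt_rpow_const (Or.inl hN0.ne')).const_mul (ε * c)) |>.congr_deriv ?_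
      simp only [φ'', id_eq, show -α - 1 - 1 = -α - 2 by ring, show c - 1 - 1 = c - 2 by ring]
      ring
    have ht := laplace_test hcu hcv (hup y) hσ0.le hr0.le hr1 hd hd2 (hymax.isLocalMax hAn)
    obtain ⟨e1, e2⟩ := heq y hy0
    rw [laplacian_eq_sum hcu] at e1
    rw [laplacian_eq_sum hcv] at e2
    set S1 := ∑ i, pd i (pd i u) y
    set S2 := ∑ i, pd i (pd i v) y
    have hS1 : S1 = -(v y ^ p) := by linarith
    have hS2 : S2 = -(u y ^ q) := by linarith
    rw [hS1, hS2] at ht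
    have hh : Cst * (R ^ 2 - ‖y‖ ^ 2) ^ (-α) < v y - σ * u y ^ r := by
      simp only [hf, hφ] at hfy; linarith
    have hgap := algebraic_gap hpq hq hqp (hup y) hr hσ0 hσ (by linarith : σ * u y ^ r < v y)
    set g0 := R ^ 2 - ‖y‖ ^ 2 with hg0d
    have hlap : 4 * φ'' * ‖y‖ ^ 2 + 2 * n * φ' (‖y‖ ^ 2)
        = Cst * g0 ^ (-α - 2) * (4 * α * (α + 1) * ‖y‖ ^ 2 + 2 * n * α * g0) := by
      have e3 : g0 ^ (-α - 1) = g0 ^ (-α - 2) * g0 := by
        rw [← Real.rpow_add_one hRN.ne']; congr 1; ring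
      have e4 : (‖y‖ ^ 2) ^ (c - 1) = (‖y‖ ^ 2) ^ (c - 2) * ‖y‖ ^ 2 := by
        rw [← Real.rpow_add_one hN0.ne']; congr 1; ring
      simp only [φ', φ'', ← hg0d, e3, e4]
      rw [hc]
      ring
    have hup' : 4 * φ'' * ‖y‖ ^ 2 + 2 * n * φ' (‖y‖ ^ 2) ≤ Cst * g0 ^ (-α - 2) * (K0 * R ^ 2) := by
      rw [hlap]
      refine mul_le_mul_of_nonneg_left ?_ (by positivity)
      have w1 : 0 ≤ α * (α + 1) * g0 := by positivity
      have w2 : 0 ≤ (n : ℝ) * α * ‖y‖ ^ 2 := by positivity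
      simp only [hK0, hg0d] at w1 ⊢
      linarith
    have hpow : Cst * g0 ^ (-α - 2) * (K0 * R ^ 2) = k * (Cst * g0 ^ (-α)) ^ m := by
      have e5 : Cst ^ m = Cst * (K0 / k * R ^ 2) := by
        have e7 : Cst ^ (m - 1) = K0 / k * R ^ 2 := by
          rw [Real.mul_rpow hC0p.le (by positivity), hC0, ← Real.rpow_mul (by positivity),
            one_div_mul_cancel hm1.ne', Real.rpow_one, ← Real.rpow_mul hR0.le, hα,
            div_mul_cancel₀ _ hm1.ne', Real.rpow_two]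
        rw [← e7, mul_comm, ← Real.rpow_add_one hCst.ne']; ring_nf
      have e6 : (g0 ^ (-α)) ^ m = g0 ^ (-α - 2) := by
        rw [← Real.rpow_mul hRN.le]; congr 1
        rw [hα]; field_simp; ring
      rw [Real.mul_rpow hCst.le (by positivity), e5, e6]
      field_simp
    have hstrict : k * (Cst * g0 ^ (-α)) ^ m < k * (v y - σ * u y ^ r) ^ m :=
      mul_lt_mul_of_pos_left (Real.rpow_lt_rpow hΦ0.le hh (by linarith)) hk0
    linarith
  -- let `ε → 0`, then `R → ∞`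
  have hR : ∀ R : ℝ, ‖x0‖ < R → v x0 - σ * u x0 ^ r
      ≤ C0 * R ^ α * (R ^ 2 - ‖x0‖ ^ 2) ^ (-α) := by
    intro R hR
    refine le_of_forall_pos_le_add fun δ hδ => ?_
    have hp0 : 0 < (‖x0‖ ^ 2) ^ c :=
      Real.rpow_pos_of_pos (by have := norm_pos_iff.2 hx0; positivity) _
    have := main R hR (δ / (‖x0‖ ^ 2) ^ c) (div_pos hδ hp0)
    rwa [div_mul_cancel₀ _ hp0.ne'] at this
  have hlim : Tendsto (fun R : ℝ => C0 * 2 ^ α * R ^ (-α)) atTop (𝓝 0) := by
    simpa using (tendsto_rpow_neg_atTop hα0).const_mul (C0 * 2 ^ α)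
  have h0 : v x0 - σ * u x0 ^ r ≤ 0 := by
    refine ge_of_tendsto hlim ?_
    filter_upwards [eventually_ge_atTop (2 * ‖x0‖), eventually_gt_atTop ‖x0‖] with R h2 h1
    have hR0 : 0 < R := (norm_nonneg x0).trans_lt h1
    refine (hR R h1).trans ?_
    have hb : R ^ 2 / 2 ≤ R ^ 2 - ‖x0‖ ^ 2 := by
      have := pow_le_pow_left₀ (by positivity) h2 2
      linarith [sq_nonneg ‖x0‖]
    calc C0 * R ^ α * (R ^ 2 - ‖x0‖ ^ 2) ^ (-α) ≤ C0 * R ^ α * (R ^ 2 / 2) ^ (-α) :=
          mul_le_mul_of_nonneg_left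
            (Real.rpow_le_rpow_of_nonpos (by positivity) hb (by linarith)) (by positivity)
      _ = C0 * 2 ^ α * R ^ (-α) := by
          rw [Real.div_rpow (by positivity) (by norm_num), ← Real.rpow_two,
            ← Real.rpow_mul hR0.le, Real.rpow_neg (by norm_num : (0:ℝ) ≤ 2), div_inv_eq_mul]
          have : R ^ α * R ^ (2 * -α) = R ^ (-α) := by
            rw [← Real.rpow_add hR0]; ring_nf
          rw [← this]; ring
  linarith

end Vale.Agent.P100T
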