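import Vale.Agent.P100T.Main
import Vale.Agent.P100T.Bridge
import Vale.Agent.P100T.CertFun
import Vale.Agent.P100T.Comparison

/-!
From a certificate along an orbit to nonexistence: smooth bounded multipliers on the whole line,
calibrated on `τ ≤ τb`, coercive in every dimension below the critical one.
-/

open Set Filter Topology
open scoped ContDiff

noncomputable section

namespace Vale.Agent.P100T

open Vale.Agent.P100

/-- A function agreeing with `f` on `τ ≤ b₁` and defined on the whole line. -/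
def extend (b b₁ : ℝ) (f : ℝ → ℝ) (τ : ℝ) : ℝ :=
  if τ < b then Real.smoothTransition (((b₁ + b) / 2 - τ) / ((b₁ + b) / 2 - b₁)) * f τ else 0

lemma extend_eq {b b₁ τ : ℝ} {f : ℝ → ℝ} (hb : b₁ < b) (hτ : τ ≤ b₁) :
    extend b b₁ f τ = f τ := by
  rw [extend, if_pos (hτ.trans_lt hb), Real.smoothTransition.one_of_one_le, one_mul]
  rw [le_div_iff₀ (by linarith)]; linarith

lemma extend_eventually_zero {b b₁ τ : ℝ} {f : ℝ → ℝ} (hb : b₁ < b) (hτ : (b₁ + b) / 2 < τ) :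
    extend b b₁ f =ᶠ[𝓝 τ] fun _ => 0 := by
  filter_upwards [eventually_gt_nhds hτ] with x hx
  rw [extend]
  split_ifs
  · rw [Real.smoothTransition.zero_of_nonpos, zero_mul]
    exact div_nonpos_of_nonpos_of_nonneg (by linarith) (by linarith)
  · rfl

lemma continuous_extend {b b₁ : ℝ} {f : ℝ → ℝ} (hb : b₁ < b) (hf : ContinuousOn f (Iio b)) :
    Continuous (extend b b₁ f) := continuous_iff_continuousAt.2 fun τ => by
  rcases lt_or_ge τ b with h | h
  · refine ContinuousAt.congr (f := fun x =>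
      Real.smoothTransition (((b₁ + b) / 2 - x) / ((b₁ + b) / 2 - b₁)) * f x) ?_
      ((eventually_lt_nhds h).mono fun x hx => (if_pos hx).symm)
    exact (Real.smoothTransition.continuous.comp (by fun_prop)).continuousAt.mul
      (hf.continuousAt (Iio_mem_nhds h))
  · exact continuousAt_const.congr (extend_eventually_zero hb (by linarith)).symm

lemma contDiff_extend {b b₁ : ℝ} {f : ℝ → ℝ} (hb : b₁ < b) (hf : ContDiffOn ℝ 1 f (Iio b)) :
    ContDiff ℝ 1 (extend b b₁ f) := contDiff_iff_contDiffAt.2 fun τ => by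
  rcases lt_or_ge τ b with h | h
  · refine ContDiffAt.congr_of_eventuallyEq (f := fun x =>
      Real.smoothTransition (((b₁ + b) / 2 - x) / ((b₁ + b) / 2 - b₁)) * f x) ?_
      ((eventually_lt_nhds h).mono fun x hx => if_pos hx)
    exact ((Real.smoothTransition.contDiff (n := 1)).comp (by fun_prop)).contDiffAt.mul
      (hf.contDiffAt (Iio_mem_nhds h))
  · exact contDiffAt_const.congr_of_eventuallyEq (extend_eventually_zero hb (by linarith))

lemma deriv_extend {b b₁ τ : ℝ} {f : ℝ → ℝ} (hb : b₁ < b) (hτ : τ < b₁) :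
    deriv (extend b b₁ f) τ = deriv f τ :=
  Filter.EventuallyEq.deriv_eq ((eventually_lt_nhds hτ).mono fun _ hx => extend_eq hb hx.le)

/-- An orbit in `σ`, `W = L dσ/dτ` and `z = 1/R` on `τ < b`, with `R` infinite only at `τ₀`. -/
structure IsCurve (C : CPar) (τ₀ b : ℝ) (S W z : ℝ → ℝ) : Prop where
  smoothS : ContDiffOn ℝ 1 S (Iio b)
  smoothW : ContDiffOn ℝ 1 W (Iio b)
  smoothz : ContDiffOn ℝ 1 z (Iio b)
  derivS : ∀ τ < b, HasDerivAt S (W τ / C.L (S τ)) τ
  derivz : ∀ τ < b, HasDerivAt z (C.dz (S τ) (W τ) (z τ)) τ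
  S_pos : ∀ τ < b, 0 < S τ
  L_pos : ∀ τ < b, 0 < C.L (S τ)
  z_ne : ∀ τ < b, τ ≠ τ₀ → z τ ≠ 0
  texp : ∀ τ < b, Real.exp τ = S τ - z τ * CPar.V (S τ) (W τ)

/-- Coercivity in dimension `n < N` from a uniform calibration off one value of `τ`. -/
theorem exists_coercive_of {Φ : TPar} {p q N τb τ₀ a K : ℝ} {n : ℕ} (hn0 : (0 : ℝ) < n)
    (hnN : (n : ℝ) < N) (ha : 0 < a) (hK : 0 ≤ K) (hΦ : Φ.Smooth)
    (h : ∀ τ ≤ τb, τ ≠ τ₀ → Φ.Calibrated p q N a K τ) :
    ∃ e : ℝ, 0 < e ∧ Φ.Coercive p q n τb e := by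
  set δ := 1 / (n : ℝ) - 1 / N with hδ
  have hδ0 : 0 < δ := sub_pos.2 (one_div_lt_one_div_of_lt hn0 hnN)
  set M := (1 + 2 * (1 + K)) *
      (1 + (2 * (1 + K) * K ^ 2 + K + 2) * (4 * (1 + K ^ 2) / a ^ 2)) * (2 + K ^ 2) with hM
  have hM0 : 0 < M := by positivity
  refine ⟨min a δ / M, div_pos (lt_min ha hδ0) hM0, coercive_of_punctured hΦ (τ0 := τ₀) ?_⟩
  intro τ hτ hτ0 A C B Q hA hB hC hQ
  obtain ⟨σ, cB, cQ, hσ, h0, h1, hm1, hl, hdet, hgap⟩ := h τ hτ hτ0
  have hb := scalM_le_gap ha hσ hl hm1 h0 h1 hdet hA hB hC hQ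
  set m1 := (Φ.froz p q τ).m1
  set m2 := (Φ.froz p q τ).m2
  set T := Q + (1 - (m1 * σ + m2) / 2) * B - m1 * (C - σ * B) / 2 with hT
  have hg : 0 ≤ gapM σ cB cQ A C B Q := by
    have := mul_nonneg hQ (cross_nonneg (σ := σ) hA hB hC)
    have : 0 ≤ A * B - C ^ 2 := sub_nonneg.2 hC
    simp only [gapM]; positivity
  rw [Φ.scalF_dim p q τ (hn0.trans hnN).ne' hn0.ne', ← hδ,
    show ((-Q - B) + (m1 * C + m2 * B) / 2) ^ 2 = T ^ 2 by simp only [hT]; ring]
  have h3 := hgap A C B Q hA hB hC hQ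
  calc min a δ / M * TPar.scalM A B Q
      ≤ min a δ / M * (M * (gapM σ cB cQ A C B Q + T ^ 2)) := by
        refine mul_le_mul_of_nonneg_left ?_ (div_pos (lt_min ha hδ0) hM0).le
        simp only [hM]; linarith
    _ = min a δ * gapM σ cB cQ A C B Q + min a δ * T ^ 2 := by field_simp
    _ ≤ a * gapM σ cB cQ A C B Q + δ * T ^ 2 :=
        add_le_add (mul_le_mul_of_nonneg_right (min_le_left _ _) hg)
          (mul_le_mul_of_nonneg_right (min_le_right _ _) (sq_nonneg _))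
    _ ≤ _ := by linarith

namespace CPar

variable (C : CPar) (τb b : ℝ) (S W z : ℝ → ℝ)

/-- The exponent of the weight. -/
def wexp : ℝ := C.M * (C.p + 1) * (C.q + 1) / (C.p * C.q - 1)

/-- `τ`-dependent multipliers. -/
def lamF (τ : ℝ) : ℝ := (C.wexp * C.q - C.a (S τ) (W τ)) / (C.q + 1)
def ccF (τ : ℝ) : ℝ := C.c (S τ)
def ddF (τ : ℝ) : ℝ := 1 - (C.mu (S τ) + C.c (S τ)) * S τ
def kXF (τ : ℝ) : ℝ := C.kz (S τ) (W τ) (z τ)
def kYF (τ : ℝ) : ℝ := 1 - C.mu (S τ) * (((C.q + 1) * Real.exp τ + (C.p + 1))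
  / ((C.p + 1) * (C.q + 1))) - S τ * C.kz (S τ) (W τ) (z τ)

/-- The multipliers on the whole line. -/
def toTPar : TPar where
  s := C.wexp
  Psi := fun τ => ∫ x in τb..τ, extend b ((τb + b) / 2) (C.lamF S W) x
  lam := extend b ((τb + b) / 2) (C.lamF S W)
  cc := extend b ((τb + b) / 2) (C.ccF S)
  cc' := deriv (extend b ((τb + b) / 2) (C.ccF S))
  dd := extend b ((τb + b) / 2) (C.ddF S)
  dd' := deriv (extend b ((τb + b) / 2) (C.ddF S))
  kX := extend b ((τb + b) / 2) (C.kXF S W z)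
  kX' := deriv (extend b ((τb + b) / 2) (C.kXF S W z))
  kY := extend b ((τb + b) / 2) (C.kYF S W z)
  kY' := deriv (extend b ((τb + b) / 2) (C.kYF S W z))

/-- Side conditions on the exponents. -/
structure Adm : Prop where
  hN : 4 < C.N
  hp : 0 < C.p
  hq : 0 < C.q
  crit : C.N * ((C.p + 1) * (C.q + 1) - (C.p + 1) - (C.q + 1)) = 2 * (C.p + 1) * (C.q + 1)

variable {C τb b S W z} {τ₀ τ : ℝ}

lemma Adm.pq (h : C.Adm) : C.p * C.q - 1 = (C.p + 1) * (C.q + 1) * (2 / C.N) := by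
  have := h.crit
  have : (0:ℝ) < C.N := by linarith [h.hN]
  field_simp
  linear_combination h.crit

lemma Adm.one_lt (h : C.Adm) : 1 < C.p * C.q := by
  have := h.pq
  have := h.hp; have := h.hq
  have : (0:ℝ) < C.N := by linarith [h.hN]
  have : 0 < (C.p + 1) * (C.q + 1) * (2 / C.N) := by positivity
  linarith

lemma Adm.wexp_eq (h : C.Adm) : C.wexp = C.M * (C.N / 2) := by
  have := h.hp; have := h.hq
  have : (0:ℝ) < C.N := by linarith [h.hN]
  rw [wexp, h.pq]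
  field_simp

lemma K_pos {s : ℝ} (h : C.Adm) (hs : 0 < s) : 0 < C.K s := by
  have := h.hp; have := h.hq
  unfold K; positivity

lemma froz_a (hA : C.Adm) (hb : τb < b) (hτ : τ ≤ τb) :
    ((C.toTPar τb b S W z).froz C.p C.q τ).a = C.a (S τ) (W τ) := by
  have := hA.hq
  have e := extend_eq (f := C.lamF S W) (by linarith : (τb + b) / 2 < b)
    (by linarith : τ ≤ (τb + b) / 2)
  simp only [TPar.froz, toTPar, e, lamF]
  field_simp
  ring

lemma contDiffOn_ccF (h : IsCurve C τ₀ b S W z) : ContDiffOn ℝ 1 (C.ccF S) (Iio b) := by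
  have := h.smoothS
  unfold ccF c
  fun_prop

lemma contDiffOn_ddF (hA : C.Adm) (h : IsCurve C τ₀ b S W z) :
    ContDiffOn ℝ 1 (C.ddF S) (Iio b) := by
  have := h.smoothS
  have hK : ∀ τ ∈ Iio b, C.N * C.K (S τ) ≠ 0 := fun τ hτ =>
    mul_ne_zero (by linarith [hA.hN]) (K_pos hA (h.S_pos τ hτ)).ne'
  unfold ddF c mu
  simp only [K] at hK ⊢
  fun_prop (disch := assumption)

lemma contDiffOn_kXF (hA : C.Adm) (h : IsCurve C τ₀ b S W z) :
    ContDiffOn ℝ 1 (C.kXF S W z) (Iio b) := by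
  have := h.smoothS; have := h.smoothW; have := h.smoothz
  have hK : ∀ τ ∈ Iio b, C.N * C.K (S τ) ≠ 0 := fun τ hτ =>
    mul_ne_zero (by linarith [hA.hN]) (K_pos hA (h.S_pos τ hτ)).ne'
  have hK' : ∀ τ ∈ Iio b, C.K (S τ) ≠ 0 := fun τ hτ => (K_pos hA (h.S_pos τ hτ)).ne'
  have : C.p + 1 ≠ 0 := by linarith [hA.hp]
  unfold kXF kz ce nu l c mu CPar.V
  simp only [K] at hK hK' ⊢
  fun_prop (disch := assumption)

lemma contDiffOn_kYF (hA : C.Adm) (h : IsCurve C τ₀ b S W z) :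
    ContDiffOn ℝ 1 (C.kYF S W z) (Iio b) := by
  have := h.smoothS; have h2 := contDiffOn_kXF hA h
  have hK : ∀ τ ∈ Iio b, C.N * C.K (S τ) ≠ 0 := fun τ hτ =>
    mul_ne_zero (by linarith [hA.hN]) (K_pos hA (h.S_pos τ hτ)).ne'
  have : (C.p + 1) * (C.q + 1) ≠ 0 :=
    mul_ne_zero (by linarith [hA.hp]) (by linarith [hA.hq])
  unfold kXF at h2
  unfold kYF mu
  simp only [K] at hK ⊢
  fun_prop (disch := assumption)

lemma continuousOn_a (hA : C.Adm) (h : IsCurve C τ₀ b S W z) :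
    ContinuousOn (fun τ => C.a (S τ) (W τ)) (Iio b) := by
  have := h.smoothS.continuousOn; have := h.smoothW.continuousOn
  have hK : ∀ τ ∈ Iio b, C.N * C.K (S τ) ≠ 0 := fun τ hτ =>
    mul_ne_zero (by linarith [hA.hN]) (K_pos hA (h.S_pos τ hτ)).ne'
  have hK' : ∀ τ ∈ Iio b, C.K (S τ) ≠ 0 := fun τ hτ => (K_pos hA (h.S_pos τ hτ)).ne'
  have hL : ∀ τ ∈ Iio b, C.L (S τ) ≠ 0 := fun τ hτ => (h.L_pos τ hτ).ne'
  unfold a l mu CPar.V
  simp only [K, L] at hK hK' hL ⊢
  fun_prop (disch := assumption)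

lemma continuous_lam (hA : C.Adm) (h : IsCurve C τ₀ b S W z) (hb : τb < b) :
    Continuous (C.toTPar τb b S W z).lam := by
  refine continuous_extend (by linarith) ?_
  have := continuousOn_a hA h
  unfold lamF
  fun_prop

lemma toTPar_smooth (hA : C.Adm) (h : IsCurve C τ₀ b S W z) (hb : τb < b) :
    (C.toTPar τb b S W z).Smooth := by
  have hl := continuous_lam (τb := τb) hA h hb
  have hb' : (τb + b) / 2 < b := by linarith
  have k1 := contDiff_extend hb' (contDiffOn_ccF h)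
  have k2 := contDiff_extend hb' (contDiffOn_ddF hA h)
  have k3 := contDiff_extend hb' (contDiffOn_kXF hA h)
  have k4 := contDiff_extend hb' (contDiffOn_kYF hA h)
  exact ⟨fun t => (hl.integral_hasStrictDerivAt τb t).hasDerivAt,
    fun t => (k1.differentiable one_ne_zero t).hasDerivAt, fun t => (k2.differentiable one_ne_zero t).hasDerivAt,
    fun t => (k3.differentiable one_ne_zero t).hasDerivAt, fun t => (k4.differentiable one_ne_zero t).hasDerivAt,
    hl, k1.continuous_deriv le_rfl, k2.continuous_deriv le_rfl, k3.continuous_deriv le_rfl,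
    k4.continuous_deriv le_rfl⟩

/-- The point `P` along the curve. -/
abbrev ptAt (C : CPar) (S W z : ℝ → ℝ) (τ : ℝ) : Pt := C.pt (S τ) (W τ) (z τ)

lemma good_ptAt (hA : C.Adm) (h : IsCurve C τ₀ b S W z) (hτ : τ < b) (h0 : τ ≠ τ₀) :
    (C.ptAt S W z τ).Good where
  hN := by simp only [pt]; linarith [hA.hN]
  hp := by simp only [pt]; linarith [hA.hp]
  hq := by simp only [pt]; linarith [hA.hq]
  hK := (K_pos hA (h.S_pos τ hτ)).ne'
  hL := (h.L_pos τ hτ).ne'
  hR := by simpa [pt] using h.z_ne τ hτ h0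
  crit := hA.crit

/-- The derivatives along the curve are those of `Pt`. -/
lemma hasDerivAt_pt (hA : C.Adm) (h : IsCurve C τ₀ b S W z) (hτ : τ < b) (h0 : τ ≠ τ₀) :
    HasDerivAt (fun x => (C.ptAt S W z x).c) (C.ptAt S W z τ).c' τ ∧
    HasDerivAt (fun x => (C.ptAt S W z x).d) (C.ptAt S W z τ).dd τ ∧
    HasDerivAt (fun x => (C.ptAt S W z x).kX) (C.ptAt S W z τ).dkX τ ∧
    HasDerivAt (fun x => (C.ptAt S W z x).kY) (C.ptAt S W z τ).dkY τ := by
  have hz := h.z_ne τ hτ h0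
  have hN : C.N ≠ 0 := by linarith [hA.hN]
  have hp : C.p + 1 ≠ 0 := by linarith [hA.hp]
  have hq : C.q + 1 ≠ 0 := by linarith [hA.hq]
  have hK := (K_pos hA (h.S_pos τ hτ)).ne'
  have hL := (h.L_pos τ hτ).ne'
  set P := C.ptAt S W z τ with hP
  have fσ : P.σ = S τ := rfl
  have fR : P.R = 1 / z τ := rfl
  have ft : P.t = Real.exp τ := (h.texp τ hτ).symm
  have dS : HasDerivAt S P.dσ τ := by
    refine (h.derivS τ hτ).congr_deriv ?_
    simp only [Pt.dσ, hP, pt_W hz]; rfl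
  have dR : HasDerivAt (fun x => 1 / z x) P.dR τ := by
    simp only [one_div]
    refine ((h.derivz τ hτ).inv hz).congr_deriv ?_
    simp only [Pt.dR, hP, pt_Kp hz hN hp hq hK, dz]
    simp only [pt, Pt.L, CPar.L] at hL ⊢
    field_simp
  have dt : HasDerivAt Real.exp P.t τ := ft ▸ Real.hasDerivAt_exp τ
  have ev : ∀ᶠ x in 𝓝 τ, x < b ∧ z x ≠ 0 :=
    (eventually_lt_nhds hτ).and (((h.derivz τ hτ).continuousAt).eventually_ne hz)
  -- `e` in terms of `σ`, `R`, `exp`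
  set eF : ℝ → ℝ := fun x => ((C.p + 1) * (C.q + 1) * S x
    + 1 / z x * ((C.q + 1) * Real.exp x + (C.p + 1))) / (C.N * ((C.p + 1) + (C.q + 1) * S x))
  have hKd : C.N * ((C.p + 1) + (C.q + 1) * S τ) ≠ 0 := mul_ne_zero hN hK
  have de : HasDerivAt eF P.de τ := by
    refine ((((dS.const_mul ((C.p + 1) * (C.q + 1))).add
      (dR.mul ((dt.const_mul (C.q + 1)).add_const (C.p + 1)))).div
      (((dS.const_mul (C.q + 1)).const_add (C.p + 1)).const_mul C.N) hKd)).congr_deriv ?_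
    simp only [Pt.de, Pt.e, Pt.K, Pi.add_apply, Pi.mul_apply, ft, fR, fσ, show P.p = C.p from rfl, show P.q = C.q from rfl,
      show P.N = C.N from rfl]
    generalize P.dσ = X1
    generalize P.dR = X2
    simp only [K] at hK
    field_simp
    ring
  have evE : (fun x => (C.ptAt S W z x).e) =ᶠ[𝓝 τ] eF := ev.mono fun x hx => by
    simp only [Pt.e, Pt.K, pt, eF, ← h.texp x hx.1]
  have de' : HasDerivAt (fun x => (C.ptAt S W z x).e) P.de τ := de.congr_of_eventuallyEq evE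
  have dmu : HasDerivAt (fun x => (C.ptAt S W z x).mu) P.dmu τ := by
    show HasDerivAt (fun x => (C.N - 1) * (C.p + 1) * (C.q + 1)
      / (C.N * ((C.p + 1) + (C.q + 1) * S x))) P.dmu τ
    refine (((hasDerivAt_const τ ((C.N - 1) * (C.p + 1) * (C.q + 1))).div
      (((dS.const_mul (C.q + 1)).const_add (C.p + 1)).const_mul C.N) hKd)).congr_deriv ?_
    simp only [Pt.dmu, Pt.mu, Pt.K]
    simp only [hP, pt]
    simp only [K] at hK
    field_simp
    ring
  have dc : HasDerivAt (fun x => (C.ptAt S W z x).c) P.c' τ := by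
    show HasDerivAt (fun x => C.c1 - C.G * (S x - C.si)) P.c' τ
    refine (((h.derivS τ hτ).sub_const C.si).const_mul C.G).const_sub C.c1 |>.congr_deriv ?_
    simp [hP, pt, c']
  have ddd : HasDerivAt (fun x => (C.ptAt S W z x).d) P.dd τ := by
    simp only [Pt.d]
    refine (((dmu.add dc).mul dS).const_sub 1).congr_deriv ?_
    simp only [Pt.dd, Pi.add_apply]
    rfl
  have dk : HasDerivAt (fun x => (C.ptAt S W z x).k) P.dk τ := by
    simp only [Pt.k, Pt.be1]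
    refine ((dmu.mul ((de'.const_mul (C.N / (C.p + 1))).sub_const 1)).sub dc).congr_deriv ?_
    simp only [Pt.dk, Pt.be1]
    rfl
  have dkX : HasDerivAt (fun x => (C.ptAt S W z x).kX) P.dkX τ := by
    simp only [Pt.kX]
    have hR : 1 / z τ ≠ 0 := by simpa using hz
    refine ((dk.div (dR : HasDerivAt (fun x => (C.ptAt S W z x).R) P.dR τ) hR)).congr_deriv ?_
    show (P.dk * (1 / z τ) - P.k * P.dR) / (1 / z τ) ^ 2 = P.dkX
    simp only [Pt.dkX, fR]
    field_simp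
  refine ⟨dc, ddd, dkX, ?_⟩
  have evY : (fun x => (C.ptAt S W z x).kY) =ᶠ[𝓝 τ] fun x => 1 - (C.ptAt S W z x).mu
      * (((C.q + 1) * Real.exp x + (C.p + 1)) / ((C.p + 1) * (C.q + 1)))
      - S x * (C.ptAt S W z x).kX := ev.mono fun x hx => by
    simp only [Pt.kY, Pt.T1, pt, ← h.texp x hx.1]
  refine HasDerivAt.congr_of_eventuallyEq ?_ evY
  refine (((dmu.mul (((dt.const_mul (C.q + 1)).add_const (C.p + 1)).div_const
    ((C.p + 1) * (C.q + 1)))).const_sub 1).sub (dS.mul dkX)).congr_deriv ?_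
  show -(P.dmu * (((C.q + 1) * Real.exp τ + (C.p + 1)) / ((C.p + 1) * (C.q + 1)))
      + P.mu * ((C.q + 1) * P.t / ((C.p + 1) * (C.q + 1)))) - (P.dσ * P.kX + S τ * P.dkX)
    = -(P.dmu * (((C.q + 1) * P.t + (C.p + 1)) / ((C.p + 1) * (C.q + 1))) + P.mu * P.t / (C.p + 1)
      + P.dσ * P.kX + S τ * P.dkX)
  rw [ft]
  field_simp
  ring

lemma toTPar_matches (hA : C.Adm) (h : IsCurve C τ₀ b S W z) (hb : τb < b) (hτ : τ ≤ τb)
    (h0 : τ ≠ τ₀) : Matches (C.toTPar τb b S W z) τ (C.ptAt S W z τ) := by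
  have hτb := hτ.trans_lt hb
  have hb' : (τb + b) / 2 < b := by linarith
  have hτ' : τ < (τb + b) / 2 := by linarith
  have hz := h.z_ne τ hτb h0
  have hN : C.N ≠ 0 := by linarith [hA.hN]
  have hp : C.p + 1 ≠ 0 := by linarith [hA.hp]
  have hq : C.q + 1 ≠ 0 := by linarith [hA.hq]
  have hK := (K_pos hA (h.S_pos τ hτb)).ne'
  obtain ⟨dc, dd, dX, dY⟩ := hasDerivAt_pt hA h hτb h0
  have ev : ∀ᶠ x in 𝓝 τ, x < b ∧ z x ≠ 0 :=
    (eventually_lt_nhds hτb).and (((h.derivz τ hτb).continuousAt).eventually_ne hz)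
  have ha : ((C.toTPar τb b S W z).froz C.p C.q τ).a = (C.ptAt S W z τ).a := by
    rw [froz_a hA hb hτ, pt_a hz hN hp hq hK]
  have eX : (fun x => (C.ptAt S W z x).kX) =ᶠ[𝓝 τ] C.kXF S W z :=
    ev.mono fun x hx => pt_kX hx.2 hN hp hq (K_pos hA (h.S_pos x hx.1)).ne'
  have eY : (fun x => (C.ptAt S W z x).kY) =ᶠ[𝓝 τ] C.kYF S W z := (ev.and eX).mono fun x hx => by
    simp only [Pt.kY, hx.2, kXF, kYF, Pt.T1, pt_mu]
    simp only [pt, ← h.texp x hx.1.1]
  refine
    { ht := h.texp τ hτb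
      ha := ha
      hb := ?_
      hc := extend_eq hb' hτ'.le
      hd := extend_eq hb' hτ'.le
      hkX := (extend_eq hb' hτ'.le).trans eX.eq_of_nhds.symm
      hkY := (extend_eq hb' hτ'.le).trans eY.eq_of_nhds.symm
      hc' := (deriv_extend hb' hτ').trans dc.deriv
      hd' := (deriv_extend hb' hτ').trans dd.deriv
      hkX' := (deriv_extend hb' hτ').trans (eX.deriv_eq.symm.trans dX.deriv)
      hkY' := (deriv_extend hb' hτ').trans (eY.deriv_eq.symm.trans dY.deriv) }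
  simp only [Pt.b, pt_H hz hN hp hq hK, pt_a hz hN hp hq hK]
  have e := extend_eq (f := C.lamF S W) hb' hτ'.le
  simp only [TPar.froz, toTPar, e, lamF, pt]
  have hL := (h.L_pos τ hτb).ne'
  have hpq : C.p * C.q - 1 ≠ 0 := (sub_pos.2 hA.one_lt).ne'
  simp only [wexp, a]
  simp only [L] at hL ⊢
  field_simp
  ring

/-- Bounds and margins of the certificate on `τ ≤ τb`. -/
structure Margins (C : CPar) (τb : ℝ) (S W z : ℝ → ℝ) (m K : ℝ) : Prop where
  hS : ∀ τ ≤ τb, |S τ| ≤ K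
  ha : ∀ τ ≤ τb, |C.a (S τ) (W τ)| ≤ K
  hl : ∀ τ ≤ τb, |C.l (S τ) (W τ)| ≤ K
  hk : ∀ τ ≤ τb, |C.kz (S τ) (W τ) (z τ)| ≤ K
  h2K : ∀ τ ≤ τb, C.P2 (S τ) (W τ) ≤ K
  h0K : ∀ τ ≤ τb, C.P0 (S τ) (W τ) * (1 + |z τ|) ^ 2 ≤ K
  h2 : ∀ τ ≤ τb, m ≤ C.P2 (S τ) (W τ)
  h3 : ∀ τ ≤ τb, (C.P1 (S τ) (W τ) * (1 + |z τ|)) ^ 2 + m
    ≤ 4 * C.P2 (S τ) (W τ) * (C.P0 (S τ) (W τ) * (1 + |z τ|) ^ 2)
  h4 : ∀ τ ≤ τb, m ≤ C.rho (S τ) (W τ) (z τ)
  h5 : ∀ τ ≤ τb, m ≤ (1 + C.l (S τ) (W τ) * z τ) / (1 + |z τ|)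
  hlam : ∀ᶠ τ in atBot, C.a (S τ) (W τ) ≤ C.wexp * C.q

lemma toTPar_bounded (hA : C.Adm) (h : IsCurve C τ₀ b S W z) (hb : τb < b) {m K : ℝ}
    (hM : Margins C τb S W z m K) : ∃ K', (C.toTPar τb b S W z).Bounded τb K' := by
  have hl := continuous_lam (τb := τb) hA h hb
  have hK0 : 0 ≤ K := (abs_nonneg _).trans (hM.hS τb le_rfl)
  have hN0 : 0 < C.N := by linarith [hA.hN]
  have hp1 : 0 < C.p + 1 := by linarith [hA.hp]
  have hq1 : 0 < C.q + 1 := by linarith [hA.hq]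
  obtain ⟨T, hT⟩ := eventually_atBot.1 hM.hlam
  set T' := min T τb
  obtain ⟨P, hP⟩ := (isCompact_Icc (a := T') (b := τb)).exists_bound_of_continuousOn
    (f := (C.toTPar τb b S W z).Psi) ((intervalIntegral.continuous_primitive
      (fun _ _ => hl.intervalIntegrable _ _) τb).continuousOn)
  have hext : ∀ (f : ℝ → ℝ) x, x ≤ τb → extend b ((τb + b) / 2) f x = f x := fun f x hx =>
    extend_eq (by linarith) (by linarith)
  set mb := (C.N - 1) * (C.p + 1) * (C.q + 1) / (C.N * (C.p + 1))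
  set tb := ((C.q + 1) * Real.exp τb + (C.p + 1)) / ((C.p + 1) * (C.q + 1))
  refine ⟨max (max P ((|C.wexp * C.q| + K) / (C.q + 1))) (max (max (|C.c1| + |C.G| * (K + |C.si|))
    (1 + (mb + (|C.c1| + |C.G| * (K + |C.si|))) * K)) (max K (1 + mb * tb + K * K))), fun τ hτ => ?_⟩
  have hτb := hτ.trans_lt hb
  have hS0 := h.S_pos τ hτb
  have hmu0 : 0 ≤ C.mu (S τ) :=
    div_nonneg (mul_nonneg (mul_nonneg (by linarith [hA.hN]) hp1.le) hq1.le)
      (mul_nonneg hN0.le (K_pos hA hS0).le)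
  have hmu : C.mu (S τ) ≤ mb := by
    refine div_le_div_of_nonneg_left (mul_nonneg (mul_nonneg (by linarith [hA.hN]) hp1.le) hq1.le)
      (mul_pos hN0 hp1) (mul_le_mul_of_nonneg_left ?_ hN0.le)
    unfold CPar.K; nlinarith
  have hc : |C.c (S τ)| ≤ |C.c1| + |C.G| * (K + |C.si|) := by
    unfold c
    refine (abs_sub _ _).trans (add_le_add le_rfl ?_)
    rw [abs_mul]
    exact mul_le_mul_of_nonneg_left ((abs_sub _ _).trans (by linarith [hM.hS τ hτ])) (abs_nonneg _)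
  refine ⟨?_, ?_, ?_, ?_, ?_, ?_⟩
  · refine le_trans ?_ ((le_max_left _ _).trans (le_max_left _ _))
    rcases le_or_gt T' τ with h' | h'
    · exact (le_abs_self _).trans (hP τ ⟨h', hτ⟩)
    · have hsplit : (C.toTPar τb b S W z).Psi τ = (C.toTPar τb b S W z).Psi T'
          - ∫ x in τ..T', (C.toTPar τb b S W z).lam x := by
        refine eq_sub_of_add_eq ?_
        exact intervalIntegral.integral_add_adjacent_intervals (hl.intervalIntegrable _ _)
          (hl.intervalIntegrable _ _)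
      rw [hsplit]
      have hnn : 0 ≤ ∫ x in τ..T', (C.toTPar τb b S W z).lam x := by
        refine intervalIntegral.integral_nonneg h'.le fun x hx => ?_
        show 0 ≤ extend b ((τb + b) / 2) (C.lamF S W) x
        rw [hext _ x (hx.2.trans (min_le_right _ _))]
        exact div_nonneg (sub_nonneg.2 (hT x (hx.2.trans (min_le_left _ _)))) hq1.le
      have := (le_abs_self _).trans (hP T' ⟨le_rfl, min_le_right _ _⟩)
      linarith
  · refine le_trans ?_ ((le_max_right _ _).trans (le_max_left _ _))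
    show |extend b ((τb + b) / 2) (C.lamF S W) τ| ≤ _
    rw [hext _ τ hτ, lamF, abs_div, abs_of_pos hq1]
    exact div_le_div_of_nonneg_right ((abs_sub _ _).trans (by linarith [hM.ha τ hτ])) hq1.le
  · refine le_trans ?_ (((le_max_left _ _).trans (le_max_left _ _)).trans (le_max_right _ _))
    show |extend b ((τb + b) / 2) (C.ccF S) τ| ≤ _
    rwa [hext _ τ hτ]
  · refine le_trans ?_ (((le_max_right _ _).trans (le_max_left _ _)).trans (le_max_right _ _))
    show |extend b ((τb + b) / 2) (C.ddF S) τ| ≤ _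
    rw [hext _ τ hτ, ddF]
    refine (abs_sub _ _).trans (add_le_add abs_one.le ?_)
    rw [abs_mul]
    refine mul_le_mul ((abs_add_le _ _).trans (add_le_add ?_ hc)) (hM.hS τ hτ) (abs_nonneg _) ?_
    · rwa [abs_of_nonneg hmu0]
    · linarith [abs_nonneg (C.c (S τ))]
  · refine le_trans ?_ (((le_max_left _ _).trans (le_max_right _ _)).trans (le_max_right _ _))
    show |extend b ((τb + b) / 2) (C.kXF S W z) τ| ≤ _
    rw [hext _ τ hτ]; exact hM.hk τ hτ
  · refine le_trans ?_ (((le_max_right _ _).trans (le_max_right _ _)).trans (le_max_right _ _))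
    show |extend b ((τb + b) / 2) (C.kYF S W z) τ| ≤ _
    rw [hext _ τ hτ, kYF]
    refine (abs_sub _ _).trans (add_le_add ((abs_sub _ _).trans (add_le_add abs_one.le ?_)) ?_)
    · have hT0 : 0 ≤ ((C.q + 1) * Real.exp τ + (C.p + 1)) / ((C.p + 1) * (C.q + 1)) := by positivity
      rw [abs_mul, abs_of_nonneg hmu0, abs_of_nonneg hT0]
      refine mul_le_mul hmu (div_le_div_of_nonneg_right ?_ (by positivity)) hT0 (hmu0.trans hmu)
      have := mul_le_mul_of_nonneg_left (Real.exp_le_exp.2 hτ) hq1.le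
      linarith
    · rw [abs_mul]
      exact mul_le_mul (hM.hS τ hτ) (hM.hk τ hτ) (abs_nonneg _) hK0

/-- **A certificate along an orbit excludes entire solutions in every dimension `n < N`.** -/
theorem no_solution_of_margins {n : ℕ} (hn : 5 ≤ n) (hnN : (n : ℝ) < C.N) (hA : C.Adm)
    (hqp : C.q ≤ C.p) (hs : (n : ℝ) - 4 < 2 * C.wexp)
    (h : IsCurve C τ₀ b S W z) (hτb : τb = Real.log ((C.p + 1) / (C.q + 1))) (hb : τb < b)
    {m K : ℝ} (hm : 0 < m) (hM : Margins C τb S W z m K) :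
    ¬ ∃ u v : Euc n → ℝ, IsPositiveEntireSolution C.p C.q u v := by
  rintro ⟨u, v, hsol⟩
  set Φ := C.toTPar τb b S W z with hΦ
  have hΦs := toTPar_smooth (τb := τb) hA h hb
  have hN : C.N ≠ 0 := by linarith [hA.hN]
  have hp : C.p + 1 ≠ 0 := by linarith [hA.hp]
  have hq : C.q + 1 ≠ 0 := by linarith [hA.hq]
  obtain ⟨K', hK'⟩ := toTPar_bounded hA h hb hM
  set K2 := max (max 1 m) (max K (K + 2 * K'))
  have hK2 : K ≤ K2 := (le_max_left _ _).trans (le_max_right _ _)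
  have h1K2 : 1 ≤ K2 := (le_max_left _ _).trans (le_max_left _ _)
  set g := min (m / (8 * K2)) m
  have hn0 : (0:ℝ) < n := by exact_mod_cast (show 0 < n by omega)
  have hcal : ∀ τ ≤ τb, τ ≠ τ₀ → Φ.Calibrated C.p C.q C.N g K2 τ := fun τ hτ h0 => by
    have hτb := hτ.trans_lt hb
    have hz := h.z_ne τ hτb h0
    have hK := (K_pos hA (h.S_pos τ hτb)).ne'
    have hL := (h.L_pos τ hτb).ne'
    have hz1 : 0 < 1 + |z τ| := by positivity
    have hR : (C.ptAt S W z τ).R = 1 / z τ := rfl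
    refine (toTPar_matches hA h hb hτ h0).calibrated (good_ptAt hA h hτb h0)
      (s := 1 / (1 + |z τ|)) (a := m) (K := K2) (by positivity) hm
      ((le_max_right _ _).trans (le_max_left _ _)) (by show 2 ≤ C.N; linarith [hA.hN])
      ((hM.hS τ hτ).trans hK2) ?_ ?_ ?_ ?_ ?_ ?_ ?_ ?_ ?_ ?_
    · rw [abs_of_pos (by positivity), div_le_iff₀ hz1]
      nlinarith [abs_nonneg (z τ)]
    · rw [hR, show 1 / (1 + |z τ|) / (1 / z τ) = z τ / (1 + |z τ|) by field_simp, abs_div,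
        abs_of_pos hz1, div_le_iff₀ hz1]
      nlinarith [abs_nonneg (z τ)]
    · rw [pt_a hz hN hp hq hK]
      show |C.a (S τ) (W τ) + 2 * C.c (S τ)| ≤ _
      refine (abs_add_le _ _).trans (le_trans ?_ ((le_max_right _ _).trans (le_max_right _ _)))
      have hc := (hK' τ hτ).2.2.1
      have e := extend_eq (f := C.ccF S) (by linarith : (τb + b) / 2 < b)
        (by linarith : τ ≤ (τb + b) / 2)
      simp only [toTPar, e, ccF] at hc
      rw [abs_mul, abs_two]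
      linarith [hM.ha τ hτ]
    · rw [pt_El hz hN hp hq hK]; exact (hM.hl τ hτ).trans hK2
    · refine (hM.h5 τ hτ).trans (le_of_eq ?_)
      rw [pt_e hz hp hq hK, hR, show (C.ptAt S W z τ).N = C.N from rfl]
      field_simp
      ring
    · rw [pt_P2 hz hN hp hq hK]; exact hM.h2 τ hτ
    · rw [pt_P2 hz hN hp hq hK]; exact (hM.h2K τ hτ).trans hK2
    · rw [pt_P0 hz hN hp hq hK]
      refine (le_of_eq ?_).trans ((hM.h0K τ hτ).trans hK2)
      field_simp
    · rw [pt_P1 hz hN hp hq hK, pt_P2 hz hN hp hq hK, pt_P0 hz hN hp hq hK]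
      have := hM.h3 τ hτ
      rw [show C.P1 (S τ) (W τ) / (1 / (1 + |z τ|)) = C.P1 (S τ) (W τ) * (1 + |z τ|) by field_simp,
        show C.P0 (S τ) (W τ) / (1 / (1 + |z τ|)) ^ 2 = C.P0 (S τ) (W τ) * (1 + |z τ|) ^ 2 by
          field_simp]
      exact this
    · rw [pt_rho hz hN hp hq hK hL]; exact hM.h4 τ hτ
  have hg : 0 < g := lt_min (by positivity) hm
  obtain ⟨e, he, hc⟩ := exists_coercive_of (τ₀ := τ₀) hn0 hnN hg (by linarith : (0:ℝ) ≤ K2) hΦs hcal
  refine no_solution_of_coercive hn hA.hp.le hA.hq.le hΦs hK' he hc ?_ ?_ hsol ?_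
  · show 0 ≤ C.wexp
    have : (5:ℝ) ≤ n := by exact_mod_cast hn
    linarith
  · exact hs
  · intro x hx
    rw [hτb]
    exact tauf_le (by omega) hA.hq hqp hA.one_lt hsol hx

end CPar

end Vale.Agent.P100T
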