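import Vale.Agent.P100T.Assembly

/-!
Uniform margins from strict pointwise inequalities and margins near `τ = -∞`.
-/

open Set Filter Topology

noncomputable section

namespace Vale.Agent.P100T.CPar

variable {C : CPar} {τb b τ₀ : ℝ} {S W z : ℝ → ℝ}

/-- The strict inequalities at one value of `τ`. -/
structure Strict (C : CPar) (s w z : ℝ) : Prop where
  h2 : 0 < C.P2 s w
  h3 : C.P1 s w ^ 2 < 4 * C.P2 s w * C.P0 s w
  h4 : 0 < C.rho s w z
  h5 : 0 < 1 + C.l s w * z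

/-- Margins at one value of `τ`. -/
structure At (C : CPar) (s w z m K : ℝ) : Prop where
  hS : |s| ≤ K
  ha : |C.a s w| ≤ K
  hl : |C.l s w| ≤ K
  hk : |C.kz s w z| ≤ K
  h2K : C.P2 s w ≤ K
  h0K : C.P0 s w * (1 + |z|) ^ 2 ≤ K
  h2 : m ≤ C.P2 s w
  h3 : (C.P1 s w * (1 + |z|)) ^ 2 + m ≤ 4 * C.P2 s w * (C.P0 s w * (1 + |z|) ^ 2)
  h4 : m ≤ C.rho s w z
  h5 : m ≤ (1 + C.l s w * z) / (1 + |z|)

lemma At.mono {s w z m m' K K' : ℝ} (h : At C s w z m K) (hm : m' ≤ m) (hK : K ≤ K') :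
    At C s w z m' K' where
  hS := h.hS.trans hK
  ha := h.ha.trans hK
  hl := h.hl.trans hK
  hk := h.hk.trans hK
  h2K := h.h2K.trans hK
  h0K := h.h0K.trans hK
  h2 := hm.trans h.h2
  h3 := (add_le_add le_rfl hm).trans h.h3
  h4 := hm.trans h.h4
  h5 := hm.trans h.h5

lemma exists_pos_le {T : ℝ} {f : ℝ → ℝ} (hT : T ≤ τb) (hf : ContinuousOn f (Icc T τb))
    (hp : ∀ τ ∈ Icc T τb, 0 < f τ) : ∃ m, 0 < m ∧ ∀ τ ∈ Icc T τb, m ≤ f τ := by
  obtain ⟨x, hx, hmin⟩ := isCompact_Icc.exists_isMinOn (nonempty_Icc.2 hT) hf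
  exact ⟨f x, hp x hx, fun τ hτ => hmin hτ⟩

/-- **Margins** from strictness on `τ ≤ τb` and margins near `-∞`. -/
theorem margins_of_tail (hA : C.Adm) (h : IsCurve C τ₀ b S W z) (hb : τb < b)
    (hp : ∀ τ ≤ τb, Strict C (S τ) (W τ) (z τ))
    {m0 K0 : ℝ} (hm0 : 0 < m0) (ht : ∀ᶠ τ in atBot, At C (S τ) (W τ) (z τ) m0 K0)
    (hlam : ∀ᶠ τ in atBot, C.a (S τ) (W τ) ≤ C.wexp * C.q) :
    ∃ m K, 0 < m ∧ Margins C τb S W z m K := by
  obtain ⟨T0, hT0⟩ := eventually_atBot.1 ht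
  set T := min T0 τb
  have hT : T ≤ τb := min_le_right _ _
  have hsub : Icc T τb ⊆ Iio b := fun τ hτ => hτ.2.trans_lt hb
  have cS := h.smoothS.continuousOn.mono hsub
  have cW := h.smoothW.continuousOn.mono hsub
  have cz := h.smoothz.continuousOn.mono hsub
  have hK : ∀ τ ∈ Icc T τb, C.N * C.K (S τ) ≠ 0 := fun τ hτ =>
    mul_ne_zero (by linarith [hA.hN]) (K_pos hA (h.S_pos τ (hsub hτ))).ne'
  have hK' : ∀ τ ∈ Icc T τb, C.K (S τ) ≠ 0 := fun τ hτ => (K_pos hA (h.S_pos τ (hsub hτ))).ne'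
  have hL : ∀ τ ∈ Icc T τb, C.L (S τ) ≠ 0 := fun τ hτ => (h.L_pos τ (hsub hτ)).ne'
  have hLK : ∀ τ ∈ Icc T τb, C.L (S τ) * C.K (S τ) ≠ 0 := fun τ hτ =>
    mul_ne_zero (hL τ hτ) (hK' τ hτ)
  have hN : C.N ≠ 0 := by linarith [hA.hN]
  have hN4 : 4 * C.N ≠ 0 := by linarith [hA.hN]
  have hp1 : C.p + 1 ≠ 0 := by linarith [hA.hp]
  have cmu : ContinuousOn (fun τ => C.mu (S τ)) (Icc T τb) := by
    unfold mu; simp only [CPar.K] at hK ⊢; fun_prop (disch := assumption)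
  have cnu : ContinuousOn (fun τ => C.nu (S τ)) (Icc T τb) := by
    unfold nu; fun_prop
  have cl : ContinuousOn (fun τ => C.l (S τ) (W τ)) (Icc T τb) := by
    unfold l CPar.V; simp only [CPar.K] at hK' ⊢; fun_prop (disch := assumption)
  have ca : ContinuousOn (fun τ => C.a (S τ) (W τ)) (Icc T τb) :=
    (continuousOn_a hA h).mono hsub
  have cc : ContinuousOn (fun τ => C.c (S τ)) (Icc T τb) := by unfold c; fun_prop
  have cc' : ContinuousOn (fun τ => C.c' (S τ) (W τ)) (Icc T τb) := by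
    unfold c'; simp only [CPar.L] at hL ⊢; fun_prop (disch := assumption)
  have cce : ContinuousOn (fun τ => C.ce (S τ) (W τ)) (Icc T τb) := by
    unfold ce; fun_prop
  have ck : ContinuousOn (fun τ => C.kz (S τ) (W τ) (z τ)) (Icc T τb) := by
    unfold kz; fun_prop
  have c2 : ContinuousOn (fun τ => C.P2 (S τ) (W τ)) (Icc T τb) := by
    unfold P2; fun_prop
  have c0 : ContinuousOn (fun τ => C.P0 (S τ) (W τ) * (1 + |z τ|) ^ 2) (Icc T τb) := by
    unfold P0 CPar.V; fun_prop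
  have c1 : ContinuousOn (fun τ => C.P1 (S τ) (W τ) * (1 + |z τ|)) (Icc T τb) := by
    unfold P1 CPar.V; simp only [CPar.L, CPar.K] at hLK hL ⊢; fun_prop (disch := assumption)
  have crho : ContinuousOn (fun τ => C.rho (S τ) (W τ) (z τ)) (Icc T τb) := by
    unfold rho Kp0 E0
    simp only [CPar.L, CPar.K] at hL hK' ⊢
    fun_prop (disch := assumption)
  obtain ⟨m2, hm2, b2⟩ := exists_pos_le hT c2 fun τ hτ => (hp τ hτ.2).h2
  obtain ⟨m3, hm3, b3⟩ := exists_pos_le (f := fun τ => 4 * C.P2 (S τ) (W τ)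
      * (C.P0 (S τ) (W τ) * (1 + |z τ|) ^ 2) - (C.P1 (S τ) (W τ) * (1 + |z τ|)) ^ 2)
    hT (by fun_prop) fun τ hτ => by
      have := mul_pos (sub_pos.2 (hp τ hτ.2).h3) (by positivity : (0:ℝ) < (1 + |z τ|) ^ 2)
      linarith
  obtain ⟨m4, hm4, b4⟩ := exists_pos_le hT crho fun τ hτ => (hp τ hτ.2).h4
  obtain ⟨m5, hm5, b5⟩ := exists_pos_le
    (f := fun τ => (1 + C.l (S τ) (W τ) * z τ) / (1 + |z τ|)) hT
    (by fun_prop (disch := intros; positivity))
    fun τ hτ => div_pos (hp τ hτ.2).h5 (by positivity)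
  obtain ⟨K1, k1⟩ := isCompact_Icc.exists_bound_of_continuousOn cS
  obtain ⟨K2, k2⟩ := isCompact_Icc.exists_bound_of_continuousOn ca
  obtain ⟨K3, k3⟩ := isCompact_Icc.exists_bound_of_continuousOn cl
  obtain ⟨K4, k4⟩ := isCompact_Icc.exists_bound_of_continuousOn ck
  obtain ⟨K5, k5⟩ := isCompact_Icc.exists_bound_of_continuousOn c2
  obtain ⟨K6, k6⟩ := isCompact_Icc.exists_bound_of_continuousOn c0
  set m := min m0 (min (min m2 m3) (min m4 m5))
  set K := max K0 (max (max K1 K2) (max (max K3 K4) (max K5 K6)))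
  refine ⟨m, K, lt_min hm0 (lt_min (lt_min hm2 hm3) (lt_min hm4 hm5)), ?_⟩
  have all : ∀ τ ≤ τb, At C (S τ) (W τ) (z τ) m K := fun τ hτ => by
    rcases le_or_gt T τ with h' | h'
    · have hI : τ ∈ Icc T τb := ⟨h', hτ⟩
      have e1 := k1 τ hI; have e2 := k2 τ hI; have e3 := k3 τ hI
      have e4 := k4 τ hI; have e5 := k5 τ hI; have e6 := k6 τ hI
      simp only [Real.norm_eq_abs] at e1 e2 e3 e4 e5 e6
      exact
        { hS := e1.trans (by simp [K])
          ha := e2.trans (by simp [K])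
          hl := e3.trans (by simp [K])
          hk := e4.trans (by simp [K])
          h2K := (le_abs_self _).trans (e5.trans (by simp [K]))
          h0K := (le_abs_self _).trans (e6.trans (by simp [K]))
          h2 := le_trans (by simp [m]) (b2 τ hI)
          h3 := by linarith [b3 τ hI, (show m ≤ m3 by simp [m])]
          h4 := le_trans (by simp [m]) (b4 τ hI)
          h5 := le_trans (by simp [m]) (b5 τ hI) }
    · exact (hT0 τ (h'.le.trans (min_le_left _ _))).mono (min_le_left _ _) (le_max_left _ _)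
  exact
    { hS := fun τ hτ => (all τ hτ).hS
      ha := fun τ hτ => (all τ hτ).ha
      hl := fun τ hτ => (all τ hτ).hl
      hk := fun τ hτ => (all τ hτ).hk
      h2K := fun τ hτ => (all τ hτ).h2K
      h0K := fun τ hτ => (all τ hτ).h0K
      h2 := fun τ hτ => (all τ hτ).h2
      h3 := fun τ hτ => (all τ hτ).h3
      h4 := fun τ hτ => (all τ hτ).h4
      h5 := fun τ hτ => (all τ hτ).h5
      hlam := hlam }

/-- The decay exponent is large enough for `M ≥ (N - 4)/N`. -/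
lemma Adm.decay (hA : C.Adm) {n : ℝ} (hn : n < C.N) (hM : (C.N - 4) / C.N ≤ C.M) :
    n - 4 < 2 * C.wexp := by
  have : (0:ℝ) < C.N := by linarith [hA.hN]
  rw [div_le_iff₀ this] at hM
  rw [hA.wexp_eq]
  linarith

/-- **Nonexistence from strict inequalities along a curve and margins near `-∞`.** -/
theorem no_solution_of_curve {n : ℕ} (hn : 5 ≤ n) (hnN : (n : ℝ) < C.N) (hA : C.Adm)
    (hqp : C.q ≤ C.p) (hMlow : (C.N - 4) / C.N ≤ C.M)
    (h : IsCurve C τ₀ b S W z) (hb : Real.log ((C.p + 1) / (C.q + 1)) < b)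
    (hp : ∀ τ ≤ Real.log ((C.p + 1) / (C.q + 1)), Strict C (S τ) (W τ) (z τ))
    {m0 K0 : ℝ} (hm0 : 0 < m0) (ht : ∀ᶠ τ in atBot, At C (S τ) (W τ) (z τ) m0 K0)
    (hlam : ∀ᶠ τ in atBot, C.a (S τ) (W τ) ≤ C.wexp * C.q) :
    ¬ ∃ u v : P100.Euc n → ℝ, P100.IsPositiveEntireSolution C.p C.q u v := by
  obtain ⟨m, K, hm, hM⟩ := margins_of_tail hA h hb hp hm0 ht hlam
  exact no_solution_of_margins hn hnN hA hqp (hA.decay hnN hMlow) h rfl hb hm hM

end Vale.Agent.P100T.CPar
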