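import Mathlib

/-! # Algebra of the planar orbit: `W = dσ/dτ · L`, its rate, and the two special curves

`c = (p+1)/(q+1)`, `L = (p+1) - (q+1)σ`. -/

noncomputable section

namespace Vale.Agent.P100T

variable (N p q : ℝ)

/-- The value of `W` at the centre as a function of `σ`. -/
def wm (s : ℝ) : ℝ := s * (N * ((p + 1) - (q + 1) * s) - 2 * (s - 1)) / (N + 2)

/-- The coefficient `k₀(σ)` of `V` in the rate of `W` at `W = 0`. -/
def k0 (s : ℝ) : ℝ :=
  (p + 2 - s) * (N * ((p + 1) / (q + 1)) - (N - 2) * s) / (N * (s + (p + 1) / (q + 1)))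

/-- `ν = (N-1)/(N(σ + c))`. -/
def nu (s : ℝ) : ℝ := (N - 1) / (N * (s + (p + 1) / (q + 1)))

/-- `σ_s`, the equilibrium on `t = 0`. -/
def sEq : ℝ := (N - 2) / N * ((p + 1) / (q + 1))

/-- The rate of `R` at `t = 0`, `W = 0`. -/
def kp0 (s : ℝ) : ℝ := (s - sEq N p q) * ((q + 2) * s - 1) / (s + (p + 1) / (q + 1))

/-- `Φ`: the sign of the rate of `W` at `W = 0`. -/
def phi (s t : ℝ) : ℝ := s * kp0 N p q s - t * k0 N p q s

variable {N p q}

lemma crit_iff (hp : 0 < p) (hq : 0 < q) (hcrit : N / (p + 1) + N / (q + 1) = N - 2) :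
    (N - 2) * (p + 1) = N * (1 + (p + 1) / (q + 1)) := by
  have : p + 1 ≠ 0 := by linarith
  have : q + 1 ≠ 0 := by linarith
  rw [← hcrit]; field_simp

/-- `k₀ = L + qσ + 1 - 2μσ + 2νσ(σ-1)`. -/
lemma k0_eq (hN : 0 < N) (hq : 0 < q) {s : ℝ} (hs : 0 < s + (p + 1) / (q + 1)) :
    k0 N p q s = ((p + 1) - (q + 1) * s) + q * s + 1 - 2 * ((p + 1) * nu N p q s) * s
      + 2 * nu N p q s * (s * (s - 1)) := by
  have : q + 1 ≠ 0 := by linarith
  simp only [k0, nu]
  generalize hc : (p + 1) / (q + 1) = c at *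
  have hpc : p + 1 = c * (q + 1) := by rw [← hc]; field_simp
  field_simp
  ring

/-- `kp₀ = k₀ - L + 2(σ-1)/N` on the critical hyperbola. -/
lemma kp0_eq (hN : 0 < N) (hp : 0 < p) (hq : 0 < q)
    (hcrit : N / (p + 1) + N / (q + 1) = N - 2) {s : ℝ} (hs : 0 < s + (p + 1) / (q + 1)) :
    kp0 N p q s = k0 N p q s - ((p + 1) - (q + 1) * s) + 2 * (s - 1) / N := by
  have hk := crit_iff hp hq hcrit
  have : q + 1 ≠ 0 := by linarith
  simp only [k0, kp0, sEq]
  generalize hc : (p + 1) / (q + 1) = c at *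
  have hpc : p + 1 = c * (q + 1) := by rw [← hc]; field_simp
  field_simp
  linear_combination (2 * (N - 1) * s) * hpc

lemma phi_eq (hN : 0 < N) (hp : 0 < p) (hq : 0 < q)
    (hcrit : N / (p + 1) + N / (q + 1) = N - 2) {s t : ℝ} (hs : 0 < s + (p + 1) / (q + 1)) :
    phi N p q s t = (s - t) * k0 N p q s - s * ((p + 1) - (q + 1) * s) + 2 * s * (s - 1) / N := by
  rw [phi, kp0_eq hN hp hq hcrit hs]; ring

lemma k0_pos (hN : 2 < N) (hp : 0 < p) (hq : 0 < q) {s : ℝ} (hs : 0 ≤ s)
    (hsc : s ≤ (p + 1) / (q + 1)) : 0 < k0 N p q s := by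
  have hc : 0 < (p + 1) / (q + 1) := by positivity
  have h1 : (p + 1) / (q + 1) < p + 1 := div_lt_self (by linarith) (by linarith)
  refine div_pos (mul_pos (by linarith) ?_) (by positivity)
  nlinarith

/-- `Φ` increases in `σ` and decreases in `t` above `σ_s`. -/
lemma phi_mono (hN : 2 < N) (hp : 0 < p) (hq : 0 < q) {s s' t t' : ℝ} (hs : 1 ≤ s) (hss : s ≤ s')
    (hc : s' ≤ (p + 1) / (q + 1)) (ht : 0 ≤ t') (htt : t' ≤ t) (h : 0 < phi N p q s t) :
    0 < phi N p q s' t' := by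
  set c := (p + 1) / (q + 1) with hc'
  have hc0 : 0 < c := by rw [hc']; positivity
  have h1 : c < p + 1 := div_lt_self (by linarith) (by linarith)
  have ht0 : 0 ≤ t := ht.trans htt
  have e : ∀ x y : ℝ, 0 ≤ x → phi N p q x y = (N * (x * ((x - sEq N p q) * ((q + 2) * x - 1)))
      - y * ((p + 2 - x) * (N * c - (N - 2) * x))) / (N * (x + c)) := by
    intro x y hx
    have : x + c ≠ 0 := by linarith
    have : N ≠ 0 := by linarith
    simp only [phi, kp0, k0, ← hc']
    field_simp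
  rw [e s t (by linarith), div_pos_iff_of_pos_right (by positivity), sub_pos] at h
  rw [e s' t' (by linarith), div_pos_iff_of_pos_right (mul_pos (by linarith) (by linarith)), sub_pos]
  have hk : 0 ≤ (p + 2 - s) * (N * c - (N - 2) * s) :=
    mul_nonneg (by linarith) (by nlinarith)
  have hy : 0 < (q + 2) * s - 1 := by nlinarith
  have hg : 0 < s - sEq N p q := by
    by_contra hle
    push Not at hle
    have : s * ((s - sEq N p q) * ((q + 2) * s - 1)) ≤ 0 :=
      mul_nonpos_of_nonneg_of_nonpos (by linarith) (mul_nonpos_of_nonpos_of_nonneg hle hy.le)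
    nlinarith [mul_nonneg ht0 hk]
  refine lt_of_le_of_lt ?_ (h.trans_le ?_)
  · refine mul_le_mul htt ?_ (mul_nonneg (by linarith) (by nlinarith)) ht0
    exact mul_le_mul (by linarith) (by nlinarith) (by nlinarith) (by linarith)
  · refine mul_le_mul_of_nonneg_left ?_ (by linarith)
    exact mul_le_mul hss (mul_le_mul (by linarith) (by nlinarith) hy.le (by linarith))
      (mul_pos hg hy).le (by linarith)

/-- At `σ ≥ (N(p+1)+2)/(N(q+1)+2)` the curve `Φ = 0` lies above `t = σ`. -/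
lemma phi_pos_of_wm_nonpos (hN : 2 < N) (hp : 0 < p) (hq : 0 < q)
    (hcrit : N / (p + 1) + N / (q + 1) = N - 2) {s t : ℝ} (hs : 1 ≤ s)
    (hsc : s ≤ (p + 1) / (q + 1)) (hts : t < s) (hw : wm N p q s ≤ 0) :
    0 < phi N p q s t := by
  have hc : 0 < (p + 1) / (q + 1) := by positivity
  rw [phi_eq (by linarith) hp hq hcrit (by linarith)]
  rw [wm, div_le_iff₀ (by linarith), zero_mul] at hw
  have h1 : N * ((p + 1) - (q + 1) * s) - 2 * (s - 1) ≤ 0 := by nlinarith
  have h2 := mul_pos (sub_pos.2 hts) (k0_pos hN hp hq (by linarith) hsc)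
  have h3 : -(s * ((p + 1) - (q + 1) * s)) + 2 * s * (s - 1) / N
      = -(s * (N * ((p + 1) - (q + 1) * s) - 2 * (s - 1))) / N := by
    field_simp; ring
  have h4 : 0 ≤ -(s * (N * ((p + 1) - (q + 1) * s) - 2 * (s - 1))) / N :=
    div_nonneg (neg_nonneg.2 (mul_nonpos_of_nonneg_of_nonpos (by linarith) h1)) (by linarith)
  linarith

/-- The curve `W = wm σ` is crossed in one direction only. -/
lemma wm_cross (hN : 2 < N) (hp : 0 < p) (hq : 0 < q) (hpq : q < p) {s : ℝ} (hs : 1 ≤ s)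
    (hsc : s < (p + 1) / (q + 1)) (hw : 0 ≤ wm N p q s) :
    wm N p q s * (2 * s - 1 + (N * (p + 1) + 2 - 2 * (N * (q + 1) + 2) * s) / (N + 2))
      - (s * (s - 1) + wm N p q s) * (k0 N p q s + 2 * nu N p q s * wm N p q s) < 0 := by
  set c := (p + 1) / (q + 1) with hc
  have hc0 : 0 < c := by rw [hc]; positivity
  have h1 : c < p + 1 := div_lt_self (by linarith) (by linarith)
  have ha : 0 < p - q * s := by
    have : s * (q + 1) < p + 1 := by rwa [hc, lt_div_iff₀ (by linarith)] at hsc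
    nlinarith
  have hk : 0 < N * c - (N - 2) * s := by nlinarith
  have hw' : 0 ≤ N * (p + 1) + 2 - (N * (q + 1) + 2) * s := by
    rw [wm, le_div_iff₀ (by linarith), zero_mul] at hw
    nlinarith
  have e : (wm N p q s * (2 * s - 1 + (N * (p + 1) + 2 - 2 * (N * (q + 1) + 2) * s) / (N + 2))
      - (s * (s - 1) + wm N p q s) * (k0 N p q s + 2 * nu N p q s * wm N p q s))
        * ((N + 2) ^ 2 * (N * (s + c)))
      = -(s * (N * (p - q * s) * (N * c - (N - 2) * s) * (2 * p + N + 2 + N * q * s)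
        + N ^ 2 * q * (N * (p + 1) + 2 - (N * (q + 1) + 2) * s) * s * (s + c))) := by
    have : N ≠ 0 := by linarith
    have : N + 2 ≠ 0 := by linarith
    have : s + c ≠ 0 := by linarith
    simp only [wm, k0, nu, ← hc]
    field_simp
    ring
  have hpos : 0 < s * (N * (p - q * s) * (N * c - (N - 2) * s) * (2 * p + N + 2 + N * q * s)
      + N ^ 2 * q * (N * (p + 1) + 2 - (N * (q + 1) + 2) * s) * s * (s + c)) := by
    have : 0 < 2 * p + N + 2 + N * q * s := by positivity
    positivity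
  have : 0 ≤ (N + 2) ^ 2 * (N * (s + c)) := by positivity
  exact neg_of_mul_neg_left (b := (N + 2) ^ 2 * (N * (s + c))) (by rw [e]; linarith) this

end Vale.Agent.P100T
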