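import Vale.Agent.P100T.BarrierSign
import Vale.Agent.P100T.InvAlgebra

/-!
The upper barrier `W ≤ U σ`: along `U`, with `Et := V (k₀ + 2νU) - (2σ - 1 + U')U` and
`Cf := (N+2)/N (wm - U)`, one has `Et > 0`, and the threshold `T := σ - V Cf / Et` satisfies
`L T < T' U` on `σ∞ < σ < s₂`.
-/

noncomputable section

namespace Vale.Agent.P100T

open UpperCert

variable (N p q : ℝ)

/-- `σ∞ = max 1 σ_s`. -/
def upSi : ℝ := max 1 (sEq N p q)
/-- `s₂ - σ∞`. -/
def upR : ℝ := (N * (p + 1) + 2) / (N * (q + 1) + 2) - upSi N p q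
def upA : ℝ := 2 / (N - 2) + 19 / 10 * (upSi N p q - 1) / (N - 1)
def upB : ℝ :=
  11 / 100 * upA N p q * upR N p q *
    ((N - 2) * (upSi N p q - 1) / ((N - 2) * (upSi N p q - 1) + 6))
def upBe : ℝ := 3 / 4 / (1 + 2 * (N - 2) * (upSi N p q - 1))
/-- The barrier `U`. -/
def upU (s : ℝ) : ℝ :=
  upA N p q * ((s - upSi N p q) * (1 - upBe N p q * (s - upSi N p q) / upR N p q)) + upB N p q
/-- `U'`. -/
def upU' (s : ℝ) : ℝ :=
  upA N p q * (1 - 2 * upBe N p q * (s - upSi N p q) / upR N p q)
/-- `Et` on `U`: the rate of `W - U σ` is `L⁻¹ * (Et - Cf/κ)`. -/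
def upEt (s : ℝ) : ℝ :=
  (s * (s - 1) + upU N p q s) * (k0 N p q s + 2 * nu N p q s * upU N p q s)
    - (2 * s - 1 + upU' N p q s) * upU N p q s
/-- `Cf` on `U`. -/
def upCf (s : ℝ) : ℝ := (N + 2) / N * (wm N p q s - upU N p q s)
/-- The threshold of `t`. -/
def upT (s : ℝ) : ℝ := s - (s * (s - 1) + upU N p q s) * upCf N p q s / upEt N p q s

lemma upU_hasDerivAt (s : ℝ) : HasDerivAt (upU N p q) (upU' N p q s) s := by
  have h1 := (hasDerivAt_id' s).sub_const (upSi N p q)
  have h2 := ((h1.const_mul (upBe N p q)).div_const (upR N p q)).const_sub 1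
  exact (((h1.mul h2).const_mul (upA N p q)).add_const (upB N p q)).congr_deriv
    (by rw [upU']; ring)

lemma upU'_hasDerivAt (s : ℝ) :
    HasDerivAt (upU' N p q) (-(2 * upA N p q * upBe N p q / upR N p q)) s := by
  have h1 := (hasDerivAt_id' s).sub_const (upSi N p q)
  have h2 := ((h1.const_mul (2 * upBe N p q)).div_const (upR N p q)).const_sub 1
  exact (h2.const_mul (upA N p q)).congr_deriv (by ring)

variable {N p q}

lemma etR_hasDerivAt {N tb s b : ℝ} {u v : ℝ → ℝ} (hu : HasDerivAt u (v s) s)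
    (hv : HasDerivAt v b s) (hN : N ≠ 0) (hs : s + tb ≠ 0) :
    HasDerivAt (fun x => etR N tb x (u x) (v x)) (etR' N tb s (u s) (v s) b) s := by
  have hi := hasDerivAt_id' s
  have hV := (hi.mul (hi.sub_const 1)).add hu
  have hM : HasDerivAt (fun x => mR N tb x (u x)) (mR' N tb s (v s)) s :=
    ((((hi.const_sub (pone N tb + 1))).mul ((hi.const_mul (N - 2)).const_sub (N * tb))).add
      (hu.const_mul (2 * (N - 1)))).congr_deriv (by simp [mR']; ring)
  have hX := (hi.add_const tb).const_mul N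
  have h3 := (((hi.const_mul 2).sub_const 1).add hv).mul hu
  exact (((hV.mul hM).div hX (mul_ne_zero hN hs)).sub h3).congr_deriv (by
    simp only [etR', Pi.add_apply, Pi.mul_apply]
    field_simp
    ring)

lemma cfR_hasDerivAt {N tb s : ℝ} {u v : ℝ → ℝ} (hu : HasDerivAt u (v s) s) :
    HasDerivAt (fun x => cfR N tb x (u x)) (cfR' N tb s (v s)) s := by
  have hi := hasDerivAt_id' s
  have hV := (hi.mul (hi.sub_const 1)).add hu
  exact (((hi.mul ((hi.const_sub tb).const_mul (pone N tb / tb))).sub hu).sub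
    ((hV.const_mul 2).div_const N)).congr_deriv (by rw [cfR']; ring)

/-- **The upper barrier.** -/
theorem upper_barrier (hN : 6 ≤ N) (hq : 0 < q) (hpq : q < p)
    (hcrit : N / (p + 1) + N / (q + 1) = N - 2) {s : ℝ} (h0 : upSi N p q < s)
    (h1 : s < (N * (p + 1) + 2) / (N * (q + 1) + 2)) :
    0 < upEt N p q s ∧ ∃ T' : ℝ, HasDerivAt (upT N p q) T' s ∧
      ((p + 1) - (q + 1) * s) * upT N p q s < T' * upU N p q s := by
  have hp : 0 < p := hq.trans hpq
  obtain ⟨tb, htb⟩ : ∃ tb, (p + 1) / (q + 1) = tb := ⟨_, rfl⟩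
  have htb1 : 1 < tb := by rw [← htb, one_lt_div (by linarith)]; linarith
  have hk := crit_iff hp hq hcrit
  rw [htb] at hk
  have hh : 0 < N - 2 := by linarith
  have hpone : pone N tb = p + 1 := by
    rw [pone, div_eq_iff hh.ne']; linarith
  have hq1 : pone N tb / tb = q + 1 := by
    rw [hpone, ← htb]; field_simp
  have hsEq : sEq N p q = tb * (N - 2) / N := by rw [sEq, htb]; ring
  have hSi : upSi N p q = sI N tb := by rw [upSi, sI, hsEq]
  have hR : upR N p q = rI N tb := by rw [upR, rI, hSi, hq1, hpone]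
  have hA : upA N p q = aI N tb := by rw [upA, aI, dI, hSi]
  have hB : upB N p q = bI N tb := by rw [upB, bI, dI, hSi, hA, hR]
  have hBe : upBe N p q = beI N tb := by rw [upBe, beI, dI, hSi]
  have hU : ∀ x, upU N p q x = uI N tb x := fun x => by rw [upU, uI, hA, hB, hBe, hSi, hR]
  have hU' : ∀ x, upU' N p q x = uI' N tb x := fun x => by rw [upU', uI', hA, hBe, hSi, hR]
  have hs1 : 1 < s := lt_of_le_of_lt (le_max_left _ _) h0
  have hEt : ∀ x, upEt N p q x = etR N tb x (upU N p q x) (upU' N p q x) := by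
    intro x
    simp only [upEt, k0, nu, htb, etR, mR, hpone]
    ring
  have hCf : ∀ x, upCf N p q x = cfR N tb x (upU N p q x) := by
    intro x
    have : N + 2 ≠ 0 := by linarith
    have : N ≠ 0 := by linarith
    have : p + 1 = (q + 1) * tb := by rw [← htb]; field_simp
    simp only [upCf, wm, cfR, lR, hq1]
    field_simp
    rw [this]
    ring
  obtain ⟨he, hP⟩ := sign_pos hN htb1 (s := s) (by rwa [← hSi])
    (by rw [← hSi, ← hR, upR]; linarith)
  rw [← hU, ← hU'] at he hP
  set b : ℝ := -(2 * upA N p q * upBe N p q / upR N p q) with hb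
  have hbI : uI'' N tb = b := by rw [uI'', hb, hA, hBe, hR]
  rw [hbI] at hP
  refine ⟨by rw [hEt]; exact he, ?_⟩
  have hNne : N ≠ 0 := by linarith
  have dE := etR_hasDerivAt (tb := tb) (upU_hasDerivAt N p q s) (upU'_hasDerivAt N p q s) hNne
    (by linarith)
  have dC := cfR_hasDerivAt (N := N) (tb := tb) (upU_hasDerivAt N p q s)
  have hi := hasDerivAt_id' s
  have dV := (hi.mul (hi.sub_const 1)).add (upU_hasDerivAt N p q s)
  have dT := hi.sub ((dV.mul dC).div dE he.ne')
  have hfun : upT N p q = fun x => x - (x * (x - 1) + upU N p q x)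
      * cfR N tb x (upU N p q x) / etR N tb x (upU N p q x) (upU' N p q x) := by
    funext x; rw [upT, hEt, hCf]
  refine ⟨1 - (((2 * s - 1 + upU' N p q s) * cfR N tb s (upU N p q s)
        + (s * (s - 1) + upU N p q s) * cfR' N tb s (upU' N p q s))
        * etR N tb s (upU N p q s) (upU' N p q s)
        - (s * (s - 1) + upU N p q s) * cfR N tb s (upU N p q s)
          * etR' N tb s (upU N p q s) (upU' N p q s) b)
        / etR N tb s (upU N p q s) (upU' N p q s) ^ 2, ?_, ?_⟩
  · rw [hfun]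
    exact dT.congr_deriv (by simp only [Pi.add_apply, Pi.mul_apply, hb]; ring)
  have hV : 0 < s * (s - 1) + upU N p q s := by
    have hsI : 1 ≤ sI N tb := le_max_left _ _
    have hs2 : s < sI N tb + rI N tb := by rw [← hSi, ← hR, upR]; linarith
    have hy : 0 < s - sI N tb := by rw [← hSi]; linarith
    have hr : 0 < rI N tb := by linarith
    have ha : 0 ≤ aI N tb := by
      unfold aI dI
      exact add_nonneg (by positivity) (div_nonneg (by nlinarith) (by linarith))
    have hbe : beI N tb ≤ 1 := by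
      rw [beI, dI, div_le_one (by nlinarith)]; nlinarith
    have hbe0 : 0 ≤ beI N tb := by
      unfold beI dI; exact div_nonneg (by norm_num) (by nlinarith)
    have h3 : 0 ≤ 1 - beI N tb * (s - sI N tb) / rI N tb := by
      rw [sub_nonneg, div_le_one hr]
      calc beI N tb * (s - sI N tb) ≤ 1 * (s - sI N tb) :=
            mul_le_mul_of_nonneg_right hbe hy.le
        _ ≤ rI N tb := by linarith
    have hb0 : 0 ≤ bI N tb := by
      unfold bI dI
      exact mul_nonneg (mul_nonneg (mul_nonneg (by norm_num) ha) hr.le)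
        (div_nonneg (by nlinarith) (by nlinarith))
    have hu0 : 0 ≤ upU N p q s := by
      rw [hU, uI]; exact add_nonneg (mul_nonneg ha (mul_nonneg hy.le h3)) hb0
    have := mul_pos (show (0:ℝ) < s by linarith) (show (0:ℝ) < s - 1 by linarith)
    linarith
  have key := threshold_rate N tb s (upU N p q s) (upU' N p q s) b (by linarith) (by linarith)
    (by linarith) he.ne'
  have hpos : 0 < (s * (s - 1) + upU N p q s)
      * pR N tb s (upU N p q s) (upU' N p q s) b
      / etR N tb s (upU N p q s) (upU' N p q s) ^ 2 := by positivity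
  have hL : lR N tb s = (p + 1) - (q + 1) * s := by
    rw [lR, hq1, ← htb]; field_simp
  rw [congrFun hfun s, ← hL]
  rw [← key] at hpos
  linarith

end Vale.Agent.P100T
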