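import Vale.Agent.P100T.BarrierPoly

/-!
Kernel checks: the numerators of `Et` and `P` along `U`, minus one monomial, have nonnegative
coefficients.
-/

namespace Vale.Agent.P100T.UpperCert

open PosCheck

/-- `d < 2/h`. -/
def ltN : Ex := c 2 * Ex.y
def ltD : Ex := eh * (c 1 + Ex.y)
/-- `d ≥ 2/h`. -/
def geN : Ex := c 2 + Ex.y
def geD : Ex := eh

theorem checkAE : check (A.E - Ex.y * Ex.y * Ex.y * (Ex.z * Ex.z)) = true := by decide +kernel

theorem checkBltE :
    check (EB ltN ltD Ex.z (c 1 + Ex.z) - Ex.z) = true := by decide +kernel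

theorem checkBg1E :
    check (EB geN geD Ex.z (c 4 * (c 1 + Ex.z)) - c 1) = true := by decide +kernel

theorem checkBg2E :
    check (EB geN geD (c 1 + c 4 * Ex.z) (c 4 * (c 1 + Ex.z)) - c 1) = true := by decide +kernel

theorem checkAP :
    check (A.P - Ex.y * Ex.y * Ex.y * (Ex.y * Ex.y * Ex.y) * (Ex.z * Ex.z)) = true := by
  decide +kernel

theorem checkBltP :
    check (PB ltN ltD Ex.z (c 1 + Ex.z) - Ex.z) = true := by decide +kernel

theorem checkBg1P :
    check (PB geN geD Ex.z (c 4 * (c 1 + Ex.z)) - c 1) = true := by decide +kernel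

theorem checkBg2P :
    check (PB geN geD (c 1 + c 4 * Ex.z) (c 4 * (c 1 + Ex.z)) - c 1) = true := by decide +kernel


end Vale.Agent.P100T.UpperCert
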