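import Vale.Agent.P100T.BarrierPoly

/-!
`Et`, its derivative, and `P` along a curve `W = u σ` in the variables `N`, `tb` at criticality,
and their values as the templates of `BarrierPoly`.
-/

noncomputable section

namespace Vale.Agent.P100T.UpperCert

open PosCheck

variable (N tb s u a b : ℝ)

/-- `p + 1`. -/
def pone : ℝ := N * (1 + tb) / (N - 2)
/-- `N (σ + tb)` times the coefficient `k₀ + 2νW` of `V`. -/
def mR : ℝ := (pone N tb + 1 - s) * (N * tb - (N - 2) * s) + 2 * (N - 1) * u
def mR' : ℝ := -(N * tb - (N - 2) * s) - (N - 2) * (pone N tb + 1 - s) + 2 * (N - 1) * a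
/-- `Et`. -/
def etR : ℝ := (s * (s - 1) + u) * mR N tb s u / (N * (s + tb)) - (2 * s - 1 + a) * u
/-- The derivative of `Et` along the curve, `b = u''`. -/
def etR' : ℝ :=
  ((2 * s - 1 + a) * mR N tb s u + (s * (s - 1) + u) * mR' N tb s a) / (N * (s + tb))
    - (s * (s - 1) + u) * mR N tb s u / (N * (s + tb) ^ 2)
    - (2 * u + u * b + (2 * s - 1 + a) * a)
/-- `L`. -/
def lR : ℝ := pone N tb / tb * (tb - s)
/-- `Cf`. -/
def cfR : ℝ := s * lR N tb s - u - 2 * (s * (s - 1) + u) / N
def cfR' : ℝ := pone N tb / tb * (tb - 2 * s) - a - 2 * (2 * s - 1 + a) / N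
/-- `Kp0 + 2V/(Nσ)`. -/
def khR : ℝ :=
  ((s - tb * (N - 2) / N) * ((pone N tb / tb + 1) * s - 1) + 2 * u * (N * s + tb) / (N * s))
    / (s + tb)
def phR : ℝ := khR N tb s u * (s * lR N tb s - u) - 2 * u * (s + a - u / s) / N
/-- The sign of the rate of the threshold. -/
def pR : ℝ :=
  -etR N tb s u a * phR N tb s u a
    + u * (etR' N tb s u a b * cfR N tb s u - cfR' N tb s a * etR N tb s u a)

/-- The threshold `σ - V Cf / Et` has rate above `L T/u` exactly when `pR > 0`. -/
lemma threshold_rate (hN : 2 < N) (htb : 0 < tb) (hs : 0 < s) (he : etR N tb s u a ≠ 0) :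
    u * (1 - (((2 * s - 1 + a) * cfR N tb s u + (s * (s - 1) + u) * cfR' N tb s a)
        * etR N tb s u a - (s * (s - 1) + u) * cfR N tb s u * etR' N tb s u a b)
        / etR N tb s u a ^ 2)
      - lR N tb s * (s - (s * (s - 1) + u) * cfR N tb s u / etR N tb s u a)
      = (s * (s - 1) + u) * pR N tb s u a b / etR N tb s u a ^ 2 := by
  have e : u * (etR N tb s u a - (2 * s - 1 + a) * cfR N tb s u)
      - lR N tb s * (s * etR N tb s u a - (s * (s - 1) + u) * cfR N tb s u)
      = -((s * (s - 1) + u) * phR N tb s u a) := by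
    have : N - 2 ≠ 0 := by linarith
    have : N ≠ 0 := by linarith
    have : s + tb ≠ 0 := by linarith
    have : s ≠ 0 := hs.ne'
    simp only [etR, mR, cfR, lR, phR, khR, pone]
    field_simp
    ring
  rw [pR]
  generalize etR N tb s u a = E at *
  generalize etR' N tb s u a b = E' at *
  generalize cfR N tb s u = C at *
  generalize cfR' N tb s a = C' at *
  generalize phR N tb s u a = F at *
  generalize lR N tb s = L at *
  field_simp
  linear_combination E * e

section eval

variable {N tb s u a b : ℝ} {N' h' D K S T W A1 A2 : Ex} {x y z : ℝ}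
  (hN' : N'.eval x y z = N) (hh' : h'.eval x y z = N - 2)
  (hD : D.eval x y z ≠ 0) (hK : K.eval x y z ≠ 0)
  (hs : S.eval x y z = s * D.eval x y z) (ht : T.eval x y z = tb * D.eval x y z)
  (hu : W.eval x y z = u * (D.eval x y z ^ 2 * K.eval x y z))
  (ha : A1.eval x y z = a * (D.eval x y z * K.eval x y z))
  (hb : A2.eval x y z = b * K.eval x y z)
  (hN : 2 < N) (htb : 0 < tb) (hs0 : 0 < s)

include hN' hh' hs ht hu ha hN htb hs0 in
lemma En_eval : (En N' h' D K S T W A1).eval x y z =
    etR N tb s u a * (N * (N - 2) * (s + tb) * D.eval x y z ^ 4 * K.eval x y z ^ 2) := by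
  have : N - 2 ≠ 0 := by linarith
  have : N ≠ 0 := by linarith
  have : s + tb ≠ 0 := by linarith
  simp only [En, Vn, Kn, k1, k2, Vd, eval_add', eval_sub', eval_mul', eval_c, hN', hh', hs, ht, hu,
    ha, etR, mR, pone]
  generalize D.eval x y z = D₀
  generalize K.eval x y z = K₀
  push_cast
  field_simp

include hN' hh' hs ht hu ha hb hN htb hs0 in
lemma E1n_eval : (E1n N' h' D K S T W A1 A2).eval x y z =
    etR' N tb s u a b * (N * (N - 2) * (s + tb) ^ 2 * D.eval x y z ^ 4 * K.eval x y z ^ 2) := by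
  have : N - 2 ≠ 0 := by linarith
  have : N ≠ 0 := by linarith
  have : s + tb ≠ 0 := by linarith
  simp only [E1n, Vn, Kn, dK, k1, k2, Vd, eval_add', eval_sub', eval_mul', eval_c, hN', hh', hs,
    ht, hu, ha, hb, etR', mR, mR', pone]
  generalize D.eval x y z = D₀
  generalize K.eval x y z = K₀
  push_cast
  field_simp
  ring

include hN' hh' hs ht hu hN htb in
lemma Cn_eval : (Cn N' h' D K S T W).eval x y z =
    cfR N tb s u * (N * (N - 2) * tb * D.eval x y z ^ 3 * K.eval x y z) := by
  have : N - 2 ≠ 0 := by linarith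
  have : N ≠ 0 := by linarith
  have : tb ≠ 0 := htb.ne'
  simp only [Cn, Mn, Vn, eval_add', eval_sub', eval_mul', eval_c, hN', hh', hs, ht, hu, cfR, lR,
    pone]
  generalize D.eval x y z = D₀
  generalize K.eval x y z = K₀
  push_cast
  field_simp

include hN' hh' hs ht ha hN htb in
lemma C1n_eval : (C1n N' h' D K S T A1).eval x y z =
    cfR' N tb s a * (N * (N - 2) * tb * D.eval x y z ^ 2 * K.eval x y z) := by
  have : N - 2 ≠ 0 := by linarith
  have : N ≠ 0 := by linarith
  have : tb ≠ 0 := htb.ne'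
  simp only [C1n, Vd, eval_add', eval_sub', eval_mul', eval_c, hN', hh', hs, ht, ha, cfR', pone]
  generalize D.eval x y z = D₀
  generalize K.eval x y z = K₀
  push_cast
  field_simp

include hN' hh' hs ht hu ha hN htb hs0 in
lemma Phn_eval : (Phn N' h' D K S T W A1).eval x y z =
    phR N tb s u a *
      (N * (N - 2) ^ 2 * tb ^ 2 * s * (s + tb) * D.eval x y z ^ 7 * K.eval x y z ^ 2) := by
  have : N - 2 ≠ 0 := by linarith
  have : N ≠ 0 := by linarith
  have : tb ≠ 0 := htb.ne'
  have : s + tb ≠ 0 := by linarith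
  have : s ≠ 0 := hs0.ne'
  simp only [Phn, Gn, Mn, Wn, eval_add', eval_sub', eval_mul', eval_c, hN', hh', hs, ht, hu, ha,
    phR, khR, lR, pone]
  generalize D.eval x y z = D₀
  generalize K.eval x y z = K₀
  push_cast
  field_simp

include hN' hh' hs ht hu ha hb hN htb hs0 in
lemma Pn_eval : (Pn N' h' D K S T W A1 A2).eval x y z =
    pR N tb s u a b * (N ^ 2 * (N - 2) ^ 3 * tb ^ 2 * s * (s + tb) ^ 2 * D.eval x y z ^ 11
      * K.eval x y z ^ 4) := by
  simp only [Pn, eval_add', eval_sub', eval_mul', E1n_eval hN' hh' hs ht hu ha hb hN htb hs0,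
    Cn_eval hN' hh' hs ht hu hN htb, C1n_eval hN' hh' hs ht ha hN htb,
    En_eval hN' hh' hs ht hu ha hN htb hs0, Phn_eval hN' hh' hs ht hu ha hN htb hs0,
    hh', hs, ht, hu, pR]
  ring

end eval

end Vale.Agent.P100T.UpperCert
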