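import Vale.Agent.P100T.PosCheck

/-!
Polynomial templates for the upper barrier `W ≤ U σ`: with `σ = S/D`, `tb = T/D`,
`U σ = W₀/(D²K)`, `U' σ = A₁/(D K)`, `U'' σ = A₂/K`, the numerators of `Et` and `P`.
-/

namespace Vale.Agent.P100T.UpperCert

open PosCheck

instance : Add Ex := ⟨Ex.add⟩
instance : Sub Ex := ⟨Ex.sub⟩
instance : Mul Ex := ⟨Ex.mul⟩

/-- Constants. -/
def c (k : Int) : Ex := Ex.num k

section eval

variable {R : Type} [CommRing R] (x y z : R) (a b : Ex)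

@[simp] lemma eval_c (k : Int) : (c k).eval x y z = (k : R) := rfl
@[simp] lemma eval_add' : (a + b).eval x y z = a.eval x y z + b.eval x y z := rfl
@[simp] lemma eval_sub' : (a - b).eval x y z = a.eval x y z - b.eval x y z := rfl
@[simp] lemma eval_mul' : (a * b).eval x y z = a.eval x y z * b.eval x y z := rfl

end eval

section templates

variable (N h D K S T W A1 A2 : Ex)

def Vn : Ex := S * (S - D) * K + W
def Vd : Ex := (c 2 * S - D) * K + A1
def Mn : Ex := N * (D + T) * S * (T - S) * K - h * T * W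
def Cn : Ex := N * Mn N h D K S T W - c 2 * h * T * Vn D K S W
def C1n : Ex :=
  N * (N * (D + T) * (T - c 2 * S) * K - h * T * A1) - c 2 * h * T * Vd D K S A1
def k1 : Ex := N * (D + T) + h * D - h * S
def k2 : Ex := N * T - h * S
def Kn : Ex := k1 N h D S T * k2 N h S T * K + c 2 * (N - c 1) * h * W
def dK : Ex := c 2 * (N - c 1) * A1 - (k2 N h S T + k1 N h D S T) * K
def En : Ex := Vn D K S W * Kn N h D K S T W - N * h * (S + T) * Vd D K S A1 * W
def E1n : Ex :=
  (Vd D K S A1 * Kn N h D K S T W + h * Vn D K S W * dK N h D K S T A1) * (S + T)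
    - Vn D K S W * Kn N h D K S T W
    - N * h * (S + T) * (S + T) * (c 2 * W * K + Vd D K S A1 * A1 + W * A2)
def Gn : Ex :=
  S * (N * S - h * T) * ((N * (D + T) + h * T) * S - h * T * D) * K
    + c 2 * h * T * W * (N * S + T)
def Wn : Ex := S * S * K + A1 * S - W
def Phn : Ex :=
  Gn N h D K S T W * Mn N h D K S T W - c 2 * h * h * T * T * W * Wn K S W A1 * (S + T)
def Pn : Ex :=
  h * T * S * W * (E1n N h D K S T W A1 A2 * Cn N h D K S T W
      - (S + T) * C1n N h D K S T A1 * En N h D K S T W A1)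
    - En N h D K S T W A1 * Phn N h D K S T W A1

end templates

/-- The dimension, `x ≥ 0`. -/
def eN : Ex := c 6 + Ex.x
def eh : Ex := c 4 + Ex.x

/-! `σ∞ = 1`: `tb = 1 + 2y/(h(1+y))`, `ε = z/(1+z)`. -/

namespace A

def Td : Ex := eh * (c 1 + Ex.y)
def Tn : Ex := Td + c 2 * Ex.y
def Q : Ex := eN * eN * (Td + Tn) + c 2 * eh * Tn
def M : Ex := eN * eN * (Td + Tn) * (Tn - Td)
def Ee : Ex := Ex.z
def Ed : Ex := c 1 + Ex.z
def D0 : Ex := Td * Q
def D : Ex := D0 * Ed
def T : Ex := Tn * Q * Ed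
def S : Ex := D + M * Ee
def K : Ex := eh * c 4 * M
def W : Ex := c 2 * D0 * M * Ee * (c 4 * Ed - c 3 * Ee) * M
def A1 : Ex := c 2 * D0 * M * (c 4 * Ed - c 6 * Ee)
def A2 : Ex := c 0 - c 12 * D0
def E : Ex := En eN eh D K S T W A1
def P : Ex := Pn eN eh D K S T W A1 A2

end A

/-! `σ∞ = 1 + d`: `d = dn/dd`, `ε = en/ed`. -/

section caseB

variable (dn dd en ed : Ex)

def D2 : Ex := c 2 * (eN * eN - c 2) * dd + (eN * eN + c 2 * eN - c 4) * dn
def MB : Ex := c 4 * (dd + dn) * (eN - c 1) * (eN * dd + c 2 * dn)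
def D0B : Ex := eh * D2 dn dd * dd
def DB : Ex := D0B dn dd * ed
def TB : Ex := eN * (dd + dn) * D2 dn dd * ed
def SB : Ex := (dd + dn) * eh * D2 dn dd * ed + MB dn dd * en
def An : Ex := c 20 * (eN - c 1) * dd + c 19 * eh * dn
def B6 : Ex := eh * dn + c 6 * dd
def HB : Ex := c 4 * (dd + c 2 * eh * dn)
def KB : Ex := c 100 * (c 10 * eh * (eN - c 1) * dd) * B6 dn dd * HB dn dd * MB dn dd
def WB : Ex :=
  An dn dd * MB dn dd * D0B dn dd *
    (c 100 * B6 dn dd * en * (HB dn dd * ed - c 3 * dd * en)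
      + c 11 * eh * dn * HB dn dd * ed * ed) * MB dn dd
def A1B : Ex :=
  An dn dd * c 100 * B6 dn dd * MB dn dd * D0B dn dd * (HB dn dd * ed - c 6 * dd * en)
def A2B : Ex := c 0 - c 600 * An dn dd * B6 dn dd * dd * D0B dn dd
def EB : Ex :=
  En eN eh (DB dn dd ed) (KB dn dd) (SB dn dd en ed) (TB dn dd ed) (WB dn dd en ed)
    (A1B dn dd en ed)
def PB : Ex :=
  Pn eN eh (DB dn dd ed) (KB dn dd) (SB dn dd en ed) (TB dn dd ed) (WB dn dd en ed)
    (A1B dn dd en ed) (A2B dn dd)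

end caseB

end Vale.Agent.P100T.UpperCert
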