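import Vale.Agent.P100T.BarrierCert
import Vale.Agent.P100T.BarrierEval

/-!
Signs of `Et` and `P` along `U` on `σ∞ < σ < s₂`, in the variables `N`, `tb`.
-/

noncomputable section

namespace Vale.Agent.P100T.UpperCert

open PosCheck

variable (N tb : ℝ)

/-- `σ∞`. -/
def sI : ℝ := max 1 (tb * (N - 2) / N)
/-- `s₂ - σ∞`. -/
def rI : ℝ := (N * pone N tb + 2) / (N * (pone N tb / tb) + 2) - sI N tb
def dI : ℝ := sI N tb - 1
def aI : ℝ := 2 / (N - 2) + 19 / 10 * dI N tb / (N - 1)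
def bI : ℝ := 11 / 100 * aI N tb * rI N tb * ((N - 2) * dI N tb / ((N - 2) * dI N tb + 6))
def beI : ℝ := 3 / 4 / (1 + 2 * (N - 2) * dI N tb)
/-- The barrier. -/
def uI (s : ℝ) : ℝ :=
  aI N tb * ((s - sI N tb) * (1 - beI N tb * (s - sI N tb) / rI N tb)) + bI N tb
def uI' (s : ℝ) : ℝ := aI N tb * (1 - 2 * beI N tb * (s - sI N tb) / rI N tb)
def uI'' : ℝ := -(2 * aI N tb * beI N tb / rI N tb)

variable {N tb}

lemma eN_eval (y z : ℝ) : eN.eval (N - 6) y z = N := by
  simp [eN, Ex.eval]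

lemma eh_eval (y z : ℝ) : eh.eval (N - 6) y z = N - 2 := by
  simp [eh, Ex.eval]; ring

lemma pos_of_sub {e m : Ex} (h : check (e - m) = true) {x y z : ℝ} (hx : 0 ≤ x) (hy : 0 ≤ y)
    (hz : 0 ≤ z) (hm : 0 < m.eval x y z) : 0 < e.eval x y z := by
  have := nonneg_of_check h hx hy hz
  rw [eval_sub'] at this
  linarith

/-- The case `σ∞ = 1`. -/
lemma sign_le (hN : 6 ≤ N) (htb : 1 < tb) (hss : tb * (N - 2) < N) {ε : ℝ} (h0 : 0 < ε)
    (h1 : ε < 1) :
    0 < etR N tb (1 + rI N tb * ε) (uI N tb (1 + rI N tb * ε)) (uI' N tb (1 + rI N tb * ε)) ∧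
    0 < pR N tb (1 + rI N tb * ε) (uI N tb (1 + rI N tb * ε)) (uI' N tb (1 + rI N tb * ε))
      (uI'' N tb) := by
  have hh : 0 < N - 2 := by linarith
  obtain ⟨y, hy, hyt⟩ : ∃ y, 0 < y ∧ tb = 1 + 2 * y / ((N - 2) * (1 + y)) := by
    have hg : 0 < 2 - (N - 2) * (tb - 1) := by nlinarith
    refine ⟨(N - 2) * (tb - 1) / (2 - (N - 2) * (tb - 1)),
      div_pos (mul_pos hh (by linarith)) hg, ?_⟩
    have : 1 + (N - 2) * (tb - 1) / (2 - (N - 2) * (tb - 1)) ≠ 0 := by
      rw [one_add_div hg.ne']; exact div_ne_zero (by linarith) hg.ne'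
    rw [show 1 + (N - 2) * (tb - 1) / (2 - (N - 2) * (tb - 1)) = 2 / (2 - (N - 2) * (tb - 1)) by
      rw [one_add_div hg.ne']; ring]
    field_simp
    ring
  obtain ⟨z, hz, hze⟩ : ∃ z, 0 < z ∧ ε = z / (1 + z) := by
    refine ⟨ε / (1 - ε), div_pos h0 (by linarith), ?_⟩
    have : (1 - ε) ≠ 0 := by linarith
    field_simp
    ring
  have hsI : sI N tb = 1 := max_eq_left (by rw [div_le_one (by linarith)]; linarith)
  have hd : dI N tb = 0 := by simp [dI, hsI]
  set Dv : ℝ := (N - 2) * (1 + y) with hDv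
  have hDp : 0 < Dv := mul_pos hh (by linarith)
  have hTd : A.Td.eval (N - 6) y z = Dv := by simp [A.Td, eh_eval, Ex.eval, hDv]
  have hTn : A.Tn.eval (N - 6) y z = tb * Dv := by
    simp only [eval_add', eval_sub', eval_mul', eval_c, Ex.eval, Int.cast_ofNat, Int.cast_one, Int.cast_zero, A.Tn, hTd, Ex.eval, hyt, hDv]; field_simp
  have hQ : A.Q.eval (N - 6) y z = (N * N * (1 + tb) + 2 * (N - 2) * tb) * Dv := by
    simp only [eval_add', eval_sub', eval_mul', eval_c, Ex.eval, Int.cast_ofNat, Int.cast_one, Int.cast_zero, A.Q, hTd, hTn, eN_eval, eh_eval]; ring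
  have hM : A.M.eval (N - 6) y z = N * N * (1 + tb) * (tb - 1) * Dv ^ 2 := by
    simp only [eval_add', eval_sub', eval_mul', eval_c, Ex.eval, Int.cast_ofNat, Int.cast_one, Int.cast_zero, A.M, hTd, hTn, eN_eval]; ring
  have hr : rI N tb = N * N * (1 + tb) * (tb - 1) / (N * N * (1 + tb) + 2 * (N - 2) * tb) := by
    simp only [rI, hsI, pone]
    have : 0 < N * N * (1 + tb) + 2 * (N - 2) * tb := by positivity
    field_simp
    ring
  have hNN : 0 < N * N * (1 + tb) + 2 * (N - 2) * tb := by positivity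
  have hr0 : 0 < rI N tb := by
    rw [hr]; exact div_pos (mul_pos (by positivity) (by linarith)) hNN
  have hD0 : A.D0.eval (N - 6) y z = (N * N * (1 + tb) + 2 * (N - 2) * tb) * Dv ^ 2 := by
    simp only [eval_add', eval_sub', eval_mul', eval_c, Ex.eval, Int.cast_ofNat, Int.cast_one, Int.cast_zero, A.D0, hTd, hQ]; ring
  have hD : A.D.eval (N - 6) y z = (N * N * (1 + tb) + 2 * (N - 2) * tb) * Dv ^ 2 * (1 + z) := by
    simp only [eval_add', eval_sub', eval_mul', eval_c, Ex.eval, Int.cast_ofNat, Int.cast_one, Int.cast_zero, A.D, hD0, A.Ed, Ex.eval]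
  have hDne : A.D.eval (N - 6) y z ≠ 0 := by rw [hD]; positivity
  have hK : A.K.eval (N - 6) y z = 4 * (N - 2) * (N * N * (1 + tb) * (tb - 1) * Dv ^ 2) := by
    simp only [eval_add', eval_sub', eval_mul', eval_c, Ex.eval, Int.cast_ofNat, Int.cast_one, Int.cast_zero, A.K, hM, eh_eval]; ring
  have hKne : A.K.eval (N - 6) y z ≠ 0 := by
    rw [hK]; exact (mul_pos (by linarith) (mul_pos (mul_pos (by positivity) (by linarith))
      (by positivity))).ne'
  have hne : tb - 1 ≠ 0 := by linarith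
  have hS : A.S.eval (N - 6) y z = (1 + rI N tb * ε) * A.D.eval (N - 6) y z := by
    simp only [eval_add', eval_sub', eval_mul', eval_c, Ex.eval, Int.cast_ofNat, Int.cast_one, Int.cast_zero, A.S, A.Ee, hM, hD, hr, hze, Ex.eval]; field_simp
  have hT : A.T.eval (N - 6) y z = tb * A.D.eval (N - 6) y z := by
    simp only [eval_add', eval_sub', eval_mul', eval_c, Ex.eval, Int.cast_ofNat, Int.cast_one, Int.cast_zero, A.T, A.Ed, hTn, hQ, hD, Ex.eval]; ring
  have hu : A.W.eval (N - 6) y z = uI N tb (1 + rI N tb * ε)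
      * (A.D.eval (N - 6) y z ^ 2 * A.K.eval (N - 6) y z) := by
    simp only [eval_add', eval_sub', eval_mul', eval_c, Ex.eval, Int.cast_ofNat, Int.cast_one, Int.cast_zero, A.W, A.Ee, A.Ed, hM, hD0, hD, hK, uI, aI, bI, beI, hd, hsI, hr, hze, Ex.eval]
    field_simp
    ring
  have ha : A.A1.eval (N - 6) y z = uI' N tb (1 + rI N tb * ε)
      * (A.D.eval (N - 6) y z * A.K.eval (N - 6) y z) := by
    simp only [eval_add', eval_sub', eval_mul', eval_c, Ex.eval, Int.cast_ofNat, Int.cast_one, Int.cast_zero, A.A1, A.Ee, A.Ed, hM, hD0, hD, hK, uI', aI, beI, hd, hsI, hr, hze, Ex.eval]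
    field_simp
    ring
  have hb : A.A2.eval (N - 6) y z = uI'' N tb * A.K.eval (N - 6) y z := by
    simp only [eval_add', eval_sub', eval_mul', eval_c, Ex.eval, Int.cast_ofNat, Int.cast_one, Int.cast_zero, A.A2, hD0, hK, uI'', aI, beI, hd, hr]
    field_simp
    ring
  have hs0 : 0 < 1 + rI N tb * ε := by positivity
  have hX : 0 ≤ N - 6 := by linarith
  have e1 := pos_of_sub checkAE hX hy.le hz.le
    (show 0 < (Ex.y * Ex.y * Ex.y * (Ex.z * Ex.z)).eval (N - 6) y z by
      simp [Ex.eval]; positivity)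
  have e2 := pos_of_sub checkAP hX hy.le hz.le
    (show 0 < (Ex.y * Ex.y * Ex.y * (Ex.y * Ex.y * Ex.y) * (Ex.z * Ex.z)).eval (N - 6) y z by
      simp [Ex.eval]; positivity)
  rw [A.E, En_eval (eN_eval y z) (eh_eval y z) hS hT hu ha (by linarith) (by linarith) hs0] at e1
  rw [A.P, Pn_eval (eN_eval y z) (eh_eval y z) hS hT hu ha hb (by linarith) (by linarith) hs0]
    at e2
  have : 0 < tb - 1 := by linarith
  rw [hD, hK] at e1 e2
  exact ⟨pos_of_mul_pos_left e1 (by positivity), pos_of_mul_pos_left e2 (by positivity)⟩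

/-- The case `σ∞ = 1 + d`, with the parameters as expressions. -/
lemma sign_ge_aux (hN : 6 ≤ N) {d ε y z : ℝ} (htd : tb = N * (1 + d) / (N - 2)) (hd : 0 ≤ d)
    (hε : 0 ≤ ε) {dn dd en ed : Ex} (hdd : 0 < dd.eval (N - 6) y z)
    (hdn : dn.eval (N - 6) y z = d * dd.eval (N - 6) y z)
    (hed : 0 < ed.eval (N - 6) y z) (hen : en.eval (N - 6) y z = ε * ed.eval (N - 6) y z)
    (hE : 0 < (EB dn dd en ed).eval (N - 6) y z) (hP : 0 < (PB dn dd en ed).eval (N - 6) y z) :
    0 < etR N tb (1 + d + rI N tb * ε) (uI N tb (1 + d + rI N tb * ε))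
        (uI' N tb (1 + d + rI N tb * ε)) ∧
    0 < pR N tb (1 + d + rI N tb * ε) (uI N tb (1 + d + rI N tb * ε))
        (uI' N tb (1 + d + rI N tb * ε)) (uI'' N tb) := by
  have hh : 0 < N - 2 := by linarith
  have hN1 : 0 < N - 1 := by linarith
  have hN4 : 0 < N ^ 2 + 2 * N - 4 := by nlinarith
  have hN2 : 0 < N ^ 2 - 2 := by nlinarith
  set G : ℝ := 2 * (N ^ 2 - 2) + (N ^ 2 + 2 * N - 4) * d with hG
  have hG0 : 0 < G := by positivity
  have hsI : sI N tb = 1 + d := by
    rw [sI, show tb * (N - 2) / N = 1 + d by rw [htd]; field_simp]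
    exact max_eq_right (by linarith)
  have hdI : dI N tb = d := by simp [dI, hsI]
  have htb : 0 < tb := by rw [htd]; positivity
  have hr : rI N tb = 4 * (1 + d) * (N - 1) * (N + 2 * d) / ((N - 2) * G) := by
    have : 1 + d ≠ 0 := by linarith
    have hB : N * (pone N tb / tb) + 2 = G / ((N - 2) * (1 + d)) := by
      simp only [pone, htd, hG]
      field_simp
      ring
    rw [rI, hsI, hB]
    simp only [pone, htd]
    field_simp
    rw [hG]
    ring
  set Dd := dd.eval (N - 6) y z with hDd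
  set Ed := ed.eval (N - 6) y z with hEd
  have hM : (MB dn dd).eval (N - 6) y z = 4 * (1 + d) * (N - 1) * (N + 2 * d) * Dd ^ 2 := by
    simp only [eval_add', eval_sub', eval_mul', eval_c, Ex.eval, Int.cast_ofNat, Int.cast_one, Int.cast_zero, MB, hdn, eN_eval, ← hDd]; ring
  have hD2 : (D2 dn dd).eval (N - 6) y z = G * Dd := by
    simp only [eval_add', eval_sub', eval_mul', eval_c, Ex.eval, Int.cast_ofNat, Int.cast_one, Int.cast_zero, D2, hdn, eN_eval, ← hDd, hG]; ring
  have hD0 : (D0B dn dd).eval (N - 6) y z = (N - 2) * G * Dd ^ 2 := by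
    simp only [eval_add', eval_sub', eval_mul', eval_c, Ex.eval, Int.cast_ofNat, Int.cast_one, Int.cast_zero, D0B, hD2, eh_eval, ← hDd]; ring
  have hD : (DB dn dd ed).eval (N - 6) y z = (N - 2) * G * Dd ^ 2 * Ed := by
    simp only [eval_add', eval_sub', eval_mul', eval_c, Ex.eval, Int.cast_ofNat, Int.cast_one, Int.cast_zero, DB, hD0, ← hEd]
  have hAn : (An dn dd).eval (N - 6) y z = (20 * (N - 1) + 19 * (N - 2) * d) * Dd := by
    simp only [eval_add', eval_sub', eval_mul', eval_c, Ex.eval, Int.cast_ofNat, Int.cast_one, Int.cast_zero, An, hdn, eN_eval, eh_eval, ← hDd]; ring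
  have hB6 : (B6 dn dd).eval (N - 6) y z = ((N - 2) * d + 6) * Dd := by
    simp only [eval_add', eval_sub', eval_mul', eval_c, Ex.eval, Int.cast_ofNat, Int.cast_one, Int.cast_zero, B6, hdn, eh_eval, ← hDd]; ring
  have hH : (HB dn dd).eval (N - 6) y z = 4 * (1 + 2 * (N - 2) * d) * Dd := by
    simp only [eval_add', eval_sub', eval_mul', eval_c, Ex.eval, Int.cast_ofNat, Int.cast_one, Int.cast_zero, HB, hdn, eh_eval, ← hDd]; ring
  have hK : (KB dn dd).eval (N - 6) y z = 100 * (10 * (N - 2) * (N - 1)) * ((N - 2) * d + 6)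
      * (4 * (1 + 2 * (N - 2) * d)) * (4 * (1 + d) * (N - 1) * (N + 2 * d)) * Dd ^ 5 := by
    simp only [eval_add', eval_sub', eval_mul', eval_c, Ex.eval, Int.cast_ofNat, Int.cast_one, Int.cast_zero, KB, hB6, hH, hM, eN_eval, eh_eval, ← hDd]; ring
  have hKne : (KB dn dd).eval (N - 6) y z ≠ 0 := by rw [hK]; positivity
  have hDne : (DB dn dd ed).eval (N - 6) y z ≠ 0 := by rw [hD]; positivity
  have hS : (SB dn dd en ed).eval (N - 6) y z
      = (1 + d + rI N tb * ε) * (DB dn dd ed).eval (N - 6) y z := by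
    simp only [eval_add', eval_sub', eval_mul', eval_c, Ex.eval, Int.cast_ofNat, Int.cast_one, Int.cast_zero, SB, hM, hD2, hD, hr, hdn, hen, eh_eval, ← hDd, ← hEd]; field_simp
  have hT : (TB dn dd ed).eval (N - 6) y z = tb * (DB dn dd ed).eval (N - 6) y z := by
    simp only [eval_add', eval_sub', eval_mul', eval_c, Ex.eval, Int.cast_ofNat, Int.cast_one, Int.cast_zero, TB, hD2, hD, hdn, htd, eN_eval, ← hDd, ← hEd]; field_simp
  have hu : (WB dn dd en ed).eval (N - 6) y z = uI N tb (1 + d + rI N tb * ε)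
      * ((DB dn dd ed).eval (N - 6) y z ^ 2 * (KB dn dd).eval (N - 6) y z) := by
    simp only [eval_add', eval_sub', eval_mul', eval_c, Ex.eval, Int.cast_ofNat, Int.cast_one, Int.cast_zero, WB, hAn, hM, hD0, hB6, hH, hD, hK, uI, aI, bI, beI, hdI, hsI, hr, hdn, hen, eh_eval,
      ← hDd, ← hEd]
    field_simp
    ring
  have ha : (A1B dn dd en ed).eval (N - 6) y z = uI' N tb (1 + d + rI N tb * ε)
      * ((DB dn dd ed).eval (N - 6) y z * (KB dn dd).eval (N - 6) y z) := by
    simp only [eval_add', eval_sub', eval_mul', eval_c, Ex.eval, Int.cast_ofNat, Int.cast_one, Int.cast_zero, A1B, hAn, hM, hD0, hB6, hH, hD, hK, uI', aI, beI, hdI, hsI, hr, hen,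
      ← hDd, ← hEd]
    field_simp
    ring
  have hb : (A2B dn dd).eval (N - 6) y z = uI'' N tb * (KB dn dd).eval (N - 6) y z := by
    simp only [eval_add', eval_sub', eval_mul', eval_c, Ex.eval, Int.cast_ofNat, Int.cast_one, Int.cast_zero, A2B, hAn, hD0, hB6, hK, uI'', aI, beI, hdI, hr, ← hDd]
    field_simp
    ring
  have hs0 : 0 < 1 + d + rI N tb * ε := by
    have : 0 ≤ rI N tb := by rw [hr]; positivity
    positivity
  rw [EB, En_eval (eN_eval y z) (eh_eval y z) hS hT hu ha (by linarith) htb hs0] at hE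
  rw [PB, Pn_eval (eN_eval y z) (eh_eval y z) hS hT hu ha hb (by linarith) htb hs0] at hP
  rw [hD, hK] at hE hP
  exact ⟨pos_of_mul_pos_left hE (by positivity), pos_of_mul_pos_left hP (by positivity)⟩

/-- The case `σ∞ ≥ 1` with `σ∞ = tb (N-2)/N`. -/
lemma sign_ge (hN : 6 ≤ N) (hss : N ≤ tb * (N - 2)) {ε : ℝ} (h0 : 0 < ε) (h1 : ε < 1) :
    0 < etR N tb (sI N tb + rI N tb * ε) (uI N tb (sI N tb + rI N tb * ε))
        (uI' N tb (sI N tb + rI N tb * ε)) ∧
    0 < pR N tb (sI N tb + rI N tb * ε) (uI N tb (sI N tb + rI N tb * ε))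
        (uI' N tb (sI N tb + rI N tb * ε)) (uI'' N tb) := by
  have hh : 0 < N - 2 := by linarith
  obtain ⟨d, hd, htd⟩ : ∃ d, 0 ≤ d ∧ tb = N * (1 + d) / (N - 2) := by
    refine ⟨tb * (N - 2) / N - 1, ?_, ?_⟩
    · rw [sub_nonneg, one_le_div (by linarith)]; exact hss
    · field_simp; ring
  have hsI : sI N tb = 1 + d := by
    rw [sI, show tb * (N - 2) / N = 1 + d by rw [htd]; field_simp]
    exact max_eq_right (by linarith)
  rw [hsI]
  have hX : 0 ≤ N - 6 := by linarith
  rcases lt_or_ge ((N - 2) * d) 2 with hlt | hge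
  · obtain ⟨y, hy, hyd⟩ : ∃ y, 0 ≤ y ∧ d = 2 * y / ((N - 2) * (1 + y)) := by
      have hg : 0 < 2 - (N - 2) * d := by linarith
      refine ⟨(N - 2) * d / (2 - (N - 2) * d), div_nonneg (mul_nonneg hh.le hd) hg.le, ?_⟩
      rw [show 1 + (N - 2) * d / (2 - (N - 2) * d) = 2 / (2 - (N - 2) * d) by
        rw [one_add_div hg.ne']; ring]
      field_simp
      rw [mul_div_assoc, div_self (by linarith), mul_one]
    obtain ⟨z, hz, hze⟩ : ∃ z, 0 < z ∧ ε = z / (1 + z) := by
      refine ⟨ε / (1 - ε), div_pos h0 (by linarith), ?_⟩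
      have : (1 - ε) ≠ 0 := by linarith
      field_simp
      ring
    have hdd : 0 < ltD.eval (N - 6) y z := by
      simp [ltD, eh_eval, Ex.eval]; positivity
    exact sign_ge_aux hN htd hd h0.le hdd
      (by simp [ltN, ltD, eh_eval, Ex.eval, hyd]; field_simp)
      (by simp [Ex.eval]; positivity) (by simp [Ex.eval, hze]; field_simp)
      (pos_of_sub checkBltE hX hy hz.le (by simpa [Ex.eval] using hz))
      (pos_of_sub checkBltP hX hy hz.le (by simpa [Ex.eval] using hz))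
  · obtain ⟨y, hy, hyd⟩ : ∃ y, 0 ≤ y ∧ d = (2 + y) / (N - 2) := by
      refine ⟨(N - 2) * d - 2, by linarith, ?_⟩
      field_simp; ring
    have hdd : ∀ z, 0 < geD.eval (N - 6) y z := fun z => by simpa [geD, eh_eval] using hh
    have hdn : ∀ z, geN.eval (N - 6) y z = d * geD.eval (N - 6) y z := fun z => by
      simp [geN, geD, eh_eval, Ex.eval, hyd]; field_simp
    rcases lt_or_ge ε (1 / 4) with he | he
    · obtain ⟨z, hz, hze⟩ : ∃ z, 0 ≤ z ∧ ε = z / (4 * (1 + z)) := by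
        refine ⟨4 * ε / (1 - 4 * ε), div_nonneg (by linarith) (by linarith), ?_⟩
        have hq : (1 - 4 * ε) ≠ 0 := by linarith
        rw [show 1 + 4 * ε / (1 - 4 * ε) = 1 / (1 - 4 * ε) by rw [one_add_div hq]; ring]
        field_simp
        rw [div_self (by linarith)]
      exact sign_ge_aux hN htd hd h0.le (hdd z) (hdn z)
        (by simp [Ex.eval]; positivity) (by simp [Ex.eval, hze]; field_simp)
        (pos_of_sub checkBg1E hX hy hz (by simp [Ex.eval]))
        (pos_of_sub checkBg1P hX hy hz (by simp [Ex.eval]))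
    · obtain ⟨z, hz, hze⟩ : ∃ z, 0 ≤ z ∧ ε = (1 + 4 * z) / (4 * (1 + z)) := by
        refine ⟨(4 * ε - 1) / (4 * (1 - ε)), div_nonneg (by linarith) (by linarith), ?_⟩
        have : (1 - ε) ≠ 0 := by linarith
        field_simp
        ring
      exact sign_ge_aux hN htd hd h0.le (hdd z) (hdn z)
        (by simp [Ex.eval]; positivity) (by simp [Ex.eval, hze]; field_simp)
        (pos_of_sub checkBg2E hX hy hz (by simp [Ex.eval]))
        (pos_of_sub checkBg2P hX hy hz (by simp [Ex.eval]))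

/-- Both signs on `σ∞ < σ < s₂`. -/
theorem sign_pos (hN : 6 ≤ N) (htb : 1 < tb) {s : ℝ} (h0 : sI N tb < s)
    (h1 : s < sI N tb + rI N tb) :
    0 < etR N tb s (uI N tb s) (uI' N tb s) ∧
    0 < pR N tb s (uI N tb s) (uI' N tb s) (uI'' N tb) := by
  have hr : 0 < rI N tb := by linarith
  obtain ⟨ε, e0, e1, rfl⟩ : ∃ ε, 0 < ε ∧ ε < 1 ∧ s = sI N tb + rI N tb * ε := by
    refine ⟨(s - sI N tb) / rI N tb, div_pos (by linarith) hr,
      (div_lt_one hr).2 (by linarith), ?_⟩
    field_simp; ring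
  rcases lt_or_ge (tb * (N - 2)) N with h | h
  · rw [show sI N tb = 1 from max_eq_left (by rw [div_le_one (by linarith)]; linarith)]
    exact sign_le hN htb h e0 e1
  · exact sign_ge hN h e0 e1

end Vale.Agent.P100T.UpperCert
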