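import Vale.Agent.P100T.ExtDef

/-!
The functions of `X = s₂ - σ₀` whose signs give the scalar inequalities of the extension box.
-/

noncomputable section

namespace Vale.Agent.P100T

variable (N p q : ℝ)

/-- The width `s₂ - σ∞`. -/
def boxR : ℝ := extS2 N p q - max 1 (sEq N p q)

/-- The factor in `wm (s₂ - X) = boxBe X (1 - X / s₂)`. -/
def boxBe : ℝ := extS2 N p q * (N * (q + 1) + 2) / (N + 2)

/-- The lower end of `X`, from the second lower line. -/
def boxXmin : ℝ :=
  9 / 10 * extC0 N p q / (boxBe N p q + 27 / 20 * extC0 N p q / boxR N p q)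

/-- The upper end of `X`. -/
def boxXmax : ℝ := boxR N p q / 5

/-- The excess `s3 - s₂`. -/
def boxDl : ℝ := extC0 N p q / (5 * (p + 1))

/-- The lower barrier inequality at `(X, σ)`, for a given top `Cc` and slope bound `K`. -/
def lowF (X Cc K s : ℝ) : ℝ :=
  ((extL N p q + s * (s - 1)) * (k0 N p q s + 2 * nu N p q s * extL N p q)
      - (2 * s - 1) * extL N p q) * (s - (extS2 N p q - X))
    - (N + 2) / 2 * (extL N p q - wm N p q s) * (Cc + K * (X + boxDl N p q))

/-- The exit inequality at `X`, for a given top `Cc` and slope bound `K`. -/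
def exitF (X Cc K : ℝ) : ℝ :=
  (X + boxDl N p q) * (extS3 N p q * (extS3 N p q - 1) + extL N p q)
    - ((p + 1) / (q + 1) - extS3 N p q) * (N / 2) * (Cc + K * (X + boxDl N p q))

/-- The top of the box in the branch `W₀` large. -/
def boxTop (X : ℝ) : ℝ := boxBe N p q * X * (1 - X / extS2 N p q) + extC0 N p q / 100

/-- Its linear majorant. -/
def boxTopLin (X : ℝ) : ℝ := boxBe N p q * X + extC0 N p q / 100

end Vale.Agent.P100T
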