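import Mathlib

/-!
Inequality (i) of the certificate: `c < ce` on the invariant region, in the variables
`(σ, V)`, `V = σ (σ - 1) + W`.
-/

noncomputable section

namespace Vale.Agent.P100T.Ineq

/-- `p + 1` at criticality, in terms of `N` and `tb = (p+1)/(q+1)`. -/
def pp (N tb : ℝ) : ℝ := N * (1 + tb) / (N - 2)

/-- The bound `ce` as a function of `(σ, V)`. -/
def ceF (N tb s V : ℝ) : ℝ := -((N - 1) / N * (pp N tb * tb + V) / (s + tb) ^ 2)

/-- `ce - ce(σ = 1, V = 0)` is nonnegative below the line `W = 2/(N-2) (σ - 1)`. -/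
theorem ce_ge_one {N tb s V : ℝ} (hN : 4 ≤ N) (htb : 1 ≤ tb) (hs : 1 ≤ s) (hst : s ≤ tb)
    (hV : V ≤ (s + 2 / (N - 2)) * (s - 1)) : ceF N tb 1 0 ≤ ceF N tb s V := by
  have hh : 0 < N - 2 := by linarith
  have h1 : 0 < (1 + tb) ^ 2 := by positivity
  have h2 : 0 < (s + tb) ^ 2 := by positivity
  have key : 0 ≤ N * tb * (s + 1 + 2 * tb) - (1 + tb) * ((N - 2) * s + 2) := by
    have f0 : 0 ≤ N * tb * (1 + 2 * tb) - 2 * (1 + tb) := by
      nlinarith [mul_le_mul_of_nonneg_right hN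
        (mul_nonneg (by linarith : 0 ≤ tb) (by linarith : 0 ≤ 1 + 2 * tb))]
    have f1 : 0 ≤ (2 * N + 2) * tb ^ 2 - 2 := by nlinarith
    refine nonneg_of_mul_nonneg_right ?_ (by linarith : 0 < tb)
    nlinarith [mul_nonneg (sub_nonneg.2 hst) f0, mul_nonneg (by linarith : 0 ≤ s) f1]
  have key2 : (1 + tb) ^ 2 * V ≤ pp N tb * tb * ((s + tb) ^ 2 - (1 + tb) ^ 2) := by
    refine (mul_le_mul_of_nonneg_left hV h1.le).trans ?_
    have e : pp N tb * tb * ((s + tb) ^ 2 - (1 + tb) ^ 2) -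
        (1 + tb) ^ 2 * ((s + 2 / (N - 2)) * (s - 1)) = (s - 1) * (1 + tb) / (N - 2) *
          (N * tb * (s + 1 + 2 * tb) - (1 + tb) * ((N - 2) * s + 2)) := by
      unfold pp; field_simp; ring
    have : 0 ≤ (s - 1) * (1 + tb) / (N - 2) *
          (N * tb * (s + 1 + 2 * tb) - (1 + tb) * ((N - 2) * s + 2)) :=
      mul_nonneg (div_nonneg (mul_nonneg (by linarith) (by linarith)) hh.le) key
    linarith
  have hK : 0 ≤ (N - 1) / N := div_nonneg (by linarith) (by linarith)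
  unfold ceF
  rw [neg_le_neg_iff, div_le_div_iff₀ h2 h1]
  nlinarith [mul_le_mul_of_nonneg_left key2 hK]

/-- (i) when `ss ≤ 1`, i.e. `σ∞ = 1` and `c₁ = ce(1)`: `G (σ - 1) ≤ ce - c`. -/
theorem ineqI_le {N tb s W G c : ℝ} (hN : 4 ≤ N) (htb : 1 ≤ tb) (hs : 1 ≤ s) (hst : s ≤ tb)
    (hW : W ≤ 2 / (N - 2) * (s - 1)) (hc : c = ceF N tb 1 0 - G * (s - 1)) :
    G * (s - 1) ≤ ceF N tb s (s * (s - 1) + W) - c := by
  have := ce_ge_one hN htb hs hst (V := s * (s - 1) + W) (by nlinarith)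
  linarith

/-- (i) when `ss = tb (N-2)/N > 1`: the margin is uniform. -/
theorem ineqI_gt {N tb s W G c A B δ : ℝ} (hN : 5 ≤ N) (hss : 1 < tb * (N - 2) / N)
    (hy : tb * (N - 2) / N ≤ s) (hyr : s ≤ tb)
    (hA : A ≤ 2 / (N - 2) + 2 * (tb * (N - 2) / N - 1) / (N - 1))
    (hB : B * (tb * (N - 2) / N - 1 + 3 / (2 * (N - 2))) ≤
      3 / 10 * (tb / N) * A * (tb * (N - 2) / N - 1))
    (hW : W ≤ A * (s - tb * (N - 2) / N) + B) (hδ : 0 ≤ δ)
    (hc : c = -N / (2 * (N - 2)) - δ - G * (s - tb * (N - 2) / N)) :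
    (tb * (N - 2) / N - 1) * (2 * (N - 1) * tb / N) ^ 2 / (2 * (N - 2) * tb) / (s + tb) ^ 2
      + G * (s - tb * (N - 2) / N) ≤ ceF N tb s (s * (s - 1) + W) - c := by
  obtain ⟨h, rfl⟩ : ∃ h, N = h + 2 := ⟨N - 2, by ring⟩
  simp only [add_sub_cancel_right] at hss hy hA hB hW hc ⊢
  have hh : 3 ≤ h := by linarith
  obtain ⟨d, hd, hd0⟩ : ∃ d, tb = (h + 2) * (1 + d) / h ∧ 0 < d := by
    refine ⟨tb * h / (h + 2) - 1, ?_, by linarith⟩
    field_simp; ring
  have htb : 0 < tb := by rw [hd]; positivity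
  have hssd : tb * h / (h + 2) = 1 + d := by rw [hd]; field_simp
  rw [hssd] at hy hW hc hA hB ⊢
  obtain ⟨y, rfl, hy0⟩ : ∃ y, s = 1 + d + y ∧ 0 ≤ y := ⟨s - (1 + d), by ring, by linarith⟩
  have hyb : y * h ≤ 2 * (1 + d) := by
    rw [hd, le_div_iff₀ (by linarith)] at hyr; nlinarith
  simp only [add_sub_cancel_left] at hW hc hA hB ⊢
  have hh0 : 0 < h := by linarith
  have h21 : h + 2 - 1 = h + 1 := by ring
  rw [h21] at hA ⊢
  -- the constant term
  have hB' : (h + 1) / (h + 2) * B ≤ d * (2 * (h + 1) * tb / (h + 2)) ^ 2 / (2 * h * tb) := by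
    have hden : 0 < d + 3 / (2 * h) := by positivity
    have hBle : B ≤ 3 / 10 * (tb / (h + 2)) * A * d / (d + 3 / (2 * h)) := by
      rw [le_div_iff₀ hden]; exact hB
    have hAh : A * h ≤ 2 + 2 * d := by
      calc A * h ≤ (2 / h + 2 * d / (h + 1)) * h := mul_le_mul_of_nonneg_right hA hh0.le
        _ = 2 + 2 * d * (h / (h + 1)) := by field_simp
        _ ≤ 2 + 2 * d := by
          have : h / (h + 1) ≤ 1 := by rw [div_le_one (by linarith)]; linarith
          nlinarith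
    refine (mul_le_mul_of_nonneg_left hBle (by positivity)).trans ?_
    have e : d * (2 * (h + 1) * tb / (h + 2)) ^ 2 / (2 * h * tb) -
        (h + 1) / (h + 2) * (3 / 10 * (tb / (h + 2)) * A * d / (d + 3 / (2 * h))) =
        d * tb * (h + 1) / ((h + 2) ^ 2 * h * (d + 3 / (2 * h))) *
          (2 * (h + 1) * d + 3 * (h + 1) / h - 3 / 10 * (A * h)) := by
      field_simp
    have : 0 ≤ 2 * (h + 1) * d + 3 * (h + 1) / h - 3 / 10 * (A * h) := by
      have : 3 ≤ 3 * (h + 1) / h := by rw [le_div_iff₀ hh0]; linarith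
      nlinarith
    have : 0 ≤ d * tb * (h + 1) / ((h + 2) ^ 2 * h * (d + 3 / (2 * h))) *
          (2 * (h + 1) * d + 3 * (h + 1) / h - 3 / 10 * (A * h)) :=
      mul_nonneg (by positivity) this
    linarith
  -- the increment
  have hinc : 0 ≤ y * ((h + 2) / (2 * h) * (2 * (tb + (1 + d))) - (h + 1) / (h + 2) * (2 * (1 + d) - 1 + A)
      + ((h + 2) / (2 * h) - (h + 1) / (h + 2)) * y) := by
    refine mul_nonneg hy0 ?_
    have e : (h + 2) / (2 * h) * (2 * (tb + (1 + d))) - (h + 1) / (h + 2) * (2 * (1 + d) - 1 + A)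
      + ((h + 2) / (2 * h) - (h + 1) / (h + 2)) * y =
      ((h + 2) ^ 2 * (2 * (h + 1)) * (1 + d) * 2 - 2 * h ^ 2 * (h + 1) * (2 * (1 + d) - 1)
        - 2 * h * (h + 1) * (A * h) + ((h + 2) ^ 2 - 2 * h * (h + 1)) * (y * h)) /
        (2 * h ^ 2 * (h + 2)) := by
      rw [hd]; field_simp; ring
    rw [e]
    refine div_nonneg ?_ (by positivity)
    have hAh : A * h ≤ 2 + 2 * d := by
      calc A * h ≤ (2 / h + 2 * d / (h + 1)) * h := mul_le_mul_of_nonneg_right hA hh0.le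
        _ = 2 + 2 * d * (h / (h + 1)) := by field_simp
        _ ≤ 2 + 2 * d := by
          have : h / (h + 1) ≤ 1 := by rw [div_le_one (by linarith)]; linarith
          nlinarith
    have hyh : 0 ≤ y * h := mul_nonneg hy0 hh0.le
    nlinarith [mul_le_mul_of_nonneg_left hAh (by positivity : (0:ℝ) ≤ 2 * h * (h + 1)),
      mul_le_mul_of_nonneg_left hyb (by positivity : (0:ℝ) ≤ 2 * h * (h + 1)),
      mul_nonneg (sq_nonneg (h + 2)) hyh, mul_nonneg (sq_nonneg h) hd0.le]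
  have hX : 0 < (1 + d + y + tb) ^ 2 := by positivity
  have main : d * (2 * (h + 1) * tb / (h + 2)) ^ 2 / (2 * h * tb) ≤
      (h + 2) / (2 * h) * (1 + d + y + tb) ^ 2 -
        (h + 1) / (h + 2) * (pp (h + 2) tb * tb + ((1 + d + y) * (1 + d + y - 1) + W)) := by
    have hWb := mul_le_mul_of_nonneg_left hW (by positivity : (0:ℝ) ≤ (h + 1) / (h + 2))
    have e : (h + 2) / (2 * h) * (1 + d + y + tb) ^ 2 -
        (h + 1) / (h + 2) * (pp (h + 2) tb * tb + ((1 + d + y) * (1 + d + y - 1) + (A * y + B))) =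
        2 * (d * (2 * (h + 1) * tb / (h + 2)) ^ 2 / (2 * h * tb)) - (h + 1) / (h + 2) * B +
        y * ((h + 2) / (2 * h) * (2 * (tb + (1 + d))) - (h + 1) / (h + 2) * (2 * (1 + d) - 1 + A)
          + ((h + 2) / (2 * h) - (h + 1) / (h + 2)) * y) := by
      unfold pp; rw [add_sub_cancel_right, hd]; field_simp; ring
    nlinarith
  have e2 : ceF (h + 2) tb (1 + d + y) ((1 + d + y) * (1 + d + y - 1) + W) - c =
      ((h + 2) / (2 * h) * (1 + d + y + tb) ^ 2 -
        (h + 1) / (h + 2) * (pp (h + 2) tb * tb + ((1 + d + y) * (1 + d + y - 1) + W))) /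
        (1 + d + y + tb) ^ 2 + δ + G * y := by
    rw [hc]; unfold ceF; rw [h21]; field_simp; ring
  rw [e2]
  have := div_le_div_of_nonneg_right main hX.le
  linarith

end Vale.Agent.P100T.Ineq
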