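import Vale.Agent.P100T.BoxTop
import Vale.Agent.P100T.IneqI

/-!
Inequalities (i) and (ii) on the three-variable box of the extension: `c < ce` below the top
(`U σ` up to `s₂`, `boxTopU` after), and `P2` is concave in `W`; where (i) and (iii) hold,
(ii) follows.
-/

noncomputable section

namespace Vale.Agent.P100T

namespace CPar

variable {C : CPar} {s W : ℝ}

/-- (ii) from (i) and (iii). -/
lemma P2_pos_of_disc (hV : 0 < V s W) (hd : C.c s < C.ce s W)
    (h3 : C.P1 s W ^ 2 < 4 * C.P2 s W * C.P0 s W) : 0 < C.P2 s W := by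
  have h0 : 0 < C.P0 s W := mul_pos hV (sub_pos.2 hd)
  have : 0 < C.P2 s W * C.P0 s W := by linarith [sq_nonneg (C.P1 s W)]
  exact pos_of_mul_pos_left this h0.le

/-- `P2` is concave in `W`. -/
lemma P2_pos_between {Wa Wb : ℝ} (hN : 1 ≤ C.N) (ha : 0 < C.P2 s Wa) (hb : 0 < C.P2 s Wb)
    (h1 : Wa ≤ W) (h2 : W ≤ Wb) : 0 < C.P2 s W := by
  obtain ⟨t, ht0, ht1, rfl⟩ : ∃ t : ℝ, 0 ≤ t ∧ t ≤ 1 ∧ W = (1 - t) * Wa + t * Wb := by
    rcases (h1.trans h2).eq_or_lt with e | e
    · exact ⟨0, le_rfl, zero_le_one, by linarith⟩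
    · exact ⟨(W - Wa) / (Wb - Wa), div_nonneg (by linarith) (by linarith),
        (div_le_one (by linarith)).2 (by linarith),
        by rw [sub_mul, one_mul, div_mul_eq_mul_div, div_mul_eq_mul_div]
           have : Wb - Wa ≠ 0 := by linarith
           field_simp; ring⟩
  have ea : C.a s ((1 - t) * Wa + t * Wb) = (1 - t) * C.a s Wa + t * C.a s Wb := by
    simp only [CPar.a, CPar.l, V, div_eq_mul_inv]; ring
  have ec : C.c' s ((1 - t) * Wa + t * Wb) = (1 - t) * C.c' s Wa + t * C.c' s Wb := by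
    simp only [CPar.c', div_eq_mul_inv]; ring
  have e : C.P2 s ((1 - t) * Wa + t * Wb) = (1 - t) * C.P2 s Wa + t * C.P2 s Wb
      + t * (1 - t) * ((C.N - 1) / (4 * C.N)) * (C.a s Wa - C.a s Wb) ^ 2 := by
    simp only [CPar.P2, ea, ec]; ring
  rw [e]
  have : 0 ≤ (C.N - 1) / (4 * C.N) := div_nonneg (by linarith) (by linarith)
  have : 0 ≤ t * (1 - t) * ((C.N - 1) / (4 * C.N)) * (C.a s Wa - C.a s Wb) ^ 2 := by
    have : 0 ≤ 1 - t := by linarith
    positivity
  rcases ht0.eq_or_lt with e | e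
  · subst e; linarith
  · have := mul_pos e hb
    have := mul_nonneg (sub_nonneg.2 ht1) ha.le
    linarith

end CPar

variable {N p q : ℝ}

/-- `s₂ - σ∞ < 2 t_b / N`. -/
lemma boxR_mul_lt (hN : 0 < N) (hq : 0 < q) (hpq : q < p) :
    boxR N p q * N < 2 * ((p + 1) / (q + 1)) := by
  have h2 := extS2_lt_tb hN hq hpq
  have h3 : sEq N p q ≤ max 1 (sEq N p q) := le_max_right _ _
  have e : (N - 2) / N * ((p + 1) / (q + 1)) * N = (N - 2) * ((p + 1) / (q + 1)) := by
    field_simp
  rw [sEq] at h3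
  simp only [boxR, sEq]
  nlinarith [mul_lt_mul_of_pos_right h2 hN, mul_le_mul_of_nonneg_right h3 hN.le]

/-- `U s₂ + A r / 10` in closed form. -/
lemma upU_s2_eq (hN : 6 ≤ N) (hq : 0 < q) (hpq : q < p) :
    upU N p q (extS2 N p q) + upA N p q * boxR N p q / 10
      = upA N p q * boxR N p q * (11 / 10 - upBe N p q) + upB N p q := by
  have hr := boxR_pos (N := N) (by linarith) hq hpq
  simp only [upU, upR_eq_boxR, show extS2 N p q - upSi N p q = boxR N p q from rfl]
  field_simp
  ring

lemma upB_le (hN : 6 ≤ N) (hq : 0 < q) (hpq : q < p) :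
    0 ≤ upB N p q ∧ upB N p q ≤ 11 / 100 * (upA N p q * boxR N p q) := by
  have hA := upA_nonneg (p := p) (q := q) hN
  have hr := boxR_pos (N := N) (by linarith) hq hpq
  have hu : 0 ≤ (N - 2) * (upSi N p q - 1) := mul_nonneg (by linarith) (by
    have := le_max_left (1 : ℝ) (sEq N p q); unfold upSi; linarith)
  have h1 : 0 ≤ (N - 2) * (upSi N p q - 1) / ((N - 2) * (upSi N p q - 1) + 6) := by positivity
  have h2 : (N - 2) * (upSi N p q - 1) / ((N - 2) * (upSi N p q - 1) + 6) ≤ 1 := by
    rw [div_le_one (by linarith)]; linarith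
  rw [upB, upR_eq_boxR]
  refine ⟨by positivity, ?_⟩
  calc _ ≤ 11 / 100 * upA N p q * boxR N p q * 1 :=
        mul_le_mul_of_nonneg_left h2 (by positivity)
    _ = _ := by ring

/-- The top is at most `U s₂` plus a small multiple of `A r`. -/
lemma boxTopU_excess (hN : 6 ≤ N) (hq : 0 < q) (hpq : q < p)
    (hcrit : N / (p + 1) + N / (q + 1) = N - 2) :
    boxTopU N p q ≤ upA N p q * boxR N p q * (1 + 14 / 125 - upBe N p q) + upB N p q := by
  have h := extC0_le_topU hN hq hpq hcrit
  obtain ⟨hB0, hB1⟩ := upB_le hN hq hpq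
  obtain ⟨hb0, -⟩ := upBe_box (p := p) (q := q) hN
  have e := upU_s2_eq hN hq hpq
  have hAr : 0 ≤ upA N p q * boxR N p q :=
    mul_nonneg (upA_nonneg hN) (boxR_pos (N := N) (by linarith) hq hpq).le
  simp only [boxTopU] at h ⊢
  have := mul_nonneg hAr hb0
  linarith

lemma upU_le_lin (hN : 6 ≤ N) (hq : 0 < q) (hpq : q < p) (s : ℝ) :
    upU N p q s ≤ upA N p q * (s - upSi N p q) + upB N p q := by
  have hA := upA_nonneg (p := p) (q := q) hN
  obtain ⟨hb0, -⟩ := upBe_box (p := p) (q := q) hN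
  have hr := boxR_pos (N := N) (by linarith) hq hpq
  have e : upU N p q s = upA N p q * (s - upSi N p q) + upB N p q
      - upA N p q * upBe N p q * (s - upSi N p q) ^ 2 / boxR N p q := by
    simp only [upU, upR_eq_boxR]; ring
  rw [e]
  have : 0 ≤ upA N p q * upBe N p q * (s - upSi N p q) ^ 2 / boxR N p q := by positivity
  linarith

lemma ce_eq_ceF {C : CPar} (hCN : C.N = N) (hCp : C.p = p) (hCq : C.q = q) (hN : 2 < N)
    (hp : 0 < p) (hq : 0 < q) (hcrit : N / (p + 1) + N / (q + 1) = N - 2) {s : ℝ} (hs : 0 < s)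
    (W : ℝ) : C.ce s W = Ineq.ceF N ((p + 1) / (q + 1)) s (s * (s - 1) + W) := by
  have hk := crit_iff hp hq hcrit
  obtain ⟨T, hT⟩ : ∃ T, T = (p + 1) / (q + 1) := ⟨_, rfl⟩
  have hpp : Ineq.pp N T = p + 1 := by
    rw [Ineq.pp, div_eq_iff (by linarith : N - 2 ≠ 0)]; rw [← hT] at hk; linarith
  have hT0 : 0 < T := by rw [hT]; positivity
  have eT : p + 1 = (q + 1) * T := by rw [hT]; field_simp
  have : s + T ≠ 0 := by positivity
  rw [← hT, Ineq.ceF, hpp, CPar.ce, CPar.mu, CPar.l, CPar.K, CPar.V, hCN, hCp, hCq, eT]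
  field_simp
  ring

/-- **(i) on the three-variable box of the extension.** -/
theorem CPar.d_pos_box {C : CPar} (hCN : C.N = N) (hCp : C.p = p) (hCq : C.q = q) (hN : 6 ≤ N)
    (hq : 0 < q) (hpq : q < p) (hcrit : N / (p + 1) + N / (q + 1) = N - 2)
    (hsi : C.si = upSi N p q) (hG : 0 < C.G)
    (hle : sEq N p q ≤ 1 → C.c1
      = -((N - 1) * ((p + 1) / (q + 1)) / ((N - 2) * (1 + (p + 1) / (q + 1)))))
    (hgt : 1 < sEq N p q → C.c1 ≤ -(N / (2 * (N - 2)))) {s W : ℝ}
    (hs : upSi N p q < s) (hst : s ≤ (p + 1) / (q + 1))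
    (hW : W ≤ boxTopU N p q) (hWU : s ≤ extS2 N p q → W ≤ upU N p q s) :
    C.c s < C.ce s W := by
  have hp : 0 < p := hq.trans hpq
  have hh : 0 < N - 2 := by linarith
  have hN1 : 0 < N - 1 := by linarith
  have hN0 : 0 < N := by linarith
  have hsi1 : (1 : ℝ) ≤ upSi N p q := le_max_left _ _
  have hs1 : 1 < s := hsi1.trans_lt hs
  have hr := boxR_pos (N := N) (by linarith) hq hpq
  have hA := upA_nonneg (p := p) (q := q) hN
  obtain ⟨hb0, -⟩ := upBe_box (p := p) (q := q) hN
  obtain ⟨hB0, -⟩ := upB_le hN hq hpq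
  rw [ce_eq_ceF hCN hCp hCq (by linarith) hp hq hcrit (by linarith) W]
  have hrT := boxR_mul_lt (N := N) hN0 hq hpq
  have hs2 : extS2 N p q - upSi N p q = boxR N p q := rfl
  obtain ⟨T, hT⟩ : ∃ T, T = (p + 1) / (q + 1) := ⟨_, rfl⟩
  rw [← hT] at hle hst hrT ⊢
  have hy : 0 < s - upSi N p q := by linarith
  have hGy : 0 < C.G * (s - upSi N p q) := mul_pos hG hy
  -- `W` is below the line `A y + B`, up to `E` after `s₂`
  set E := upA N p q * boxR N p q * max 0 (14 / 125 - upBe N p q) with hE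
  have hE0 : 0 ≤ E := mul_nonneg (mul_nonneg hA hr.le) (le_max_left _ _)
  have hWl : W ≤ upA N p q * (s - upSi N p q) + upB N p q + E := by
    rcases le_total s (extS2 N p q) with h | h
    · have := (hWU h).trans (upU_le_lin hN hq hpq s); linarith
    · have h1 := hW.trans (boxTopU_excess hN hq hpq hcrit)
      have h2 : upA N p q * boxR N p q ≤ upA N p q * (s - upSi N p q) :=
        mul_le_mul_of_nonneg_left (by linarith) hA
      have h3 := mul_le_mul_of_nonneg_left (le_max_right 0 (14 / 125 - upBe N p q))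
        (mul_nonneg hA hr.le)
      rw [← hE] at h3
      linarith
  rcases le_or_gt (sEq N p q) 1 with hc | hc
  · have hsi' : upSi N p q = 1 := max_eq_left hc
    have hbe : upBe N p q = 3 / 4 := by rw [upBe, hsi']; ring
    have hA' : upA N p q = 2 / (N - 2) := by rw [upA, hsi']; ring
    have hB' : upB N p q = 0 := by rw [upB, hsi']; ring
    have hE' : E = 0 := by rw [hE, hbe]; norm_num
    rw [hsi', hA', hB', hE', add_zero, add_zero] at hWl
    have hc0 : Ineq.ceF N T 1 0
        = -((N - 1) * T / ((N - 2) * (1 + T))) := by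
      have : 0 < T := lt_of_lt_of_le (by linarith) hst
      rw [Ineq.ceF, Ineq.pp]; field_simp; ring
    have h := Ineq.ineqI_le (G := C.G) (c := C.c s) (by linarith) (hs1.le.trans hst) hs1.le hst
      hWl (by rw [CPar.c, hle hc, hsi, hsi', hc0])
    rw [hsi'] at hGy
    linarith
  · have hsi' : upSi N p q = T * (N - 2) / N := by
      rw [show upSi N p q = sEq N p q from max_eq_right hc.le, sEq, ← hT]; ring
    set d := T * (N - 2) / N - 1 with hd
    have hd0 : 0 < d := by rw [hd, ← hsi', show upSi N p q = sEq N p q from max_eq_right hc.le]; linarith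
    have hA' : upA N p q = 2 / (N - 2) + 19 / 10 * d / (N - 1) := by rw [upA, hsi']
    have hB' : upB N p q = 11 / 100 * upA N p q * boxR N p q * ((N - 2) * d / ((N - 2) * d + 6)) := by
      rw [upB, upR_eq_boxR, hsi']
    have hbe : upBe N p q * (1 + 2 * ((N - 2) * d)) = 3 / 4 := by
      rw [upBe, hsi', ← hd, mul_assoc]; exact div_mul_cancel₀ _ (by positivity)
    have hδ : 0 ≤ -(N / (2 * (N - 2))) - C.c1 := by
      have := hgt hc; linarith
    have hB : upB N p q * (d + 3 / (2 * (N - 2)))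
        ≤ 3 / 10 * (T / N) * upA N p q * d := by
      have k : (N - 2) * d / ((N - 2) * d + 6) * (d + 3 / (2 * (N - 2))) ≤ d := by
        rw [div_mul_eq_mul_div, div_le_iff₀ (by positivity)]
        have : (N - 2) * d * (d + 3 / (2 * (N - 2))) = d * ((N - 2) * d + 3 / 2) := by
          field_simp
        rw [this]; exact mul_le_mul_of_nonneg_left (by linarith) hd0.le
      have r' : boxR N p q ≤ 2 * (T / N) := by
        rw [← mul_div_assoc, le_div_iff₀ hN0]; linarith
      have e := mul_le_mul_of_nonneg_left k (show 0 ≤ 11 / 100 * upA N p q * boxR N p q by positivity)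
      have e2 := mul_le_mul_of_nonneg_left r' (show 0 ≤ 11 / 100 * upA N p q * d by positivity)
      have hT0 : 0 ≤ T := by linarith
      have : 0 ≤ T / N * upA N p q * d := by positivity
      rw [hB']
      linarith
    have h := Ineq.ineqI_gt (G := C.G) (c := C.c s) (A := upA N p q) (B := upB N p q)
      (δ := -(N / (2 * (N - 2))) - C.c1) (W := upA N p q * (s - T * (N - 2) / N) + upB N p q)
      (by linarith) (by linarith) (by linarith) hst
      (by rw [hA']; have : 0 ≤ d / (N - 1) := by positivity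
          rw [mul_div_assoc, mul_div_assoc]; linarith)
      hB le_rfl hδ (by rw [CPar.c, hsi, hsi', neg_div]; ring)
    -- the excess after `s₂` is absorbed by half of the constant term
    have hEK : (N - 1) / N * E ≤ d * (2 * (N - 1) * T / N) ^ 2 / (2 * (N - 2) * T) := by
      have hT0 : 0 < T := by linarith
      rcases le_or_gt (14 / 125) (upBe N p q) with hb | hb
      · rw [hE, max_eq_left (by linarith), mul_zero, mul_zero]; positivity
      rw [hE, max_eq_right (by linarith)]
      have hu : 2 ≤ (N - 2) * d := by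
        have := mul_lt_mul_of_pos_right hb (show 0 < 1 + 2 * ((N - 2) * d) by positivity)
        linarith
      have hA2 : upA N p q * (N - 2) ≤ 2 + 2 * d := by
        rw [hA', add_mul, div_mul_cancel₀ _ hh.ne', div_mul_eq_mul_div]
        have : 19 / 10 * d * (N - 2) / (N - 1) ≤ 2 * d := by
          rw [div_le_iff₀ hN1]; linarith [mul_nonneg hd0.le hh.le]
        linarith
      have m1 : upA N p q * (N - 2) * (boxR N p q * N) ≤ (2 + 2 * d) * (2 * T) :=
        mul_le_mul hA2 hrT.le (by positivity) (by positivity)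
      have m2 : upA N p q * (N - 2) * (boxR N p q * N) * (14 / 125 - upBe N p q)
          ≤ (2 + 2 * d) * (2 * T) * (14 / 125) :=
        mul_le_mul m1 (by linarith) (by linarith) (by positivity)
      have m3 : (2 + 2 * d) * (2 * T) * (14 / 125) ≤ 2 * (d * (N - 1)) * T := by
        have : (2 + 2 * d) * (2 * (14 / 125)) ≤ 2 * (d * (N - 1)) := by linarith
        linarith [mul_le_mul_of_nonneg_right this hT0.le]
      rw [show d * (2 * (N - 1) * T / N) ^ 2 / (2 * (N - 2) * T)
        = (N - 1) / N * (2 * (d * (N - 1)) * T / ((N - 2) * N)) by field_simp]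
      refine mul_le_mul_of_nonneg_left ?_ (by positivity)
      rw [le_div_iff₀ (by positivity)]
      linarith
    have hX : 0 < (s + T) ^ 2 := by
      have : 0 < T := lt_of_lt_of_le (by linarith) hst
      positivity
    have hK0 : 0 ≤ (N - 1) / N := by positivity
    have e : Ineq.ceF N T s (s * (s - 1) + W)
        = Ineq.ceF N T s (s * (s - 1) + (upA N p q * (s - T * (N - 2) / N) + upB N p q))
          - (N - 1) / N * (W - (upA N p q * (s - T * (N - 2) / N) + upB N p q)) / (s + T) ^ 2 := by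
      simp only [Ineq.ceF]; ring
    rw [hsi'] at hWl hGy
    have h4 := (div_le_div_iff_of_pos_right hX).2
      ((mul_le_mul_of_nonneg_left (sub_le_iff_le_add'.2 hWl) hK0).trans hEK)
    rw [← hd] at h
    rw [e]
    linarith

end Vale.Agent.P100T
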