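import Vale.Agent.P100T.BoxDiscGeo
import Vale.Agent.P100T.BoxIneqI

/-!
Inequality (iii) at the top `W = boxTopU` of the extension box, for `s₂ ≤ σ ≤ s₃`.
-/

noncomputable section

namespace Vale.Agent.P100T

open BoxDisc

namespace BoxDisc

/-- Positivity on `[lo, hi]` from three template signs. -/
lemma discF_pos_mid {N t si G c0 s c W lo hi D Elo Ehi Dl gd cd : ℝ} (hN : 6 ≤ N) (hs : 0 < s)
    (hst : s < t) (hD : 0 < D) (hDl : 0 < Dl) (hEl : 0 < Elo) (hEh : 0 < Ehi) (hgd : 0 < gd)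
    (hcd : 0 < cd) (hc : c = c0 + G * (s - si))
    (h0 : 0 < pDisc Int.cast (ptR N Dl Elo gd cd s t si lo G c0))
    (h1 : 0 < pDisc Int.cast (ptR N D Ehi gd cd s t si hi G c0))
    (hk : 0 < pCon Int.cast (ptR N D Ehi gd cd s t si hi G c0))
    (hl : lo ≤ W) (hh : W ≤ hi) : 0 < discF N t s c G W :=
  discF_between (con_pos_of (by linarith) hs hst hD hgd hcd hc hk)
    (discF_pos_of (by linarith) hs hst hDl hEl hgd hcd hc h0)
    (discF_pos_of (by linarith) hs hst hD hEh hgd hcd hc h1) hl hh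

/-- `σ∞ = 1`. -/
theorem disc_topA {N t s c W : ℝ} (hN : 6 ≤ N) (ht : 1 < t) (hA : (N - 2) * t < N) (hs0 : 0 < s)
    (hst : s < t) (hs2 : s2T N t ≤ s) (hd : s - s2T N t ≤ (t - s2T N t) / 25)
    (hc : c = (N - 1) * t / ((N - 2) * (1 + t)) + gv N t 1 * (s - 1))
    (hl : 7 / 10 * ((s2T N t - 1) / (N - 2)) ≤ W)
    (hh : W ≤ 704 / 1000 * ((s2T N t - 1) / (N - 2))) : 0 < discF N t s c (gv N t 1) W := by
  have hm : 0 < N - 2 := by linarith
  set Y := (N - 2) * (t - 1) / (N - (N - 2) * t) with hY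
  have hY0 : 0 < Y := div_pos (mul_pos hm (by linarith)) (by linarith)
  obtain ⟨a, ha⟩ : ∃ a, a = (N - 2) * (1 + Y) := ⟨_, rfl⟩
  have ha0 : 0 < a := by rw [ha]; positivity
  have hb : (N - 2) * (1 + Y) + 2 * Y = t * a := by
    have hne : N - (N - 2) * t ≠ 0 := by linarith
    rw [ha, hY]; field_simp; ring
  have hg : 0 < (t - s2T N t) / 25 := by linarith
  obtain ⟨Ln, Ld, hLd, hlam, h0, h1, hk⟩ := certA hN hY0
    (div_nonneg (sub_nonneg.2 hs2) hg.le) ((div_le_one hg).2 hd)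
  rw [hb, ← ha] at h0 h1 hk
  have hs : s = s2T N t + Ln / Ld * ((t - s2T N t) / 25) := by
    rw [hlam, div_mul_cancel₀ _ hg.ne']; ring
  rw [dA, ptA_eq hN ht ha0 hLd hs rfl] at h0 h1
  rw [kA, ptA_eq hN ht ha0 hLd hs rfl] at hk
  have hH : 0 < gH Int.cast N (N - 2) a (t * a) := by
    simp only [gH, Int.cast_ofNat]; positivity
  exact discF_pos_mid hN hs0 hst (by positivity) (by positivity) (by positivity) (by positivity)
    (gF_pos hN ha0 ht) (by positivity) hc h0 h1 hk (by linarith) (by linarith)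

/-- `σ∞ = (N-2) T / N`. -/
theorem disc_topB {N t s c W : ℝ} (hN : 6 ≤ N) (hB : N ≤ (N - 2) * t)
    (hT : t < (7 * N - 17) / 5) (hs0 : 0 < s) (hst : s < t) (hs2 : s2T N t ≤ s)
    (hd : s - s2T N t ≤ 2 / (5 * N) * ((t - 1) / (t + 1)) * rT N t) (hr : 0 < rT N t)
    (hc : c = N / (2 * (N - 2)) + ((N - 2) * t / N - 1) / (20 * N * t ^ 2)
      + gv N t ((N - 2) * t / N) * (s - (N - 2) * t / N))
    (hl : aT N t * rT N t * phiLo N t ≤ W) (hh : W ≤ aT N t * rT N t * phiHi N t) :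
    0 < discF N t s c (gv N t ((N - 2) * t / N)) W := by
  have hm : 0 < N - 2 := by linarith
  have hn : 0 < N := by linarith
  have hN1 : 0 < N - 1 := by linarith
  have ht : 1 < t := by nlinarith
  have hx : 0 ≤ xT N t := mul_nonneg hm.le (by rw [sub_nonneg, le_div_iff₀ hn]; linarith)
  set Y := ((N - 2) * t - N) / ((N - 2) * ((7 * N - 17) / 5 - t)) with hY
  have hY0 : 0 ≤ Y := div_nonneg (by linarith) (mul_nonneg hm.le (by linarith))
  obtain ⟨a, ha⟩ : ∃ a, a = 5 * (N - 2) * (1 + Y) := ⟨_, rfl⟩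
  have ha0 : 0 < a := by rw [ha]; positivity
  have hb : 5 * N + (N - 2) * (7 * N - 17) * Y = t * a := by
    have hm' : Y * ((N - 2) * ((7 * N - 17) / 5 - t)) = (N - 2) * t - N :=
      div_mul_cancel₀ _ (mul_pos hm (by linarith)).ne'
    rw [ha]; linear_combination 5 * hm'
  have hg : 0 < 2 / (5 * N) * ((t - 1) / (t + 1)) * rT N t := by
    have : 0 < t - 1 := by linarith
    positivity
  obtain ⟨Ln, Ld, hLd, hlam, h0, h1, hk⟩ := certB hN hY0
    (div_nonneg (sub_nonneg.2 hs2) hg.le) ((div_le_one hg).2 hd)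
  rw [hb, ← ha] at h0 h1 hk
  have hs : s = s2T N t + Ln / Ld * (2 / (5 * N) * ((t - 1) / (t + 1)) * rT N t) := by
    rw [hlam, div_mul_cancel₀ _ hg.ne']; ring
  rw [ptLo, ptB_eq hN ht ha0 hLd hs (phiLo_mul hn.ne' hx) rfl] at h0
  rw [ptHi, ptB_eq hN ht ha0 hLd hs (phiHi_mul hn.ne' hx) rfl] at h1 hk
  have hH : 0 < gH Int.cast N (N - 2) a (t * a) := by
    simp only [gH, Int.cast_ofNat]; positivity
  have h4 : 0 < F4 Int.cast N (N - 2) a (t * a) := by rw [F4_eq hn.ne']; positivity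
  have h3 : 0 < F3 Int.cast N (N - 2) a (t * a) := by rw [F3_eq hn.ne']; positivity
  exact discF_pos_mid hN hs0 hst (by positivity) (by positivity)
    (mul_pos (mul_pos (mul_pos (mul_pos (by norm_num) hm) hN1) ha0) h4)
    (mul_pos (mul_pos (mul_pos (mul_pos (by norm_num) hm) hN1) ha0) h3)
    (mul_pos (gF_pos hN ha0 ht) (by positivity)) (by positivity) hc h0 h1 hk hl hh

/-- The excess of the box stays below `T`. -/
lemma gap_lt {N t : ℝ} (hN : 6 ≤ N) (ht : 1 < t) (hlt : s2T N t < t) :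
    2 / (5 * N) * ((t - 1) / (t + 1)) * rT N t < t - s2T N t := by
  have hn : 0 < N := by linarith
  have hm : 0 < N - 2 := by linarith
  have h : t - s2T N t = 2 * (N - 2) * t * (t - 1) / (N ^ 2 * (1 + t) + 2 * (N - 2) * t) := by
    have : 0 < N ^ 2 * (1 + t) + 2 * (N - 2) * t := by positivity
    rw [s2T, sub_div' this.ne']; ring
  have hr1 : rT N t ≤ 2 * t / N := by
    have h1 : t - (N - 2) * t / N = 2 * t / N := by field_simp; ring
    rw [rT]; linarith
  refine lt_of_le_of_lt (mul_le_mul_of_nonneg_left hr1 (by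
    have : 0 ≤ t - 1 := by linarith
    positivity)) ?_
  rw [h]
  have hN2 : 2 * (N - 2) ≤ N ^ 2 := by nlinarith
  have k1 : 2 * (N - 2) * t ≤ N ^ 2 * (1 + t) :=
    mul_le_mul hN2 (by linarith) (by linarith) (sq_nonneg N)
  have k2 := mul_le_mul_of_nonneg_left (show 4 ≤ N - 2 by linarith)
    (show 0 ≤ 5 * N ^ 2 * (t + 1) by positivity)
  have hk : 2 * (N ^ 2 * (1 + t) + 2 * (N - 2) * t) < 5 * N ^ 2 * (N - 2) * (t + 1) := by
    have : 0 < N ^ 2 * (1 + t) := by positivity
    linarith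
  have ht1' : 0 < t - 1 := by linarith
  rw [show 2 / (5 * N) * ((t - 1) / (t + 1)) * (2 * t / N)
    = 2 * t * (t - 1) * 2 / (5 * N ^ 2 * (t + 1)) by field_simp,
    div_lt_div_iff₀ (by positivity) (by positivity)]
  have := mul_lt_mul_of_pos_left hk (show 0 < 2 * t * (t - 1) by positivity)
  linarith

end BoxDisc

variable {N p q : ℝ}

/-- **(iii) at the top of the box**: `W = boxTopU`, `σ` from `s₂` to `s₃`. -/
theorem CPar.disc_box_topU {C : CPar} {s : ℝ} (hCN : C.N = N) (hCp : C.p = p) (hCq : C.q = q)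
    (hN : 6 ≤ N) (hq : 0 < q) (hpq : q < p) (hcrit : N / (p + 1) + N / (q + 1) = N - 2)
    (hM : C.M = (N - 4) / N + 2 / ((N - 2) * (p + 1)))
    (hsi : C.si = upSi N p q)
    (hG : C.G = (4 / 25 + 15 / (2 * N ^ 2)) * (1 + 69 / (5 * (N ^ 2 - 12)))
      * ((p + 1) / (q + 1) - 1) / (((p + 1) / (q + 1) - 1 + 19 / 84 - 5 / (7 * N))
        * (1 + 6 * ((p + 1) / (q + 1)) / (5 * N)) * ((p + 1) / (q + 1) - upSi N p q)))
    (hle : sEq N p q ≤ 1 → C.c1
      = -((N - 1) * ((p + 1) / (q + 1)) / ((N - 2) * (1 + (p + 1) / (q + 1)))))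
    (hgt : 1 < sEq N p q → C.c1
      = -N / (2 * (N - 2)) - (C.si - 1) / (20 * N * ((p + 1) / (q + 1)) ^ 2))
    (hT : (p + 1) / (q + 1) < (7 * N - 17) / 5)
    (hs2 : extS2 N p q ≤ s) (hs3 : s ≤ extS3 N p q) :
    C.P1 s (boxTopU N p q) ^ 2 < 4 * C.P2 s (boxTopU N p q) * C.P0 s (boxTopU N p q) := by
  subst hCp hCq
  obtain ⟨t, ht⟩ : ∃ t, t = (C.p + 1) / (C.q + 1) := ⟨_, rfl⟩
  obtain ⟨e1, e2, ht1⟩ := pq_eq (show 2 < N by linarith) hq hpq hcrit ht
  have hn : 0 < N := by linarith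
  have hm : 0 < N - 2 := by linarith
  have hp : 0 < C.p := hq.trans hpq
  have eS : extS2 N C.p C.q = s2T N t := extS2_eq_s2T (by linarith) hq hpq hcrit ht
  have hlt : s2T N t < t := by rw [← eS, ht]; exact extS2_lt_tb hn hq hpq
  have h21 : 1 < s2T N t := eS ▸ one_lt_extS2 hn hq hpq
  have hC0 := (extC0_pos (show (2:ℝ) < N by linarith) hq hpq).le
  have hR := boxR_pos (N := N) (by linarith) hq hpq
  rw [← ht] at hG hle hgt hT
  rw [eS] at hs2
  have hd : s - s2T N t ≤ extC0 N C.p C.q / (5 * (C.p + 1)) := by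
    rw [extS3, eS] at hs3; linarith
  have eG : C.G = gv N t (upSi N C.p C.q) := hG
  have hs0 : 0 < s := by linarith
  have key : s < t ∧ 0 < discF N t s (-C.c s) (gv N t (upSi N C.p C.q)) (boxTopU N C.p C.q) := by
    have eTop := upU_s2_eq hN hq hpq
    have hsE : sEq N C.p C.q = (N - 2) * t / N := by rw [sEq, ← ht]; ring
    rcases lt_or_ge ((N - 2) * t) N with hA | hB
    · have h1 : sEq N C.p C.q ≤ 1 := by rw [hsE, div_le_one hn]; exact hA.le
      have hu : upSi N C.p C.q = 1 := max_eq_left h1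
      obtain ⟨k1, k2⟩ := extC0_small hN hq hpq hcrit ht hA.le
      have hd' : s - s2T N t ≤ (t - s2T N t) / 25 := by
        refine hd.trans ?_
        rw [div_le_iff₀ (by linarith)]
        linarith
      have hst : s < t := by linarith
      refine ⟨hst, ?_⟩
      have hA' : upA N C.p C.q = 2 / (N - 2) := by rw [upA, hu]; ring
      have hr : boxR N C.p C.q = s2T N t - 1 := by rw [boxR, max_eq_left h1, eS]
      have hbe : upBe N C.p C.q = 3 / 4 := by rw [upBe, hu]; ring
      have hB : upB N C.p C.q = 0 := by rw [upB, hu]; ring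
      have hW : boxTopU N C.p C.q = 7 / 10 * ((s2T N t - 1) / (N - 2)) + extC0 N C.p C.q / 100 := by
        rw [boxTopU, eTop, hA', hr, hbe, hB]; ring
      rw [hu, hW]
      refine disc_topA hN ht1 hA hs0 hst hs2 hd' ?_ (by linarith) (by linarith)
      rw [CPar.c, hle h1, hsi, eG, hu]; ring
    · obtain ⟨k1, k2, hr, hA', hu⟩ := extC0_large hN hq hpq hcrit ht hB
      have hd' := hd.trans k1
      rw [hr] at hR
      have hst : s < t := by
        have := gap_lt hN ht1 hlt
        linarith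
      refine ⟨hst, ?_⟩
      have hx : 0 ≤ xT N t := mul_nonneg hm.le (by rw [sub_nonneg, le_div_iff₀ hn]; linarith)
      have hbe : upBe N C.p C.q = 3 / 4 / (1 + 2 * xT N t) := by
        rw [upBe, hu, xT, mul_assoc]
      have hUB : upB N C.p C.q = 11 / 100 * aT N t * rT N t * (xT N t / (xT N t + 6)) := by
        rw [upB, upR_eq_boxR, hr, hA', hu, xT]
      set x := xT N t with hxdef
      have hW : boxTopU N C.p C.q = aT N t * rT N t * (35 / 100 + 3 / 4 * (2 * x / (1 + 2 * x))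
          + 11 / 100 * (x / (x + 6))) + extC0 N C.p C.q / 100 := by
        rw [boxTopU, eTop, hA', hr, hbe, hUB]
        field_simp
        ring
      rw [hu]
      have hAr : 0 ≤ aT N t * rT N t := by
        refine mul_nonneg ?_ hR.le
        rw [← hA']; exact upA_nonneg hN
      have hxx : x / (x + 6) ≤ 2 * x / (1 + 2 * x) := by
        rw [div_le_div_iff₀ (by linarith) (by linarith)]
        nlinarith
      refine disc_topB hN hB hT hs0 hst hs2 hd' hR ?_ ?_ ?_
      · rw [CPar.c, hsi, eG, hu]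
        rcases hB.lt_or_eq with hB' | hB'
        · rw [hgt (by rw [hsE, lt_div_iff₀ hn]; linarith), hsi, hu]
          field_simp
          ring
        · rw [hle (by rw [hsE, ← hB', div_self hn.ne'])]
          have : t = N / (N - 2) := by rw [eq_div_iff hm.ne']; linarith
          subst this
          field_simp
          ring
      · rw [hW]
        have := mul_le_mul_of_nonneg_left (show phiLo N t ≤ 35 / 100
          + 3 / 4 * (2 * x / (1 + 2 * x)) + 11 / 100 * (x / (x + 6)) by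
            rw [phiLo, ← hxdef]; linarith) hAr
        linarith
      · rw [hW]
        have := mul_le_mul_of_nonneg_left (show 35 / 100
          + 3 / 4 * (2 * x / (1 + 2 * x)) + 11 / 100 * (x / (x + 6)) + 12 / 1000 ≤ phiHi N t by
            rw [phiHi, ← hxdef]; linarith) hAr
        linarith
  obtain ⟨hst, hpos⟩ := key
  have hd := Ineq3.disc_eq (C := C) (tb := t) (s := s) (W := boxTopU N C.p C.q) (by linarith)
    (by linarith) hs0 hst (by rw [hCN]; exact e1) (by rw [ht]; field_simp) (by rw [hCN]; exact hM)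
  rw [hCN, eG] at hd
  rw [discF] at hpos
  linarith

end Vale.Agent.P100T
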