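import Vale.Agent.P100T.BoxDiscEx

/-!
Kernel checks for (iii) above `s₂` when `σ∞ > 1`: the ends of the position, the
concavity, and `U` against the lower line.
-/

namespace Vale.Agent.P100T.BoxDisc

open PosCheck

theorem checkLine : check (lessOne eLine) = true := by decide +kernel
theorem checkL1 : check (lessOne (pDisc n (tLo (n 1) (n 1)))) = true := by decide +kernel
theorem checkH1 : check (lessOne (pDisc n (tHi (n 1) (n 1)))) = true := by decide +kernel
theorem checkK1 : check (lessOne (pCon n (tHi (n 1) (n 1)))) = true := by decide +kernel
theorem checkKz : check (lessOne (pCon n (tHi Ex.z eLd))) = true := by decide +kernel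

end Vale.Agent.P100T.BoxDisc
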