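import Vale.Agent.P100T.BoxDiscEx
import Vale.Agent.P100T.BoxDiscCertB

/-!
Kernel checks for (iii) above `s₂` when `σ∞ = 1`.
-/

namespace Vale.Agent.P100T.BoxDisc

open PosCheck

theorem checkA01 : check (lessY (pDisc n (tA 350 (n 1) (n 1))) 4) = true := by decide +kernel
theorem checkA21 : check (lessY (pDisc n (tA 352 (n 1) (n 1))) 4) = true := by decide +kernel
theorem checkAK1 : check (lessY (pCon n (tA 352 (n 1) (n 1))) 2) = true := by decide +kernel
theorem checkA0z : check (lessY (pDisc n (tA 350 Ex.z eLd)) 4) = true := by decide +kernel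
theorem checkA2z : check (lessY (pDisc n (tA 352 Ex.z eLd)) 4) = true := by decide +kernel
theorem checkAKz : check (lessY (pCon n (tA 352 Ex.z eLd)) 2) = true := by decide +kernel

end Vale.Agent.P100T.BoxDisc
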