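import Vale.Agent.P100T.BoxDiscEx

/-!
Kernel checks for (iii) above `s₂` when `σ∞ > 1`, below the top.
-/

namespace Vale.Agent.P100T.BoxDisc

open PosCheck

theorem checkLz : check (lessOne (pDisc n (tLo Ex.z eLd))) = true := by decide +kernel

end Vale.Agent.P100T.BoxDisc
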