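import Vale.Agent.P100T.BoxDiscEx
import Vale.Agent.P100T.BoxDiscCertLo

/-!
Kernel checks for (iii) above `s₂` when `σ∞ > 1`, above the top.
-/

namespace Vale.Agent.P100T.BoxDisc

open PosCheck

theorem checkHz : check (lessOne (pDisc n (tHi Ex.z eLd))) = true := by decide +kernel

end Vale.Agent.P100T.BoxDisc
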