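import Vale.Agent.P100T.PosCheck

/-!
Polynomial templates for inequality (iii) at the top of the extension box. With `σ = S/D`,
`tb = T/D`, `σ∞ = Si/D`, `W = Wn/(D E)`, `c = -Cn/Cd` and `G = gNum/gDen`, the discriminant
`(A₀ + A₁ W) V - Γ² W²` is `pDisc` and `Γ² - A₁` is `pCon`, up to positive factors.
-/

namespace Vale.Agent.P100T.BoxDisc

open PosCheck

variable {R : Type} [Add R] [Sub R] [Mul R] (k : ℤ → R)

/-- A point: `N`, `m = N - 2`, the geometry `D, S, T, Si, E, Wn`, and `G`, `-c1` as fractions. -/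
structure Pt (R : Type) where
  N : R
  m : R
  D : R
  S : R
  T : R
  Si : R
  E : R
  W : R
  gNum : R
  gDen : R
  cNum : R
  cDen : R

variable (P : Pt R)

def X : R := P.S + P.T
def Dd : R := (P.T - P.S) * X P
def Cn : R := P.cNum * P.gDen * P.D + P.gNum * (P.S - P.Si) * P.cDen
def Cd : R := P.cDen * P.gDen * P.D
def An : R := (P.N - k 4) * Dd P - (P.S - P.D) * (P.N * P.S - P.m * P.T)
def mu : R := (P.N - k 1) * (P.D + P.T) * P.T
def dn : R :=
  Cn P * P.N * P.m * (X P * X P)
    - (P.N - k 1) * (P.N * (P.D + P.T) * P.T + P.m * P.S * (P.S - P.D)) * Cd P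
def en : R := Cn P * P.m * (X P * X P) - mu k P * Cd P
def fn : R := k 2 * Cn P * P.m * Dd P - An k P * Cd P
def A0n : R :=
  k 4 * Cn P * (P.m * Dd P - An k P) * dn k P * P.m * Dd P * Cd P
    - (P.N - k 1) * en k P * (fn k P * fn k P)
/-- The term of `G` shared by `bn` and `gn`. -/
def gX : R := P.gNum * P.m * X P * Dd P * P.cDen
def bn : R := gX P + mu k P * Cd P + Cn P * (P.T - k 3 * P.S) * P.m * X P
def A1n : R :=
  k 4 * dn k P * (P.gNum * X P * P.cDen + k 2 * Cn P) * P.m * P.m * Dd P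
    - k 4 * (P.N - k 1) * Cn P * (P.m * Dd P - An k P) * P.m * P.m * Dd P * Cd P
    + k 2 * (P.N - k 1) * fn k P * bn k P * P.m
def gn : R := gX P + Cn P * (k 3 * P.T - P.S) * P.m * X P - mu k P * Cd P
def pDisc : R :=
  A0n k P * P.E * (P.S * (P.S - P.D) * P.E + P.W * P.D)
    + A1n k P * Cd P * P.D * P.W * (P.S * (P.S - P.D) * P.E + P.W * P.D)
    - P.N * P.m * Cd P * ((P.D * gn k P * P.W) * (P.D * gn k P * P.W))
def pCon : R := P.N * P.m * (gn k P * gn k P) - A1n k P

/-! The regimes, with `tb = b / a` and the position `Ln / Ld` in the interval of `σ`. -/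

variable (N m a b Ln Ld : R)

def gG : R := N * N * (a + b) + k 2 * m * a
def gH : R := N * N * (a + b) + k 2 * m * b
def gK : R := (k 8 * N * N + k 375) * (k 5 * N * N + k 9)
def gF : R :=
  k 25 * (N * N - k 12) * (k 84 * N * (b - a) + (k 19 * N - k 60) * a) * (k 5 * N * a + k 6 * b)
def rA : R := N * N * (a + b) * (b - a)

/-- `σ∞ = 1`, `σ = s₂ + (Ln/Ld) (tb - s₂)/25`, `W = (w/500) (2/m) r`. -/
def ptA (w : R) : Pt R where
  N := N
  m := m
  D := k 25 * a * gH k N m a b * Ld
  S := k 25 * b * gG k N m a b * Ld + k 2 * m * b * (b - a) * Ln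
  T := k 25 * b * gH k N m a b * Ld
  Si := k 25 * a * gH k N m a b * Ld
  E := k 20 * m
  W := w * rA N a b * Ld
  gNum := k 42 * a * a * gK k N
  gDen := gF k N a b
  cNum := (N - k 1) * b
  cDen := m * (a + b)

def ee : R := m * b - N * a
def F3 : R := N * a + k 2 * m * ee N m a b
def F4 : R := m * ee N m a b + k 6 * N * a
def rB : R := b * (N * gG k N m a b - m * gH k N m a b)
def gAn : R := k 20 * (N - k 1) * N * a + k 19 * m * ee N m a b
def gLo : R := k 35 * F4 k N m a b + k 86 * m * ee N m a b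
def gHi : R := k 362 * F3 k N m a b + k 1720 * m * ee N m a b
/-- `A (4/5 (1 - be) + 11/100 x/(x+6))` less the slope of the lower line, up to a positive
factor; `x = (N-2)(σ∞-1)`. -/
def gLine : R :=
  gAn k N m a b * (k 20 * (N * a + k 8 * m * ee N m a b) * F4 k N m a b
      + k 11 * m * ee N m a b * F3 k N m a b) * N * N * (b + k 5 * a)
    - k 200 * m * (N - k 1) * F3 k N m a b * F4 k N m a b
      * ((b - a) * N * N * (k 7 * b + k 5 * a) + k 20 * a * (b + k 5 * a))

/-- `σ∞ > 1`, `σ = s₂ + (Ln/Ld) (2/(5N)) ((tb-1)/(tb+1)) r`, and `W = φ A r` with `φ = En / Ed`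
up to the factor `c`: `(gLo, F4, 200)` below `U s₂ + A r/10`, `(gHi, F3, 2000)` above the top. -/
def ptB (En Ed c : R) : Pt R where
  N := N
  m := m
  D := k 5 * N * (a + b) * N * a * gH k N m a b * Ld
  S := k 5 * N * (a + b) * N * b * gG k N m a b * Ld + k 2 * (b - a) * rB k N m a b * Ln
  T := k 5 * N * (a + b) * N * b * gH k N m a b * Ld
  Si := k 5 * N * (a + b) * m * b * gH k N m a b * Ld
  E := c * m * (N - k 1) * a * Ed
  W := gAn k N m a b * rB k N m a b * (a + b) * En * Ld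
  gNum := k 21 * N * (b - a) * a * a * gK k N
  gDen := gF k N a b * b
  cNum := k 10 * N * N * N * b * b + m * a * (m * b - N * a)
  cDen := k 20 * N * N * m * b * b

end Vale.Agent.P100T.BoxDisc
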