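import Vale.Agent.P100T.CertFun

/-!
The discriminant `4 P₂ P₀ - P₁²` is `(A₀ + A₁ W) V - Γ² W²`, and in scale-free variables it is a
positive multiple of `Base.quad`.
-/

noncomputable section

namespace Vale.Agent.P100T.Ineq3

/-- `a` at `W = 0`. -/
def a0F (N tb s : ℝ) : ℝ :=
  (N - 4) / (N - 2) - N / (N - 2) * (s - 1) * (s - tb * (N - 2) / N) / (tb ^ 2 - s ^ 2)
/-- `μ tb`. -/
def muF (N tb s : ℝ) : ℝ := (N - 1) / N * (N * (1 + tb) / (N - 2)) * tb / (s + tb)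
/-- `ce - c` at `W = 0`, where `C = -c`. -/
def d0F (N tb s C : ℝ) : ℝ :=
  C - (muF N tb s + (N - 1) / N / (s + tb) * (s * (s - 1))) / (s + tb)
def A0F (N tb s C : ℝ) : ℝ :=
  4 * C * (1 - a0F N tb s) * d0F N tb s C
    - (N - 1) / N * (C - muF N tb s / (s + tb)) * (2 * C - a0F N tb s) ^ 2
def A1F (N tb s C G : ℝ) : ℝ :=
  4 * d0F N tb s C * (G * (s + tb) + 2 * C) / (tb ^ 2 - s ^ 2)
    - 4 * ((N - 1) / N / (s + tb)) * C * (1 - a0F N tb s) / (s + tb)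
    + 2 * ((N - 1) / N / (s + tb)) * (2 * C - a0F N tb s)
      * (G + (muF N tb s + C * (tb - 3 * s)) / (tb ^ 2 - s ^ 2))
def GamF (N tb s C G : ℝ) : ℝ :=
  G + (C * (3 * tb - s) - muF N tb s) / (tb ^ 2 - s ^ 2)

/-- The discriminant in closed form. -/
lemma disc_eq {C : CPar} {tb s W : ℝ} (hN : 4 < C.N) (htb : 0 < tb) (hs : 0 < s) (hst : s < tb)
    (hp : C.p + 1 = C.N * (1 + tb) / (C.N - 2)) (hq : C.q + 1 = (C.p + 1) / tb)
    (hM : C.M = (C.N - 4) / C.N + 2 / ((C.N - 2) * (C.p + 1))) :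
    4 * C.P2 s W * C.P0 s W - C.P1 s W ^ 2 =
      (A0F C.N tb s (-C.c s) + A1F C.N tb s (-C.c s) C.G * W) * (s * (s - 1) + W)
        - GamF C.N tb s (-C.c s) C.G ^ 2 * W ^ 2 := by
  have hX : s + tb ≠ 0 := by linarith
  have hD : tb ^ 2 - s ^ 2 ≠ 0 := by nlinarith
  have hD' : tb - s ≠ 0 := by linarith
  have hh : C.N - 2 ≠ 0 := by linarith
  have hN0 : C.N ≠ 0 := by linarith
  have hP : 0 < C.p + 1 := by rw [hp]; exact div_pos (by nlinarith) (by linarith)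
  have hQ : C.q + 1 ≠ 0 := by rw [hq]; positivity
  have hL : C.L s = (C.p + 1) / tb * (tb - s) := by rw [CPar.L, hq]; field_simp
  have hK : C.K s = (C.p + 1) / tb * (tb + s) := by rw [CPar.K, hq]; field_simp
  have hmu : C.mu s = (C.N - 1) / C.N * (C.p + 1) / (s + tb) := by
    rw [CPar.mu, hK, hq]; field_simp; ring
  have hl : C.l s W = ((C.p + 1) * s - (s * (s - 1) + W)) / (s + tb) := by
    rw [CPar.l, hK, hq, CPar.V]; field_simp; ring
  have ha : C.a s W = a0F C.N tb s - 2 * W / (tb ^ 2 - s ^ 2) := by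
    rw [CPar.a, hl, hmu, hL, hM, hq, a0F, hp]
    field_simp
    ring
  have hc' : C.c' s W = -(C.G * (W / ((C.p + 1) / tb * (tb - s)))) := by rw [CPar.c', hL]
  have hP2 : C.P2 s W = C.c s * (a0F C.N tb s - 2 * W / (tb ^ 2 - s ^ 2) - 1) + C.G * W / (tb - s)
      - (C.N - 1) / C.N / 4 * (a0F C.N tb s - 2 * W / (tb ^ 2 - s ^ 2) + 2 * C.c s) ^ 2 := by
    rw [CPar.P2, ha, hc', hq]; field_simp; ring
  have hP0 : C.P0 s W = (s * (s - 1) + W)
      * (-((muF C.N tb s + (C.N - 1) / C.N / (s + tb) * (s * (s - 1) + W)) / (s + tb)) - C.c s) := by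
    rw [CPar.P0, CPar.ce, CPar.V, hl, hmu, muF, ← hp]; field_simp; ring
  have hP1 : C.P1 s W = -((C.N - 1) / C.N / (s + tb) * (s * (s - 1) + W)
        * (a0F C.N tb s - 2 * W / (tb ^ 2 - s ^ 2) + 2 * C.c s))
      + W / (tb ^ 2 - s ^ 2) * (C.c s * (3 * tb - s) + muF C.N tb s) - C.G * W := by
    rw [CPar.P1, CPar.nu, CPar.V, ha, hc', hmu, hL, hK, muF, ← hp, hq]; field_simp; ring
  have hts : tb - s ≠ 0 := hD'
  rw [hP2, hP0, hP1, A0F, A1F, GamF, d0F, show tb ^ 2 - s ^ 2 = (tb - s) * (s + tb) by ring]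
  generalize a0F C.N tb s = a
  generalize muF C.N tb s = m
  generalize (C.N - 1) / C.N = K
  generalize C.c s = c
  field_simp
  ring

end Vale.Agent.P100T.Ineq3
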