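import Vale.Agent.P100T.BoxDiscEx
import Vale.Agent.P100T.IneqIIIAlg

/-!
The meaning of the templates `pDisc` and `pCon`.
-/

noncomputable section

namespace Vale.Agent.P100T.BoxDisc

open Ineq3

/-- `4 P₂ P₀ - P₁²` in the variables of `Ineq3.disc_eq`. -/
def discF (N t s c G W : ℝ) : ℝ :=
  (A0F N t s c + A1F N t s c G * W) * (s * (s - 1) + W) - GamF N t s c G ^ 2 * W ^ 2

/-- The point of real parameters. -/
def ptR (N D E gd cd s t si W G c0 : ℝ) : Pt ℝ where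
  N := N
  m := N - 2
  D := D
  S := s * D
  T := t * D
  Si := si * D
  E := E
  W := W * (D * E)
  gNum := G * gd
  gDen := gd
  cNum := c0 * cd
  cDen := cd

variable {N D E gd cd s t si W G c0 c : ℝ}

lemma An_eq (hN : N ≠ 0) (hm : N - 2 ≠ 0) (hw : t ^ 2 - s ^ 2 ≠ 0) :
    An Int.cast (ptR N D E gd cd s t si W G c0)
      = a0F N t s * ((N - 2) * (t ^ 2 - s ^ 2)) * D ^ 2 := by
  simp only [An, Dd, X, ptR, a0F, Int.cast_ofNat]
  field_simp
  ring

lemma mu_eq (hN : N ≠ 0) (hm : N - 2 ≠ 0) (hx : s + t ≠ 0) :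
    mu Int.cast (ptR N D E gd cd s t si W G c0)
      = muF N t s * ((N - 2) * (s + t)) * D ^ 2 := by
  simp only [mu, ptR, muF, Int.cast_one]
  field_simp

lemma Cn_eq (hc : c = c0 + G * (s - si)) :
    Cn (ptR N D E gd cd s t si W G c0) = c * (cd * gd * D) := by
  simp only [Cn, ptR, hc]; ring

lemma dn_eq (hN : N ≠ 0) (hm : N - 2 ≠ 0) (hx : s + t ≠ 0) (hc : c = c0 + G * (s - si)) :
    dn Int.cast (ptR N D E gd cd s t si W G c0)
      = d0F N t s c * (N * (N - 2) * (s + t) ^ 2 * (cd * gd * D)) * D ^ 2 := by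
  rw [dn, Cn_eq hc]
  simp only [Cd, X, ptR, d0F, muF, Int.cast_one]
  field_simp

lemma en_eq (hN : N ≠ 0) (hm : N - 2 ≠ 0) (hx : s + t ≠ 0) (hc : c = c0 + G * (s - si)) :
    en Int.cast (ptR N D E gd cd s t si W G c0)
      = (c - muF N t s / (s + t)) * ((cd * gd * D) * (N - 2) * (s + t) ^ 2) * D ^ 2 := by
  rw [en, mu_eq hN hm hx, Cn_eq hc]
  simp only [Cd, X, ptR]
  field_simp

lemma fn_eq (hN : N ≠ 0) (hm : N - 2 ≠ 0) (hw : t ^ 2 - s ^ 2 ≠ 0) (hc : c = c0 + G * (s - si)) :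
    fn Int.cast (ptR N D E gd cd s t si W G c0)
      = (2 * c - a0F N t s) * ((cd * gd * D) * (N - 2) * (t ^ 2 - s ^ 2)) * D ^ 2 := by
  rw [fn, An_eq hN hm hw, Cn_eq hc]
  simp only [Cd, Dd, X, ptR, Int.cast_ofNat]
  ring

lemma A0n_eq (hN : N ≠ 0) (hm : N - 2 ≠ 0) (hx : s + t ≠ 0) (hw : t ^ 2 - s ^ 2 ≠ 0)
    (hc : c = c0 + G * (s - si)) :
    A0n Int.cast (ptR N D E gd cd s t si W G c0)
      = A0F N t s c * (N * (N - 2) ^ 3 * (s + t) ^ 2 * (t ^ 2 - s ^ 2) ^ 2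
          * (cd * gd * D) ^ 3 * D ^ 6) := by
  rw [A0n, dn_eq hN hm hx hc, en_eq hN hm hx hc, fn_eq hN hm hw hc, An_eq hN hm hw, Cn_eq hc, A0F]
  simp only [Cd, Dd, X, ptR, Int.cast_ofNat, Int.cast_one]
  generalize a0F N t s = a
  generalize d0F N t s c = d
  generalize muF N t s / (s + t) = μ
  field_simp
  ring

lemma gn_eq (hN : N ≠ 0) (hm : N - 2 ≠ 0) (hx : s + t ≠ 0) (hw : t ^ 2 - s ^ 2 ≠ 0)
    (hc : c = c0 + G * (s - si)) :
    gn Int.cast (ptR N D E gd cd s t si W G c0)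
      = GamF N t s c G * ((N - 2) * (s + t) * (t ^ 2 - s ^ 2) * (cd * gd * D)) * D ^ 2 := by
  rw [gn, mu_eq hN hm hx, Cn_eq hc, GamF]
  simp only [gX, Cd, Dd, X, ptR, Int.cast_ofNat]
  generalize muF N t s = μ
  field_simp
  ring

lemma bn_eq (hN : N ≠ 0) (hm : N - 2 ≠ 0) (hx : s + t ≠ 0) (hw : t ^ 2 - s ^ 2 ≠ 0)
    (hc : c = c0 + G * (s - si)) :
    bn Int.cast (ptR N D E gd cd s t si W G c0)
      = (G + (muF N t s + c * (t - 3 * s)) / (t ^ 2 - s ^ 2))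
        * ((N - 2) * (s + t) * (t ^ 2 - s ^ 2) * (cd * gd * D)) * D ^ 2 := by
  rw [bn, mu_eq hN hm hx, Cn_eq hc]
  simp only [gX, Cd, Dd, X, ptR, Int.cast_ofNat]
  generalize muF N t s = μ
  field_simp
  ring

lemma A1n_eq (hN : N ≠ 0) (hm : N - 2 ≠ 0) (hx : s + t ≠ 0) (hw : t ^ 2 - s ^ 2 ≠ 0)
    (hc : c = c0 + G * (s - si)) :
    A1n Int.cast (ptR N D E gd cd s t si W G c0)
      = A1F N t s c G * (N * (N - 2) ^ 3 * (s + t) ^ 2 * (t ^ 2 - s ^ 2) ^ 2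
          * (cd * gd * D) ^ 2 * D ^ 4) := by
  rw [A1n, dn_eq hN hm hx hc, bn_eq hN hm hx hw hc, fn_eq hN hm hw hc, An_eq hN hm hw, Cn_eq hc, A1F]
  simp only [Cd, Dd, X, ptR, Int.cast_ofNat, Int.cast_one]
  generalize a0F N t s = a
  generalize d0F N t s c = d
  generalize muF N t s = μ
  field_simp
  ring

/-- The meaning of `pDisc`. -/
theorem discF_pos_of (hN : 4 < N) (hs : 0 < s) (hst : s < t) (hD : 0 < D) (hE : 0 < E)
    (hgd : 0 < gd) (hcd : 0 < cd) (hc : c = c0 + G * (s - si))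
    (h : 0 < pDisc Int.cast (ptR N D E gd cd s t si W G c0)) : 0 < discF N t s c G W := by
  have hN0 : N ≠ 0 := by linarith
  have hm : 0 < N - 2 := by linarith
  have hw : 0 < t ^ 2 - s ^ 2 := by nlinarith
  have hx : 0 < s + t := by linarith
  rw [pDisc, A0n_eq hN0 hm.ne' hx.ne' hw.ne' hc, A1n_eq hN0 hm.ne' hx.ne' hw.ne' hc,
    gn_eq hN0 hm.ne' hx.ne' hw.ne' hc] at h
  simp only [Cd, ptR] at h
  rw [discF]
  generalize A0F N t s c = A at h ⊢
  generalize A1F N t s c G = B at h ⊢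
  generalize GamF N t s c G = Γ at h ⊢
  have hN1 : 0 < N := by linarith
  refine pos_of_mul_pos_left (b := N * (N - 2) ^ 3 * (s + t) ^ 2 * (t ^ 2 - s ^ 2) ^ 2
    * (cd * gd * D) ^ 3 * D ^ 8 * E ^ 2) ?_ (by positivity)
  refine lt_of_lt_of_eq h ?_
  ring

/-- The meaning of `pCon`. -/
theorem con_pos_of (hN : 4 < N) (hs : 0 < s) (hst : s < t) (hD : 0 < D)
    (hgd : 0 < gd) (hcd : 0 < cd) (hc : c = c0 + G * (s - si))
    (h : 0 < pCon Int.cast (ptR N D E gd cd s t si W G c0)) :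
    A1F N t s c G < GamF N t s c G ^ 2 := by
  have hN0 : N ≠ 0 := by linarith
  have hm : 0 < N - 2 := by linarith
  have hw : 0 < t ^ 2 - s ^ 2 := by nlinarith
  have hx : 0 < s + t := by linarith
  rw [pCon, A1n_eq hN0 hm.ne' hx.ne' hw.ne' hc, gn_eq hN0 hm.ne' hx.ne' hw.ne' hc] at h
  simp only [ptR] at h
  have hN1 : 0 < N := by linarith
  refine sub_pos.1 (pos_of_mul_pos_left (b := N * (N - 2) ^ 3 * (s + t) ^ 2
    * (t ^ 2 - s ^ 2) ^ 2 * (cd * gd * D) ^ 2 * D ^ 4) ?_ (by positivity))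
  refine lt_of_lt_of_eq h ?_
  ring

/-- A downward parabola is positive between two positive values. -/
theorem discF_between {lo hi : ℝ} (hcon : A1F N t s c G < GamF N t s c G ^ 2)
    (h0 : 0 < discF N t s c G lo) (h1 : 0 < discF N t s c G hi) (hl : lo ≤ W) (hh : W ≤ hi) :
    0 < discF N t s c G W := by
  rcases hl.eq_or_lt with rfl | hl
  · exact h0
  simp only [discF] at *
  generalize A0F N t s c = A at *
  generalize A1F N t s c G = B at *
  generalize GamF N t s c G = Γ at *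
  generalize s * (s - 1) = V at *
  have key : (hi - lo) * ((A + B * W) * (V + W) - Γ ^ 2 * W ^ 2)
      = (hi - W) * ((A + B * lo) * (V + lo) - Γ ^ 2 * lo ^ 2)
        + (W - lo) * ((A + B * hi) * (V + hi) - Γ ^ 2 * hi ^ 2)
        + (Γ ^ 2 - B) * ((hi - W) * ((W - lo) * (hi - lo))) := by ring
  have : 0 < (hi - lo) * ((A + B * W) * (V + W) - Γ ^ 2 * W ^ 2) := by
    rw [key]
    have := mul_nonneg (sub_nonneg.2 hh) h0.le
    have := mul_pos (sub_pos.2 hl) h1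
    have := mul_nonneg (sub_nonneg.2 hcon.le) (mul_nonneg (sub_nonneg.2 hh)
      (mul_nonneg (sub_nonneg.2 hl.le) (show 0 ≤ hi - lo by linarith)))
    linarith
  exact pos_of_mul_pos_right this (by linarith)

end Vale.Agent.P100T.BoxDisc
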