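import Vale.Agent.P100T.BoxDiscDef

/-!
The variables `N = 6 + x`, `tb` through `y` and the position through `z` as expressions.
-/

namespace Vale.Agent.P100T.BoxDisc

open PosCheck

instance : Add Ex := ⟨Ex.add⟩
instance : Sub Ex := ⟨Ex.sub⟩
instance : Mul Ex := ⟨Ex.mul⟩

/-- An integer constant. -/
abbrev n (j : ℤ) : Ex := Ex.num j

def eN : Ex := Ex.x + n 6
def em : Ex := Ex.x + n 4
def aA : Ex := em * (n 1 + Ex.y)
def bA : Ex := em * (n 1 + Ex.y) + n 2 * Ex.y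
def aB : Ex := n 5 * em * (n 1 + Ex.y)
def bB : Ex := n 5 * eN + em * (n 7 * eN - n 17) * Ex.y

/-- `λ = z / (1 + z)` -/
def eLd : Ex := n 1 + Ex.z

def tA (w : ℤ) (Ln Ld : Ex) : Pt Ex := ptA n eN em aA bA Ln Ld (n w)
def tLo (Ln Ld : Ex) : Pt Ex :=
  ptB n eN em aB bB Ln Ld (gLo n eN em aB bB) (F4 n eN em aB bB) (n 200)
def tHi (Ln Ld : Ex) : Pt Ex :=
  ptB n eN em aB bB Ln Ld (gHi n eN em aB bB) (F3 n eN em aB bB) (n 2000)

def eLine : Ex := gLine n eN em aB bB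

/-- Less `y ^ j`. -/
def lessY (e : Ex) (j : ℕ) : Ex := e - Ex.pow Ex.y j

/-- Less `1`. -/
def lessOne (e : Ex) : Ex := e - n 1

end Vale.Agent.P100T.BoxDisc
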