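import Vale.Agent.P100T.LowerOrbit

/-!
The orbit between `τ₀` and `log t_b`, for any barriers satisfying scalar inequalities:
`σ` stays below `s₂`, `wm σ < W < Ub σ` and `l σ < W`.
-/

open Set Filter Topology

noncomputable section

namespace Vale.Agent.P100T

/-- The zero `s₂` of `wm`. -/
def sTwo (N p q : ℝ) : ℝ := (N * (p + 1) + 2) / (N * (q + 1) + 2)

/-- The part of the rate of `W` that is free of `κ`. -/
def frc (N p q s W : ℝ) : ℝ :=
  (W + s * (s - 1)) * (k0 N p q s + 2 * nu N p q s * W) - (2 * s - 1) * W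

/-- A function that can reach zero only with positive derivative stays positive. -/
lemma pos_of_first_zero {f f' : ℝ → ℝ} {a b : ℝ} (hf : ∀ x ∈ Icc a b, HasDerivAt f (f' x) x)
    (hz : ∀ x ∈ Ioc a b, (∀ y ∈ Ico a x, 0 < f y) → f x = 0 → 0 < f' x) (ha : 0 < f a) :
    ∀ x ∈ Icc a b, 0 < f x := by
  intro x hx
  by_contra hle
  push Not at hle
  have hc : ContinuousOn f (Icc a b) := fun y hy => (hf y hy).continuousAt.continuousWithinAt
  have hcl : IsCompact (Icc a b ∩ f ⁻¹' Iic 0) :=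
    isCompact_Icc.of_isClosed_subset (hc.preimage_isClosed_of_isClosed isClosed_Icc isClosed_Iic)
      inter_subset_left
  obtain ⟨x0, ⟨hx0, hf0⟩, hmin⟩ := hcl.exists_isLeast ⟨x, hx, hle⟩
  have hne : a < x0 := hx0.1.lt_of_ne fun e => by
    simp only [mem_preimage, mem_Iic, ← e] at hf0
    linarith
  have hbefore : ∀ y ∈ Ico a x0, 0 < f y := fun y hy => by
    by_contra h
    exact absurd (hmin ⟨⟨hy.1, hy.2.le.trans hx0.2⟩, not_lt.1 h⟩) (not_le.2 hy.2)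
  have h0 : f x0 = 0 := by
    refine le_antisymm hf0 ?_
    refine ge_of_tendsto (((hf x0 hx0).continuousAt).tendsto.mono_left
      (nhdsWithin_le_nhds (s := Iio x0))) ?_
    filter_upwards [Ioo_mem_nhdsLT hne] with y hy
    exact (hbefore y ⟨hy.1.le, hy.2⟩).le
  have hpos := hz x0 ⟨hne, hx0.2⟩ hbefore h0
  obtain ⟨y, hy, hyI⟩ := ((((hasDerivAt_iff_tendsto_slope.1 (hf x0 hx0))).mono_left
    (nhdsLT_le_nhdsNE x0)).eventually (eventually_gt_nhds hpos) |>.and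
    (Ioo_mem_nhdsLT hne)).exists
  rw [slope_def_field, h0, sub_zero] at hy
  have := div_neg_of_pos_of_neg (hbefore y ⟨hyI.1.le, hyI.2⟩) (sub_neg.2 hyI.2)
  linarith

namespace IsOrbitExt

variable {N p q τ₀ τb τ a : ℝ} {S κ ε : ℝ → ℝ}

lemma exp_τ₀ (o : IsOrbitExt N p q τ₀ τb S κ ε) : Real.exp τ₀ = S τ₀ := by
  have h := o.eqV o.τ₀_lt_τb
  rw [o.κ_zero, zero_mul] at h
  linarith

lemma wm_nonneg_of_le {s : ℝ} (hN : 2 < N) (hq : 0 < q) (hs : 0 ≤ s) (h : s ≤ sTwo N p q) :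
    0 ≤ wm N p q s := by
  rw [sTwo, le_div_iff₀ (by positivity)] at h
  refine div_nonneg (mul_nonneg hs ?_) (by linarith)
  linarith

/-- Above `τ₀` the orbit is above the curve `wm` while `σ ≤ s₂`. -/
lemma wm_lt_W (o : IsOrbitExt N p q τ₀ τb S κ ε) (hN : 2 < N) (hp : 0 < p) (hq : 0 < q)
    (hpq : q < p) (hcrit : N / (p + 1) + N / (q + 1) = N - 2) (ha : a < τb)
    (hs2 : ∀ x ∈ Icc τ₀ a, S x ≤ sTwo N p q) {x : ℝ} (hx : x ∈ Ioc τ₀ a) :
    wm N p q (S x) < oW p q S x := by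
  have hxb : ∀ y ∈ Icc τ₀ x, y < τb := fun y hy => (hy.2.trans hx.2).trans_lt ha
  suffices 0 < (fun y => oW p q S y - wm N p q (S y)) x by linarith [this]
  refine upcross hx.1 (f := fun y => oW p q S y - wm N p q (S y))
    (f' := fun y => deriv (oW p q S) y - (N * (p + 1) + 2 - 2 * (N * (q + 1) + 2) * S y) / (N + 2)
      * (oW p q S y / ((p + 1) - (q + 1) * S y))) (fun y hy => ?_) (fun y hy h0 => ?_) ?_
  · refine ((o.hasDerivAt_gap hN hq (hxb y hy)).neg.congr_of_eventuallyEq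
      (Eventually.of_forall fun z => by simp)).congr_deriv (by ring)
  · have hyb := hxb y hy
    rcases hy.1.eq_or_lt with rfl | hlt
    · have := o.gap_deriv hN hp hq hpq (o.W_τ₀_pos hN hp hq hpq hcrit).le
      linarith
    · have hL := o.L_pos hq hyb
      have hw : oW p q S y = wm N p q (S y) := by linarith
      have hcross := wm_cross hN hp hq hpq (o.one_lt y hyb).le (o.lt_tb y hyb)
        (wm_nonneg_of_le hN hq (zero_le_one.trans (o.one_lt y hyb).le)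
          (hs2 y ⟨hy.1, hy.2.trans hx.2⟩))
      have hr := o.rateW (by linarith) hp hq hyb
      rw [← hw, sub_self, mul_zero, neg_zero, zero_add] at hr
      have hr' := mul_left_cancel₀ (o.κ_neg y hlt hyb).ne hr
      rw [← hw] at hcross
      simp only [oV] at hr'
      refine pos_of_mul_pos_right (a := (p + 1) - (q + 1) * S y) ?_ hL.le
      rw [mul_sub, hr', mul_left_comm _ (_ / (N + 2)), mul_div_cancel₀ _ hL.ne']
      linarith
  · rw [o.W_τ₀ (by linarith) hp hq, sub_self]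

lemma W_pos_ext (o : IsOrbitExt N p q τ₀ τb S κ ε) (hN : 2 < N) (hp : 0 < p) (hq : 0 < q)
    (hpq : q < p) (hcrit : N / (p + 1) + N / (q + 1) = N - 2) (ha : a < τb)
    (hs2 : ∀ x ∈ Icc τ₀ a, S x ≤ sTwo N p q) {x : ℝ} (hx : x ∈ Icc τ₀ a) :
    0 < oW p q S x := by
  rcases hx.1.eq_or_lt with rfl | h
  · exact o.W_τ₀_pos hN hp hq hpq hcrit
  · exact (wm_nonneg_of_le hN hq (zero_le_one.trans (o.one_lt x (hx.2.trans_lt ha)).le)
      (hs2 x hx)).trans_lt (o.wm_lt_W hN hp hq hpq hcrit ha hs2 ⟨h, hx.2⟩)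

lemma S_mono_ext (o : IsOrbitExt N p q τ₀ τb S κ ε) (hN : 2 < N) (hp : 0 < p) (hq : 0 < q)
    (hpq : q < p) (hcrit : N / (p + 1) + N / (q + 1) = N - 2) (ha : a < τb)
    (hs2 : ∀ x ∈ Icc τ₀ a, S x ≤ sTwo N p q) : StrictMonoOn S (Icc τ₀ a) := by
  refine strictMonoOn_of_deriv_pos (convex_Icc _ _) (fun x hx =>
    (o.hasDerivAt_S hq (hx.2.trans_lt ha)).continuousAt.continuousWithinAt) ?_
  intro x hx
  rw [interior_Icc] at hx
  have hxb := hx.2.trans ha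
  rw [(o.hasDerivAt_S hq hxb).deriv]
  exact div_pos (o.W_pos_ext hN hp hq hpq hcrit ha hs2 (Ioo_subset_Icc_self hx)) (o.L_pos hq hxb)

/-- The upper barrier: `W < Ub σ`. -/
theorem W_lt_upper (o : IsOrbitExt N p q τ₀ τb S κ ε) {C : CPar} (hA : C.Adm) (hCN : C.N = N)
    (hCp : C.p = p) (hCq : C.q = q) (hN : 5 ≤ N) (hpq : q < p)
    (hcrit : N / (p + 1) + N / (q + 1) = N - 2) (ha : a < τb)
    (hs2 : ∀ x ∈ Icc τ₀ a, S x ≤ sTwo N p q) {Ub Ub' : ℝ → ℝ}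
    (hUb : ∀ s ∈ Icc (S τ₀) (sTwo N p q), HasDerivAt Ub (Ub' s) s)
    (hU0 : oW p q S τ₀ < Ub (S τ₀))
    (hUreg : ∀ s ∈ Icc (S τ₀) (sTwo N p q),
      (N + 2) * (Ub s - wm N p q s) ≤ 2 * q * s * (s + (p + 1) / (q + 1)))
    (hUd : ∀ s ∈ Icc (S τ₀) (sTwo N p q), C.Wd s (Ub s) ≤ Ub' s * Ub s)
    {x : ℝ} (hx : x ∈ Icc τ₀ a) : oW p q S x < Ub (S x) := by
  have hp : 0 < p := hCp ▸ hA.hp
  have hq : 0 < q := hCq ▸ hA.hq
  have hN2 : 2 < N := by linarith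
  have hτa : τ₀ ≤ a := hx.1.trans hx.2
  have hb : ∀ y ∈ Icc τ₀ a, y < τb := fun y hy => hy.2.trans_lt ha
  have hSI : ∀ y ∈ Icc τ₀ a, S y ∈ Icc (S τ₀) (sTwo N p q) := fun y hy =>
    ⟨(o.S_mono_ext hN2 hp hq hpq hcrit ha hs2).monotoneOn ⟨le_rfl, hτa⟩ hy hy.1, hs2 y hy⟩
  suffices 0 < (fun y => Ub (S y) - oW p q S y) x by linarith [this]
  refine pos_of_first_zero (f := fun y => Ub (S y) - oW p q S y)
    (f' := fun y => Ub' (S y) * (oW p q S y / ((p + 1) - (q + 1) * S y)) - deriv (oW p q S) y)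
    (fun y hy => ((hUb _ (hSI y hy)).comp y (o.hasDerivAt_S hq (hb y hy))).sub
      (o.hasDerivAt_W (hb y hy)))
    (fun y hy hbefore h0 => ?_) (sub_pos.2 hU0) x hx
  have hyI := Ioc_subset_Icc_self hy
  have hyb := hb y hyI
  have h := o.lt_Wd hA hCN hCp hCq hN hpq hyb (fun z hz => ?_) (τ := y) ⟨hy.1, le_rfl⟩
  · have hw : oW p q S y = Ub (S y) := by linarith
    have hd := hUd _ (hSI y hyI)
    rw [← hw] at hd
    have hL := o.L_pos hq hyb
    rw [CPar.L, hCp, hCq] at h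
    refine pos_of_mul_pos_right (a := (p + 1) - (q + 1) * S y) ?_ hL.le
    rw [mul_sub, mul_left_comm, mul_div_cancel₀ _ hL.ne']
    linarith
  · have hzI : z ∈ Icc τ₀ a := ⟨hz.1.le, hz.2.trans hyI.2⟩
    have hWp := o.W_pos_ext hN2 hp hq hpq hcrit ha hs2 hzI
    refine ⟨(o.sEq_lt hN2 hp hq hcrit le_rfl).le.trans (hSI z hzI).1, hWp, ?_⟩
    have hle : oW p q S z ≤ Ub (S z) := by
      rcases hz.2.eq_or_lt with rfl | hlt
      · linarith
      · linarith [hbefore z ⟨hz.1.le, hlt⟩]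
    have hs := one_pos.trans (o.one_lt z (hb z hzI))
    have e := Av_eq_wm hA hs (oW p q S z)
    rw [hCN, hCp, hCq] at e
    simp only [CPar.Av, hCN] at e
    have hreg := hUreg _ (hSI z hzI)
    have hP : 0 < q * S z * (S z + (p + 1) / (q + 1)) := by positivity
    refine le_of_mul_le_mul_right (a := q * S z * (S z + (p + 1) / (q + 1))) ?_ hP
    nlinarith [mul_le_mul_of_nonneg_left hle (show (0:ℝ) ≤ N + 2 by linarith)]

/-- `σ` stays below `s₂` up to `log t_b`, given one scalar inequality. -/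
theorem S_lt_sTwo_ext (o : IsOrbitExt N p q τ₀ τb S κ ε) {C : CPar} (hA : C.Adm) (hCN : C.N = N)
    (hCp : C.p = p) (hCq : C.q = q) (hN : 5 ≤ N) (hpq : q < p)
    (hcrit : N / (p + 1) + N / (q + 1) = N - 2) {Ub Ub' H H' : ℝ → ℝ}
    (hUb : ∀ s ∈ Icc (S τ₀) (sTwo N p q), HasDerivAt Ub (Ub' s) s)
    (hU0 : oW p q S τ₀ < Ub (S τ₀))
    (hUreg : ∀ s ∈ Icc (S τ₀) (sTwo N p q),
      (N + 2) * (Ub s - wm N p q s) ≤ 2 * q * s * (s + (p + 1) / (q + 1)))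
    (hUd : ∀ s ∈ Icc (S τ₀) (sTwo N p q), C.Wd s (Ub s) ≤ Ub' s * Ub s)
    (hH : ∀ s ∈ Icc (S τ₀) (sTwo N p q), HasDerivAt H (H' s) s)
    (hH0 : ∀ s ∈ Icc (S τ₀) (sTwo N p q), 0 ≤ H' s ∧ H' s * Ub s ≤ (p + 1) - (q + 1) * s)
    (hlog : Real.log ((p + 1) / (q + 1) / S τ₀) < H (sTwo N p q) - H (S τ₀))
    {x : ℝ} (hx : x ∈ Icc τ₀ (Real.log ((p + 1) / (q + 1)))) : S x < sTwo N p q := by
  have hp : 0 < p := hCp ▸ hA.hp
  have hq : 0 < q := hCq ▸ hA.hq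
  have hN2 : 2 < N := by linarith
  set T := Real.log ((p + 1) / (q + 1)) with hT
  have hb : ∀ y ∈ Icc τ₀ T, y < τb := fun y hy => hy.2.trans_lt o.lt_τb
  have hc : ContinuousOn S (Icc τ₀ T) := fun y hy =>
    (o.hasDerivAt_S hq (hb y hy)).continuousAt.continuousWithinAt
  by_contra hge
  push Not at hge
  have hcl : IsCompact (Icc τ₀ T ∩ S ⁻¹' Ici (sTwo N p q)) :=
    isCompact_Icc.of_isClosed_subset (hc.preimage_isClosed_of_isClosed isClosed_Icc isClosed_Ici)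
      inter_subset_left
  obtain ⟨x1, ⟨hx1, hS1⟩, hmin⟩ := hcl.exists_isLeast ⟨x, hx, hge⟩
  have h0 : S τ₀ < sTwo N p q := o.S_lt_s2 hN2 hp hq hpq hcrit le_rfl
  have hne : τ₀ < x1 := hx1.1.lt_of_ne fun e => by
    simp only [mem_preimage, mem_Ici, ← e] at hS1
    linarith
  have hbefore : ∀ y ∈ Ico τ₀ x1, S y < sTwo N p q := fun y hy => by
    by_contra h
    exact absurd (hmin ⟨⟨hy.1, hy.2.le.trans hx1.2⟩, not_lt.1 h⟩) (not_le.2 hy.2)
  have hEq : S x1 = sTwo N p q := by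
    refine le_antisymm ?_ hS1
    refine le_of_tendsto ((o.hasDerivAt_S hq (hb x1 hx1)).continuousAt.tendsto.mono_left
      (nhdsWithin_le_nhds (s := Iio x1))) ?_
    filter_upwards [Ioo_mem_nhdsLT hne] with y hy
    exact (hbefore y ⟨hy.1.le, hy.2⟩).le
  have hs2 : ∀ y ∈ Icc τ₀ x1, S y ≤ sTwo N p q := fun y hy => by
    rcases hy.2.eq_or_lt with rfl | h
    · exact hEq.le
    · exact (hbefore y ⟨hy.1, h⟩).le
  have ha1 := hb x1 hx1
  have hSI : ∀ y ∈ Icc τ₀ x1, S y ∈ Icc (S τ₀) (sTwo N p q) := fun y hy =>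
    ⟨(o.S_mono_ext hN2 hp hq hpq hcrit ha1 hs2).monotoneOn ⟨le_rfl, hne.le⟩ hy hy.1, hs2 y hy⟩
  have hmono := mono_of_deriv (f := fun y => y - H (S y))
    (f' := fun y => 1 - H' (S y) * (oW p q S y / ((p + 1) - (q + 1) * S y)))
    (fun y hy => (hasDerivAt_id y).sub
      ((hH _ (hSI y hy)).comp y (o.hasDerivAt_S hq (hy.2.trans_lt ha1))))
    (fun y hy => ?_) hne.le
  · simp only [hEq] at hmono
    have e : Real.log ((p + 1) / (q + 1) / S τ₀) = T - τ₀ := by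
      have := o.one_lt τ₀ o.τ₀_lt_τb
      rw [Real.log_div (by positivity) (by positivity), ← hT, ← o.exp_τ₀, Real.log_exp]
    linarith [hx1.2]
  · have hyI := Ioo_subset_Icc_self hy
    have hW := o.W_lt_upper hA hCN hCp hCq hN hpq hcrit ha1 hs2 hUb hU0 hUreg hUd hyI
    obtain ⟨hH1, hH2⟩ := hH0 _ (hSI y hyI)
    have hL := o.L_pos hq (hy.2.trans ha1)
    rw [sub_nonneg, ← mul_div_assoc, div_le_one hL]
    exact (mul_le_mul_of_nonneg_left hW.le hH1).trans hH2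

/-- The box of the orbit between `τ₀` and `log t_b`. -/
theorem extension_box (o : IsOrbitExt N p q τ₀ τb S κ ε) {C : CPar} (hA : C.Adm) (hCN : C.N = N)
    (hCp : C.p = p) (hCq : C.q = q) (hN : 5 ≤ N) (hpq : q < p)
    (hcrit : N / (p + 1) + N / (q + 1) = N - 2) {Ub Ub' H H' : ℝ → ℝ}
    (hUb : ∀ s ∈ Icc (S τ₀) (sTwo N p q), HasDerivAt Ub (Ub' s) s)
    (hU0 : oW p q S τ₀ < Ub (S τ₀))
    (hUreg : ∀ s ∈ Icc (S τ₀) (sTwo N p q),
      (N + 2) * (Ub s - wm N p q s) ≤ 2 * q * s * (s + (p + 1) / (q + 1)))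
    (hUd : ∀ s ∈ Icc (S τ₀) (sTwo N p q), C.Wd s (Ub s) ≤ Ub' s * Ub s)
    (hH : ∀ s ∈ Icc (S τ₀) (sTwo N p q), HasDerivAt H (H' s) s)
    (hH0 : ∀ s ∈ Icc (S τ₀) (sTwo N p q), 0 ≤ H' s ∧ H' s * Ub s ≤ (p + 1) - (q + 1) * s)
    (hlog : Real.log ((p + 1) / (q + 1) / S τ₀) < H (sTwo N p q) - H (S τ₀))
    {x : ℝ} (hx : x ∈ Ioc τ₀ (Real.log ((p + 1) / (q + 1)))) :
    S τ₀ < S x ∧ S x < sTwo N p q ∧ wm N p q (S x) < oW p q S x ∧ oW p q S x < Ub (S x) ∧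
      κ x < 0 ∧ (S x - (p + 1) / (q + 1)) / oV p q S x ≤ κ x := by
  have hp : 0 < p := hCp ▸ hA.hp
  have hq : 0 < q := hCq ▸ hA.hq
  have hN2 : 2 < N := by linarith
  have ha : Real.log ((p + 1) / (q + 1)) < τb := o.lt_τb
  have hlt := fun y (hy : y ∈ Icc τ₀ (Real.log ((p + 1) / (q + 1)))) =>
    o.S_lt_sTwo_ext hA hCN hCp hCq hN hpq hcrit hUb hU0 hUreg hUd hH hH0 hlog hy
  have hs2 := fun y hy => (hlt y hy).le
  have hxI := Ioc_subset_Icc_self hx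
  have hxb := hx.2.trans_lt ha
  have hWw := o.wm_lt_W hN2 hp hq hpq hcrit ha hs2 hx
  refine ⟨o.S_mono_ext hN2 hp hq hpq hcrit ha hs2 ⟨le_rfl, hxI.1.trans hxI.2⟩ hxI hx.1, hlt x hxI,
    hWw, o.W_lt_upper hA hCN hCp hCq hN hpq hcrit ha hs2 hUb hU0 hUreg hUd hxI,
    o.κ_neg x hx.1 hxb, ?_⟩
  have hV : 0 < oV p q S x :=
    add_pos (o.W_pos_ext hN2 hp hq hpq hcrit ha hs2 hxI)
      (mul_pos (one_pos.trans (o.one_lt x hxb)) (sub_pos.2 (o.one_lt x hxb)))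
  rw [div_le_iff₀ hV, o.eqV hxb]
  have := (Real.le_log_iff_exp_le (by positivity)).1 hx.2
  linarith

/-- The lower barrier: `l σ < W`, given `c (σ - σ₀) ≤ -κ`. -/
theorem lower_lt_W (o : IsOrbitExt N p q τ₀ τb S κ ε) {C : CPar} (hA : C.Adm) (hCN : C.N = N)
    (hCp : C.p = p) (hCq : C.q = q) (hN : 5 ≤ N) (hpq : q < p)
    (hcrit : N / (p + 1) + N / (q + 1) = N - 2) {Ub Ub' H H' l l' : ℝ → ℝ} {c : ℝ}
    (hUb : ∀ s ∈ Icc (S τ₀) (sTwo N p q), HasDerivAt Ub (Ub' s) s)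
    (hU0 : oW p q S τ₀ < Ub (S τ₀))
    (hUreg : ∀ s ∈ Icc (S τ₀) (sTwo N p q),
      (N + 2) * (Ub s - wm N p q s) ≤ 2 * q * s * (s + (p + 1) / (q + 1)))
    (hUd : ∀ s ∈ Icc (S τ₀) (sTwo N p q), C.Wd s (Ub s) ≤ Ub' s * Ub s)
    (hH : ∀ s ∈ Icc (S τ₀) (sTwo N p q), HasDerivAt H (H' s) s)
    (hH0 : ∀ s ∈ Icc (S τ₀) (sTwo N p q), 0 ≤ H' s ∧ H' s * Ub s ≤ (p + 1) - (q + 1) * s)
    (hlog : Real.log ((p + 1) / (q + 1) / S τ₀) < H (sTwo N p q) - H (S τ₀))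
    (hl : ∀ s ∈ Icc (S τ₀) (sTwo N p q), HasDerivAt l (l' s) s)
    (hl0 : l (S τ₀) < oW p q S τ₀) (hc : 0 < c)
    (hcz : ∀ s W z, S τ₀ ≤ s → s ≤ sTwo N p q → wm N p q s ≤ W → W ≤ Ub s →
      (s - (p + 1) / (q + 1)) / (W + s * (s - 1)) ≤ z → z ≤ 0 →
      c * W ≤ z * C.Kp0 s W + 2 / N)
    (hlr : ∀ s, S τ₀ < s → s ≤ sTwo N p q → wm N p q s < l s → l s ≤ Ub s →
      (N + 2) / N * (l s - wm N p q s)
        < (frc N p q s (l s) - l' s * l s) * (c * (s - S τ₀)))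
    {x : ℝ} (hx : x ∈ Icc τ₀ (Real.log ((p + 1) / (q + 1)))) : l (S x) < oW p q S x := by
  have hp : 0 < p := hCp ▸ hA.hp
  have hq : 0 < q := hCq ▸ hA.hq
  have hN2 : 2 < N := by linarith
  set T := Real.log ((p + 1) / (q + 1))
  have hb : ∀ y ∈ Icc τ₀ T, y < τb := fun y hy => hy.2.trans_lt o.lt_τb
  have box := fun y (hy : y ∈ Ioc τ₀ T) =>
    o.extension_box hA hCN hCp hCq hN hpq hcrit hUb hU0 hUreg hUd hH hH0 hlog hy
  have hSI : ∀ y ∈ Icc τ₀ T, S y ∈ Icc (S τ₀) (sTwo N p q) := fun y hy => by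
    rcases hy.1.eq_or_lt with rfl | h
    · exact ⟨le_rfl, (o.S_lt_s2 hN2 hp hq hpq hcrit le_rfl).le⟩
    · exact ⟨(box y ⟨h, hy.2⟩).1.le, (box y ⟨h, hy.2⟩).2.1.le⟩
  have hz : ∀ y ∈ Icc τ₀ T, c * (S y - S τ₀) ≤ -κ y := fun y hy => by
    have h := mono_of_deriv (f := fun w => -κ w - c * S w)
      (f' := fun w => (κ w * C.Kp0 (S w) (oW p q S w) + 2 / N) / ((p + 1) - (q + 1) * S w)
        - c * (oW p q S w / ((p + 1) - (q + 1) * S w)))
      (fun w hw => by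
        have hwb := hb w ⟨hw.1, hw.2.trans hy.2⟩
        have hd := (o.isCurve (C := C) (by linarith) hp hq hCN hCp hCq).derivz w hwb
        exact (hd.neg.sub ((o.hasDerivAt_S hq hwb).const_mul c)).congr_deriv
          (by simp only [CPar.dz, CPar.L, hCN, hCp, hCq]; ring))
      (fun w hw => by
        obtain ⟨b1, b2, b3, b4, b5, b6⟩ := box w ⟨hw.1, hw.2.le.trans hy.2⟩
        have hL := o.L_pos hq (hb w ⟨hw.1.le, hw.2.le.trans hy.2⟩)
        simp only [oV] at b6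
        rw [← mul_div_assoc, ← sub_div]
        exact div_nonneg (sub_nonneg.2
          (hcz _ _ _ b1.le b2.le b3.le b4.le b6 b5.le)) hL.le) hy.1
    simp only [o.κ_zero] at h
    linarith
  suffices 0 < (fun y => oW p q S y - l (S y)) x by linarith [this]
  refine pos_of_first_zero (f := fun y => oW p q S y - l (S y))
    (f' := fun y => deriv (oW p q S) y - l' (S y) * (oW p q S y / ((p + 1) - (q + 1) * S y)))
    (fun y hy => (o.hasDerivAt_W (hb y hy)).sub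
      ((hl _ (hSI y hy)).comp y (o.hasDerivAt_S hq (hb y hy))))
    (fun y hy _ h0 => ?_) (sub_pos.2 hl0) x hx
  obtain ⟨b1, b2, b3, b4, b5, -⟩ := box y hy
  have hyb := hb y (Ioc_subset_Icc_self hy)
  have hL := o.L_pos hq hyb
  have hw : oW p q S y = l (S y) := by linarith
  have hr := o.rateW (by linarith) hp hq hyb
  have h := hlr _ b1 b2.le (hw ▸ b3) (hw ▸ b4.le)
  rw [← hw] at h
  simp only [frc] at h
  simp only [oV] at hr
  set F := (oW p q S y + S y * (S y - 1)) * (k0 N p q (S y) + 2 * nu N p q (S y) * oW p q S y)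
    - (2 * S y - 1) * oW p q S y
  have hpos : 0 < (N + 2) / N * (oW p q S y - wm N p q (S y)) := by
    have : 0 < N := by linarith
    have := sub_pos.2 b3
    positivity
  have hG : 0 < F - l' (S y) * oW p q S y :=
    pos_of_mul_pos_left (hpos.trans h) (mul_pos hc (sub_pos.2 b1)).le
  refine pos_of_mul_pos_right (a := (p + 1) - (q + 1) * S y) ?_ hL.le
  rw [mul_sub, mul_left_comm _ (l' (S y)), mul_div_cancel₀ _ hL.ne']
  have h2 := mul_le_mul_of_nonneg_left (hz y (Ioc_subset_Icc_self hy)) hG.le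
  by_contra hle
  push Not at hle
  nlinarith [mul_le_mul_of_nonpos_left (sub_nonpos.1 hle) b5.le]

end IsOrbitExt

end Vale.Agent.P100T
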