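import Vale.Agent.P100T.OrbitExt
import Vale.Agent.P100T.InvAlgebra

/-! # Invariants of the orbit below `τ₀`: `0 < W < wm σ`, `max 1 σ_s < σ < s₂`

Here `W = L · dσ/dτ` and `L = (p+1) - (q+1)σ`. -/

open Set Filter Topology

noncomputable section

namespace Vale.Agent.P100T

/-- `W = L dσ/dτ`. -/
def oW (p q : ℝ) (S : ℝ → ℝ) (τ : ℝ) : ℝ := ((p + 1) - (q + 1) * S τ) * deriv S τ

/-- `V = W + σ(σ-1)`. -/
def oV (p q : ℝ) (S : ℝ → ℝ) (τ : ℝ) : ℝ := oW p q S τ + S τ * (S τ - 1)

namespace IsOrbitExt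

variable {N p q τ₀ τb τ : ℝ} {S κ ε : ℝ → ℝ}

lemma τ₀_lt_τb (o : IsOrbitExt N p q τ₀ τb S κ ε) : τ₀ < τb := o.τ₀_lt.trans o.lt_τb

lemma L_pos (o : IsOrbitExt N p q τ₀ τb S κ ε) (hq : 0 < q) (hτ : τ < τb) :
    0 < (p + 1) - (q + 1) * S τ := by
  have := o.lt_tb τ hτ
  rw [lt_div_iff₀ (by linarith)] at this
  linarith

lemma L_le (o : IsOrbitExt N p q τ₀ τb S κ ε) (hq : 0 < q) (hτ : τ < τb) :
    (p + 1) - (q + 1) * S τ ≤ p + 1 := by
  have := o.one_lt τ hτ
  nlinarith

lemma hasDerivAt_S (o : IsOrbitExt N p q τ₀ τb S κ ε) (hq : 0 < q) (hτ : τ < τb) :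
    HasDerivAt S (oW p q S τ / ((p + 1) - (q + 1) * S τ)) τ := by
  rw [oW, mul_div_cancel_left₀ _ (o.L_pos hq hτ).ne']
  exact (((o.smooth 1).1.differentiableOn (by norm_num)).differentiableAt
    (Iio_mem_nhds hτ)).hasDerivAt

lemma smooth_W (o : IsOrbitExt N p q τ₀ τb S κ ε) (n : ℕ) :
    ContDiffOn ℝ n (oW p q S) (Iio τb) := by
  have h1 := (o.smooth (n + 1)).1
  rw [Nat.cast_succ, contDiffOn_succ_iff_deriv_of_isOpen isOpen_Iio] at h1
  exact (contDiffOn_const.sub (contDiffOn_const.mul (o.smooth n).1)).mul h1.2.2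

lemma hasDerivAt_W (o : IsOrbitExt N p q τ₀ τb S κ ε) (hτ : τ < τb) :
    HasDerivAt (oW p q S) (deriv (oW p q S) τ) τ :=
  (((o.smooth_W 1).differentiableOn (by norm_num)).differentiableAt (Iio_mem_nhds hτ)).hasDerivAt

lemma eqV (o : IsOrbitExt N p q τ₀ τb S κ ε) (hτ : τ < τb) :
    κ τ * oV p q S τ = S τ - Real.exp τ := o.eqS τ hτ

lemma V_pos (o : IsOrbitExt N p q τ₀ τb S κ ε) (hτ : τ < τ₀) : 0 < oV p q S τ := by
  have h := o.eqV (hτ.trans o.τ₀_lt_τb)
  have h1 := o.below.exp_lt τ hτ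
  exact pos_of_mul_pos_right (by linarith) (o.κ_pos τ hτ).le

/-- The rate of `W`. -/
lemma rateW (o : IsOrbitExt N p q τ₀ τb S κ ε) (hN : 0 < N) (hp : 0 < p) (hq : 0 < q)
    (hτ : τ < τb) :
    κ τ * (((p + 1) - (q + 1) * S τ) * deriv (oW p q S) τ)
      = -((N + 2) / N * (wm N p q (S τ) - oW p q S τ))
        + κ τ * (oV p q S τ * (k0 N p q (S τ) + 2 * nu N p q (S τ) * oW p q S τ)
          - (2 * S τ - 1) * oW p q S τ) := by
  have hL := o.L_pos hq hτ
  have hS := o.hasDerivAt_S hq hτ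
  have hs1 := o.one_lt τ hτ
  have hc : 0 < (p + 1) / (q + 1) := by positivity
  have hd := (((o.derivκ τ hτ).mul ((o.hasDerivAt_W hτ).add (hS.mul (hS.sub_const 1))))).sub
    (hS.sub (Real.hasDerivAt_exp τ))
  have h0 : HasDerivAt (fun x => κ x * oV p q S x - (S x - Real.exp x)) 0 τ :=
    (hasDerivAt_const τ (0:ℝ)).congr_of_eventuallyEq (by
      filter_upwards [Iio_mem_nhds hτ] with x hx
      rw [o.eqV hx]; ring)
  have e := hd.unique h0
  simp only [Pi.add_apply, Pi.mul_apply] at e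
  have hpo := o.poho τ hτ
  have heq := o.eqV hτ
  rw [k0_eq hN hq (by linarith), wm, oV]
  simp only [oV] at heq
  simp only [nu]
  set W := oW p q S τ
  set W' := deriv (oW p q S) τ
  set L := (p + 1) - (q + 1) * S τ with hLdef
  have ht : Real.exp τ = S τ - κ τ * (W + S τ * (S τ - 1)) := by linarith
  rw [ht] at hpo e
  have hε : ε τ = ((S τ / (p + 1) + 1 / (q + 1))
      + κ τ * (S τ - (W + S τ * (S τ - 1)) / (p + 1))) / (N * (S τ / (p + 1) + 1 / (q + 1))) := by
    rw [eq_div_iff (by positivity)]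
    linear_combination hpo
  rw [hε] at e
  generalize hcc : (p + 1) / (q + 1) = c at *
  have hpc : p + 1 = c * (q + 1) := by rw [← hcc]; field_simp
  have : q + 1 ≠ 0 := by linarith
  have : S τ + c ≠ 0 := by linarith
  rw [hpc] at e
  rw [show S τ / (c * (q + 1)) + 1 / (q + 1) = (S τ + c) / (c * (q + 1)) by field_simp] at e
  rw [hpc] at hLdef ⊢
  field_simp at e ⊢
  linear_combination e

lemma W_τ₀ (o : IsOrbitExt N p q τ₀ τb S κ ε) (hN : 0 < N) (hp : 0 < p) (hq : 0 < q) :
    oW p q S τ₀ = wm N p q (S τ₀) := by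
  have h := o.rateW hN hp hq o.τ₀_lt_τb
  rw [o.κ_zero, zero_mul, zero_mul, add_zero, eq_comm, neg_eq_zero, mul_eq_zero] at h
  rcases h with h | h
  · rw [div_eq_zero_iff] at h; rcases h with h | h <;> linarith
  · linarith

/-- The rate of `W` below `τ₀`. -/
lemma rateW_below (o : IsOrbitExt N p q τ₀ τb S κ ε) (hN : 2 < N) (hp : 0 < p) (hq : 0 < q)
    (hcrit : N / (p + 1) + N / (q + 1) = N - 2) (hτ : τ < τ₀) :
    ((p + 1) - (q + 1) * S τ) * deriv (oW p q S) τ
      = oV p q S τ * (phi N p q (S τ) (Real.exp τ) + oW p q S τ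
          * ((N + 2) / N + 2 * nu N p q (S τ) * (S τ - Real.exp τ))) / (S τ - Real.exp τ)
        - (2 * S τ - 1) * oW p q S τ := by
  have hτb := hτ.trans o.τ₀_lt_τb
  have h := o.rateW (by linarith) hp hq hτb
  have hV := o.V_pos hτ
  have hd : 0 < S τ - Real.exp τ := sub_pos.2 (o.below.exp_lt τ hτ)
  have hκ : κ τ = (S τ - Real.exp τ) / oV p q S τ := by
    rw [eq_div_iff hV.ne', o.eqV hτb]
  have hc : 0 < (p + 1) / (q + 1) := by positivity
  rw [phi_eq (by linarith) hp hq hcrit (by linarith [o.one_lt τ hτb])]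
  rw [hκ, wm] at h
  have : N ≠ 0 := by linarith
  have : N + 2 ≠ 0 := by linarith
  field_simp at h ⊢
  simp only [oV] at h ⊢
  linear_combination h

lemma continuousAt_W (o : IsOrbitExt N p q τ₀ τb S κ ε) (hτ : τ < τb) :
    ContinuousAt (oW p q S) τ := (o.hasDerivAt_W hτ).continuousAt

/-- At a point with `W = 0` the rate of `W` has the sign of `Φ`. -/
lemma rate_zero (o : IsOrbitExt N p q τ₀ τb S κ ε) (hN : 2 < N) (hp : 0 < p) (hq : 0 < q)
    (hcrit : N / (p + 1) + N / (q + 1) = N - 2) (hτ : τ < τ₀) (hW : oW p q S τ = 0) :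
    deriv (oW p q S) τ = oV p q S τ / ((S τ - Real.exp τ) * ((p + 1) - (q + 1) * S τ))
      * phi N p q (S τ) (Real.exp τ) := by
  have h := o.rateW_below hN hp hq hcrit hτ
  rw [hW, zero_mul, add_zero, mul_zero, sub_zero] at h
  have := (o.L_pos hq (hτ.trans o.τ₀_lt_τb)).ne'
  have := (sub_pos.2 (o.below.exp_lt τ hτ)).ne'
  field_simp at h ⊢
  linear_combination h

/-- Where `W < 0` one has `Φ > 0`. -/
lemma phi_pos_of_neg (o : IsOrbitExt N p q τ₀ τb S κ ε) (hN : 2 < N) (hp : 0 < p) (hq : 0 < q)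
    (hcrit : N / (p + 1) + N / (q + 1) = N - 2) {τ1 : ℝ} (hτ1 : τ1 < τ₀)
    (hW : oW p q S τ1 < 0) : 0 < phi N p q (S τ1) (Real.exp τ1) := by
  by_contra hΦ
  push Not at hΦ
  have hI : ∀ x, x ≤ τ₀ → x < τb := fun x hx => hx.trans_lt o.τ₀_lt_τb
  have fw : ∀ b, τ1 ≤ b → b < τ₀ → -S τ1 ≤ -S b ∧ oW p q S b < 0 := by
    intro b h1 h2
    have hlt : ∀ x ∈ Icc τ1 b, x < τ₀ := fun x hx => hx.2.trans_lt h2
    obtain ⟨f1, f2⟩ := forward (s := fun x => -S x) (g := fun x => -oW p q S x)
      (g' := fun x => -deriv (oW p q S) x) (k := fun x => ((p + 1) - (q + 1) * S x)⁻¹)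
      (c := -S τ1) h1
      (fun x hx => (o.hasDerivAt_S hq (hI x (hlt x hx).le)).neg.congr_deriv (by ring))
      (fun x hx => (o.hasDerivAt_W (hI x (hlt x hx).le)).neg)
      (fun x hx => inv_nonneg.2 (o.L_pos hq (hI x (hlt x hx).le)).le)
      (fun x hx hc h0 => by
        have hW0 : oW p q S x = 0 := by linarith
        have hx1 : τ1 < x := lt_of_le_of_ne hx.1 fun e => by rw [← e] at hW0; linarith
        rw [o.rate_zero hN hp hq hcrit (hlt x hx) hW0]
        have hxb := hI x (hlt x hx).le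
        refine neg_pos.2 (mul_neg_of_pos_of_neg (div_pos (o.V_pos (hlt x hx))
          (mul_pos (sub_pos.2 (o.below.exp_lt x (hlt x hx))) (o.L_pos hq hxb))) ?_)
        by_contra hge
        push Not at hge
        rcases hge.eq_or_lt with h' | h'
        · -- strict monotonicity in `t`
          have hk := k0_pos (p := p) (q := q) hN hp hq (show 0 ≤ S x by linarith [o.one_lt x hxb])
            (o.lt_tb x hxb).le
          have h'' : 0 < phi N p q (S x) ((Real.exp x + Real.exp τ1) / 2) := by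
            have := Real.exp_lt_exp.2 hx1
            simp only [phi] at h' ⊢
            nlinarith
          have := phi_mono hN hp hq (o.one_lt x hxb).le (show S x ≤ S τ1 by linarith)
            (o.lt_tb τ1 (hI τ1 hτ1.le)).le (Real.exp_pos τ1).le
            (show Real.exp τ1 ≤ (Real.exp x + Real.exp τ1) / 2 by
              linarith [Real.exp_lt_exp.2 hx1]) h''
          linarith
        · have := phi_mono hN hp hq (o.one_lt x hxb).le (show S x ≤ S τ1 by linarith)
            (o.lt_tb τ1 (hI τ1 hτ1.le)).le (Real.exp_pos τ1).le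
            (Real.exp_le_exp.2 hx1.le) h'
          linarith)
      le_rfl (by linarith)
    refine ⟨(f1 b ⟨h1, le_rfl⟩).1, ?_⟩
    rcases h1.eq_or_lt with e | e
    · rw [← e]; exact hW
    · linarith [f2 b ⟨e, le_rfl⟩]
  have hev : ∀ᶠ x in 𝓝[<] τ₀, τ1 ≤ x ∧ x < τ₀ :=
    eventually_of_mem (Ioo_mem_nhdsLT hτ1) fun x hx => ⟨hx.1.le, hx.2⟩
  have hS0 : S τ₀ ≤ S τ1 := by
    refine le_of_tendsto (((o.hasDerivAt_S hq o.τ₀_lt_τb).continuousAt.tendsto).mono_left
      (nhdsWithin_le_nhds (s := Iio τ₀))) ?_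
    filter_upwards [hev] with x hx
    linarith [(fw x hx.1 hx.2).1]
  have hW0 : oW p q S τ₀ ≤ 0 := by
    refine le_of_tendsto ((o.continuousAt_W o.τ₀_lt_τb).tendsto.mono_left
      (nhdsWithin_le_nhds (s := Iio τ₀))) ?_
    filter_upwards [hev] with x hx
    exact (fw x hx.1 hx.2).2.le
  rw [o.W_τ₀ (by linarith) hp hq] at hW0
  have hS1 := o.one_lt τ₀ o.τ₀_lt_τb
  have hwm : wm N p q (S τ1) ≤ 0 := by
    rw [wm, div_le_iff₀ (by linarith), zero_mul] at hW0 ⊢
    have : N * ((p + 1) - (q + 1) * S τ₀) - 2 * (S τ₀ - 1) ≤ 0 := by nlinarith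
    refine mul_nonpos_of_nonneg_of_nonpos (by linarith) ?_
    nlinarith [mul_le_mul_of_nonneg_left hS0 (show (0:ℝ) ≤ N * (q + 1) + 2 by positivity)]
  exact absurd (phi_pos_of_wm_nonpos hN hp hq hcrit (o.one_lt τ1 (hI τ1 hτ1.le)).le
    (o.lt_tb τ1 (hI τ1 hτ1.le)).le (o.below.exp_lt τ1 hτ1) hwm) (not_lt.2 hΦ)

/-- A derivative bounded below on a half line gives a linear bound. -/
lemma linear_left {f f' : ℝ → ℝ} {b δ x : ℝ} (hf : ∀ y ≤ b, HasDerivAt f (f' y) y)
    (h : ∀ y ≤ b, δ ≤ f' y) (hx : x ≤ b) : f x + δ * (b - x) ≤ f b := by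
  have := mono_of_deriv (f := fun y => f y - δ * y) (f' := fun y => f' y - δ * 1) (a := x) (b := b)
    (fun y hy => (hf y hy.2).sub ((hasDerivAt_id y).const_mul δ))
    (fun y hy => by linarith [h y hy.2.le]) hx
  linarith

/-- `W ≥ 0` below `τ₀`. -/
lemma W_nonneg (o : IsOrbitExt N p q τ₀ τb S κ ε) (hN : 2 < N) (hp : 0 < p) (hq : 0 < q)
    (hcrit : N / (p + 1) + N / (q + 1) = N - 2) {τ1 : ℝ} (hτ1 : τ1 < τ₀) :
    0 ≤ oW p q S τ1 := by
  by_contra hW
  push Not at hW
  have hb : ∀ x, x ≤ τ1 → x < τb := fun x hx => hx.trans_lt (hτ1.trans o.τ₀_lt_τb)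
  have hΦ1 := o.phi_pos_of_neg hN hp hq hcrit hτ1 hW
  have bw : ∀ x ≤ τ1, S τ1 ≤ S x ∧ oW p q S x < 0 := by
    intro x hx
    obtain ⟨f1, f2⟩ := backward (s := S) (g := oW p q S) (g' := deriv (oW p q S))
      (k := fun y => ((p + 1) - (q + 1) * S y)⁻¹) (c := S τ1) hx
      (fun y hy => (o.hasDerivAt_S hq (hb y hy.2)).congr_deriv (by ring))
      (fun y hy => o.hasDerivAt_W (hb y hy.2))
      (fun y hy => inv_nonneg.2 (o.L_pos hq (hb y hy.2)).le)
      (fun y hy hc h0 => by
        have hy0 := hy.2.trans_lt hτ1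
        rw [o.rate_zero hN hp hq hcrit hy0 h0]
        exact mul_pos (div_pos (o.V_pos hy0) (mul_pos (sub_pos.2 (o.below.exp_lt y hy0))
          (o.L_pos hq (hb y hy.2)))) (phi_mono hN hp hq (o.one_lt τ1 (hb τ1 le_rfl)).le hc
          (o.lt_tb y (hb y hy.2)).le (Real.exp_pos y).le (Real.exp_le_exp.2 hy.2) hΦ1))
      le_rfl hW.le
    refine ⟨(f1 x ⟨le_rfl, hx⟩).1, ?_⟩
    rcases hx.eq_or_lt with e | e
    · rw [e]; exact hW
    · exact f2 x ⟨le_rfl, e⟩
  set c := (p + 1) / (q + 1) with hc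
  have hc0 : 0 < c := by rw [hc]; positivity
  set δ := phi N p q (S τ1) (Real.exp τ1)
  have hs1 := o.one_lt τ1 (hb τ1 le_rfl)
  -- `Φ` has a positive lower bound backwards
  have hlow : ∀ x ≤ τ1, ∀ y, 0 ≤ y → y ≤ Real.exp τ1 →
      0 < phi N p q (S x) y := fun x hx y h0 h1 =>
    phi_mono hN hp hq hs1.le (bw x hx).1 (o.lt_tb x (hb x hx)).le h0 h1 hΦ1
  obtain ⟨s', hs', hmin⟩ := isCompact_Icc.exists_isMinOn (s := Icc (S τ1) c)
    (nonempty_Icc.2 (o.lt_tb τ1 (hb τ1 le_rfl)).le)
    (f := fun s => phi N p q s (Real.exp τ1)) (by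
      intro s hs
      have : s + (p + 1) / (q + 1) ≠ 0 := by linarith [hs.1]
      simp only [phi, kp0, k0]
      refine ContinuousAt.continuousWithinAt ?_
      have : N * (s + (p + 1) / (q + 1)) ≠ 0 := mul_ne_zero (by linarith) this
      fun_prop (disch := assumption))
  set δ0 := phi N p q s' (Real.exp τ1)
  have hδ0 : 0 < δ0 := phi_mono hN hp hq hs1.le hs'.1 hs'.2 (Real.exp_pos τ1).le le_rfl hΦ1
  have hΦlow : ∀ x ≤ τ1, δ0 ≤ phi N p q (S x) (Real.exp x) := fun x hx => by
    refine (hmin (show S x ∈ Icc (S τ1) c from ⟨(bw x hx).1, (o.lt_tb x (hb x hx)).le⟩)).trans ?_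
    have hk := k0_pos (p := p) (q := q) hN hp hq (by linarith [(bw x hx).1] : (0:ℝ) ≤ S x)
      (o.lt_tb x (hb x hx)).le
    simp only [phi]
    nlinarith [Real.exp_le_exp.2 hx]
  set E := (N + 2) / N + 2 * c
  set η := min (-oW p q S τ1) (δ0 / E)
  have hE : 0 < E := add_pos (div_pos (by linarith) (by linarith)) (by linarith)
  have hη : 0 < η := lt_min (by linarith) (div_pos hδ0 hE)
  have hWle : ∀ x ≤ τ1, oW p q S x ≤ -η := by
    intro x hx
    by_contra hgt
    push Not at hgt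
    rcases hx.eq_or_lt with e | e
    · rw [e] at hgt; linarith [min_le_left (-oW p q S τ1) (δ0 / E)]
    have := upcross (f := fun y => oW p q S y + η) e
      (fun y hy => (o.hasDerivAt_W (hb y hy.2)).add_const η)
      (fun y hy h0 => by
        have hy0 := hy.2.trans_lt hτ1
        have hWy : oW p q S y = -η := by linarith
        have h := o.rateW_below hN hp hq hcrit hy0
        rw [hWy] at h
        have hV := o.V_pos hy0
        have hd := sub_pos.2 (o.below.exp_lt y hy0)
        have hs := o.one_lt y (hb y hy.2)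
        have hν : nu N p q (S y) ≤ 1 := by
          rw [nu, div_le_one (by positivity)]
          nlinarith
        have hν0 : 0 ≤ nu N p q (S y) := div_nonneg (by linarith) (by positivity)
        have hEy : (N + 2) / N + 2 * nu N p q (S y) * (S y - Real.exp y) ≤ E := by
          have : nu N p q (S y) * (S y - Real.exp y) ≤ 1 * c :=
            mul_le_mul hν (by linarith [o.lt_tb y (hb y hy.2), Real.exp_pos y]) hd.le zero_le_one
          simp only [E]; linarith
        have hmain : 0 ≤ phi N p q (S y) (Real.exp y)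
            + -η * ((N + 2) / N + 2 * nu N p q (S y) * (S y - Real.exp y)) := by
          have h1 : η * E ≤ δ0 := by
            rw [← le_div_iff₀ hE]; exact min_le_right _ _
          nlinarith [hΦlow y hy.2, mul_le_mul_of_nonneg_left hEy hη.le]
        refine pos_of_mul_pos_right (a := (p + 1) - (q + 1) * S y) ?_ (o.L_pos hq (hb y hy.2)).le
        rw [h]
        have h2 : 0 < (2 * S y - 1) * η := mul_pos (by linarith) hη
        have h3 := div_nonneg (mul_nonneg hV.le hmain) hd.le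
        linarith)
      (by linarith)
    linarith [min_le_left (-oW p q S τ1) (δ0 / E)]
  set x := τ1 - (c + 1) * (p + 1) / η
  have hx : x ≤ τ1 := sub_le_self _ (by positivity)
  have hlin := linear_left (f := fun y => -S y)
    (f' := fun y => -(oW p q S y / ((p + 1) - (q + 1) * S y))) (δ := η / (p + 1))
    (fun y hy => (o.hasDerivAt_S hq (hb y hy)).neg) (fun y hy => by
      rw [← neg_div]
      exact div_le_div₀ (le_trans hη.le (by linarith [hWle y hy])) (by linarith [hWle y hy])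
        (o.L_pos hq (hb y hy)) (o.L_le hq (hb y hy))) hx
  have e : η / (p + 1) * (τ1 - x) = c + 1 := by
    simp only [x]; field_simp; ring
  linarith [o.lt_tb x (hb x hx), o.one_lt τ1 (hb τ1 le_rfl)]

/-- The crossing condition at `τ₀`: `(wm σ - W)' < 0`. -/
lemma gap_deriv (o : IsOrbitExt N p q τ₀ τb S κ ε) (hN : 2 < N) (hp : 0 < p) (hq : 0 < q)
    (hpq : q < p) (hw : 0 ≤ oW p q S τ₀) :
    (N * (p + 1) + 2 - 2 * (N * (q + 1) + 2) * S τ₀) / (N + 2)
      * (oW p q S τ₀ / ((p + 1) - (q + 1) * S τ₀)) - deriv (oW p q S) τ₀ < 0 := by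
  have hτb := o.τ₀_lt_τb
  have hN0 : (0:ℝ) < N := by linarith
  have hS := o.hasDerivAt_S hq hτb
  have hW0 := o.W_τ₀ hN0 hp hq
  have hL := o.L_pos hq hτb
  set L := (p + 1) - (q + 1) * S τ₀ with hLdef
  set w' := (N * (p + 1) + 2 - 2 * (N * (q + 1) + 2) * S τ₀) / (N + 2) with hw'
  have hf : HasDerivAt (fun x => -((N + 2) / N * (wm N p q (S x) - oW p q S x)))
      (-((N + 2) / N * (w' * (oW p q S τ₀ / L) - deriv (oW p q S) τ₀))) τ₀ := by
    have h1 : HasDerivAt (fun x => wm N p q (S x)) (w' * (oW p q S τ₀ / L)) τ₀ := by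
      refine ((hS.mul (((hS.const_mul (q + 1)).const_sub (p + 1)).const_mul N |>.sub
        ((hS.sub_const 1).const_mul 2))).div_const (N + 2)).congr_deriv ?_
      simp only [hw', Pi.sub_apply]
      field_simp
      ring
    exact ((h1.sub (o.hasDerivAt_W hτb)).const_mul ((N + 2) / N)).neg
  have hG : DifferentiableAt ℝ (fun x => ((p + 1) - (q + 1) * S x) * deriv (oW p q S) x
      - (oV p q S x * (k0 N p q (S x) + 2 * nu N p q (S x) * oW p q S x)
        - (2 * S x - 1) * oW p q S x)) τ₀ := by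
    have d1 := hS.differentiableAt
    have d2 := (o.hasDerivAt_W hτb).differentiableAt
    have d3 : DifferentiableAt ℝ (deriv (oW p q S)) τ₀ := by
      have h2 := o.smooth_W (1 + 1)
      rw [Nat.cast_succ, contDiffOn_succ_iff_deriv_of_isOpen isOpen_Iio] at h2
      exact (h2.2.2.differentiableOn (by norm_num)).differentiableAt (Iio_mem_nhds hτb)
    have hne : N * (S τ₀ + (p + 1) / (q + 1)) ≠ 0 := by
      have := o.one_lt τ₀ hτb
      positivity
    simp only [oV, k0, nu]
    fun_prop (disch := assumption)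
  have d := ((o.derivκ τ₀ hτb).mul hG.hasDerivAt).congr_of_eventuallyEq
    (f₁ := fun x => -((N + 2) / N * (wm N p q (S x) - oW p q S x))) (by
      filter_upwards [Iio_mem_nhds hτb] with x hx
      simp only [Pi.mul_apply]
      linear_combination -(o.rateW hN0 hp hq hx))
  have e := hf.unique d
  rw [o.κ_zero, zero_mul, add_zero] at e
  have hε : ε τ₀ = 1 / N := by
    have hp0 := o.poho τ₀ hτb
    have h0 := o.eqS τ₀ hτb
    rw [o.κ_zero, zero_mul] at h0
    rw [o.κ_zero, mul_zero, zero_add, show Real.exp τ₀ = S τ₀ by linarith] at hp0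
    rw [eq_div_iff hN0.ne']
    refine mul_right_cancel₀ (b := S τ₀ / (p + 1) + 1 / (q + 1)) (ne_of_gt ?_) ?_
    · have := o.one_lt τ₀ hτb; positivity
    · linear_combination hp0
  rw [hε, ← hLdef] at e
  have hcross := wm_cross hN hp hq hpq (o.one_lt τ₀ hτb).le (o.lt_tb τ₀ hτb) (hW0 ▸ hw)
  rw [← hw', ← hW0] at hcross
  simp only [oV] at e
  set D := oW p q S τ₀ * (2 * S τ₀ - 1 + w') - (S τ₀ * (S τ₀ - 1) + oW p q S τ₀)
    * (k0 N p q (S τ₀) + 2 * nu N p q (S τ₀) * oW p q S τ₀) with hD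
  have e2 : (w' * (oW p q S τ₀ / L) - deriv (oW p q S) τ₀) * ((N + 4) * L) = 2 * D := by
    simp only [hD]
    field_simp at e ⊢
    linear_combination (-1 : ℝ) * e
  exact neg_of_mul_neg_left (b := (N + 4) * L) (by rw [e2]; linarith) (by positivity)

lemma hasDerivAt_gap (o : IsOrbitExt N p q τ₀ τb S κ ε) (hN : 2 < N) (hq : 0 < q) (hτ : τ < τb) :
    HasDerivAt (fun x => wm N p q (S x) - oW p q S x)
      ((N * (p + 1) + 2 - 2 * (N * (q + 1) + 2) * S τ) / (N + 2)
        * (oW p q S τ / ((p + 1) - (q + 1) * S τ)) - deriv (oW p q S) τ) τ := by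
  have hS := o.hasDerivAt_S hq hτ
  refine (((hS.mul (((hS.const_mul (q + 1)).const_sub (p + 1)).const_mul N |>.sub
    ((hS.sub_const 1).const_mul 2))).div_const (N + 2)).sub (o.hasDerivAt_W hτ)).congr_deriv ?_
  simp only [Pi.sub_apply]
  have : N + 2 ≠ 0 := by linarith
  field_simp
  ring

/-- A function with negative derivative at `τ₀` and value `0` is positive just to the left. -/
lemma pos_left {f : ℝ → ℝ} {f' a b : ℝ} (hab : a < b) (hf : HasDerivAt f f' b) (h0 : f b = 0)
    (hneg : f' < 0) : ∃ x ∈ Ioo a b, 0 < f x := by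
  obtain ⟨x, hx, hxI⟩ := ((((hasDerivAt_iff_tendsto_slope.1 hf).mono_left
    (nhdsWithin_mono b (show Iio b ⊆ {b}ᶜ from fun y hy => ne_of_lt hy))).eventually
    (eventually_lt_nhds hneg)).and (Ioo_mem_nhdsLT hab)).exists
  rw [slope_def_field, h0, sub_zero, div_neg_iff] at hx
  rcases hx with ⟨h, _⟩ | ⟨_, h⟩
  · exact ⟨x, hxI, h⟩
  · linarith [hxI.2]

/-- `W > 0` below `τ₀`. -/
lemma W_pos (o : IsOrbitExt N p q τ₀ τb S κ ε) (hN : 2 < N) (hp : 0 < p) (hq : 0 < q)
    (hcrit : N / (p + 1) + N / (q + 1) = N - 2) {τ1 : ℝ} (hτ1 : τ1 < τ₀) :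
    0 < oW p q S τ1 := by
  refine (o.W_nonneg hN hp hq hcrit hτ1).lt_of_ne fun h0 => ?_
  have h0' : oW p q S τ1 = 0 := h0.symm
  have hτb := hτ1.trans o.τ₀_lt_τb
  have hmin : IsLocalMin (oW p q S) τ1 := by
    filter_upwards [Iio_mem_nhds hτ1] with x hx
    rw [h0']; exact o.W_nonneg hN hp hq hcrit hx
  have hW1 : HasDerivAt (oW p q S) 0 τ1 := hmin.deriv_eq_zero ▸ o.hasDerivAt_W hτb
  have hd := sub_pos.2 (o.below.exp_lt τ1 hτ1)
  have hL := o.L_pos hq hτb
  have hV := o.V_pos hτ1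
  have hΦ : phi N p q (S τ1) (Real.exp τ1) = 0 := by
    have := o.rate_zero hN hp hq hcrit hτ1 h0'
    rw [hmin.deriv_eq_zero, eq_comm, mul_eq_zero] at this
    exact this.resolve_left (div_pos hV (mul_pos hd hL)).ne'
  have hS1 := o.one_lt τ1 hτb
  have hne : S τ1 + (p + 1) / (q + 1) ≠ 0 := by positivity
  have hne' : N * (S τ1 + (p + 1) / (q + 1)) ≠ 0 := mul_ne_zero (by linarith) hne
  have hS0 : HasDerivAt S 0 τ1 :=
    (o.hasDerivAt_S hq hτb).congr_deriv (by rw [h0', zero_div])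
  have dk : DifferentiableAt ℝ (k0 N p q) (S τ1) := by
    unfold k0; fun_prop (disch := assumption)
  have dp : DifferentiableAt ℝ (kp0 N p q) (S τ1) := by
    unfold kp0; fun_prop (disch := assumption)
  have hφ : HasDerivAt (fun x => phi N p q (S x) (Real.exp x))
      (-(Real.exp τ1 * k0 N p q (S τ1))) τ1 :=
    ((hS0.mul (dp.hasDerivAt.comp τ1 hS0)).sub
      ((Real.hasDerivAt_exp τ1).mul (dk.hasDerivAt.comp τ1 hS0))).congr_deriv (by simp)
  set A := fun x => oV p q S x / ((S x - Real.exp x) * ((p + 1) - (q + 1) * S x))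
  set B := fun x => oV p q S x * ((N + 2) / N + 2 * nu N p q (S x) * (S x - Real.exp x))
    / ((S x - Real.exp x) * ((p + 1) - (q + 1) * S x))
    - (2 * S x - 1) / ((p + 1) - (q + 1) * S x)
  have cS := hS0.continuousAt
  have cW := hW1.continuousAt
  have cV : ContinuousAt (oV p q S) τ1 := cW.add (cS.mul (cS.sub continuousAt_const))
  have cden : ContinuousAt (fun x => (S x - Real.exp x) * ((p + 1) - (q + 1) * S x)) τ1 := by
    fun_prop
  have cA : ContinuousAt A τ1 := cV.div cden (mul_pos hd hL).ne'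
  have cB : ContinuousAt B τ1 := by
    refine (ContinuousAt.div (cV.mul ?_) cden (mul_pos hd hL).ne').sub
      (ContinuousAt.div (by fun_prop) (by fun_prop) hL.ne')
    simp only [nu]
    fun_prop (disch := assumption)
  have hlim := ((cA.tendsto.mono_left (nhdsWithin_le_nhds (s := Iio τ1))).mul
    ((hasDerivAt_iff_tendsto_slope.1 hφ).mono_left
      (nhdsWithin_mono τ1 (show Iio τ1 ⊆ {τ1}ᶜ from fun y hy => ne_of_lt hy)))).add
    ((cB.tendsto.mono_left (nhdsWithin_le_nhds (s := Iio τ1))).mul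
    ((hasDerivAt_iff_tendsto_slope.1 hW1).mono_left
      (nhdsWithin_mono τ1 (show Iio τ1 ⊆ {τ1}ᶜ from fun y hy => ne_of_lt hy))))
  have hneg : A τ1 * -(Real.exp τ1 * k0 N p q (S τ1)) + B τ1 * 0 < 0 := by
    rw [mul_zero, add_zero]
    exact mul_neg_of_pos_of_neg (div_pos hV (mul_pos hd hL)) (neg_neg_of_pos
      (mul_pos (Real.exp_pos _) (k0_pos hN hp hq (by linarith) (o.lt_tb τ1 hτb).le)))
  obtain ⟨a, ha, hsub⟩ := mem_nhdsLT_iff_exists_Ioo_subset.1
    (hlim.eventually (eventually_lt_nhds hneg))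
  have hstrict : ∀ x ∈ Ioo a τ1, 0 < deriv (oW p q S) x := by
    intro x hx
    have hx0 := hx.2.trans hτ1
    have hxb := hx0.trans o.τ₀_lt_τb
    have h := hsub hx
    simp only [slope_def_field, hΦ, h0', sub_zero] at h
    have e : deriv (oW p q S) x
        = A x * phi N p q (S x) (Real.exp x) + B x * oW p q S x := by
      have hr := o.rateW_below hN hp hq hcrit hx0
      have := (sub_pos.2 (o.below.exp_lt x hx0)).ne'
      have := (o.L_pos hq hxb).ne'
      simp only [A, B]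
      generalize (p + 1) - (q + 1) * S x = Lx at *
      field_simp at hr ⊢
      linear_combination hr
    have h2 : deriv (oW p q S) x / (x - τ1) < 0 := by
      have h' : A x * (phi N p q (S x) (Real.exp x) / (x - τ1))
          + B x * (oW p q S x / (x - τ1)) < 0 := h
      rw [e]
      calc (A x * phi N p q (S x) (Real.exp x) + B x * oW p q S x) / (x - τ1)
          = A x * (phi N p q (S x) (Real.exp x) / (x - τ1))
            + B x * (oW p q S x / (x - τ1)) := by ring
        _ < 0 := h'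
    rcases div_neg_iff.1 h2 with ⟨h3, _⟩ | ⟨_, h3⟩
    · exact h3
    · linarith [hx.2]
  have hm : (a + τ1) / 2 < τ1 := by linarith [show a < τ1 from ha]
  obtain ⟨w, hw, he⟩ := exists_hasDerivAt_eq_slope (oW p q S) (deriv (oW p q S)) hm
    (fun x hx => (o.continuousAt_W (hx.2.trans_lt hτb)).continuousWithinAt)
    (fun x hx => o.hasDerivAt_W (hx.2.trans hτb))
  have h1 : 0 < (oW p q S τ1 - oW p q S ((a + τ1) / 2)) / (τ1 - (a + τ1) / 2) := by
    rw [← he]; exact hstrict w ⟨by linarith [hw.1, show a < τ1 from ha], hw.2⟩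
  have := (div_pos_iff_of_pos_right (sub_pos.2 hm)).1 h1
  linarith [o.W_nonneg hN hp hq hcrit (hm.trans hτ1)]

/-- `W τ₀ = wm (σ τ₀) > 0`, so `σ τ₀ < s₂`. -/
lemma W_τ₀_pos (o : IsOrbitExt N p q τ₀ τb S κ ε) (hN : 2 < N) (hp : 0 < p) (hq : 0 < q)
    (hpq : q < p) (hcrit : N / (p + 1) + N / (q + 1) = N - 2) : 0 < oW p q S τ₀ := by
  have h : 0 ≤ oW p q S τ₀ := ge_of_tendsto
    ((o.continuousAt_W o.τ₀_lt_τb).tendsto.mono_left (nhdsWithin_le_nhds (s := Iio τ₀)))
    (eventually_of_mem self_mem_nhdsWithin fun x hx => o.W_nonneg hN hp hq hcrit hx)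
  refine h.lt_of_ne fun h0 => ?_
  have hg := o.gap_deriv hN hp hq hpq h
  rw [← h0, zero_div, mul_zero, zero_sub, neg_lt_zero] at hg
  obtain ⟨x, hx, hpos⟩ := pos_left (f := fun x => -oW p q S x) (sub_one_lt τ₀)
    (o.hasDerivAt_W o.τ₀_lt_τb).neg (by linarith) (neg_neg_of_pos hg)
  linarith [o.W_nonneg hN hp hq hcrit hx.2]

/-- `σ` increases on `(-∞, τ₀]`. -/
lemma S_strictMono (o : IsOrbitExt N p q τ₀ τb S κ ε) (hN : 2 < N) (hp : 0 < p) (hq : 0 < q)
    (hcrit : N / (p + 1) + N / (q + 1) = N - 2) : StrictMonoOn S (Iic τ₀) := by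
  refine strictMonoOn_of_deriv_pos (convex_Iic _) (fun x hx =>
    (o.hasDerivAt_S hq (lt_of_le_of_lt hx o.τ₀_lt_τb)).continuousAt.continuousWithinAt) ?_
  intro x hx
  rw [interior_Iic] at hx
  have hxb := (show x < τ₀ from hx).trans o.τ₀_lt_τb
  rw [(o.hasDerivAt_S hq hxb).deriv]
  exact div_pos (o.W_pos hN hp hq hcrit hx) (o.L_pos hq hxb)

lemma wm_pos_of_lt {s s0 : ℝ} (hN : 2 < N) (hq : 0 < q) (hs : 1 < s) (hs0 : s ≤ s0)
    (h : 0 < wm N p q s0) : 0 < wm N p q s := by
  rw [wm, div_pos_iff_of_pos_right (by linarith)] at h ⊢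
  have h1 : 0 < N * ((p + 1) - (q + 1) * s0) - 2 * (s0 - 1) :=
    pos_of_mul_pos_right h (by linarith)
  refine mul_pos (by linarith) ?_
  nlinarith [mul_le_mul_of_nonneg_left hs0 (show (0:ℝ) ≤ N * (q + 1) + 2 by positivity)]

/-- `σ < s₂` on `(-∞, τ₀]`. -/
lemma S_lt_s2 (o : IsOrbitExt N p q τ₀ τb S κ ε) (hN : 2 < N) (hp : 0 < p) (hq : 0 < q)
    (hpq : q < p) (hcrit : N / (p + 1) + N / (q + 1) = N - 2) (hτ : τ ≤ τ₀) :
    S τ < (N * (p + 1) + 2) / (N * (q + 1) + 2) := by
  have hw := o.W_τ₀_pos hN hp hq hpq hcrit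
  rw [o.W_τ₀ (by linarith) hp hq] at hw
  have := wm_pos_of_lt hN hq (o.one_lt τ (hτ.trans_lt o.τ₀_lt_τb))
    ((o.S_strictMono hN hp hq hcrit).monotoneOn hτ self_mem_Iic hτ) hw
  rw [wm, div_pos_iff_of_pos_right (by linarith)] at this
  have h1 := pos_of_mul_pos_right this (zero_le_one.trans (o.one_lt τ (hτ.trans_lt o.τ₀_lt_τb)).le)
  rw [lt_div_iff₀ (by positivity)]
  linarith

/-- `W < wm σ` below `τ₀`. -/
lemma W_lt_wm (o : IsOrbitExt N p q τ₀ τb S κ ε) (hN : 2 < N) (hp : 0 < p) (hq : 0 < q)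
    (hpq : q < p) (hcrit : N / (p + 1) + N / (q + 1) = N - 2) (hτ : τ < τ₀) :
    oW p q S τ < wm N p q (S τ) := by
  by_contra hle
  push Not at hle
  have hW0 := o.W_τ₀ (by linarith) hp hq
  obtain ⟨x, hx, hpos⟩ := pos_left (f := fun x => wm N p q (S x) - oW p q S x) hτ
    (o.hasDerivAt_gap hN hq o.τ₀_lt_τb) (by rw [hW0, sub_self])
    (o.gap_deriv hN hp hq hpq (o.W_τ₀_pos hN hp hq hpq hcrit).le)
  have := upcross (f := fun x => oW p q S x - wm N p q (S x)) hx.1
    (fun y hy => ((o.hasDerivAt_gap hN hq ((hy.2.trans_lt hx.2).trans o.τ₀_lt_τb)).neg).congr_of_eventuallyEq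
      (Eventually.of_forall fun z => by simp only [Pi.neg_apply]; ring))
    (fun y hy h0 => by
      have hy0 := hy.2.trans_lt hx.2
      have hyb := hy0.trans o.τ₀_lt_τb
      have hW : oW p q S y = wm N p q (S y) := by linarith
      have hr := o.rateW (by linarith) hp hq hyb
      rw [← hW, sub_self, mul_zero, neg_zero, zero_add] at hr
      have hr' := mul_left_cancel₀ (o.κ_pos y hy0).ne' hr
      have hcr := wm_cross hN hp hq hpq (o.one_lt y hyb).le (o.lt_tb y hyb)
        (hW ▸ (o.W_pos hN hp hq hcrit hy0).le)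
      rw [← hW] at hcr
      have hL := o.L_pos hq hyb
      rw [neg_pos]
      refine neg_of_mul_neg_left (b := (p + 1) - (q + 1) * S y) ?_ hL.le
      rw [sub_mul, mul_assoc, div_mul_cancel₀ _ hL.ne', mul_comm (deriv (oW p q S) y), hr', oV]
      linarith)
    (by linarith)
  linarith

/-- `σ_s < σ`. -/
lemma sEq_lt (o : IsOrbitExt N p q τ₀ τb S κ ε) (hN : 2 < N) (hp : 0 < p) (hq : 0 < q)
    (hcrit : N / (p + 1) + N / (q + 1) = N - 2) (hτ : τ ≤ τ₀) :
    sEq N p q < S τ := by
  by_contra hle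
  push Not at hle
  set τ1 := τ - 1
  have h1 : τ1 < τ₀ := by linarith
  have hlt : S τ1 < sEq N p q :=
    (o.S_strictMono hN hp hq hcrit h1.le hτ (sub_one_lt τ)).trans_le hle
  set c := (p + 1) / (q + 1) with hc
  have hc0 : 0 < c := by rw [hc]; positivity
  set E := (N + 2) / N + 2 * c
  have hE : 0 < E := add_pos (div_pos (by linarith) (by linarith)) (by linarith)
  set δ := (sEq N p q - S τ1) * (q + 1) / (2 * c)
  have hδ : 0 < δ := by
    have := sub_pos.2 hlt
    positivity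
  set η := min (oW p q S τ1) (δ / (2 * E))
  have hη : 0 < η := lt_min (o.W_pos hN hp hq hcrit h1) (by positivity)
  have hb : ∀ x ≤ τ1, x < τb := fun x hx => (hx.trans_lt h1).trans o.τ₀_lt_τb
  have hge : ∀ x ≤ τ1, η ≤ oW p q S x := by
    intro x hx
    by_contra hlt'
    push Not at hlt'
    rcases hx.eq_or_lt with e | e
    · rw [e] at hlt'; linarith [min_le_left (oW p q S τ1) (δ / (2 * E))]
    have := upcross (f := fun y => η - oW p q S y) e
      (fun y hy => (o.hasDerivAt_W (hb y hy.2)).const_sub η)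
      (fun y hy h0 => by
        have hy0 := hy.2.trans_lt h1
        have hyb := hb y hy.2
        have h := o.rateW_below hN hp hq hcrit hy0
        rw [show oW p q S y = η by linarith] at h
        have hs := o.one_lt y hyb
        have hsle : S y ≤ S τ1 :=
          (o.S_strictMono hN hp hq hcrit).monotoneOn hy0.le h1.le hy.2
        have hd := sub_pos.2 (o.below.exp_lt y hy0)
        have hsc := o.lt_tb y hyb
        have hν0 : 0 ≤ nu N p q (S y) := div_nonneg (by linarith) (by positivity)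
        have hν : nu N p q (S y) ≤ 1 := by
          rw [nu, div_le_one (by positivity)]
          nlinarith
        have hEy : (N + 2) / N + 2 * nu N p q (S y) * (S y - Real.exp y) ≤ E := by
          have : nu N p q (S y) * (S y - Real.exp y) ≤ 1 * c :=
            mul_le_mul hν (by linarith [Real.exp_pos y]) hd.le zero_le_one
          simp only [E]; linarith
        have hk : kp0 N p q (S y) ≤ -δ := by
          rw [kp0, ← hc, div_le_iff₀ (by linarith)]
          have h2 : (S y - sEq N p q) * ((q + 2) * S y - 1)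
              ≤ (S τ1 - sEq N p q) * (q + 1) :=
            (mul_le_mul_of_nonpos_left (show q + 1 ≤ (q + 2) * S y - 1 by nlinarith)
              (by linarith)).trans (mul_le_mul_of_nonneg_right (by linarith) (by linarith))
          have h3 : δ * (S y + c) ≤ δ * (2 * c) := mul_le_mul_of_nonneg_left (by linarith) hδ.le
          have h4 : δ * (2 * c) = (sEq N p q - S τ1) * (q + 1) := by
            simp only [δ]; field_simp
          linarith
        have hΦ : phi N p q (S y) (Real.exp y) ≤ -δ := by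
          have := mul_nonneg (Real.exp_pos y).le
            (k0_pos (p := p) (q := q) hN hp hq (by linarith : (0:ℝ) ≤ S y) hsc.le).le
          simp only [phi]
          nlinarith
        have hmain : phi N p q (S y) (Real.exp y)
            + η * ((N + 2) / N + 2 * nu N p q (S y) * (S y - Real.exp y)) < 0 := by
          have h5 : η * (2 * E) ≤ δ := by
            rw [← le_div_iff₀ (by positivity)]; exact min_le_right _ _
          nlinarith [mul_le_mul_of_nonneg_left hEy hη.le]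
        have h3 := div_neg_of_neg_of_pos (mul_neg_of_pos_of_neg (o.V_pos hy0) hmain) hd
        refine neg_pos.2 ?_
        refine neg_of_mul_neg_right (a := (p + 1) - (q + 1) * S y) ?_ (o.L_pos hq hyb).le
        rw [h]
        nlinarith)
      (by linarith)
    linarith [min_le_left (oW p q S τ1) (δ / (2 * E))]
  set x := τ1 - (c + 1) * (p + 1) / η
  have hx : x ≤ τ1 := sub_le_self _ (by positivity)
  have hlin := linear_left (f := S) (δ := η / (p + 1))
    (fun y hy => o.hasDerivAt_S hq (hb y hy)) (fun y hy =>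
      div_le_div₀ (hη.le.trans (hge y hy)) (hge y hy) (o.L_pos hq (hb y hy))
        (o.L_le hq (hb y hy))) hx
  have e : η / (p + 1) * (τ1 - x) = c + 1 := by simp only [x]; field_simp; ring
  linarith [o.one_lt x (hb x hx), o.lt_tb τ1 (hb τ1 le_rfl)]

/-- `σ → max 1 σ_s` as `τ → -∞`. -/
lemma eventually_S_lt (o : IsOrbitExt N p q τ₀ τb S κ ε) (hN : 2 < N) (hp : 0 < p) (hq : 0 < q)
    (hcrit : N / (p + 1) + N / (q + 1) = N - 2) {e : ℝ} (he : 0 < e) :
    ∀ᶠ x in atBot, S x < max 1 (sEq N p q) + e := by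
  suffices h : ∃ τ1 ≤ τ₀, S τ1 < max 1 (sEq N p q) + e by
    obtain ⟨τ1, h1, h2⟩ := h
    filter_upwards [eventually_le_atBot τ1] with x hx
    exact ((o.S_strictMono hN hp hq hcrit).monotoneOn (hx.trans h1) h1 hx).trans_lt h2
  by_contra hcon
  push Not at hcon
  set c := (p + 1) / (q + 1) with hc
  have hc0 : 0 < c := by rw [hc]; positivity
  set δ := e * (q + 1) / (2 * c)
  have hδ : 0 < δ := by positivity
  set τ1 := min (τ₀ - 1) (Real.log (δ / (2 * (p + 2))))
  have h1 : τ1 < τ₀ := (min_le_left _ _).trans_lt (sub_one_lt _)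
  have hb : ∀ x ≤ τ1, x < τb := fun x hx => (hx.trans_lt h1).trans o.τ₀_lt_τb
  have hrate : ∀ y ≤ τ1, ((p + 1) - (q + 1) * S y) * deriv (oW p q S) y
      ≥ e * (δ / 2) / c - 2 * c * oW p q S y := by
    intro y hy
    have hy0 := hy.trans_lt h1
    have hyb := hb y hy
    have hs := o.one_lt y hyb
    have hsc := o.lt_tb y hyb
    have hse := hcon y hy0.le
    have hk : δ ≤ kp0 N p q (S y) := by
      rw [kp0, ← hc, le_div_iff₀ (by linarith)]
      have h2 : e * (q + 1) ≤ (S y - sEq N p q) * ((q + 2) * S y - 1) :=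
        mul_le_mul (by linarith [le_max_right 1 (sEq N p q)]) (by nlinarith) (by linarith)
          (by linarith [le_max_right 1 (sEq N p q)])
      have h3 : δ * (S y + c) ≤ δ * (2 * c) := mul_le_mul_of_nonneg_left (by linarith) hδ.le
      have h4 : δ * (2 * c) = e * (q + 1) := by simp only [δ]; field_simp
      linarith
    have hk0 : k0 N p q (S y) ≤ p + 2 := by
      rw [k0, ← hc, div_le_iff₀ (by positivity)]
      refine mul_le_mul (by linarith) ?_ (by nlinarith) (by linarith)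
      nlinarith
    have ht : Real.exp y * (p + 2) ≤ δ / 2 := by
      have := (Real.le_log_iff_exp_le (by positivity)).1 (hy.trans (min_le_right _ _))
      rw [le_div_iff₀ (by positivity)] at this
      linarith
    have hΦ : δ / 2 ≤ phi N p q (S y) (Real.exp y) := by
      have := mul_le_mul_of_nonneg_left hk0 (Real.exp_pos y).le
      simp only [phi]
      nlinarith
    have hW := (o.W_pos hN hp hq hcrit hy0).le
    have hd := sub_pos.2 (o.below.exp_lt y hy0)
    have hV : e ≤ oV p q S y := by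
      have : S y - 1 ≤ S y * (S y - 1) := le_mul_of_one_le_left (by linarith) hs.le
      simp only [oV]; linarith [le_max_left 1 (sEq N p q)]
    have hν0 : 0 ≤ nu N p q (S y) := div_nonneg (by linarith) (by positivity)
    rw [o.rateW_below hN hp hq hcrit hy0, ge_iff_le]
    refine sub_le_sub ?_ (mul_le_mul_of_nonneg_right (by linarith) hW)
    refine div_le_div₀ ?_ (mul_le_mul hV ?_ (by positivity) (o.V_pos hy0).le) hd
      (by linarith [Real.exp_pos y])
    · exact mul_nonneg (o.V_pos hy0).le (add_nonneg (le_trans (by positivity) hΦ)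
        (mul_nonneg hW (by positivity)))
    · exact le_add_of_le_of_nonneg hΦ (mul_nonneg hW (by positivity))
  set η := e * (δ / 2) / c / (4 * c)
  have hη : 0 < η := by positivity
  set δ' := e * (δ / 2) / c / (2 * (p + 1))
  have hδ' : 0 < δ' := by positivity
  have hrate2 : ∀ y ≤ τ1, oW p q S y ≤ η → δ' ≤ deriv (oW p q S) y := by
    intro y hy hW
    have h := hrate y hy
    have h2 := mul_le_mul_of_nonneg_left hW (show 0 ≤ 2 * c by linarith)
    have h3 : 2 * c * η = e * (δ / 2) / c / 2 := by simp only [η]; field_simp; ring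
    have h4 : (p + 1) * δ' = e * (δ / 2) / c / 2 := by simp only [δ']; field_simp
    have hpos : 0 ≤ deriv (oW p q S) y :=
      nonneg_of_mul_nonneg_right (by nlinarith) (o.L_pos hq (hb y hy))
    nlinarith [mul_le_mul_of_nonneg_right (o.L_le hq (hb y hy)) hpos]
  by_cases hall : ∀ y ≤ τ1, η ≤ oW p q S y
  · set x := τ1 - (c + 1) * (p + 1) / η
    have hx : x ≤ τ1 := sub_le_self _ (by positivity)
    have hlin := linear_left (f := S) (δ := η / (p + 1))
      (fun y hy => o.hasDerivAt_S hq (hb y hy)) (fun y hy =>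
        div_le_div₀ (hη.le.trans (hall y hy)) (hall y hy) (o.L_pos hq (hb y hy))
          (o.L_le hq (hb y hy))) hx
    have e1 : η / (p + 1) * (τ1 - x) = c + 1 := by simp only [x]; field_simp; ring
    linarith [o.one_lt x (hb x hx), o.lt_tb τ1 (hb τ1 le_rfl)]
  push Not at hall
  obtain ⟨x0, hx0, hlt⟩ := hall
  have hle : ∀ y ≤ x0, oW p q S y ≤ η := by
    intro y hy
    by_contra hgt
    push Not at hgt
    rcases hy.eq_or_lt with e1 | e1
    · rw [e1] at hgt; linarith
    have := upcross (f := fun z => oW p q S z - η) e1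
      (fun z hz => (o.hasDerivAt_W (hb z (hz.2.trans hx0))).sub_const η)
      (fun z hz h0 => hδ'.trans_le (hrate2 z (hz.2.trans hx0) (by linarith))) (by linarith)
    linarith
  set x := x0 - (η + 1) / δ'
  have hx : x ≤ x0 := sub_le_self _ (by positivity)
  have hlin := linear_left (f := oW p q S) (δ := δ')
    (fun y hy => o.hasDerivAt_W (hb y (hy.trans hx0)))
    (fun y hy => hrate2 y (hy.trans hx0) (hle y hy)) hx
  have e1 : δ' * (x0 - x) = η + 1 := by simp only [x]; field_simp; ring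
  linarith [o.W_pos hN hp hq hcrit ((hx.trans hx0).trans_lt h1)]

end IsOrbitExt

end Vale.Agent.P100T
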