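import Vale.Agent.P100T.OrbitTau
import Vale.Agent.P100T.Calib

/-!
The end `τ → -∞` (`t → 0`) of the critical orbit: limits of the orbit and uniform margins of the
calibration near the end, for `c = c₁ - G (σ - σ∞)`.
-/

open Set Filter Topology

noncomputable section

namespace Vale.Agent.P100T

/-- If `f` converges at `-∞` and its derivative is Lipschitz there, the derivative tends to `0`. -/
lemma deriv_tendsto_zero {f g g' : ℝ → ℝ} {a C l : ℝ} (hf : ∀ x ≤ a, HasDerivAt f (g x) x)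
    (hg : ∀ x ≤ a, HasDerivAt g (g' x) x) (hb : ∀ x ≤ a, |g' x| ≤ C)
    (hl : Tendsto f atBot (𝓝 l)) : Tendsto g atBot (𝓝 0) := by
  have hC : 0 ≤ C := (abs_nonneg _).trans (hb a le_rfl)
  refine Metric.tendsto_nhds.2 fun ε hε => ?_
  set d := ε / (4 * (C + 1)) with hd
  have hd0 : 0 < d := by positivity
  have hCd : C * d ≤ ε / 4 := by
    rw [hd, mul_div_assoc', div_le_div_iff₀ (by positivity) (by positivity)]
    nlinarith
  obtain ⟨X, hX⟩ := eventually_atBot.1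
    (Metric.tendsto_nhds.1 hl (ε * d / 8) (by positivity))
  refine eventually_atBot.2 ⟨min X a, fun x hx => ?_⟩
  have hxX : x ≤ X := hx.trans (min_le_left _ _)
  have hxa : x ≤ a := hx.trans (min_le_right _ _)
  obtain ⟨ξ, hξ, e1⟩ := exists_hasDerivAt_eq_slope f g (show x - d < x by linarith)
    (fun y hy => (hf y (hy.2.trans hxa)).continuousAt.continuousWithinAt)
    (fun y hy => hf y (hy.2.le.trans hxa))
  obtain ⟨η, hη, e2⟩ := exists_hasDerivAt_eq_slope g g' hξ.2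
    (fun y hy => (hg y (hy.2.trans hxa)).continuousAt.continuousWithinAt)
    (fun y hy => hg y (hy.2.le.trans hxa))
  have h1 := abs_lt.1 (hX x hxX)
  have h2 := abs_lt.1 (hX (x - d) (by linarith))
  rw [show x - (x - d) = d by ring, eq_div_iff hd0.ne'] at e1
  rw [eq_div_iff (by linarith [hξ.2])] at e2
  have h3 : |g ξ| ≤ ε / 4 := by
    rw [abs_le]; constructor <;> nlinarith
  have h4 : |g x - g ξ| ≤ ε / 4 := by
    rw [← e2, abs_mul, abs_of_pos (sub_pos.2 hξ.2)]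
    refine (mul_le_mul (hb η (hη.2.le.trans hxa)) (show x - ξ ≤ d by linarith [hξ.1])
      (by linarith [hξ.2]) hC).trans hCd
  rw [Real.dist_eq, sub_zero]
  calc |g x| = |(g x - g ξ) + g ξ| := by rw [sub_add_cancel]
    _ ≤ |g x - g ξ| + |g ξ| := abs_add_le _ _
    _ < ε := by linarith

/-- If a function and its derivative converge at `-∞`, the derivative tends to `0`. -/
lemma deriv_limit_zero {f g : ℝ → ℝ} {a l m : ℝ} (hf : ∀ x ≤ a, HasDerivAt f (g x) x)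
    (hl : Tendsto f atBot (𝓝 l)) (hm : Tendsto g atBot (𝓝 m)) : m = 0 := by
  by_contra h
  have hε : 0 < |m| / 4 := by positivity
  obtain ⟨X, hX⟩ := eventually_atBot.1 ((Metric.tendsto_nhds.1 hl _ hε).and
    (Metric.tendsto_nhds.1 hm _ hε))
  set x := min X a
  obtain ⟨ξ, hξ, e1⟩ := exists_hasDerivAt_eq_slope f g (show x - 1 < x by linarith)
    (fun y hy => (hf y (hy.2.trans (min_le_right _ _))).continuousAt.continuousWithinAt)
    (fun y hy => hf y (hy.2.le.trans (min_le_right _ _)))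
  rw [show x - (x - 1) = 1 by ring, div_one] at e1
  have h1 := abs_lt.1 (hX x (min_le_left _ _)).1
  have h2 := abs_lt.1 (hX (x - 1) (by linarith [min_le_left X a])).1
  have h3 := abs_lt.1 (hX ξ (hξ.2.le.trans (min_le_left _ _))).2
  rcases abs_cases m with ⟨h4, -⟩ | ⟨h4, -⟩ <;> linarith

/-- One side of the limit of a bounded solution of `f' = α - β f` at `-∞`. -/
lemma linear_ode_upper {f α β : ℝ → ℝ} {a A B M ε : ℝ}
    (hf : ∀ x ≤ a, HasDerivAt f (α x - β x * f x) x) (hM : ∀ x ≤ a, f x ≤ M)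
    (hα : Tendsto α atBot (𝓝 A)) (hβ : Tendsto β atBot (𝓝 B)) (hB : 0 < B) (hε : 0 < ε) :
    ∀ᶠ x in atBot, f x ≤ A / B + ε := by
  set c := A / B + ε with hc
  have ht : Tendsto (fun x => α x - β x * c) atBot (𝓝 (A - B * c)) :=
    hα.sub (hβ.mul_const c)
  have hAc : A - B * c < -(B * ε) / 2 := by
    have := mul_pos hB hε
    rw [hc, mul_add, mul_div_cancel₀ _ hB.ne']; linarith
  obtain ⟨X, hX⟩ := eventually_atBot.1
    ((ht.eventually (eventually_lt_nhds hAc)).and (hβ.eventually (eventually_gt_nhds hB)))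
  refine eventually_atBot.2 ⟨min X a, fun y hy => le_of_not_gt fun hgt => ?_⟩
  set k := B * ε / 2 with hk
  have hk0 : 0 < k := by positivity
  have hd : ∀ x ≤ y, c ≤ f x → α x - β x * f x ≤ -k := fun x hx hfx => by
    obtain ⟨h1, h2⟩ := hX x (hx.trans (hy.trans (min_le_left _ _)))
    nlinarith [mul_nonneg h2.le (sub_nonneg.2 hfx)]
  have hge : ∀ x < y, c < f x := fun x hx => by
    by_contra hle
    have := upcross (f := fun z => c - f z) (f' := fun z => -(α z - β z * f z)) hx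
      (fun z hz => (hf z (hz.2.trans (hy.trans (min_le_right _ _)))).const_sub c)
      (fun z hz h0 => by
        have := hd z hz.2 (by linarith)
        linarith) (by linarith)
    linarith
  have hM0 : c ≤ M := hgt.le.trans (hM y (hy.trans (min_le_right _ _)))
  set z := y - ((M - c) / k + 1) with hz
  have hMk : 0 ≤ (M - c) / k := div_nonneg (sub_nonneg.2 hM0) hk0.le
  have hzy : z < y := by linarith
  have := mono_of_deriv (f := fun x => -f x - k * x) (f' := fun x => -(α x - β x * f x) - k)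
    (fun x hx => ((hf x (hx.2.trans (hy.trans (min_le_right _ _)))).neg.sub
      (((hasDerivAt_id x).const_mul k).congr_deriv (mul_one k))))
    (fun x hx => by linarith [hd x hx.2.le (hge x hx.2).le]) hzy.le
  have hMy := hM z (hzy.le.trans (hy.trans (min_le_right _ _)))
  have : k * (y - z) = M - c + k := by rw [hz]; field_simp; ring
  linarith

/-- A bounded solution of `f' = α - β f` with `β → B > 0` tends to `A / B` at `-∞`. -/
lemma linear_ode_limit {f α β : ℝ → ℝ} {a A B M : ℝ}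
    (hf : ∀ x ≤ a, HasDerivAt f (α x - β x * f x) x) (hM : ∀ x ≤ a, |f x| ≤ M)
    (hα : Tendsto α atBot (𝓝 A)) (hβ : Tendsto β atBot (𝓝 B)) (hB : 0 < B) :
    Tendsto f atBot (𝓝 (A / B)) := by
  refine Metric.tendsto_nhds.2 fun ε hε => ?_
  have h1 := linear_ode_upper hf (fun x hx => (le_abs_self _).trans (hM x hx)) hα hβ hB (half_pos hε)
  have h2 := linear_ode_upper (f := fun x => -f x) (α := fun x => -α x)
    (fun x hx => (hf x hx).neg.congr_deriv (by ring))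
    (fun x hx => (neg_le_abs _).trans (hM x hx)) hα.neg hβ hB (half_pos hε)
  filter_upwards [h1, h2] with x hx1 hx2
  rw [neg_div] at hx2
  rw [Real.dist_eq, abs_lt]
  constructor <;> linarith

/-- The limit of `σ` at `t → 0`. -/
def sInf' (N p q : ℝ) : ℝ := max 1 ((N - 2) * (p + 1) / (N * (q + 1)))

variable {N p q τ₀ τ₁ : ℝ} {S R e : ℝ → ℝ}

/-- The quantity `W = L σ'` along an orbit. -/
def orbW (S R : ℝ → ℝ) (τ : ℝ) : ℝ := R τ * (S τ - Real.exp τ) - S τ * (S τ - 1)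

theorem IsOrbit.tail_limits (h : IsOrbit N p q τ₀ S R e) (hN : 2 < N) (hp : 0 < p) (hq : 0 < q)
    (hτ₁ : τ₁ < τ₀) (hW : ∀ τ ≤ τ₁, 0 ≤ orbW S R τ) :
    Tendsto S atBot (𝓝 (sInf' N p q)) ∧ Tendsto (orbW S R) atBot (𝓝 0) ∧
    Tendsto R atBot (𝓝 (sInf' N p q - 1)) ∧ sInf' N p q < (p + 1) / (q + 1) := by
  have hlt : ∀ τ ≤ τ₁, τ < τ₀ := fun τ hτ => hτ.trans_lt hτ₁
  set L := fun τ => (p + 1) - (q + 1) * S τ with hL
  have hLpos : ∀ τ ≤ τ₁, 0 < L τ := fun τ hτ => by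
    have := (lt_div_iff₀ (by linarith : 0 < q + 1)).1 (h.lt_tb τ (hlt τ hτ))
    simp only [hL]; linarith
  have hmonoS : ∀ {x y}, x ≤ y → y ≤ τ₁ → S x ≤ S y := fun {x y} hxy hy =>
    mono_of_deriv (fun z hz => h.derivS z (hlt z (hz.2.trans hy)))
      (fun z hz => div_nonneg (hW z (hz.2.le.trans hy)) (hLpos z (hz.2.le.trans hy)).le) hxy
  obtain ⟨si, hS⟩ : ∃ si, Tendsto S atBot (𝓝 si) := by
    refine ⟨_, Tendsto.congr' ?_ (tendsto_atBot_ciInf (f := fun x => S (min x τ₁))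
      (fun x y hxy => hmonoS (min_le_min_right _ hxy) (min_le_right _ _))
      ⟨1, by rintro _ ⟨x, rfl⟩; exact (h.one_lt _ (hlt _ (min_le_right _ _))).le⟩)⟩
    filter_upwards [eventually_le_atBot τ₁] with x hx
    rw [min_eq_left hx]
  have hsi1 : 1 ≤ si := ge_of_tendsto hS (by
    filter_upwards [eventually_le_atBot τ₁] with x hx
    exact (h.one_lt x (hlt x hx)).le)
  have hsiS : si ≤ S τ₁ := le_of_tendsto hS (by
    filter_upwards [eventually_le_atBot τ₁] with x hx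
    exact hmonoS hx le_rfl)
  have hsitb : si < (p + 1) / (q + 1) := hsiS.trans_lt (h.lt_tb τ₁ hτ₁)
  -- `R` stays bounded backwards
  set R₁ := max ((N - 1) * (p + 1)) (R τ₁) with hR₁
  have heub : ∀ τ < τ₀, N * e τ ≤ (p + 1) + R τ := fun τ hτ => by
    have h0 := h.poho τ hτ
    have := h.one_lt τ hτ
    have := h.R_pos τ hτ
    have h1 : R τ * (Real.exp τ / (p + 1) + 1 / (q + 1)) ≤ R τ * (S τ / (p + 1) + 1 / (q + 1)) :=
      mul_le_mul_of_nonneg_left
        (by linarith [div_le_div_of_nonneg_right (h.exp_lt τ hτ).le (show (0:ℝ) ≤ p + 1 by linarith)])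
        (by linarith)
    have h2 : (p + 1) * (S τ / (p + 1) + 1 / (q + 1)) = S τ + (p + 1) / (q + 1) := by field_simp
    have : 0 < (p + 1) / (q + 1) := by positivity
    exact le_of_mul_le_mul_right (by linarith) (show 0 < S τ / (p + 1) + 1 / (q + 1) by positivity)
  have hRb : ∀ τ ≤ τ₁, R τ ≤ R₁ := fun τ hτ => le_of_not_gt fun hgt => by
    rcases hτ.eq_or_lt with rfl | hlt'
    · linarith [le_max_right ((N - 1) * (p + 1)) (R τ)]
    have := upcross (f := fun z => R z - R₁) hlt'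
      (fun z hz => (h.derivR z (hlt z hz.2)).sub_const R₁)
      (fun z hz h0 => by
        have hz' := hlt z hz.2
        refine div_pos (mul_pos (h.R_pos z hz') ?_) (hLpos z hz.2)
        have h1 := heub z hz'
        have h2 : 0 < q * S z := mul_pos hq (by linarith [h.one_lt z hz'])
        have h3 : (N - 1) * (p + 1) ≤ R z := by linarith [le_max_left ((N - 1) * (p + 1)) (R τ₁)]
        have h4 := mul_le_mul_of_nonneg_left h1 (show 0 ≤ 2 * (N - 1) by linarith)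
        refine pos_of_mul_pos_right (a := N) ?_ (by linarith)
        nlinarith) (by linarith)
    linarith [le_max_right ((N - 1) * (p + 1)) (R τ₁)]
  set Kp := fun τ => 2 * ((2 - N) * e τ + 1 + R τ) - 2 * e τ + q * S τ - 1 with hKp
  have hbnd : ∃ C, ∀ τ ≤ τ₁, |Kp τ| ≤ C := by
    refine ⟨2 * (N - 1) * ((p + 1) + R₁) + 2 * R₁ + q * S τ₁ + 1, fun τ hτ => ?_⟩
    have hτ' := hlt τ hτ
    have h1 := heub τ hτ'
    have h2 : 0 ≤ e τ := (one_div_nonneg.2 (by linarith : (0:ℝ) ≤ N - 2)).trans (h.e_ge τ hτ')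
    have h3 : e τ ≤ N * e τ := le_mul_of_one_le_left h2 (by linarith)
    have h4 := mul_le_mul_of_nonneg_left (h3.trans (h1.trans (by linarith [hRb τ hτ] :
      (p + 1) + R τ ≤ (p + 1) + R₁))) (show 0 ≤ 2 * (N - 1) by linarith)
    have h5 : 0 ≤ 2 * (N - 1) * e τ := mul_nonneg (by linarith) h2
    have h6 : 0 < q * S τ := mul_pos hq (by linarith [h.one_lt τ hτ'])
    have h7 := mul_le_mul_of_nonneg_left (hmonoS hτ le_rfl) hq.le
    have := hRb τ hτ
    have := h.R_pos τ hτ'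
    simp only [hKp]
    rw [abs_le]; constructor <;> linarith
  obtain ⟨C, hC⟩ := hbnd
  have hC0 : 0 ≤ C := (abs_nonneg _).trans (hC τ₁ le_rfl)
  set S₁ := S τ₁
  set L₁ := L τ₁
  have hL₁ : 0 < L₁ := hLpos τ₁ le_rfl
  have hLle : ∀ τ ≤ τ₁, L₁ ≤ L τ := fun τ hτ => by
    have := mul_le_mul_of_nonneg_left (hmonoS hτ le_rfl) (show 0 ≤ q + 1 by linarith)
    simp only [hL, L₁]; linarith
  -- `W → 0`
  have hWd : ∀ τ ≤ τ₁, HasDerivAt (orbW S R)
      (R τ * Kp τ / L τ * (S τ - Real.exp τ) + R τ * (orbW S R τ / L τ - Real.exp τ)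
        - (2 * S τ - 1) * (orbW S R τ / L τ)) τ := fun τ hτ => by
    have dS := h.derivS τ (hlt τ hτ)
    refine (((h.derivR τ (hlt τ hτ)).mul (dS.sub (Real.hasDerivAt_exp τ))).sub
      (dS.mul (dS.sub_const 1))).congr_deriv ?_
    simp only [orbW, hKp, hL, Pi.sub_apply]
    ring
  have hW0 : Tendsto (orbW S R) atBot (𝓝 0) := by
    refine deriv_tendsto_zero (f := fun τ => (p + 1) * S τ - (q + 1) / 2 * S τ ^ 2)
      (C := R₁ * C / L₁ * S₁ + R₁ * (R₁ * S₁ / L₁ + S₁) + 2 * S₁ * (R₁ * S₁ / L₁))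
      (fun τ hτ => ?_) hWd (fun τ hτ => ?_) ((hS.const_mul _).sub ((hS.pow 2).const_mul _))
    · have dS := h.derivS τ (hlt τ hτ)
      refine ((dS.const_mul (p + 1)).sub ((dS.pow 2).const_mul ((q + 1) / 2))).congr_deriv ?_
      have := (hLpos τ hτ).ne'
      simp only [hL] at this
      simp only [orbW]
      norm_num
      linear_combination mul_div_cancel₀ (R τ * (S τ - Real.exp τ) - S τ * (S τ - 1)) this
    · have hτ' := hlt τ hτ
      have hR0 := (h.R_pos τ hτ').le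
      have hRle := hRb τ hτ
      have hR₁0 : 0 ≤ R₁ := hR0.trans hRle
      have hS1 := h.one_lt τ hτ'
      have hSle := hmonoS hτ le_rfl
      have hexp := h.exp_lt τ hτ'
      have := Real.exp_pos τ
      have hL0 := hLpos τ hτ
      have hd0 : |S τ - Real.exp τ| ≤ S₁ := by rw [abs_le]; constructor <;> linarith
      have hw : |orbW S R τ / L τ| ≤ R₁ * S₁ / L₁ := by
        rw [abs_div, abs_of_nonneg (hW τ hτ), abs_of_pos hL0]
        refine div_le_div₀ (mul_nonneg hR₁0 (by linarith)) ?_ hL₁ (hLle τ hτ)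
        have : 0 ≤ S τ * (S τ - 1) := mul_nonneg (by linarith) (by linarith)
        have := mul_le_mul hRle (show S τ - Real.exp τ ≤ S₁ by linarith) (by linarith) hR₁0
        simp only [orbW]; linarith
      have hk : |R τ * Kp τ / L τ| ≤ R₁ * C / L₁ := by
        rw [abs_div, abs_mul, abs_of_nonneg hR0, abs_of_pos hL0]
        exact div_le_div₀ (by positivity) (mul_le_mul hRle (hC τ hτ) (abs_nonneg _) hR₁0) hL₁
          (hLle τ hτ)
      refine (abs_sub _ _).trans (add_le_add ((abs_add_le _ _).trans (add_le_add ?_ ?_)) ?_)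
      · rw [abs_mul]; exact mul_le_mul hk hd0 (abs_nonneg _) (by positivity)
      · rw [abs_mul, abs_of_nonneg hR0]
        refine mul_le_mul hRle ((abs_sub _ _).trans (add_le_add hw ?_)) (abs_nonneg _) hR₁0
        rw [abs_of_pos (Real.exp_pos τ)]; linarith
      · rw [abs_mul, abs_of_pos (show 0 < 2 * S τ - 1 by linarith)]
        exact mul_le_mul (by linarith) hw (abs_nonneg _) (by linarith)
  have hexp0 : Tendsto (fun τ => S τ - Real.exp τ) atBot (𝓝 si) := by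
    simpa using hS.sub Real.tendsto_exp_atBot
  have hR : Tendsto R atBot (𝓝 (si - 1)) := by
    have h1 : Tendsto (fun τ => (orbW S R τ + S τ * (S τ - 1)) / (S τ - Real.exp τ)) atBot
        (𝓝 ((0 + si * (si - 1)) / si)) :=
      (hW0.add (hS.mul (hS.sub_const 1))).div hexp0 (by linarith)
    rw [zero_add, mul_div_cancel_left₀ _ (by linarith : si ≠ 0)] at h1
    refine h1.congr' ?_
    filter_upwards [eventually_le_atBot τ₁] with x hx
    have := h.exp_lt x (hlt x hx)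
    rw [div_eq_iff (by linarith), orbW]; ring
  -- the limit of `Kp`
  set k := ((q + 2) * si - 1) * (N * (q + 1) * si - (N - 2) * (p + 1))
    / (N * ((p + 1) + (q + 1) * si)) with hk
  have hKlim : Tendsto Kp atBot (𝓝 k) := by
    have hS0 : 0 < si / (p + 1) + 1 / (q + 1) := by positivity
    have he : Tendsto e atBot (𝓝 ((si + (si - 1) * (0 / (p + 1) + 1 / (q + 1)))
        / (N * (si / (p + 1) + 1 / (q + 1))))) := by
      refine ((hS.add (hR.mul ((Real.tendsto_exp_atBot.div_const _).add_const _))).div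
        (((hS.div_const (p + 1)).add_const (1 / (q + 1))).const_mul N) (by positivity)).congr' ?_
      filter_upwards [eventually_le_atBot τ₁] with x hx
      have := h.poho x (hlt x hx)
      have := h.one_lt x (hlt x hx)
      simp only [Pi.div_apply]
      rw [div_eq_iff (by positivity)]
      linarith
    have hh := ((((he.const_mul (2 - N)).add_const 1).add hR).const_mul 2 |>.sub
      (he.const_mul 2) |>.add (hS.const_mul q)).sub_const 1
    convert hh using 2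
    rw [hk]
    field_simp
    ring
  have hLlim : Tendsto L atBot (𝓝 ((p + 1) - (q + 1) * si)) := (hS.const_mul _).const_sub _
  have hLsi : 0 < (p + 1) - (q + 1) * si := by
    have := (lt_div_iff₀ (by linarith : 0 < q + 1)).1 hsitb
    linarith
  have hNq : 0 < N * (q + 1) := by positivity
  have heq : si = sInf' N p q := by
    rcases hsi1.eq_or_lt with h1 | h1
    · have hk0 : 0 ≤ k := by
        by_contra hneg
        push Not at hneg
        obtain ⟨X, hX⟩ := eventually_atBot.1 (hKlim.eventually (eventually_lt_nhds hneg))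
        set Y := min X τ₁
        have hpos := h.R_pos Y (hlt Y (min_le_right _ _))
        obtain ⟨x, hx, hxY⟩ := ((hR.eventually (eventually_lt_nhds
          (show si - 1 < R Y by linarith))).and (eventually_le_atBot Y)).exists
        have := mono_of_deriv (f := fun z => -R z)
          (fun z hz => (h.derivR z (hlt z (hz.2.trans (min_le_right _ _)))).neg)
          (fun z hz => neg_nonneg.2 (div_nonpos_of_nonpos_of_nonneg
            (mul_nonpos_of_nonneg_of_nonpos (h.R_pos z (hlt z (hz.2.le.trans (min_le_right _ _)))).le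
              (hX z (hz.2.le.trans (min_le_left _ _))).le)
            (hLpos z (hz.2.le.trans (min_le_right _ _))).le)) hxY
        linarith
      rw [sInf', max_eq_left]
      · exact h1.symm
      rw [div_le_one hNq]
      rw [hk, ← h1] at hk0
      have h2 := (div_nonneg_iff.1 hk0).resolve_right (fun hh => by
        nlinarith [hh.2, mul_pos (show (0:ℝ) < N by linarith) (show 0 < (p + 1) + (q + 1) * 1 by linarith)])
      have := (mul_nonneg_iff_of_pos_left (show 0 < (q + 2) * (1:ℝ) - 1 by linarith)).1 h2.1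
      linarith
    · have hz : (si - 1) * k / ((p + 1) - (q + 1) * si) = 0 :=
        deriv_limit_zero (a := τ₁) (fun x hx => h.derivR x (hlt x hx)) hR
          ((hR.mul hKlim).div hLlim hLsi.ne')
      have hk0 : k = 0 := by
        rcases div_eq_zero_iff.1 hz with h2 | h2
        · exact (mul_eq_zero.1 h2).resolve_left (by linarith)
        · exact absurd h2 hLsi.ne'
      rw [hk, div_eq_zero_iff] at hk0
      have h2 := (mul_eq_zero.1 (hk0.resolve_right (by positivity))).resolve_left (by nlinarith)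
      have h3 : si = (N - 2) * (p + 1) / (N * (q + 1)) := by
        rw [eq_div_iff hNq.ne']; linarith
      rw [sInf', ← h3, max_eq_right h1.le]
  rw [← heq]
  exact ⟨hS, hW0, hR, hsitb⟩

/-- When `σ∞ = 1`, the ratio `(σ - 1)/R` converges. -/
theorem IsOrbit.tail_ratio (h : IsOrbit N p q τ₀ S R e) (hN : 2 < N) (hp : 0 < p) (hq : 0 < q)
    (hcrit : N / (p + 1) + N / (q + 1) = N - 2)
    (hτ₁ : τ₁ < τ₀) (hW : ∀ τ ≤ τ₁, 0 ≤ orbW S R τ)
    (hss : (N - 2) * (p + 1) ≤ N * (q + 1)) :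
    Tendsto (fun τ => (S τ - 1) / R τ) atBot (𝓝 ((N - 2) * (p + 1) / (N * (q + 1)))) := by
  obtain ⟨hS, -, hR, hlt1⟩ := h.tail_limits hN hp hq hτ₁ hW
  have hsi : sInf' N p q = 1 := by
    rw [sInf', max_eq_left]
    rwa [div_le_one (by positivity)]
  rw [hsi] at hS hR hlt1
  rw [sub_self] at hR
  have hpq' : 0 < (p + 1) - (q + 1) * 1 := by
    have := (lt_div_iff₀ (by linarith : 0 < q + 1)).1 hlt1
    linarith
  have ht := Real.tendsto_exp_atBot
  have he : Tendsto e atBot (𝓝 ((1 + 0 * (0 / (p + 1) + 1 / (q + 1)))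
      / (N * (1 / (p + 1) + 1 / (q + 1))))) := by
    refine ((hS.add (hR.mul ((ht.div_const _).add_const _))).div
      (((hS.div_const (p + 1)).add_const (1 / (q + 1))).const_mul N) (by positivity)).congr' ?_
    filter_upwards [eventually_le_atBot τ₁] with x hx
    have := h.poho x (hx.trans_lt hτ₁)
    have := h.one_lt x (hx.trans_lt hτ₁)
    simp only [Pi.div_apply]
    rw [div_eq_iff (by positivity)]
    linarith
  have hL : Tendsto (fun τ => (p + 1) - (q + 1) * S τ) atBot (𝓝 ((p + 1) - (q + 1) * 1)) :=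
    (hS.const_mul _).const_sub _
  have hK : Tendsto (fun τ => S τ + (2 * ((2 - N) * e τ + 1 + R τ) - 2 * e τ + q * S τ - 1)) atBot
      (𝓝 (N * (q + 1) / ((N - 2) * (p + 1)))) := by
    have hh := hS.add (((((he.const_mul (2 - N)).add_const 1).add hR).const_mul 2 |>.sub
      (he.const_mul 2) |>.add (hS.const_mul q)).sub_const 1)
    have e1 : N * (1 / (p + 1) + 1 / (q + 1)) = N - 2 := by rw [← hcrit]; ring
    convert hh using 2
    rw [e1]
    have : (N : ℝ) - 2 ≠ 0 := by linarith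
    field_simp at hcrit ⊢
    linear_combination (q + 1) * hcrit
  have hB : 0 < N * (q + 1) / ((N - 2) * (p + 1)) / ((p + 1) - (q + 1) * 1) :=
    div_pos (div_pos (by positivity) (mul_pos (by linarith) (by linarith))) hpq'
  have hA : Tendsto (fun τ => (S τ - Real.exp τ) / ((p + 1) - (q + 1) * S τ)) atBot
      (𝓝 ((1 - 0) / ((p + 1) - (q + 1) * 1))) := (hS.sub ht).div hL hpq'.ne'
  have hlim := linear_ode_limit (f := fun τ => (S τ - 1) / R τ) (M := 1) (a := τ₁)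
    (fun x hx => by
      have hx' := hx.trans_lt hτ₁
      refine (((h.derivS x hx').sub_const 1).div (h.derivR x hx') (h.R_pos x hx').ne').congr_deriv ?_
      have := (h.R_pos x hx').ne'
      have h2 : (p + 1) - (q + 1) * S x ≠ 0 := by
        have := (lt_div_iff₀ (by linarith : 0 < q + 1)).1 (h.lt_tb x hx')
        linarith
      simp only [Pi.div_apply]
      field_simp
      ring)
    (fun x hx => by
      have hx' := hx.trans_lt hτ₁
      have hR0 := h.R_pos x hx'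
      have h1 := h.one_lt x hx'
      rw [abs_div, abs_of_pos (by linarith : 0 < S x - 1), abs_of_pos hR0, div_le_one hR0]
      have hw := hW x hx
      rw [orbW] at hw
      have := mul_pos hR0 (Real.exp_pos x)
      exact le_of_mul_le_mul_left (by linarith) (show 0 < S x by linarith))
    hA (hK.div hL hpq'.ne') hB
  convert hlim using 2
  rw [sub_zero]
  field_simp
  rw [mul_div_assoc, div_self (by linarith), mul_one]

/-- The limit discriminant at `σ∞ = 1`, in `T = (p+1)/(q+1)` and `Z = (N-2)(1+T)²G`. -/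
lemma tail_disc_pos {N T Z : ℝ} (hN : 5 ≤ N) (hT : 1 ≤ T) (hT2 : (N - 2) * T ≤ N) (hZ : 0 ≤ Z)
    (hZ2 : Z ≤ 18 * (N - 2) + (N - 5) / 2) :
    0 < (N - 1) * (8 * N * T * (1 + T) - ((N + 2) * T - N + 4) ^ 2) ∧
    ((N - 1) * ((N + 2) * T - N + 4 - 2 * T * (N - (N - 2) * T)) - (N - (N - 2) * T) * Z) ^ 2
      < ((N - 1) * (2 * T ^ 2 - 1) + T * Z)
        * ((N - 1) * (8 * N * T * (1 + T) - ((N + 2) * T - N + 4) ^ 2)) := by
  obtain ⟨n, hn, rfl⟩ : ∃ n : ℝ, 0 ≤ n ∧ N = n + 5 := ⟨N - 5, by linarith, by ring⟩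
  obtain ⟨s, hs, hs1, rfl⟩ : ∃ s : ℝ, 0 ≤ s ∧ 0 ≤ 1 - s ∧ T = (n + 3 + 2 * s) / (n + 3) := by
    refine ⟨((n + 3) * T - (n + 3)) / 2, ?_, by linarith, ?_⟩
    · linarith [mul_nonneg (by linarith : 0 ≤ n + 3) (sub_nonneg.2 hT)]
    · field_simp; ring
  set T := (n + 3 + 2 * s) / (n + 3) with hTd
  have hh : (n + 3) * T = n + 3 + 2 * s := by rw [hTd]; field_simp
  have h0 : (0:ℝ) < n + 3 := by linarith
  set E := (n + 5 - 1) * (8 * (n + 5) * T * (1 + T) - ((n + 5 + 2) * T - (n + 5) + 4) ^ 2) with hE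
  set f := fun z => ((n + 5 - 1) * (2 * T ^ 2 - 1) + T * z) * E
    - ((n + 5 - 1) * ((n + 5 + 2) * T - (n + 5) + 4 - 2 * T * (n + 5 - (n + 5 - 2) * T))
      - (n + 5 - (n + 5 - 2) * T) * z) ^ 2 with hf
  have e0 : (n + 3) ^ 2 * E = (1584 + 2028 * n + 968 * n ^ 2 + 204 * n ^ 3 + 16 * n ^ 4) * (1 - s) ^ 2
      + (4032 + 4848 * n + 2176 * n ^ 2 + 432 * n ^ 3 + 32 * n ^ 4) * s * (1 - s)
      + (2304 + 2688 * n + 1168 * n ^ 2 + 224 * n ^ 3 + 16 * n ^ 4) * s ^ 2 := by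
    rw [hE, hTd]; field_simp; ring
  have e1 : (n + 3) ^ 4 * f 0 = (51840 + 115776 * n + 110376 * n ^ 2 + 58224 * n ^ 3 + 18352 * n ^ 4 + 3456 * n ^ 5 + 360 * n ^ 6 + 16 * n ^ 7) * (1 - s) ^ 4
      + (359424 + 746496 * n + 660672 * n ^ 2 + 322912 * n ^ 3 + 94112 * n ^ 4 + 16352 * n ^ 5 + 1568 * n ^ 6 + 64 * n ^ 7) * s * (1 - s) ^ 3
      + (835200 + 1631040 * n + 1356520 * n ^ 2 + 622784 * n ^ 3 + 170448 * n ^ 4 + 27808 * n ^ 5 + 2504 * n ^ 6 + 96 * n ^ 7) * s ^ 2 * (1 - s) ^ 2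
      + (771840 + 1435008 * n + 1137008 * n ^ 2 + 497696 * n ^ 3 + 129984 * n ^ 4 + 20256 * n ^ 5 + 1744 * n ^ 6 + 64 * n ^ 7) * s ^ 3 * (1 - s)
      + (230400 + 418560 * n + 323776 * n ^ 2 + 138256 * n ^ 3 + 35200 * n ^ 4 + 5344 * n ^ 5 + 448 * n ^ 6 + 16 * n ^ 7) * s ^ 4 := by
    simp only [hf]; rw [hE, hTd]; field_simp; ring
  have e2 : (n + 3) ^ 4 * f (18 * (n + 3) + n / 2) = (16848 + 240840 * n + 448929 * n ^ 2 + 368724 * n ^ 3 + 163942 * n ^ 4 + 41252 * n ^ 5 + 5553 * n ^ 6 + 312 * n ^ 7) * (1 - s) ^ 4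
      + (3322080 + 7412688 * n + 7118478 * n ^ 2 + 3816892 * n ^ 3 + 1235176 * n ^ 4 + 241428 * n ^ 5 + 26410 * n ^ 6 + 1248 * n ^ 7) * s * (1 - s) ^ 3
      + (8965008 + 18771720 * n + 16811077 * n ^ 2 + 8349680 * n ^ 3 + 2485138 * n ^ 4 + 443520 * n ^ 5 + 43985 * n ^ 6 + 1872 * n ^ 7) * s ^ 2 * (1 - s) ^ 2
      + (7770240 + 15846528 * n + 13790936 * n ^ 2 + 6636848 * n ^ 3 + 1906752 * n ^ 4 + 326896 * n ^ 5 + 30952 * n ^ 6 + 1248 * n ^ 7) * s ^ 3 * (1 - s)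
      + (2096640 + 4230528 * n + 3642400 * n ^ 2 + 1733992 * n ^ 3 + 492752 * n ^ 4 + 83552 * n ^ 5 + 7824 * n ^ 6 + 312 * n ^ 7) * s ^ 4 := by
    simp only [hf]; rw [hE, hTd]; field_simp; ring
  have hpos : ∀ {x : ℝ}, 0 ≤ x → ∀ k : ℕ, 0 ≤ x ^ k := fun hx k => pow_nonneg hx k
  have hs2 : 0 < s ∨ 0 < 1 - s := by by_contra hc; push Not at hc; linarith [hc.1, hc.2]
  have hEp : 0 < E := by
    refine pos_of_mul_pos_right (a := (n + 3) ^ 2) ?_ (by positivity)
    rw [e0]; rcases hs2 with hs2 | hs2 <;> positivity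
  have hf0 : 0 < f 0 := by
    refine pos_of_mul_pos_right (a := (n + 3) ^ 4) ?_ (by positivity)
    rw [e1]; rcases hs2 with hs2 | hs2 <;> positivity
  have hf1 : 0 < f (18 * (n + 3) + n / 2) := by
    refine pos_of_mul_pos_right (a := (n + 3) ^ 4) ?_ (by positivity)
    rw [e2]; rcases hs2 with hs2 | hs2 <;> positivity
  refine ⟨hEp, ?_⟩
  set l := Z / (18 * (n + 3) + n / 2) with hl
  have hl0 : 0 ≤ l := by positivity
  have hl1 : l ≤ 1 := by rw [hl, div_le_one (by positivity)]; linarith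
  have hZl : Z = l * (18 * (n + 3) + n / 2) := by rw [hl]; field_simp
  have key : f Z = (1 - l) * f 0 + l * f (18 * (n + 3) + n / 2)
      + (n + 5 - (n + 5 - 2) * T) ^ 2 * (18 * (n + 3) + n / 2) ^ 2 * (l * (1 - l)) := by
    rw [hZl]; simp only [hf]; ring
  have h1l : 0 ≤ 1 - l := by linarith
  have : 0 < f Z := by
    rw [key]
    rcases hl0.eq_or_lt with h | h
    · rw [← h]; simpa using hf0
    · positivity
  simp only [hf] at this
  linarith

/-- The hypotheses of `TPar.At.calibrated` at one point, with bounds on the coefficients. -/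
structure TailMargins (P : Pt) (a K : ℝ) : Prop where
  hσ : |P.σ| ≤ K
  hcB : |P.R / (P.R + 1)| ≤ K
  hcQ : |1 / (P.R + 1)| ≤ K
  hm1 : |P.a + 2 * P.c| ≤ K
  hl : |P.N * P.e - P.R| ≤ K
  hdet : a ≤ P.N * P.e / (P.R + 1)
  h2 : a ≤ P.P2
  h2K : P.P2 ≤ K
  h0K : P.P0 * ((P.R + 1) / P.R) ^ 2 ≤ K
  hd : (P.P0' * ((P.R + 1) / P.R)) ^ 2 + a ≤ 4 * P.P2 * (P.P0 * ((P.R + 1) / P.R) ^ 2)
  hρ : a ≤ P.rhoR / P.R
  ha : |P.a| ≤ K
  hb : |P.b| ≤ K
  hc : |P.c| ≤ K
  hdd : |P.d| ≤ K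
  hkX : |P.kX| ≤ K
  hkY : |P.kY| ≤ K

/-- A family of points, with a point it converges to in the plain coefficients. -/
structure PtLim (P : ℝ → Pt) (Q : Pt) : Prop where
  hσ : Tendsto (fun τ => (P τ).σ) atBot (𝓝 Q.σ)
  hR : Tendsto (fun τ => (P τ).R) atBot (𝓝 Q.R)
  hc : Tendsto (fun τ => (P τ).c) atBot (𝓝 Q.c)
  hV : Tendsto (fun τ => (P τ).V) atBot (𝓝 Q.V)
  hW : Tendsto (fun τ => (P τ).W) atBot (𝓝 Q.W)
  hL : Tendsto (fun τ => (P τ).L) atBot (𝓝 Q.L)
  hK : Tendsto (fun τ => (P τ).K) atBot (𝓝 Q.K)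
  hmu : Tendsto (fun τ => (P τ).mu) atBot (𝓝 Q.mu)
  hT : Tendsto (fun τ => (P τ).T1) atBot (𝓝 Q.T1)
  he : Tendsto (fun τ => (P τ).e) atBot (𝓝 Q.e)
  hbe : Tendsto (fun τ => (P τ).be1) atBot (𝓝 Q.be1)
  hE1 : Tendsto (fun τ => (P τ).E1) atBot (𝓝 Q.E1)
  hKp : Tendsto (fun τ => (P τ).Kp) atBot (𝓝 Q.Kp)
  hce : Tendsto (fun τ => (P τ).ce) atBot (𝓝 Q.ce)
  hk : Tendsto (fun τ => (P τ).k) atBot (𝓝 Q.k)
  ha : Tendsto (fun τ => (P τ).a) atBot (𝓝 Q.a)
  hb : Tendsto (fun τ => (P τ).b) atBot (𝓝 Q.b)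
  hd : Tendsto (fun τ => (P τ).d) atBot (𝓝 Q.d)
  hP2 : Tendsto (fun τ => (P τ).P2) atBot (𝓝 Q.P2)

lemma ptLim {M : ℝ} {σ r t c c' : ℝ → ℝ} {σ' r' t' c1 c1' : ℝ}
    (hσ : Tendsto σ atBot (𝓝 σ')) (hr : Tendsto r atBot (𝓝 r')) (ht : Tendsto t atBot (𝓝 t'))
    (hc : Tendsto c atBot (𝓝 c1)) (hc' : Tendsto c' atBot (𝓝 c1'))
    (hN : N ≠ 0) (hL : (p + 1) - (q + 1) * σ' ≠ 0) (hK : (p + 1) + (q + 1) * σ' ≠ 0) :
    PtLim (fun τ => ⟨N, p, q, σ τ, r τ, t τ, M, c τ, c' τ⟩) ⟨N, p, q, σ', r', t', M, c1, c1'⟩ := by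
  set P := fun τ => (⟨N, p, q, σ τ, r τ, t τ, M, c τ, c' τ⟩ : Pt)
  set Q : Pt := ⟨N, p, q, σ', r', t', M, c1, c1'⟩
  have hV : Tendsto (fun τ => (P τ).V) atBot (𝓝 Q.V) := hr.mul (hσ.sub ht)
  have hW : Tendsto (fun τ => (P τ).W) atBot (𝓝 Q.W) := hV.sub (hσ.mul (hσ.sub_const 1))
  have hL' : Tendsto (fun τ => (P τ).L) atBot (𝓝 Q.L) := (hσ.const_mul _).const_sub _
  have hK' : Tendsto (fun τ => (P τ).K) atBot (𝓝 Q.K) := (hσ.const_mul _).const_add _
  have hNK : N * Q.K ≠ 0 := mul_ne_zero hN hK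
  have hmu : Tendsto (fun τ => (P τ).mu) atBot (𝓝 Q.mu) :=
    tendsto_const_nhds.div (hK'.const_mul N) hNK
  have hT : Tendsto (fun τ => (P τ).T1) atBot (𝓝 Q.T1) :=
    ((ht.const_mul _).add_const _).div_const _
  have he : Tendsto (fun τ => (P τ).e) atBot (𝓝 Q.e) :=
    ((hσ.const_mul _).add (hr.mul ((ht.const_mul _).add_const _))).div (hK'.const_mul N) hNK
  have hbe : Tendsto (fun τ => (P τ).be1) atBot (𝓝 Q.be1) := (he.const_mul _).sub_const _
  have hE1 : Tendsto (fun τ => (P τ).E1) atBot (𝓝 Q.E1) :=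
    ((he.const_mul _).add_const 1).add hr
  have hk : Tendsto (fun τ => (P τ).k) atBot (𝓝 Q.k) := (hmu.mul hbe).sub hc
  have hH : Tendsto (fun τ => (P τ).H) atBot (𝓝 Q.H) :=
    ((((he.const_mul N).sub_const 1).sub hr).const_mul (-2)).add ((hmu.const_mul 2).mul hσ)
  have ha : Tendsto (fun τ => (P τ).a) atBot (𝓝 Q.a) :=
    ((hH.const_sub _).mul_const _).div hL' hL
  exact
    { hσ := hσ, hR := hr, hc := hc, hV := hV, hW := hW, hL := hL', hK := hK', hmu := hmu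
      hT := hT, he := he, hbe := hbe, hE1 := hE1
      hKp := (((hE1.const_mul 2).sub (he.const_mul 2)).add (hσ.const_mul q)).sub_const 1
      hce := (hmu.mul (hbe.neg.add (hr.div_const _))).neg
      hk := hk, ha := ha
      hb := hH.sub (ha.mul hσ)
      hd := ((hmu.add hc).mul hσ).const_sub 1
      hP2 := ((hc.mul (ha.sub_const 1)).sub (hc'.const_mul _)).sub
        (((ha.add (hc.const_mul 2)).pow 2).const_mul _) }

/-- Uniform margins from the limits. -/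
lemma margins_of_limits {P : ℝ → Pt} {Q : Pt} (h : PtLim P Q) {p0 p1 ρ kx : ℝ}
    (hN : ∀ τ, (P τ).N = Q.N) (hR : 0 ≤ Q.R)
    (h0 : Tendsto (fun τ => (P τ).P0 * (((P τ).R + 1) / (P τ).R) ^ 2) atBot (𝓝 p0))
    (h1 : Tendsto (fun τ => (P τ).P0' * (((P τ).R + 1) / (P τ).R)) atBot (𝓝 p1))
    (hr : Tendsto (fun τ => (P τ).rhoR / (P τ).R) atBot (𝓝 ρ))
    (hk : Tendsto (fun τ => (P τ).kX) atBot (𝓝 kx))
    (hdet : 0 < Q.N * Q.e) (h2 : 0 < Q.P2) (hd : p1 ^ 2 < 4 * Q.P2 * p0) (hρ : 0 < ρ) {A : ℝ}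
    (hA : Q.a < A) :
    ∃ a K, 0 < a ∧ a ≤ K ∧ ∀ᶠ τ in atBot, TailMargins (P τ) a K ∧ (P τ).a ≤ A := by
  have hR1 : Q.R + 1 ≠ 0 := by linarith
  set a := min (min (Q.N * Q.e / (Q.R + 1)) Q.P2) (min (4 * Q.P2 * p0 - p1 ^ 2) ρ) / 2 with ha
  have hm : 0 < min (min (Q.N * Q.e / (Q.R + 1)) Q.P2) (min (4 * Q.P2 * p0 - p1 ^ 2) ρ) :=
    lt_min (lt_min (div_pos hdet (by linarith)) h2) (lt_min (by linarith) hρ)
  have ha0 : 0 < a := half_pos hm
  have hle := min_le_left (min (Q.N * Q.e / (Q.R + 1)) Q.P2) (min (4 * Q.P2 * p0 - p1 ^ 2) ρ)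
  have hle' := min_le_right (min (Q.N * Q.e / (Q.R + 1)) Q.P2) (min (4 * Q.P2 * p0 - p1 ^ 2) ρ)
  have l1 : a < Q.N * Q.e / (Q.R + 1) := by
    linarith [min_le_left (Q.N * Q.e / (Q.R + 1)) Q.P2]
  have l2 : a < Q.P2 := by linarith [min_le_right (Q.N * Q.e / (Q.R + 1)) Q.P2]
  have l3 : a < 4 * Q.P2 * p0 - p1 ^ 2 := by linarith [min_le_left (4 * Q.P2 * p0 - p1 ^ 2) ρ]
  have l4 : a < ρ := by linarith [min_le_right (4 * Q.P2 * p0 - p1 ^ 2) ρ]
  set kY := 1 - Q.mu * Q.T1 - Q.σ * kx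
  obtain ⟨K, hK⟩ : ∃ K, K = a + |Q.σ| + |Q.R / (Q.R + 1)| + |1 / (Q.R + 1)|
      + |Q.a + 2 * Q.c| + |Q.N * Q.e - Q.R| + |Q.P2| + |p0| + |Q.a| + |Q.b| + |Q.c| + |Q.d|
      + |kx| + |kY| + 1 := ⟨_, rfl⟩
  have hKa : a ≤ K := by
    have : ∀ x : ℝ, 0 ≤ |x| := abs_nonneg
    rw [hK]; repeat (first | linarith | refine le_add_of_le_of_nonneg ?_ (by positivity))
  have bd : ∀ {f : ℝ → ℝ} {l : ℝ}, Tendsto f atBot (𝓝 l) → |l| < K →
      ∀ᶠ τ in atBot, |f τ| ≤ K := fun hf hl =>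
    (hf.abs.eventually (eventually_lt_nhds hl)).mono fun _ hx => hx.le
  have lt_of : ∀ {f : ℝ → ℝ} {l : ℝ}, Tendsto f atBot (𝓝 l) → a < l →
      ∀ᶠ τ in atBot, a ≤ f τ := fun hf hl =>
    (hf.eventually (eventually_gt_nhds hl)).mono fun _ hx => hx.le
  have hNe : Tendsto (fun τ => (P τ).N * (P τ).e) atBot (𝓝 (Q.N * Q.e)) := by
    simp only [hN]; exact h.he.const_mul _
  have hR' := h.hR.add_const 1
  have hnn : ∀ x : ℝ, 0 ≤ |x| := abs_nonneg
  refine ⟨a, K, ha0, hKa, ?_⟩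
  have lk : ∀ x : ℝ, (x = |Q.σ| ∨ x = |Q.R / (Q.R + 1)| ∨ x = |1 / (Q.R + 1)| ∨
      x = |Q.a + 2 * Q.c| ∨ x = |Q.N * Q.e - Q.R| ∨ x = |Q.P2| ∨ x = |p0| ∨ x = |Q.a| ∨
      x = |Q.b| ∨ x = |Q.c| ∨ x = |Q.d| ∨ x = |kx| ∨ x = |kY|) → x < K := by
    intro x hx
    have := hnn Q.σ; have := hnn (Q.R / (Q.R + 1)); have := hnn (1 / (Q.R + 1))
    have := hnn (Q.a + 2 * Q.c); have := hnn (Q.N * Q.e - Q.R); have := hnn Q.P2; have := hnn p0
    have := hnn Q.a; have := hnn Q.b; have := hnn Q.c; have := hnn Q.d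
    have := hnn kx; have := hnn kY
    rcases hx with rfl | rfl | rfl | rfl | rfl | rfl | rfl | rfl | rfl | rfl | rfl | rfl | rfl <;>
      linarith
  filter_upwards [bd h.hσ (lk _ (by tauto)), bd (h.hR.div hR' hR1) (lk _ (by tauto)),
    bd ((tendsto_const_nhds (x := (1:ℝ))).div hR' hR1) (lk _ (by tauto)),
    bd (h.ha.add (h.hc.const_mul 2)) (lk _ (by tauto)), bd (hNe.sub h.hR) (lk _ (by tauto)),
    lt_of (hNe.div hR' hR1) l1, lt_of h.hP2 l2, bd h.hP2 (lk _ (by tauto)),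
    bd h0 (lk _ (by tauto)), lt_of (((h.hP2.const_mul 4).mul h0).sub (h1.pow 2)) l3,
    lt_of hr l4, bd h.ha (lk _ (by tauto)), bd h.hb (lk _ (by tauto)), bd h.hc (lk _ (by tauto)),
    bd h.hd (lk _ (by tauto)), bd hk (lk _ (by tauto)),
    bd (((h.hmu.mul h.hT).const_sub 1).sub (h.hσ.mul hk)) (lk _ (by tauto)),
    h.ha.eventually (eventually_lt_nhds hA)]
    with τ b1 b2 b3 b4 b5 b6 b7 b8 b9 b10 b11 b12 b13 b14 b15 b16 b17 b18
  exact ⟨⟨b1, b2, b3, b4, b5, b6, b7, (le_abs_self _).trans b8, (le_abs_self _).trans b9,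
    by linarith, b11, b12, b13, b14, b15, b16, b17⟩, b18.le⟩

/-- The orbit as a family of calibrated points, with `c = c₁ - G (σ - σ∞)`. -/
def tailPt (N p q c1 G : ℝ) (S R : ℝ → ℝ) (τ : ℝ) : Pt :=
  ⟨N, p, q, S τ, R τ, Real.exp τ, (N - 4) / N + 2 / ((N - 2) * (p + 1)),
    c1 - G * (S τ - sInf' N p q), -(G * (orbW S R τ / ((p + 1) - (q + 1) * S τ)))⟩

lemma tailPt_W (N p q c1 G : ℝ) (S R : ℝ → ℝ) (τ : ℝ) :
    (tailPt N p q c1 G S R τ).W = orbW S R τ := rfl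

/-- `c'` is the derivative of `c`. -/
lemma IsOrbit.tailPt_deriv (h : IsOrbit N p q τ₀ S R e) (c1 G : ℝ) {τ : ℝ} (hτ : τ < τ₀) :
    HasDerivAt (fun x => (tailPt N p q c1 G S R x).c) (tailPt N p q c1 G S R τ).c' τ := by
  refine (((h.derivS τ hτ).sub_const (sInf' N p q)).const_mul G |>.const_sub c1).congr_deriv ?_
  simp only [tailPt, orbW]

/-- With the Pohozaev identity, `ce` depends on `σ` and `V` only. -/
lemma Pt.ce_eq {P : Pt} (h : P.Good) :
    P.ce = -((P.N - 1) * (P.q + 1) * ((P.p + 1) ^ 2 + (P.q + 1) * P.V) / (P.N * P.K ^ 2)) := by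
  obtain ⟨hN, hp, hq, hK, hL, hR, hc⟩ := h
  simp only [Pt.ce, Pt.be1, Pt.mu, Pt.e, Pt.V]
  field_simp
  simp only [Pt.K]
  ring

/-- `E₁` vanishes at `(σ, R) = (1, 0)` in critical dimension. -/
lemma Pt.E1_eq {P : Pt} (h : P.Good) :
    P.E1 = P.R - (P.N - 2) * ((P.σ - 1) * (1 - P.N / ((P.N - 2) * (P.p + 1))) + P.R * P.T1)
      / (P.N * (P.K / ((P.p + 1) * (P.q + 1)))) ∨ P.N = 2 := by
  obtain ⟨hN, hp, hq, hK, hL, hR, hc⟩ := h
  by_cases h2 : P.N - 2 = 0
  · right; linarith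
  left
  simp only [Pt.E1, Pt.e, Pt.T1]
  field_simp
  simp only [Pt.K]
  linear_combination -hc

/-- The exponents in terms of `T = (p+1)/(q+1)` on the critical hyperbola. -/
lemma crit_param {N p q : ℝ} (hN : 2 < N) (hp : 0 < p) (hq : 0 < q)
    (hcrit : N / (p + 1) + N / (q + 1) = N - 2) :
    ∃ T, 0 < T ∧ T = (p + 1) / (q + 1) ∧ p = N * (1 + T) / (N - 2) - 1 ∧
      q = N * (1 + T) / ((N - 2) * T) - 1 := by
  refine ⟨(p + 1) / (q + 1), by positivity, rfl, ?_, ?_⟩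
  · have : N - 2 ≠ 0 := by linarith
    field_simp at hcrit ⊢
    linear_combination -hcrit
  · have : N - 2 ≠ 0 := by linarith
    field_simp at hcrit ⊢
    linear_combination -hcrit

lemma crit_prod {N p q : ℝ} (hp : 0 < p) (hq : 0 < q)
    (hcrit : N / (p + 1) + N / (q + 1) = N - 2) :
    N * ((p + 1) * (q + 1) - (p + 1) - (q + 1)) = 2 * (p + 1) * (q + 1) := by
  field_simp at hcrit
  linear_combination -hcrit

lemma IsOrbit.tailPt_good (h : IsOrbit N p q τ₀ S R e) (hN : 2 < N) (hp : 0 < p) (hq : 0 < q)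
    (hcrit : N / (p + 1) + N / (q + 1) = N - 2) (c1 G : ℝ) {τ : ℝ} (hτ : τ < τ₀) :
    (tailPt N p q c1 G S R τ).Good := by
  have h1 := h.one_lt τ hτ
  have h2 := (lt_div_iff₀ (by linarith : 0 < q + 1)).1 (h.lt_tb τ hτ)
  refine ⟨by simp only [tailPt]; linarith, by simp only [tailPt]; linarith,
    by simp only [tailPt]; linarith, ?_, ?_, (h.R_pos τ hτ).ne', crit_prod hp hq hcrit⟩
  · have : 0 < (q + 1) * S τ := by positivity
    simp only [tailPt, Pt.K]; linarith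
  · simp only [tailPt, Pt.L]; linarith

lemma disc_bracket {N δ T u : ℝ} (hN : 4 ≤ N) (hδ : 0 ≤ δ) (hT : 0 < T) (hu : u ≤ T)
    (h : δ * T ≤ 1 / (20 * N)) (h1 : (N - 1) * δ ≤ 1) :
    0 < N - δ * (u * (N - 1 + (N - 2) ^ 2 / 4) + (N - 2) * T * (2 + (N - 1) * δ)) := by
  have h3 : δ * (u * (N - 1 + (N - 2) ^ 2 / 4) + (N - 2) * T * (2 + (N - 1) * δ))
      ≤ δ * T * ((N - 1 + (N - 2) ^ 2 / 4) + (N - 2) * 3) := by
    have a1 : 0 ≤ N - 1 + (N - 2) ^ 2 / 4 := by linarith [sq_nonneg (N - 2)]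
    have a2 := mul_le_mul_of_nonneg_right hu a1
    have a3 := mul_le_mul_of_nonneg_left (by linarith : 2 + (N - 1) * δ ≤ 3)
      (mul_nonneg (by linarith : (0:ℝ) ≤ N - 2) hT.le)
    have := mul_le_mul_of_nonneg_left (add_le_add a2 a3) hδ
    linarith
  have h4 : 0 ≤ (N - 1 + (N - 2) ^ 2 / 4) + (N - 2) * 3 := by linarith [sq_nonneg (N - 2)]
  have h5 := mul_le_mul_of_nonneg_right h h4
  have h6 : 1 / (20 * N) * ((N - 1 + (N - 2) ^ 2 / 4) + (N - 2) * 3) < N := by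
    rw [div_mul_eq_mul_div, div_lt_iff₀ (by positivity)]; nlinarith
  linarith

/-- The limit point when `σ∞ > 1`. -/
lemma gt_point {N p q T c1 δ ss M : ℝ} {Q : Pt} (hN : 4 ≤ N) (hp : 0 < p)
    (hq2 : 2 < (N - 2) * q) (hT : 0 < T) (hTd : T = (p + 1) / (q + 1))
    (hpT : p = N * (1 + T) / (N - 2) - 1) (hqT : q = N * (1 + T) / ((N - 2) * T) - 1)
    (hc1 : c1 = -N / (2 * (N - 2)) - δ) (hδ : 0 < δ) (hδ1 : 20 * N * δ * ((p + 1) / (q + 1)) ≤ 1)
    (hssd : ss = (N - 2) * T / N) (hs1 : 1 < ss) (hTs : ss < T)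
    (hM : M = (N - 4) / N + 2 / ((N - 2) * (p + 1))) (hQ : Q = ⟨N, p, q, ss, ss - 1, 0, M, c1, 0⟩) :
    0 < Q.N * Q.e ∧ 0 < Q.P2 ∧
      (Q.P0' * ((Q.R + 1) / Q.R)) ^ 2 < 4 * Q.P2 * (Q.P0 * ((Q.R + 1) / Q.R) ^ 2) ∧
      0 < Q.rhoR / Q.R ∧ Q.a = (N - 4) / (N - 2) := by
  have hN2 : (0:ℝ) < N - 2 := by linarith
  have eV : Q.V = ss * (ss - 1) := by simp only [hQ, Pt.V]; ring
  have eW : Q.W = 0 := by rw [Pt.W, eV]; simp only [hQ]; ring
  have ene : N ≠ 0 ∧ N - 2 ≠ 0 ∧ T ≠ 0 := ⟨by linarith, by linarith, hT.ne'⟩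
  obtain ⟨nN, nh, nT⟩ := ene
  have eK : Q.K = 2 * (N - 1) * (1 + T) / (N - 2) := by
    simp only [hQ, Pt.K, hssd]; rw [hpT, hqT]; field_simp; ring
  have eL : Q.L = 2 * (1 + T) / (N - 2) := by
    simp only [hQ, Pt.L, hssd]; rw [hpT, hqT]; field_simp; ring
  have nT1 : 1 + T ≠ 0 := by linarith
  have nN1 : N - 1 ≠ 0 := by linarith
  have emu : Q.mu = N * (1 + T) / (2 * (N - 2) * T) := by
    simp only [Pt.mu, eK]; simp only [hQ]; rw [hpT, hqT]; field_simp; ring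
  have ee : Q.e = T / N := by
    simp only [Pt.e, eK]; simp only [hQ, hssd]; rw [hpT, hqT]; field_simp; ring
  have ebe : Q.be1 = (N - 2) * T / (N * (1 + T)) - 1 := by
    simp only [Pt.be1, ee]; simp only [hQ]; rw [hpT]; field_simp; ring
  have ece : Q.ce - Q.c = (ss - 1) / ((N - 2) * T) + δ := by
    simp only [Pt.ce, emu, ebe]; simp only [hQ, hssd, hc1]; rw [hpT]; field_simp; ring
  have eE1 : Q.E1 = 0 := by
    simp only [Pt.E1, ee]; simp only [hQ, hssd]; field_simp; ring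
  have eKp : Q.Kp = 0 := by
    simp only [Pt.Kp, ee, eE1]; simp only [hQ, hssd]; rw [hqT]; field_simp; ring
  have ea : Q.a = (N - 4) / (N - 2) := by
    simp only [Pt.a, Pt.H, eL, ee, emu]; simp only [hQ, hssd, hM]; rw [hpT, hqT]
    field_simp; ring
  have e2 : Q.P2 = (1 - 2 * δ - (N - 1) * δ ^ 2) / N := by
    simp only [Pt.P2, ea]; simp only [hQ, hc1]; field_simp; ring
  have e1 : Q.P0' = ss * (ss - 1) * (2 / (N - 2) + δ) / T := by
    simp only [Pt.P0', eV, eW, ea, emu]; simp only [hQ, hc1]; rw [hpT]; field_simp; ring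
  have hk : 0 < Q.k := by
    have e : Q.k = (Q.ce - Q.c) + Q.mu * Q.R / (p + 1) := by
      simp only [Pt.k, Pt.ce]; rw [show Q.p = p by rw [hQ]]; ring
    have : 0 < Q.R := by simp only [hQ]; linarith
    rw [e, ece, emu]
    have : 0 < ss - 1 := by linarith
    positivity
  have hδT : δ * T ≤ 1 / (20 * N) := by
    rw [le_div_iff₀ (by positivity), hTd]; linarith
  have hT1 : 1 < T := hs1.trans hTs
  have hδ2 : δ ≤ 1 / (20 * N) := (le_mul_of_one_le_right hδ.le hT1.le).trans hδT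
  have hδN : 20 * N * δ ≤ 1 := by
    rw [le_div_iff₀ (by positivity)] at hδ2; linarith
  have hP2 : 0 < Q.P2 := by
    rw [e2]
    refine div_pos ?_ (by linarith)
    nlinarith
  have hd : (Q.P0' * ((Q.R + 1) / Q.R)) ^ 2
      < 4 * Q.P2 * (Q.P0 * ((Q.R + 1) / Q.R) ^ 2) := by
    have hbr := disc_bracket hN hδ.le hT (by linarith : ss - 1 ≤ T) hδT (by linarith)
    have key : 4 * Q.P2 * (Q.P0 * ((Q.R + 1) / Q.R) ^ 2) - (Q.P0' * ((Q.R + 1) / Q.R)) ^ 2
        = ((Q.R + 1) / Q.R) ^ 2 * (ss * (ss - 1) * (4 / (N * (N - 2) * T)) * (δ *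
          (N - δ * ((ss - 1) * (N - 1 + (N - 2) ^ 2 / 4) + (N - 2) * T * (2 + (N - 1) * δ))))) := by
      rw [e2, e1, Pt.P0, eV, ece, hssd]; field_simp; ring
    have : 0 < (Q.R + 1) / Q.R := by
      have : 0 < Q.R := by simp only [hQ]; linarith
      positivity
    have : 0 < ss - 1 := by linarith
    have : 0 < ((Q.R + 1) / Q.R) ^ 2 * (ss * (ss - 1) * (4 / (N * (N - 2) * T)) * (δ *
        (N - δ * ((ss - 1) * (N - 1 + (N - 2) ^ 2 / 4) + (N - 2) * T * (2 + (N - 1) * δ))))) := by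
      positivity
    linarith
  have hρ : 0 < Q.rhoR / Q.R := by
    refine div_pos ?_ (by simp only [hQ]; linarith)
    simp only [Pt.rhoR, eKp, eW, eE1, ea]
    rw [hQ] at hk
    simp only [hQ]
    have : 0 < (N - 4) / (N - 2) - 1 + q := by
      have : (N - 4) / (N - 2) - 1 + q = ((N - 2) * q - 2) / (N - 2) := by field_simp; ring
      rw [this]; exact div_pos (by linarith) hN2
    simpa using mul_pos hk this
  exact ⟨by rw [ee]; simp only [hQ]; positivity, hP2, hd, hρ, ea⟩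

/-- The weight of `u` dominates `a` at `t = 0`. -/
lemma a_lt_wexp {N p q a : ℝ} (hN : 4 ≤ N) (hp : 0 < p) (hq2 : 2 < (N - 2) * q)
    (ha : a = (N - 4) / (N - 2)) :
    a < ((N - 4) / N + 2 / ((N - 2) * (p + 1))) * (N / 2) * q := by
  have hN2 : 0 < N - 2 := by linarith
  have hq : 0 < q := pos_of_mul_pos_right (by linarith) hN2.le
  have e : ((N - 4) / N + 2 / ((N - 2) * (p + 1))) * (N / 2) * q - (N - 4) / (N - 2)
      = (N - 4) * ((N - 2) * q / 2 - 1) / (N - 2) + N * q / ((N - 2) * (p + 1)) := by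
    field_simp
    ring
  have : 0 ≤ (N - 4) * ((N - 2) * q / 2 - 1) / (N - 2) :=
    div_nonneg (mul_nonneg (by linarith) (by linarith)) hN2.le
  have : 0 < N * q / ((N - 2) * (p + 1)) := by positivity
  linarith

/-- Uniform margins near `t = 0` when `σ∞ > 1`, for `c₁ = -N/(2(N-2)) - δ`. -/
theorem IsOrbit.tail_margins_gt (h : IsOrbit N p q τ₀ S R e) (hN : 4 ≤ N) (hp : 0 < p)
    (hq : 0 < q) (hcrit : N / (p + 1) + N / (q + 1) = N - 2) (hq2 : 2 < (N - 2) * q)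
    (hτ₁ : τ₁ < τ₀) (hW : ∀ τ ≤ τ₁, 0 ≤ orbW S R τ)
    (hss : N * (q + 1) < (N - 2) * (p + 1)) {c1 G δ : ℝ} (hc1 : c1 = -N / (2 * (N - 2)) - δ)
    (hδ : 0 < δ) (hδ1 : 20 * N * δ * ((p + 1) / (q + 1)) ≤ 1) :
    ∃ a K τ₂, 0 < a ∧ a ≤ K ∧ τ₂ ≤ τ₁ ∧
      ∀ τ ≤ τ₂, TailMargins (tailPt N p q c1 G S R τ) a K ∧
        (tailPt N p q c1 G S R τ).a ≤ ((N - 4) / N + 2 / ((N - 2) * (p + 1))) * (N / 2) * q := by
  obtain ⟨hS, hW0, hR, hlt⟩ := h.tail_limits (by linarith) hp hq hτ₁ hW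
  obtain ⟨T, hT, hTd, hpT, hqT⟩ := crit_param (by linarith) hp hq hcrit
  have hN2 : (0:ℝ) < N - 2 := by linarith
  have hsd : sInf' N p q = (N - 2) * T / N := by
    rw [sInf', max_eq_right]
    · rw [hTd]; field_simp
    · rw [le_div_iff₀ (by positivity)]; linarith
  have hs1 : 1 < (N - 2) * T / N := by
    rw [hTd, lt_div_iff₀ (by linarith), mul_div_assoc', lt_div_iff₀ (by linarith)]; linarith
  set ss := (N - 2) * T / N with hssd
  have hTs : ss < T := by rw [hssd, div_lt_iff₀ (by linarith)]; nlinarith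
  have hLp : (p + 1) - (q + 1) * ss = (q + 1) * (T - ss) := by rw [hTd]; field_simp
  have hL0 : (p + 1) - (q + 1) * sInf' N p q ≠ 0 := by
    rw [hsd, hLp]; exact mul_ne_zero (by linarith) (by linarith)
  have hK0 : (p + 1) + (q + 1) * sInf' N p q ≠ 0 := by rw [hsd]; positivity
  set M := (N - 4) / N + 2 / ((N - 2) * (p + 1)) with hM
  set Q : Pt := ⟨N, p, q, sInf' N p q, sInf' N p q - 1, 0, M, c1, 0⟩ with hQ
  have hcT : Tendsto (fun τ => c1 - G * (S τ - sInf' N p q)) atBot (𝓝 c1) := by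
    simpa using ((hS.sub_const (sInf' N p q)).const_mul G).const_sub c1
  have hc'T : Tendsto (fun τ => -(G * (orbW S R τ / ((p + 1) - (q + 1) * S τ)))) atBot (𝓝 0) := by
    simpa using ((hW0.div ((hS.const_mul (q + 1)).const_sub (p + 1)) hL0).const_mul G).neg
  have hl : PtLim (tailPt N p q c1 G S R) Q :=
    ptLim hS hR Real.tendsto_exp_atBot hcT hc'T (by linarith) hL0 hK0
  have hR0 : Q.R ≠ 0 := by simp only [hQ]; rw [hsd]; linarith
  have hr1 : Tendsto (fun τ => ((tailPt N p q c1 G S R τ).R + 1) / (tailPt N p q c1 G S R τ).R)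
      atBot (𝓝 ((Q.R + 1) / Q.R)) := (hl.hR.add_const 1).div hl.hR hR0
  have hc' : Tendsto (fun τ => (tailPt N p q c1 G S R τ).c') atBot (𝓝 Q.c') := hc'T
  have h0 : Tendsto (fun τ => (tailPt N p q c1 G S R τ).P0) atBot (𝓝 Q.P0) :=
    hl.hV.mul (hl.hce.sub hl.hc)
  have h1 : Tendsto (fun τ => (tailPt N p q c1 G S R τ).P0') atBot (𝓝 Q.P0') :=
    (((((hl.hmu.div_const (p + 1)).mul hl.hV).mul (hl.ha.add (hl.hc.const_mul 2))).neg).add
      (((hl.hW.mul_const (q + 1)).div (hl.hL.mul hl.hK) (mul_ne_zero hL0 hK0)).mul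
        ((hl.hc.mul ((hl.hσ.const_mul (q + 1)).const_sub (3 * (p + 1)))).add
          (hl.hmu.mul_const (p + 1))))).add (hl.hL.mul hc')
  have hr : Tendsto (fun τ => (tailPt N p q c1 G S R τ).rhoR) atBot (𝓝 Q.rhoR) :=
    ((hl.hk.mul ((hl.ha.sub_const 1).add_const q)).add
      ((tendsto_const_nhds.div hl.hL hL0).mul
        (((hl.hKp.mul hl.hk).add
          ((((hl.hmu.mul hl.hbe).mul hl.hW).mul_const (q + 1)).div hl.hK hK0)).sub
          ((hl.hmu.mul (hl.hbe.add_const 1)).mul hl.hE1)))).add (hc'.const_mul (q + 1))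
  have hQ' : Q = ⟨N, p, q, ss, ss - 1, 0, M, c1, 0⟩ := by rw [hQ, hsd]
  obtain ⟨hdet, hP2, hd, hρ, ea⟩ := gt_point hN hp hq2 hT hTd hpT hqT hc1 hδ hδ1 hssd hs1 hTs hM hQ'
  obtain ⟨a, K, ha, haK, hev⟩ := margins_of_limits hl (fun _ => rfl)
    (by simp only [hQ]; rw [hsd]; linarith) (h0.mul (hr1.pow 2)) (h1.mul hr1)
    (hr.div hl.hR hR0) (hl.hk.div hl.hR hR0) hdet hP2 hd hρ (a_lt_wexp hN hp hq2 ea)
  obtain ⟨τ₂, hτ₂⟩ := eventually_atBot.1 hev
  exact ⟨a, K, min τ₂ τ₁, ha, haK, min_le_right _ _, fun τ hτ => hτ₂ τ (hτ.trans (min_le_left _ _))⟩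

/-- `(ce - c)/R` in terms of `σ`, `t` and `v = (σ-1)/R`, for `c = ce(1,0) - G(σ-1)`. -/
def dR (N p q G σ t v : ℝ) : ℝ :=
  v * ((N - 1) * (q + 1) ^ 2 * (p + 1) ^ 2 * (2 * (p + 1) + (q + 1) * (σ + 1))
      / (N * ((p + 1) + (q + 1) * σ) ^ 2 * (p + q + 2) ^ 2) + G)
    - (N - 1) * (q + 1) ^ 2 * (σ - t) / (N * ((p + 1) + (q + 1) * σ) ^ 2)

lemma tailPt_dR (h : IsOrbit N p q τ₀ S R e) (hN : 2 < N) (hp : 0 < p) (hq : 0 < q)
    (hcrit : N / (p + 1) + N / (q + 1) = N - 2) (hsi : sInf' N p q = 1) {c1 G τ : ℝ}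
    (hc1 : c1 = -((N - 1) * (p + 1) / ((N - 2) * (p + q + 2)))) (hτ : τ < τ₀) :
    (tailPt N p q c1 G S R τ).ce - (tailPt N p q c1 G S R τ).c
      = R τ * dR N p q G (S τ) (Real.exp τ) ((S τ - 1) / R τ) := by
  have hR := (h.R_pos τ hτ).ne'
  have h1 := h.one_lt τ hτ
  rw [Pt.ce_eq (h.tailPt_good hN hp hq hcrit c1 G hτ)]
  simp only [tailPt, Pt.V, Pt.K, hc1, hsi, dR]
  have hK : (p + 1) + (q + 1) * S τ ≠ 0 := by positivity
  have : N - 2 ≠ 0 := by linarith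
  have : p + q + 2 ≠ 0 := by linarith
  have hc := crit_prod hp hq hcrit
  have hK1 : (N - 1) * (p + 1) / ((N - 2) * (p + q + 2))
      = (N - 1) * (q + 1) * (p + 1) ^ 2 / (N * (p + q + 2) ^ 2) := by
    field_simp
    linear_combination (1 - N) * hc
  rw [hK1]
  field_simp
  ring

/-- The limit point when `σ∞ = 1`. -/
lemma le_point {N p q T c1 G M v w D p1 ex ρ : ℝ} {Q : Pt} (hN : 5 ≤ N)
    (hT1 : 1 < T) (hT2 : (N - 2) * T ≤ N)
    (hpT : p = N * (1 + T) / (N - 2) - 1) (hqT : q = N * (1 + T) / ((N - 2) * T) - 1)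
    (hc1 : c1 = -((N - 1) * (p + 1) / ((N - 2) * (p + q + 2)))) (hG : 0 ≤ G)
    (hG1 : (N - 2) * (1 + T) ^ 2 * G ≤ 18 * (N - 2) + (N - 5) / 2) (hM : M = (N - 4) / N + 2 / ((N - 2) * (p + 1)))
    (hQ : Q = ⟨N, p, q, 1, 0, 0, M, c1, 0⟩) (hv : v = (N - 2) * T / N) (hw : w = 1 - 0 - 1 * v)
    (hD : D = dR N p q G 1 0 v)
    (hp1 : p1 = -(Q.mu / (p + 1) * (1 - 0) * (Q.a + 2 * Q.c))
      + w * (q + 1) / (Q.L * Q.K) * (Q.c * (3 * (p + 1) - (q + 1) * 1) + Q.mu * (p + 1))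
      + -(G * w))
    (hex : ex = 1 - (N - 2) * (v * (1 - N / ((N - 2) * (p + 1))) + Q.T1)
      / (N * (Q.K / ((p + 1) * (q + 1)))))
    (hρ : ρ = (D + Q.mu / (p + 1)) * (Q.a - 1 + q) + (q + 1) / Q.L * (Q.Kp * (D + Q.mu / (p + 1))
      + Q.mu * Q.be1 * w * (q + 1) / Q.K - Q.mu * (Q.be1 + 1) * ex)
      + (q + 1) * -(G * w / Q.L)) :
    0 < Q.N * Q.e ∧ 0 < Q.P2 ∧ p1 ^ 2 < 4 * Q.P2 * D ∧ 0 < ρ ∧ Q.a = (N - 4) / (N - 2) := by
  have nN : N ≠ 0 := by linarith
  have nh : N - 2 ≠ 0 := by linarith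
  have nT : T ≠ 0 := by linarith
  have nT1 : 1 + T ≠ 0 := by linarith
  have nT2 : T - 1 ≠ 0 := by linarith
  have eK1 : p + q + 2 = N * (1 + T) ^ 2 / ((N - 2) * T) := by rw [hpT, hqT]; field_simp; ring
  have ec : c1 = -((N - 1) * T / ((N - 2) * (1 + T))) := by
    rw [hc1, eK1, hpT]; field_simp; ring
  have eK : Q.K = N * (1 + T) ^ 2 / ((N - 2) * T) := by
    rw [← eK1, hQ]; simp only [Pt.K]; ring
  have eL : Q.L = N * (1 + T) * (T - 1) / ((N - 2) * T) := by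
    simp only [hQ, Pt.L]; rw [hpT, hqT]; field_simp; ring
  have emu : Q.mu = (N - 1) / (N - 2) := by
    simp only [Pt.mu, eK]; simp only [hQ]; rw [hpT, hqT]; field_simp; ring
  have ee : Q.e = 1 / (N - 2) := by
    simp only [Pt.e, eK]; simp only [hQ]; rw [hpT, hqT]; field_simp; ring
  have ebe : Q.be1 = 1 / (1 + T) - 1 := by
    simp only [Pt.be1, ee]; simp only [hQ]; rw [hpT]; field_simp; ring
  have eKp : Q.Kp = N / ((N - 2) * T) - 1 := by
    simp only [Pt.Kp, Pt.E1, ee]; simp only [hQ]; rw [hqT]; field_simp; ring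
  have ea : Q.a = (N - 4) / (N - 2) := by
    simp only [Pt.a, Pt.H, eL, ee, emu]; simp only [hQ, hM]; rw [hpT, hqT]; field_simp; ring
  have eD : D = ((N - 1) * (2 * T ^ 2 - 1) + T * ((N - 2) * (1 + T) ^ 2 * G)) / (N * (1 + T) ^ 2) := by
    simp only [hD, dR, hv]; rw [show (p + 1) + (q + 1) * 1 = p + q + 2 by ring, eK1, hpT, hqT]; field_simp; ring
  have eP2 : Q.P2 = (N - 1) * (8 * N * T * (1 + T) - ((N + 2) * T - N + 4) ^ 2)
      / (4 * N * (N - 2) ^ 2 * (1 + T) ^ 2) := by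
    simp only [Pt.P2, ea]; simp only [hQ, ec]; field_simp; ring
  have ep1 : p1 = ((N - 1) * ((N + 2) * T - N + 4 - 2 * T * (N - (N - 2) * T))
      - (N - (N - 2) * T) * ((N - 2) * (1 + T) ^ 2 * G)) / (N * (N - 2) * (1 + T) ^ 2) := by
    rw [hp1, hw, hv, ea, eL, eK, emu]; simp only [hQ, ec]; rw [hpT, hqT]; field_simp; ring
  have eex : ex = 1 - (N - 2) * (v * (1 - 1 / (1 + T)) + T * (N - 2) / (N * (1 + T)))
      / (N - 2) := by
    rw [hex, eK]; simp only [hQ, Pt.T1]; rw [hpT, hqT]; field_simp; ring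
  have eρ : ρ = N / ((N - 2) * T) * ((N - 1) / (N * (1 + T)) + D) := by
    rw [hρ, eD, eex, hw, hv, ea, eL, eK, eKp, emu, ebe]; rw [hpT, hqT]; field_simp; ring
  have hN1 : (0:ℝ) < N - 1 := by clear * - hN; linarith
  have hN2 : (0:ℝ) < N - 2 := by clear * - hN; linarith
  obtain ⟨hE, hdisc⟩ := tail_disc_pos hN hT1.le hT2 (by positivity) hG1
  have hDp : 0 < D := by
    rw [eD]
    have : 0 < 2 * T ^ 2 - 1 := by clear * - hT1; nlinarith
    positivity
  refine ⟨by rw [ee]; simp only [hQ]; positivity, by rw [eP2]; positivity, ?_, ?_, ea⟩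
  · rw [ep1, eP2, eD, div_pow]
    refine (div_lt_div_of_pos_right hdisc (by positivity)).trans_le (le_of_eq ?_)
    field_simp
  · rw [eρ]
    have : 0 < T := by clear * - hT1; linarith
    positivity

/-- Uniform margins near `t = 0` when `σ∞ = 1`, for `c₁ = ce(1,0)`; here `(σ-1)/R → (N-2)T/N`. -/
theorem IsOrbit.tail_margins_le (h : IsOrbit N p q τ₀ S R e) (hN : 5 ≤ N) (hp : 0 < p)
    (hq : 0 < q) (hcrit : N / (p + 1) + N / (q + 1) = N - 2)
    (hτ₁ : τ₁ < τ₀) (hW : ∀ τ ≤ τ₁, 0 ≤ orbW S R τ)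
    (hss : (N - 2) * (p + 1) ≤ N * (q + 1)) {c1 G : ℝ}
    (hc1 : c1 = -((N - 1) * (p + 1) / ((N - 2) * (p + q + 2)))) (hG : 0 ≤ G)
    (hG1 : (N - 2) * (1 + (p + 1) / (q + 1)) ^ 2 * G ≤ 18 * (N - 2) + (N - 5) / 2) :
    ∃ a K τ₂, 0 < a ∧ a ≤ K ∧ τ₂ ≤ τ₁ ∧
      ∀ τ ≤ τ₂, TailMargins (tailPt N p q c1 G S R τ) a K ∧
        (tailPt N p q c1 G S R τ).a ≤ ((N - 4) / N + 2 / ((N - 2) * (p + 1))) * (N / 2) * q := by
  have hN2 : (0:ℝ) < N - 2 := by linarith
  obtain ⟨hS, hW0, hR, hlt⟩ := h.tail_limits (by linarith) hp hq hτ₁ hW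
  have hv := h.tail_ratio (by linarith) hp hq hcrit hτ₁ hW hss
  obtain ⟨T, hT, hTd, hpT, hqT⟩ := crit_param (by linarith) hp hq hcrit
  have hsi : sInf' N p q = 1 := by rw [sInf', max_eq_left]; rwa [div_le_one (by positivity)]
  rw [hsi] at hS hR hlt
  rw [sub_self] at hR
  rw [show (N - 2) * (p + 1) / (N * (q + 1)) = (N - 2) * T / N by rw [hTd]; field_simp] at hv
  have hT1 : 1 < T := hTd ▸ hlt
  have hT2 : (N - 2) * T ≤ N := by
    rw [hTd, mul_div_assoc', div_le_iff₀ (by linarith)]; linarith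
  rw [← hTd] at hG1
  have hq2 : 2 < (N - 2) * q := by
    have e : (N - 2) * q - 2 = N / T := by rw [hqT]; field_simp; ring
    have : 0 < N / T := by positivity
    linarith
  set M := (N - 4) / N + 2 / ((N - 2) * (p + 1)) with hM
  set Q : Pt := ⟨N, p, q, 1, 0, 0, M, c1, 0⟩ with hQ
  have hL0 : (p + 1) - (q + 1) * 1 ≠ 0 := by
    have := (lt_div_iff₀ (by linarith : 0 < q + 1)).1 hlt
    linarith
  have hK0 : (p + 1) + (q + 1) * 1 ≠ 0 := by positivity
  have hcT : Tendsto (fun τ => c1 - G * (S τ - sInf' N p q)) atBot (𝓝 c1) := by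
    rw [hsi]; simpa using ((hS.sub_const 1).const_mul G).const_sub c1
  have hc'T : Tendsto (fun τ => -(G * (orbW S R τ / ((p + 1) - (q + 1) * S τ)))) atBot (𝓝 0) := by
    simpa using ((hW0.div ((hS.const_mul (q + 1)).const_sub (p + 1)) hL0).const_mul G).neg
  have ht := Real.tendsto_exp_atBot
  have hl : PtLim (tailPt N p q c1 G S R) Q := ptLim hS hR ht hcT hc'T (by linarith) hL0 hK0
  set v := (N - 2) * T / N with hvd
  set D := dR N p q G 1 0 v with hD
  have hlt' : ∀ᶠ τ in atBot, τ < τ₀ := (eventually_le_atBot τ₁).mono fun x hx => hx.trans_lt hτ₁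
  have hDl : Tendsto (fun τ => dR N p q G (S τ) (Real.exp τ) ((S τ - 1) / R τ)) atBot (𝓝 D) := by
    have hK2 : N * ((p + 1) + (q + 1) * 1) ^ 2 ≠ 0 :=
      mul_ne_zero (by linarith) (pow_ne_zero _ hK0)
    exact (hv.mul (((((hS.add_const 1).const_mul (q + 1)).const_add (2 * (p + 1))).const_mul
      ((N - 1) * (q + 1) ^ 2 * (p + 1) ^ 2)).div
      (((((hS.const_mul (q + 1)).const_add (p + 1)).pow 2).const_mul N).mul_const
        ((p + q + 2) ^ 2)) (mul_ne_zero hK2 (pow_ne_zero _ (by linarith))) |>.add_const G)).sub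
      (((hS.sub ht).const_mul ((N - 1) * (q + 1) ^ 2)).div
        ((((hS.const_mul (q + 1)).const_add (p + 1)).pow 2).const_mul N) hK2)
  have hw : Tendsto (fun τ => (S τ - Real.exp τ) - S τ * ((S τ - 1) / R τ)) atBot (𝓝 (1 - 0 - 1 * v)) :=
    (hS.sub ht).sub (hS.mul hv)
  set w := 1 - 0 - 1 * v with hwd
  have h0 : Tendsto (fun τ => (tailPt N p q c1 G S R τ).P0
      * (((tailPt N p q c1 G S R τ).R + 1) / (tailPt N p q c1 G S R τ).R) ^ 2) atBot
      (𝓝 ((1 - 0) * D * (0 + 1) ^ 2)) := by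
    refine (((hS.sub ht).mul hDl).mul ((hR.add_const 1).pow 2)).congr' ?_
    filter_upwards [hlt'] with τ hτ
    have := (h.R_pos τ hτ).ne'
    rw [Pt.P0, tailPt_dR h (by linarith) hp hq hcrit hsi hc1 hτ]
    simp only [tailPt, Pt.V]
    field_simp
  set p1 := -(Q.mu / (p + 1) * (1 - 0) * (Q.a + 2 * Q.c))
      + w * (q + 1) / (Q.L * Q.K) * (Q.c * (3 * (p + 1) - (q + 1) * 1) + Q.mu * (p + 1))
      + -(G * w) with hp1
  have h1 : Tendsto (fun τ => (tailPt N p q c1 G S R τ).P0'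
      * (((tailPt N p q c1 G S R τ).R + 1) / (tailPt N p q c1 G S R τ).R)) atBot
      (𝓝 (p1 * (0 + 1))) := by
    refine (((((((hl.hmu.div_const (p + 1)).mul (hS.sub ht)).mul
      (hl.ha.add (hl.hc.const_mul 2))).neg).add
        (((hw.mul_const (q + 1)).div (hl.hL.mul hl.hK) (mul_ne_zero hL0 hK0)).mul
        ((hl.hc.mul ((hS.const_mul (q + 1)).const_sub (3 * (p + 1)))).add
          (hl.hmu.mul_const (p + 1))))).add ((hw.const_mul G).neg)).mul
      (hR.add_const 1)).congr' ?_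
    filter_upwards [hlt'] with τ hτ
    have := (h.R_pos τ hτ).ne'
    have hg := h.tailPt_good (by linarith) hp hq hcrit c1 G hτ
    have := hg.hL
    have := hg.hK
    simp only [Pi.div_apply, Pt.P0', tailPt_W, Pt.V]
    have eR : (tailPt N p q c1 G S R τ).R = R τ := rfl
    have eS : (tailPt N p q c1 G S R τ).σ = S τ := rfl
    have et : (tailPt N p q c1 G S R τ).t = Real.exp τ := rfl
    have ep : (tailPt N p q c1 G S R τ).p = p := rfl
    have eq' : (tailPt N p q c1 G S R τ).q = q := rfl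
    have ec : (tailPt N p q c1 G S R τ).c'
        = -(G * (orbW S R τ / (tailPt N p q c1 G S R τ).L)) := rfl
    rw [ec, eR, eS, et, ep, eq']
    simp only [orbW]
    field_simp
  have hkx : Tendsto (fun τ => (tailPt N p q c1 G S R τ).kX) atBot (𝓝 (D + Q.mu / (p + 1))) := by
    refine (hDl.add (hl.hmu.div_const (p + 1))).congr' ?_
    filter_upwards [hlt'] with τ hτ
    have := (h.R_pos τ hτ).ne'
    have e1 : (tailPt N p q c1 G S R τ).k = ((tailPt N p q c1 G S R τ).ce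
        - (tailPt N p q c1 G S R τ).c)
        + (tailPt N p q c1 G S R τ).mu * R τ / (p + 1) := by
      simp only [Pt.k, Pt.ce]; simp only [tailPt]; ring
    rw [Pt.kX, e1, tailPt_dR h (by linarith) hp hq hcrit hsi hc1 hτ,
      show (tailPt N p q c1 G S R τ).R = R τ from rfl]
    field_simp
  set ex := 1 - (N - 2) * (v * (1 - N / ((N - 2) * (p + 1))) + Q.T1)
      / (N * (Q.K / ((p + 1) * (q + 1)))) with hex
  have hE1 : Tendsto (fun τ => (tailPt N p q c1 G S R τ).E1 / R τ) atBot (𝓝 ex) := by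
    refine ((((hv.mul_const (1 - N / ((N - 2) * (p + 1)))).add hl.hT).const_mul (N - 2)).div
      ((hl.hK.div_const ((p + 1) * (q + 1))).const_mul N)
      (mul_ne_zero (by linarith) (div_ne_zero hK0 (by positivity))) |>.const_sub 1).congr' ?_
    filter_upwards [hlt'] with τ hτ
    have := (h.R_pos τ hτ).ne'
    have hg := h.tailPt_good (by linarith) hp hq hcrit c1 G hτ
    have := hg.hK
    have hN' : N ≠ 0 := by linarith
    rcases Pt.E1_eq hg with he | he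
    · rw [he]
      simp only [Pi.div_apply, show (tailPt N p q c1 G S R τ).R = R τ from rfl,
        show (tailPt N p q c1 G S R τ).σ = S τ from rfl,
        show (tailPt N p q c1 G S R τ).p = p from rfl,
        show (tailPt N p q c1 G S R τ).q = q from rfl,
        show (tailPt N p q c1 G S R τ).N = N from rfl]
      field_simp
    · exact absurd (show N = 2 from he) (by linarith)
  set ρ := (D + Q.mu / (p + 1)) * (Q.a - 1 + q) + (q + 1) / Q.L * (Q.Kp * (D + Q.mu / (p + 1))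
      + Q.mu * Q.be1 * w * (q + 1) / Q.K - Q.mu * (Q.be1 + 1) * ex)
      + (q + 1) * -(G * w / Q.L) with hρd
  have hr : Tendsto (fun τ => (tailPt N p q c1 G S R τ).rhoR / (tailPt N p q c1 G S R τ).R) atBot
      (𝓝 ρ) := by
    refine (((hkx.mul ((hl.ha.sub_const 1).add_const q)).add
      ((tendsto_const_nhds.div hl.hL hL0).mul
        (((hl.hKp.mul hkx).add
          ((((hl.hmu.mul hl.hbe).mul hw).mul_const (q + 1)).div hl.hK hK0)).sub
          ((hl.hmu.mul (hl.hbe.add_const 1)).mul hE1)))).add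
      (((hw.const_mul G).div hl.hL hL0).neg.const_mul (q + 1))).congr' ?_
    filter_upwards [hlt'] with τ hτ
    have := (h.R_pos τ hτ).ne'
    have hg := h.tailPt_good (by linarith) hp hq hcrit c1 G hτ
    have := hg.hL
    have := hg.hK
    simp only [Pi.div_apply, Pt.rhoR, Pt.kX, tailPt_W]
    have eR : (tailPt N p q c1 G S R τ).R = R τ := rfl
    have eq' : (tailPt N p q c1 G S R τ).q = q := rfl
    have ec : (tailPt N p q c1 G S R τ).c'
        = -(G * (orbW S R τ / (tailPt N p q c1 G S R τ).L)) := rfl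
    rw [ec, eR, eq']
    simp only [orbW]
    field_simp
  obtain ⟨hdet, hP2, hd, hρ, ea⟩ := le_point hN hT1 hT2 hpT hqT hc1 hG hG1 hM hQ hvd hwd
    hD hp1 hex hρd
  obtain ⟨a, K, ha, haK, hev⟩ := margins_of_limits hl (fun _ => rfl)
    (by simp only [hQ]; exact le_rfl) h0 h1 hr hkx hdet hP2
    (by simpa using hd) hρ (a_lt_wexp (by linarith) hp hq2 ea)
  obtain ⟨τ₂, hτ₂⟩ := eventually_atBot.1 hev
  exact ⟨a, K, min τ₂ τ₁, ha, haK, min_le_right _ _, fun τ hτ => hτ₂ τ (hτ.trans (min_le_left _ _))⟩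

end Vale.Agent.P100T
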