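import Vale.Agent.P100T.Barrier
import Vale.Agent.P100T.Invariants
import Vale.Agent.P100T.Tail

/-!
The upper barrier on the orbit: `W ≤ U σ` for all `τ < τ₀`.

If `W > U σ` somewhere, the threshold forces `t` above `T σ` at a point to the right, and
`{W > U σ, t > T σ}` is then invariant backwards, against the limit at `τ → -∞`.
-/

open Set Filter Topology

noncomputable section

namespace Vale.Agent.P100T

/-- A zero with negative derivative has negative values to its right. -/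
lemma neg_right {f : ℝ → ℝ} {f' x b : ℝ} (hxb : x < b) (hf : HasDerivAt f f' x) (h0 : f x = 0)
    (hneg : f' < 0) : ∃ y ∈ Ioo x b, f y < 0 := by
  obtain ⟨y, hy, hyI⟩ := ((((hasDerivAt_iff_tendsto_slope.1 hf).mono_left
    (nhdsWithin_mono x (show Ioi x ⊆ {x}ᶜ from fun y hy => ne_of_gt hy))).eventually
    (eventually_lt_nhds hneg)).and (Ioo_mem_nhdsGT hxb)).exists
  rw [slope_def_field, h0, sub_zero, div_neg_iff] at hy
  rcases hy with ⟨_, h⟩ | ⟨h, _⟩
  · linarith [hyI.1]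
  · exact ⟨y, hyI, h⟩

/-- Backward invariance of `{0 < f, 0 < g}`. -/
lemma pair_pos_back {f g f' g' : ℝ → ℝ} {a b : ℝ} (hab : a ≤ b)
    (hf : ∀ x ∈ Icc a b, HasDerivAt f (f' x) x) (hg : ∀ x ∈ Icc a b, HasDerivAt g (g' x) x)
    (zf : ∀ x ∈ Ico a b, f x = 0 → 0 < g x → f' x < 0)
    (zg : ∀ x ∈ Ico a b, g x = 0 → 0 ≤ f x → g' x < 0)
    (hfb : 0 < f b) (hgb : 0 < g b) : 0 < f a ∧ 0 < g a := by
  by_contra hcon
  set h : ℝ → ℝ := fun x => min (f x) (g x) with hh
  have hha : h a ≤ 0 := by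
    rw [not_and_or, not_lt, not_lt] at hcon
    rcases hcon with e | e
    · exact (min_le_left _ _).trans e
    · exact (min_le_right _ _).trans e
  have cf : ContinuousOn f (Icc a b) := fun y hy => (hf y hy).continuousAt.continuousWithinAt
  have cg : ContinuousOn g (Icc a b) := fun y hy => (hg y hy).continuousAt.continuousWithinAt
  have hc : ContinuousOn h (Icc a b) := cf.inf cg
  have hcl : IsCompact (Icc a b ∩ h ⁻¹' Iic 0) :=
    isCompact_Icc.of_isClosed_subset (hc.preimage_isClosed_of_isClosed isClosed_Icc isClosed_Iic)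
      inter_subset_left
  obtain ⟨x, ⟨hx, hx0⟩, hmax⟩ := hcl.exists_isGreatest ⟨a, left_mem_Icc.2 hab, hha⟩
  have hxb : x < b := hx.2.lt_of_ne fun e => by
    simp only [mem_preimage, mem_Iic, e, hh] at hx0
    rcases min_le_iff.1 hx0 with h' | h' <;> linarith
  have hafter : ∀ y ∈ Ioc x b, 0 < f y ∧ 0 < g y := fun y hy => by
    by_contra h'
    rw [not_and_or, not_lt, not_lt] at h'
    exact absurd (hmax ⟨⟨hx.1.trans hy.1.le, hy.2⟩, min_le_iff.2 h'⟩) (not_le.2 hy.1)
  have hnn : 0 ≤ f x ∧ 0 ≤ g x :=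
    ⟨ge_of_tendsto ((hf x hx).continuousAt.tendsto.mono_left (nhdsWithin_le_nhds (s := Ioi x)))
      (by filter_upwards [Ioo_mem_nhdsGT hxb] with y hy; exact (hafter y ⟨hy.1, hy.2.le⟩).1.le),
    ge_of_tendsto ((hg x hx).continuousAt.tendsto.mono_left (nhdsWithin_le_nhds (s := Ioi x)))
      (by filter_upwards [Ioo_mem_nhdsGT hxb] with y hy; exact (hafter y ⟨hy.1, hy.2.le⟩).2.le)⟩
  rcases hnn.2.eq_or_lt with e | e
  · obtain ⟨y, hy, hy'⟩ := neg_right hxb (hg x hx) e.symm (zg x ⟨hx.1, hxb⟩ e.symm hnn.1)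
    linarith [(hafter y ⟨hy.1, hy.2.le⟩).2]
  · have e0 : f x = 0 := by
      rcases min_le_iff.1 (show min (f x) (g x) ≤ 0 from hx0) with h' | h'
      · linarith [hnn.1]
      · linarith
    obtain ⟨y, hy, hy'⟩ := neg_right hxb (hf x hx) e0 (zf x ⟨hx.1, hxb⟩ e0 e)
    linarith [(hafter y ⟨hy.1, hy.2.le⟩).1]

section facts

variable {N p q : ℝ}

lemma upBe_bounds (hN : 2 < N) : 0 ≤ upBe N p q ∧ upBe N p q ≤ 3 / 4 := by
  have h1 : 1 ≤ upSi N p q := le_max_left _ _
  have h2 : 1 ≤ 1 + 2 * (N - 2) * (upSi N p q - 1) := by nlinarith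
  exact ⟨div_nonneg (by norm_num) (by linarith), div_le_self (by norm_num) h2⟩

lemma upA_pos (hN : 2 < N) : 0 < upA N p q := by
  have h1 : 1 ≤ upSi N p q := le_max_left _ _
  exact add_pos_of_pos_of_nonneg (div_pos two_pos (by linarith))
    (div_nonneg (by linarith) (by linarith))

lemma upB_nonneg (hN : 2 < N) (hr : 0 ≤ upR N p q) : 0 ≤ upB N p q := by
  have h1 : 0 ≤ (N - 2) * (upSi N p q - 1) :=
    mul_nonneg (by linarith) (sub_nonneg.2 (le_max_left _ _))
  exact mul_nonneg (mul_nonneg (mul_nonneg (by norm_num) (upA_pos hN).le) hr)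
    (div_nonneg h1 (by linarith))

lemma upB_pos (hN : 2 < N) (hr : 0 < upR N p q) (hs : 1 < upSi N p q) : 0 < upB N p q := by
  have h1 : 0 < (N - 2) * (upSi N p q - 1) := mul_pos (by linarith) (sub_pos.2 hs)
  exact mul_pos (mul_pos (mul_pos (by norm_num) (upA_pos hN)) hr) (div_pos h1 (by linarith))

lemma upU_pos (hN : 2 < N) {s : ℝ} (h0 : upSi N p q < s)
    (h1 : s < (N * (p + 1) + 2) / (N * (q + 1) + 2)) : 0 < upU N p q s := by
  have hr : 0 < upR N p q := by rw [upR]; linarith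
  obtain ⟨hb0, hb1⟩ := upBe_bounds (p := p) (q := q) hN
  have h3 : upBe N p q * (s - upSi N p q) / upR N p q ≤ 3 / 4 := by
    rw [div_le_iff₀ hr]
    exact (mul_le_mul_of_nonneg_right hb1 (by linarith)).trans
      (mul_le_mul_of_nonneg_left (by rw [upR]; linarith) (by norm_num))
  exact add_pos_of_pos_of_nonneg
    (mul_pos (upA_pos hN) (mul_pos (by linarith) (by linarith))) (upB_nonneg hN hr.le)

end facts

namespace IsOrbitExt

variable {N p q τ₀ τb τ : ℝ} {S κ ε : ℝ → ℝ}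

lemma upSi_lt (o : IsOrbitExt N p q τ₀ τb S κ ε) (hN : 2 < N) (hp : 0 < p) (hq : 0 < q)
    (hcrit : N / (p + 1) + N / (q + 1) = N - 2) (hτ : τ ≤ τ₀) : upSi N p q < S τ :=
  max_lt (o.one_lt τ (hτ.trans_lt o.τ₀_lt_τb)) (o.sEq_lt hN hp hq hcrit hτ)

/-- `W < U σ` somewhere left of any point. -/
lemma exists_lt_upU (o : IsOrbitExt N p q τ₀ τb S κ ε) (hN : 2 < N) (hp : 0 < p) (hq : 0 < q)
    (hpq : q < p) (hcrit : N / (p + 1) + N / (q + 1) = N - 2) (c : ℝ) :
    ∃ x ≤ c, oW p q S x < upU N p q (S x) := by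
  set τ₁ := min c (τ₀ - 1) with hτ₁
  have hτ₁' : τ₁ < τ₀ := (min_le_right _ _).trans_lt (sub_one_lt _)
  have hmem : ∀ x ≤ τ₁, oW p q S x = orbW S (fun y => (κ y)⁻¹) x := fun x hx => by
    have hx0 := hx.trans_lt hτ₁'
    have h := o.eqV (hx0.trans o.τ₀_lt_τb)
    have hk := (o.κ_pos x hx0).ne'
    rw [orbW, ← h, inv_mul_cancel_left₀ hk, oV]
    ring
  have hW : ∀ x ≤ τ₁, 0 ≤ orbW S (fun y => (κ y)⁻¹) x := fun x hx =>
    hmem x hx ▸ o.W_nonneg hN hp hq hcrit (hx.trans_lt hτ₁')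
  obtain ⟨hS, hW0, -, -⟩ := o.below.tail_limits hN hp hq hτ₁' hW
  have hsI : sInf' N p q = upSi N p q := by
    rw [sInf', upSi, sEq, div_mul_div_comm]
  rw [hsI] at hS
  have hr : 0 < upR N p q := by
    rw [upR]
    linarith [o.upSi_lt hN hp hq hcrit (τ := τ₀) le_rfl, o.S_lt_s2 hN hp hq hpq hcrit (τ := τ₀) le_rfl]
  rcases lt_or_ge 1 (upSi N p q) with hgt | hle
  · -- `B > 0`
    have hU : Tendsto (fun x => upU N p q (S x)) atBot (𝓝 (upU N p q (upSi N p q))) :=
      ((upU_hasDerivAt N p q _).continuousAt.tendsto).comp hS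
    have hB : upU N p q (upSi N p q) = upB N p q := by simp [upU]
    rw [hB] at hU
    obtain ⟨x, hx1, hx2⟩ := (((hU.sub hW0).eventually (eventually_gt_nhds
      (show (0:ℝ) < upB N p q - 0 by simpa using upB_pos hN hr hgt))).and
      (eventually_le_atBot τ₁)).exists
    exact ⟨x, hx2.trans (min_le_left _ _), by rw [hmem x hx2]; linarith⟩
  · -- `W / (σ - 1) → 1/ss - 1 < 2/(N-2)`
    have hsi1 : upSi N p q = 1 := le_antisymm hle (le_max_left _ _)
    rw [hsi1] at hS
    have hss : (N - 2) * (p + 1) ≤ N * (q + 1) := by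
      have h : sEq N p q ≤ 1 := le_of_le_of_eq (le_max_right _ _) hsi1
      rw [sEq, div_mul_div_comm, div_le_one (by positivity)] at h
      exact h
    have hrat := o.below.tail_ratio hN hp hq hcrit hτ₁' hW hss
    set l := (N - 2) * (p + 1) / (N * (q + 1)) with hl
    have hl0 : 0 < l := div_pos (mul_pos (by linarith) (by linarith)) (by positivity)
    have hll : (N - 2) / N < l := by
      rw [hl, div_lt_div_iff₀ (by linarith) (by positivity)]
      nlinarith [mul_lt_mul_of_pos_left (show q + 1 < p + 1 by linarith)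
        (mul_pos (show (0:ℝ) < N - 2 by linarith) (show (0:ℝ) < N by linarith))]
    have hlim : Tendsto (fun x => ((S x - 1) / (κ x)⁻¹)⁻¹ * (S x - Real.exp x) - S x
        - upA N p q * (1 - upBe N p q * (S x - 1) / upR N p q)) atBot
        (𝓝 (l⁻¹ * (1 - 0) - 1 - upA N p q * (1 - upBe N p q * (1 - 1) / upR N p q))) :=
      (((hrat.inv₀ hl0.ne').mul (hS.sub Real.tendsto_exp_atBot)).sub hS).sub
        (((((hS.sub_const 1).const_mul _).div_const _).const_sub 1).const_mul _)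
    have hA : upA N p q = 2 / (N - 2) := by simp [upA, hsi1]
    have hneg : l⁻¹ * (1 - 0) - 1 - upA N p q * (1 - upBe N p q * (1 - 1) / upR N p q) < 0 := by
      simp only [sub_self, mul_zero, zero_div, sub_zero, mul_one, hA]
      have h1 : l⁻¹ < N / (N - 2) := by
        rw [inv_eq_one_div, div_lt_div_iff₀ hl0 (by linarith)]
        rw [div_lt_iff₀ (by linarith)] at hll
        linarith
      have : N / (N - 2) = 1 + 2 / (N - 2) := by
        have : N - 2 ≠ 0 := by linarith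
        field_simp
        ring
      linarith
    obtain ⟨x, hx1, hx2⟩ := ((hlim.eventually (eventually_lt_nhds hneg)).and
      (eventually_le_atBot τ₁)).exists
    have hx0 := hx2.trans_lt hτ₁'
    have hxb := hx0.trans o.τ₀_lt_τb
    have hy : 0 < S x - 1 := sub_pos.2 (o.one_lt x hxb)
    refine ⟨x, hx2.trans (min_le_left _ _), ?_⟩
    have hB : upB N p q = 0 := by simp [upB, hsi1]
    have e : oW p q S x - upU N p q (S x) = (((S x - 1) / (κ x)⁻¹)⁻¹ * (S x - Real.exp x) - S x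
        - upA N p q * (1 - upBe N p q * (S x - 1) / upR N p q)) * (S x - 1) := by
      rw [hmem x hx2, orbW, upU, hsi1, hB]
      have := (o.κ_pos x hx0).ne'
      field_simp
      ring
    linarith [mul_neg_of_neg_of_pos hx1 hy]

/-- The rates on the barrier: `W - U σ` and `t - T σ`. -/
lemma upU_rates (o : IsOrbitExt N p q τ₀ τb S κ ε) (hN : 0 < N) (hp : 0 < p) (hq : 0 < q)
    (hτ : τ < τb) (h : oW p q S τ = upU N p q (S τ)) :
    κ τ * ((deriv (oW p q S) τ - upU' N p q (S τ) * (oW p q S τ / ((p + 1) - (q + 1) * S τ)))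
      * ((p + 1) - (q + 1) * S τ)) = κ τ * upEt N p q (S τ) - upCf N p q (S τ) := by
  have hr := o.rateW hN hp hq hτ
  have hL := (o.L_pos hq hτ).ne'
  rw [sub_mul, mul_assoc (upU' N p q (S τ)), div_mul_cancel₀ _ hL, upEt, upCf]
  simp only [oV] at hr
  rw [← h]
  linear_combination hr

/-- **`W ≤ U σ` below `τ₀`.** -/
theorem oW_le_upU (o : IsOrbitExt N p q τ₀ τb S κ ε) (hN : 6 ≤ N) (hq : 0 < q) (hpq : q < p)
    (hcrit : N / (p + 1) + N / (q + 1) = N - 2) (hτ : τ < τ₀) :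
    oW p q S τ ≤ upU N p q (S τ) := by
  have hp : 0 < p := hq.trans hpq
  have hN2 : 2 < N := by linarith
  by_contra hgt
  push Not at hgt
  have hb : ∀ x ≤ τ₀, x < τb := fun x hx => hx.trans_lt o.τ₀_lt_τb
  have hin : ∀ x ≤ τ₀, upSi N p q < S x ∧ S x < (N * (p + 1) + 2) / (N * (q + 1) + 2) :=
    fun x hx => ⟨o.upSi_lt hN2 hp hq hcrit hx, o.S_lt_s2 hN2 hp hq hpq hcrit hx⟩
  have hbar := fun x (hx : x ≤ τ₀) => upper_barrier hN hq hpq hcrit (hin x hx).1 (hin x hx).2
  choose hEt T' hT' hTU using hbar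
  set F : ℝ → ℝ := fun x => oW p q S x - upU N p q (S x) with hF
  set F' : ℝ → ℝ := fun x =>
    deriv (oW p q S) x - upU' N p q (S x) * (oW p q S x / ((p + 1) - (q + 1) * S x)) with hF'
  set G : ℝ → ℝ := fun x => Real.exp x - upT N p q (S x) with hG
  set G' : ℝ → ℝ := fun x => if h : x ≤ τ₀ then
    Real.exp x - T' x h * (oW p q S x / ((p + 1) - (q + 1) * S x)) else 0 with hG'
  have dF : ∀ x ≤ τ₀, HasDerivAt F (F' x) x := fun x hx =>
    (o.hasDerivAt_W (hb x hx)).sub ((upU_hasDerivAt N p q (S x)).comp x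
      (o.hasDerivAt_S hq (hb x hx)))
  have dG : ∀ x ≤ τ₀, HasDerivAt G (G' x) x := fun x hx => by
    simp only [hG', dif_pos hx]
    exact (Real.hasDerivAt_exp x).sub ((hT' x hx).comp x (o.hasDerivAt_S hq (hb x hx)))
  -- on `t = T σ` above the barrier `t - T σ` decreases
  have negG : ∀ x ≤ τ₀, G x = 0 → 0 ≤ F x → G' x < 0 := fun x hx hG0 hF0 => by
    simp only [hG', dif_pos hx]
    simp only [hG] at hG0
    simp only [hF] at hF0
    have hL := o.L_pos hq (hb x hx)
    have hU := upU_pos hN2 (hin x hx).1 (hin x hx).2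
    have h := hTU x hx
    rw [show upT N p q (S x) = Real.exp x by linarith] at h
    have h1 : 0 < T' x hx := by
      have := (mul_pos hL (Real.exp_pos x)).trans h
      exact pos_of_mul_pos_left this hU.le
    rw [sub_neg, ← mul_div_assoc, lt_div_iff₀ hL]
    calc Real.exp x * ((p + 1) - (q + 1) * S x) < T' x hx * upU N p q (S x) := by linarith
      _ ≤ T' x hx * oW p q S x := mul_le_mul_of_nonneg_left (by linarith) h1.le
  -- `t ≥ T σ` where `W - U σ` turns, and at `τ₀`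
  have rel : ∀ x < τ₀, F x = 0 → (F' x ≤ 0 → 0 ≤ G x) ∧ (0 < G x → F' x < 0) := fun x hx hF0 => by
    simp only [hF] at hF0
    have hxb := hb x hx.le
    have hr := o.upU_rates (by linarith) hp hq hxb (sub_eq_zero.1 hF0)
    rw [← show F' x = deriv (oW p q S) x - upU' N p q (S x)
      * (oW p q S x / ((p + 1) - (q + 1) * S x)) from rfl] at hr
    have hk := o.κ_pos x hx
    have hL := o.L_pos hq hxb
    have hE := hEt x hx.le
    have hV : κ x * (S x * (S x - 1) + upU N p q (S x)) = S x - Real.exp x := by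
      rw [← o.eqV hxb, oV, sub_eq_zero.1 hF0]; ring
    have hVp : 0 < S x * (S x - 1) + upU N p q (S x) := by
      have := mul_pos (one_pos.trans (o.one_lt x hxb)) (sub_pos.2 (o.one_lt x hxb))
      linarith [upU_pos hN2 (hin x hx.le).1 (hin x hx.le).2]
    have e : G x * upEt N p q (S x) = (S x * (S x - 1) + upU N p q (S x))
        * -(κ x * (F' x * ((p + 1) - (q + 1) * S x))) := by
      rw [hr]
      simp only [hG, upT]
      field_simp
      linear_combination upEt N p q (S x) * hV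
    refine ⟨fun h => nonneg_of_mul_nonneg_left (b := upEt N p q (S x)) ?_ hE, fun h => ?_⟩
    · rw [e]
      exact mul_nonneg hVp.le (neg_nonneg.2
        (mul_nonpos_of_nonneg_of_nonpos hk.le (mul_nonpos_of_nonpos_of_nonneg h hL.le)))
    · by_contra hge
      push Not at hge
      have h1 := mul_pos h hE
      rw [e] at h1
      have := mul_nonneg hVp.le (mul_nonneg hk.le (mul_nonneg hge hL.le))
      linarith
  -- the point `c`: first zero of `W - U σ` right of `τ`, or `τ₀`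
  obtain ⟨c, hτc, hc0, hpos, hGc⟩ : ∃ c, τ < c ∧ c ≤ τ₀ ∧ (∀ x ∈ Ico τ c, 0 < F x) ∧ 0 ≤ G c := by
    have cF : ContinuousOn F (Icc τ τ₀) := fun x hx => (dF x hx.2).continuousAt.continuousWithinAt
    have hFτ : 0 < F τ := by simp only [hF]; linarith
    have atτ₀ : 0 ≤ F τ₀ → 0 ≤ G τ₀ := fun h => by
      simp only [hF, o.W_τ₀ (by linarith) hp hq] at h
      have hVp : 0 ≤ S τ₀ * (S τ₀ - 1) + upU N p q (S τ₀) := by
        have := mul_pos (one_pos.trans (o.one_lt τ₀ (hb τ₀ le_rfl)))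
          (sub_pos.2 (o.one_lt τ₀ (hb τ₀ le_rfl)))
        linarith [upU_pos hN2 (hin τ₀ le_rfl).1 (hin τ₀ le_rfl).2]
      have hCf : 0 ≤ upCf N p q (S τ₀) := mul_nonneg (div_nonneg (by linarith) (by linarith)) h
      have hexp : Real.exp τ₀ = S τ₀ := by
        have := o.eqV o.τ₀_lt_τb; rw [o.κ_zero, zero_mul] at this; linarith
      simp only [hG, upT, hexp]
      have := div_nonneg (mul_nonneg hVp hCf) (hEt τ₀ le_rfl).le
      linarith
    by_cases hz : ∃ x ∈ Icc τ τ₀, F x ≤ 0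
    · obtain ⟨x, hx, hx0⟩ := hz
      have hcl : IsCompact (Icc τ τ₀ ∩ F ⁻¹' Iic 0) := isCompact_Icc.of_isClosed_subset
        (cF.preimage_isClosed_of_isClosed isClosed_Icc isClosed_Iic) inter_subset_left
      obtain ⟨c, ⟨hc, hcF⟩, hmin⟩ := hcl.exists_isLeast ⟨x, hx, hx0⟩
      have hτc : τ < c := hc.1.lt_of_ne fun e => by
        simp only [mem_preimage, mem_Iic, ← e] at hcF
        linarith
      have hbefore : ∀ y ∈ Ico τ c, 0 < F y := fun y hy => by
        by_contra h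
        exact absurd (hmin ⟨⟨hy.1, hy.2.le.trans hc.2⟩, not_lt.1 h⟩) (not_le.2 hy.2)
      refine ⟨c, hτc, hc.2, hbefore, ?_⟩
      have hFc : F c = 0 := le_antisymm hcF (ge_of_tendsto
        ((dF c hc.2).continuousAt.tendsto.mono_left (nhdsWithin_le_nhds (s := Iio c)))
        (by filter_upwards [Ioo_mem_nhdsLT hτc] with y hy; exact (hbefore y ⟨hy.1.le, hy.2⟩).le))
      rcases hc.2.eq_or_lt with e | e
      · rw [e] at hFc ⊢; exact atτ₀ hFc.ge
      · refine (rel c e hFc).1 (le_of_not_gt fun h => ?_)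
        obtain ⟨y, hy, hyI⟩ := ((((hasDerivAt_iff_tendsto_slope.1 (dF c hc.2))).mono_left
          (nhdsLT_le_nhdsNE c)).eventually (eventually_gt_nhds h) |>.and
          (Ioo_mem_nhdsLT hτc)).exists
        rw [slope_def_field, hFc, sub_zero] at hy
        have := div_neg_of_pos_of_neg (hbefore y ⟨hyI.1.le, hyI.2⟩) (sub_neg.2 hyI.2)
        linarith
    · push Not at hz
      exact ⟨τ₀, hτ, le_rfl, fun x hx => hz x (Ico_subset_Icc_self hx),
        atτ₀ (hz τ₀ (right_mem_Icc.2 hτ.le)).le⟩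
  -- a strict starting point
  obtain ⟨b, hb1, hb2, hGb⟩ : ∃ b, τ < b ∧ b < c ∧ 0 < G b := by
    rcases hGc.eq_or_lt with e | e
    · have hF0 : 0 ≤ F c := ge_of_tendsto
        ((dF c hc0).continuousAt.tendsto.mono_left (nhdsWithin_le_nhds (s := Iio c)))
        (by filter_upwards [Ioo_mem_nhdsLT hτc] with y hy; exact (hpos y ⟨hy.1.le, hy.2⟩).le)
      obtain ⟨b, hb, h⟩ := pos_left hτc (dG c hc0) e.symm (negG c hc0 e.symm hF0)
      exact ⟨b, hb.1, hb.2, h⟩
    · obtain ⟨b, h, hb⟩ := ((((dG c hc0).continuousAt.tendsto.mono_left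
        (nhdsWithin_le_nhds (s := Iio c))).eventually (eventually_gt_nhds e)).and
        (Ioo_mem_nhdsLT hτc)).exists
      exact ⟨b, hb.1, hb.2, h⟩
  obtain ⟨a, hab, ha⟩ := o.exists_lt_upU hN2 hp hq hpq hcrit b
  have hbτ : b < τ₀ := hb2.trans_le hc0
  have := (pair_pos_back (f := F) (g := G) hab (fun x hx => dF x (hx.2.trans hbτ.le))
    (fun x hx => dG x (hx.2.trans hbτ.le))
    (fun x hx h0 hg => (rel x (hx.2.trans hbτ) h0).2 hg)
    (fun x hx h0 hf => negG x (hx.2.trans hbτ).le h0 hf)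
    (hpos b ⟨hb1.le, hb2⟩) hGb).1
  simp only [hF] at this
  linarith

/-- `W ≤ U σ` on τ ≤ τ₀; in particular `wm σ₀ ≤ U σ₀`. -/
theorem oW_le_upU' (o : IsOrbitExt N p q τ₀ τb S κ ε) (hN : 6 ≤ N) (hq : 0 < q) (hpq : q < p)
    (hcrit : N / (p + 1) + N / (q + 1) = N - 2) (hτ : τ ≤ τ₀) :
    oW p q S τ ≤ upU N p q (S τ) := by
  rcases hτ.eq_or_lt with rfl | h
  · have hS := o.hasDerivAt_S hq o.τ₀_lt_τb
    refine le_of_tendsto_of_tendsto
      ((o.continuousAt_W o.τ₀_lt_τb).tendsto.mono_left (nhdsWithin_le_nhds (s := Iio τ)))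
      ((((upU_hasDerivAt N p q _).comp τ hS).continuousAt.tendsto).mono_left
        (nhdsWithin_le_nhds (s := Iio τ))) ?_
    filter_upwards [self_mem_nhdsWithin] with x hx
    exact o.oW_le_upU hN hq hpq hcrit hx
  · exact o.oW_le_upU hN hq hpq hcrit h

end IsOrbitExt

end Vale.Agent.P100T
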