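import Vale.Agent.P100T.UpperExtSign
import Vale.Agent.P100T.UpperLine
import Vale.Agent.P100T.Extension

/-!
The barrier `U` beyond `τ₀`: it satisfies the hypotheses `hUb`, `hU0`, `hUreg`, `hUd` of
`Extension`, so `W < U σ` up to `log t_b` as long as `σ ≤ s₂`.
-/

open Set Filter Topology

noncomputable section

namespace Vale.Agent.P100T

open UpperCert

variable {N p q τ₀ τb a : ℝ} {S κ ε : ℝ → ℝ} {C : CPar}

/-- On `σ∞ < σ ≤ s₂`: `Wd(σ, U) < U' U` and (N+2)(U - wm) < 2qσ(σ+tb). -/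
theorem upU_slope (hA : C.Adm) (hCN : C.N = N) (hCp : C.p = p) (hCq : C.q = q) (hN : 6 ≤ N)
    (hpq : q < p) (hcrit : N / (p + 1) + N / (q + 1) = N - 2) {s : ℝ} (h0 : upSi N p q < s)
    (h1 : s ≤ sTwo N p q) :
    C.Wd s (upU N p q s) < upU' N p q s * upU N p q s ∧
      (N + 2) * (upU N p q s - wm N p q s) < 2 * q * s * (s + (p + 1) / (q + 1)) := by
  have hq : 0 < q := hCq ▸ hA.hq
  have hp : 0 < p := hq.trans hpq
  obtain ⟨tb, htb⟩ : ∃ tb, (p + 1) / (q + 1) = tb := ⟨_, rfl⟩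
  have htb1 : 1 < tb := by rw [← htb, one_lt_div (by linarith)]; linarith
  have hk := crit_iff hp hq hcrit
  rw [htb] at hk
  have hh : 0 < N - 2 := by linarith
  have hpone : pone N tb = p + 1 := by
    rw [pone, div_eq_iff hh.ne']; linarith
  have hq1 : pone N tb / tb = q + 1 := by
    rw [hpone, ← htb]; field_simp
  have hsEq : sEq N p q = tb * (N - 2) / N := by rw [sEq, htb]; ring
  have hSi : upSi N p q = sI N tb := by rw [upSi, sI, hsEq]
  have hR : upR N p q = rI N tb := by rw [upR, rI, hSi, hq1, hpone]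
  have hA' : upA N p q = aI N tb := by rw [upA, aI, dI, hSi]
  have hB : upB N p q = bI N tb := by rw [upB, bI, dI, hSi, hA', hR]
  have hBe : upBe N p q = beI N tb := by rw [upBe, beI, dI, hSi]
  have hU : upU N p q s = uI N tb s := by rw [upU, uI, hA', hB, hBe, hSi, hR]
  have hU' : upU' N p q s = uI' N tb s := by rw [upU', uI', hA', hBe, hSi, hR]
  obtain ⟨e1, e2⟩ := ext_pos hN htb1 (s := s) (hSi ▸ h0)
    (by rw [← hSi, ← hR, upR]; simp only [sTwo] at h1; linarith)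
  have hs : 0 < s := lt_trans one_pos (lt_of_le_of_lt (le_max_left _ _) h0)
  set u := upU N p q s with hu
  rw [← hU] at e1 e2
  rw [← hU'] at e1
  have hK : C.K s = (q + 1) * (s + tb) := by
    simp only [CPar.K, hCp, hCq, ← htb]; field_simp; ring
  have hl : C.l s u = llR N tb s u := by
    rw [CPar.l, hK, llR, hpone, hCp, hCq, CPar.V]
    field_simp
  refine ⟨?_, ?_⟩
  · have hW : C.Wd s u = wdR N tb s u := by
      rw [wdR, hq1, hpone]
      simp only [CPar.Wd, CPar.Dl, CPar.Xh, CPar.yv, CPar.Bv, CPar.kb, hCN, hl]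
      rw [hCp, hCq, htb]
      have : N + 4 ≠ 0 := by linarith
      field_simp
      ring
    rw [hW]
    linarith
  · have : N + 2 ≠ 0 := by linarith
    have : N ≠ 0 := by linarith
    have hc : N * cfR N tb s u = (N + 2) * (wm N p q s - u) := by
      have : p + 1 = (q + 1) * tb := by rw [← htb]; field_simp
      simp only [cfR, lR, wm, hq1]
      field_simp
      rw [this]
      ring
    rw [rgR, hc, hq1, add_sub_cancel_right] at e2
    rw [htb]
    linarith

namespace IsOrbitExt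

/-- `W τ₀ < U σ₀`. -/
theorem W_τ₀_lt_upU (o : IsOrbitExt N p q τ₀ τb S κ ε) (hA : C.Adm) (hCN : C.N = N)
    (hCp : C.p = p) (hCq : C.q = q) (hN : 6 ≤ N) (hpq : q < p)
    (hcrit : N / (p + 1) + N / (q + 1) = N - 2) : oW p q S τ₀ < upU N p q (S τ₀) := by
  have hq : 0 < q := hCq ▸ hA.hq
  have hp : 0 < p := hq.trans hpq
  have hN2 : 2 < N := by linarith
  refine (o.oW_le_upU' hN hq hpq hcrit le_rfl).lt_of_ne fun he => ?_
  have hτb := o.τ₀_lt_τb
  have hs1 := o.one_lt τ₀ hτb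
  have hS := o.hasDerivAt_S hq hτb
  have hW := o.hasDerivAt_W hτb
  have hL := o.L_pos hq hτb
  have cS := hS.continuousAt
  have cW := hW.continuousAt
  have hW0 := o.W_τ₀ (by linarith) hp hq
  have hK0 : (p + 1) + (q + 1) * S τ₀ ≠ 0 := by positivity
  have hne : q * S τ₀ ≠ 0 := by positivity
  have cy : ContinuousAt (fun x => C.yv (S x) (oW p q S x)) τ₀ := by
    simp only [CPar.yv, CPar.l, CPar.K, CPar.V, hCp, hCq]
    fun_prop (disch := assumption)
  have hy0 : N - 2 < (N + 2) * C.yv (S τ₀) (oW p q S τ₀) := by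
    have e := Av_eq_wm hA (one_pos.trans hs1) (oW p q S τ₀)
    rw [hCN, hCp, hCq, hW0, sub_self, mul_zero, mul_eq_zero] at e
    have : C.Av (S τ₀) (wm N p q (S τ₀)) = 0 := e.resolve_right (by positivity)
    rw [CPar.Av, hCN] at this
    rw [hW0]
    linarith
  have hev : ∀ᶠ x in 𝓝 τ₀, x < τb ∧ sEq N p q < S x ∧ 0 < oW p q S x ∧
      N - 2 < (N + 2) * C.yv (S x) (oW p q S x) := by
    filter_upwards [eventually_lt_nhds hτb,
      cS.eventually (eventually_gt_nhds (o.sEq_lt hN2 hp hq hcrit le_rfl)),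
      cW.eventually (eventually_gt_nhds (o.W_τ₀_pos hN2 hp hq hpq hcrit)),
      (cy.const_mul (N + 2)).eventually (eventually_gt_nhds hy0)] with x a b c d
    exact ⟨a, b, c, d⟩
  obtain ⟨r, hr, hball⟩ := Metric.eventually_nhds_iff.1 hev
  have hside : ∀ x ∈ Icc τ₀ (τ₀ + r / 2), x < τb ∧ sEq N p q < S x ∧ 0 < oW p q S x ∧
      N - 2 < (N + 2) * C.yv (S x) (oW p q S x) := fun x hx => hball (by
    rw [Real.dist_eq, abs_lt]; constructor <;> linarith [hx.1, hx.2])
  have hlt : ∀ x ∈ Ioc τ₀ (τ₀ + r / 2),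
      ((p + 1) - (q + 1) * S x) * deriv (oW p q S) x ≤ C.Wd (S x) (oW p q S x) := fun x hx => by
    have h := o.lt_Wd hA hCN hCp hCq (by linarith) hpq
      (hside _ ⟨by linarith, le_rfl⟩).1 (fun z hz => by
        obtain ⟨-, h1, h2, h3⟩ := hside z (Ioc_subset_Icc_self hz)
        exact ⟨h1.le, h2, h3.le⟩) hx
    rw [CPar.L, hCp, hCq] at h
    exact h.le
  have d3 : ContinuousAt (deriv (oW p q S)) τ₀ := by
    have h2 := o.smooth_W (1 + 1)
    rw [Nat.cast_succ, contDiffOn_succ_iff_deriv_of_isOpen isOpen_Iio] at h2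
    exact (h2.2.2.continuousOn).continuousAt (Iio_mem_nhds hτb)
  have cD : ContinuousAt (fun x => C.Wd (S x) (oW p q S x)
      - ((p + 1) - (q + 1) * S x) * deriv (oW p q S) x) τ₀ := by
    have hs0 : S τ₀ ≠ 0 := by linarith
    simp only [CPar.Wd, CPar.Dl, CPar.Xh, CPar.yv, CPar.Bv, CPar.l, CPar.K, CPar.V, hCp, hCq]
    fun_prop (disch := assumption)
  have hD : ((p + 1) - (q + 1) * S τ₀) * deriv (oW p q S) τ₀ ≤ C.Wd (S τ₀) (oW p q S τ₀) := by
    rw [← sub_nonneg]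
    refine ge_of_tendsto (cD.tendsto.mono_left (nhdsWithin_le_nhds (s := Ioi τ₀))) ?_
    filter_upwards [Ioo_mem_nhdsGT (show τ₀ < τ₀ + r / 2 by linarith)] with x hx
    exact sub_nonneg.2 (hlt x ⟨hx.1, hx.2.le⟩)
  have hsl := (upU_slope hA hCN hCp hCq hN hpq hcrit (o.upSi_lt hN2 hp hq hcrit le_rfl)
    (o.S_lt_s2 hN2 hp hq hpq hcrit le_rfl).le).1
  rw [← he] at hsl
  obtain ⟨x, hx, hpos⟩ := pos_left (f := fun x => oW p q S x - upU N p q (S x))
    (f' := deriv (oW p q S) τ₀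
      - upU' N p q (S τ₀) * (oW p q S τ₀ / ((p + 1) - (q + 1) * S τ₀)))
    (sub_one_lt τ₀) (hW.sub ((upU_hasDerivAt N p q (S τ₀)).comp τ₀ hS))
    (by rw [he, sub_self]) (by
      refine neg_of_mul_neg_left (b := (p + 1) - (q + 1) * S τ₀) ?_ hL.le
      rw [sub_mul, mul_assoc, div_mul_cancel₀ _ hL.ne']
      linarith)
  linarith [o.oW_le_upU hN hq hpq hcrit hx.2]

/-- `W < U σ` beyond `τ₀`, as long as `σ ≤ s₂`. -/
theorem oW_lt_upU_ext (o : IsOrbitExt N p q τ₀ τb S κ ε) (hA : C.Adm) (hCN : C.N = N)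
    (hCp : C.p = p) (hCq : C.q = q) (hN : 6 ≤ N) (hpq : q < p)
    (hcrit : N / (p + 1) + N / (q + 1) = N - 2) (ha : a < τb)
    (hs2 : ∀ x ∈ Icc τ₀ a, S x ≤ sTwo N p q) {x : ℝ} (hx : x ∈ Icc τ₀ a) :
    oW p q S x < upU N p q (S x) := by
  have hq : 0 < q := hCq ▸ hA.hq
  have hp : 0 < p := hq.trans hpq
  have h0 := o.upSi_lt (N := N) (by linarith) hp hq hcrit (le_refl τ₀)
  exact o.W_lt_upper hA hCN hCp hCq (by linarith) hpq hcrit ha hs2 (Ub := upU N p q)
    (Ub' := upU' N p q) (fun s _ => upU_hasDerivAt N p q s)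
    (o.W_τ₀_lt_upU hA hCN hCp hCq hN hpq hcrit)
    (fun s hs => (upU_slope hA hCN hCp hCq hN hpq hcrit (h0.trans_le hs.1) hs.2).2.le)
    (fun s hs => (upU_slope hA hCN hCp hCq hN hpq hcrit (h0.trans_le hs.1) hs.2).1.le) hx

end IsOrbitExt

end Vale.Agent.P100T
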