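import Vale.Agent.P100T.BoxMain
import Vale.Agent.P100T.UpperExt

/-!
A top of the box that does not depend on `σ₀`: `W < U σ` while `σ ≤ s₂`, and
`W < boxTopU` on the whole extension.
-/

open Set

noncomputable section

namespace Vale.Agent.P100T

variable {N p q τ₀ τb : ℝ} {S κ ε : ℝ → ℝ}

/-- The top of the box for `s₂ ≤ σ`. -/
def boxTopU (N p q : ℝ) : ℝ :=
  upU N p q (extS2 N p q) + upA N p q * boxR N p q / 10 + extC0 N p q / 100

lemma upR_eq_boxR (N p q : ℝ) : upR N p q = boxR N p q := by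
  simp only [upR, boxR, upSi, extS2]

lemma upA_nonneg (hN : 6 ≤ N) : 0 ≤ upA N p q := by
  have := le_max_left (1 : ℝ) (sEq N p q)
  unfold upA upSi
  have h2 : 0 < N - 2 := by linarith
  have h1 : 0 < N - 1 := by linarith
  have : 0 ≤ max 1 (sEq N p q) - 1 := by linarith
  positivity

lemma upBe_box (hN : 6 ≤ N) : 0 ≤ upBe N p q ∧ upBe N p q ≤ 3 / 4 := by
  have h := le_max_left (1 : ℝ) (sEq N p q)
  have h2 : 0 ≤ 2 * (N - 2) * (upSi N p q - 1) := by
    unfold upSi; exact mul_nonneg (by linarith) (by linarith)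
  exact ⟨div_nonneg (by norm_num) (by linarith), div_le_self (by norm_num) (by linarith)⟩

/-- `U` on the last fifth of `(σ∞, s₂)` is below `U s₂ + A r / 10`. -/
lemma upU_le_top (hN : 6 ≤ N) (hq : 0 < q) (hpq : q < p) {s : ℝ}
    (h1 : extS2 N p q - boxXmax N p q ≤ s) (h2 : s ≤ extS2 N p q) :
    upU N p q s ≤ upU N p q (extS2 N p q) + upA N p q * boxR N p q / 10 := by
  have hA := upA_nonneg (p := p) (q := q) hN
  obtain ⟨hb0, hb1⟩ := upBe_box (p := p) (q := q) hN
  have hr := boxR_pos (N := N) (by linarith) hq hpq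
  obtain ⟨x, rfl⟩ : ∃ x, s = extS2 N p q - x := ⟨extS2 N p q - s, by ring⟩
  have hx : x ≤ boxR N p q / 5 := by unfold boxXmax at h1; linarith
  have e : upU N p q (extS2 N p q - x) - upU N p q (extS2 N p q)
      = upA N p q * (x * (upBe N p q * (2 - x / boxR N p q) - 1)) := by
    have h : extS2 N p q - upSi N p q = boxR N p q := rfl
    simp only [upU, upR_eq_boxR]
    rw [show extS2 N p q - x - upSi N p q = boxR N p q - x by rw [← h]; ring, h]
    field_simp
    ring
  have hx0 : 0 ≤ x := by linarith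
  have hle : x * (upBe N p q * (2 - x / boxR N p q) - 1) ≤ boxR N p q / 10 := by
    refine (mul_le_mul_of_nonneg_left (show upBe N p q * (2 - x / boxR N p q) - 1 ≤ 1 / 2 by
      nlinarith [mul_nonneg hb0 (div_nonneg hx0 hr.le)]) hx0).trans ?_
    linarith
  have := mul_le_mul_of_nonneg_left hle hA
  linarith

/-- `C₀` against `s₂ - σ∞` when `σ_s ≥ 1`. -/
lemma extC0_le_mul_boxR (hN : 6 ≤ N) (hq : 0 < q) (hpq : q < p)
    (hcrit : N / (p + 1) + N / (q + 1) = N - 2) (hcase : 1 ≤ sEq N p q) :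
    extC0 N p q ≤ 2 * ((p + 1) / (q + 1) - 1) * (N - 1) / N ^ 2 * boxR N p q := by
  have hp : 0 < p := hq.trans hpq
  have hN0 : 0 < N := by linarith
  have hh2 : 0 < N - 2 := by linarith
  have hk := crit_iff hp hq hcrit
  have h1 := one_lt_extS2 hN0 hq hpq
  have h2 := extS2_lt_tb hN0 hq hpq
  have hk0 := (k0_pos (p := p) (show (2:ℝ) < N by linarith) hp hq
    (show 0 ≤ extS2 N p q by linarith) h2.le).le
  have eT : (p + 1) / (q + 1) * (q + 1) = p + 1 := div_mul_cancel₀ _ (by linarith)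
  rw [sEq] at hcase
  simp only [boxR, sEq, max_eq_right hcase]
  set T := (p + 1) / (q + 1) with hT
  set h := N * (q + 1) + 2 with hh
  have hh0 : 0 < h := by positivity
  have hT0 : 0 < T := by linarith
  have hq1 : N / (N - 2) ≤ q + 1 := by
    have e : (N - 2) * ((q + 1) * T) = N * (1 + T) := by rw [mul_comm (q + 1), eT]; exact hk
    rw [div_le_iff₀ hh2]
    by_contra hlt
    push Not at hlt
    nlinarith [mul_lt_mul_of_pos_right hlt hT0]
  obtain ⟨D, hD⟩ : ∃ D, D = T - extS2 N p q := ⟨_, rfl⟩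
  have hD0 : 0 ≤ D := by linarith
  have eD : D * h = 2 * (T - 1) := by
    rw [hD, sub_mul, extS2, ← hh, div_mul_cancel₀ _ hh0.ne', hh]
    linear_combination N * eT
  have hDle : D * (N ^ 2) ≤ 2 * T * (N - 2) := by
    refine le_of_mul_le_mul_right (a := h) ?_ hh0
    rw [mul_right_comm, eD]
    have j : N ^ 2 ≤ (N - 2) * h := by
      rw [div_le_iff₀ hh2] at hq1
      rw [hh]; nlinarith [mul_le_mul_of_nonneg_left hq1 hN0.le]
    nlinarith [mul_le_mul_of_nonneg_left j (show 0 ≤ 2 * T by positivity)]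
  -- the rate at `W = 0`
  have hk1 : k0 N p q (extS2 N p q) ≤ 2 * (N - 1) / N ^ 2 * (q * T + 1 + D) := by
    have e1 : p + 2 - extS2 N p q = q * T + 1 + D := by rw [hD]; linear_combination -eT
    have e2 : N * T - (N - 2) * extS2 N p q = 2 * T + (N - 2) * D := by rw [hD]; ring
    have e3 : extS2 N p q + T = 2 * T - D := by rw [hD]; ring
    rw [k0, ← hT, e1, e2, e3, div_le_iff₀ (mul_pos hN0 (by linarith)),
      show 2 * (N - 1) / N ^ 2 * (q * T + 1 + D) * (N * (2 * T - D))
        = (q * T + 1 + D) * (2 * (N - 1) * (2 * T - D) / N) by field_simp]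
    refine mul_le_mul_of_nonneg_left ?_ (by positivity)
    rw [le_div_iff₀ hN0]
    nlinarith [hDle]
  have hr : (extS2 N p q - (N - 2) / N * T) * (N * h) = 2 * (T * (N * q + 2) + N) := by
    rw [show extS2 N p q = T - D by rw [hD]; ring]
    field_simp
    rw [hh]
    rw [hh] at eD
    linear_combination (-N) * eD
  have hfr : N * (q * T + 1 + D) ≤ T * (N * q + 2) + N := by
    have : D * N ≤ 2 * T := by
      refine le_of_mul_le_mul_right (a := N) ?_ hN0
      nlinarith [hDle]
    linarith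
  have eS : extS2 N p q - 1 ≤ T - 1 := by linarith
  have h2T : 0 ≤ 2 * (T - 1) := by linarith
  calc extC0 N p q ≤ 2 * (T - 1) * (2 * (N - 1) / N ^ 2 * (q * T + 1 + D)) / h := by
        rw [extC0, ← hh]; gcongr
    _ ≤ 2 * (T - 1) * (N - 1) / N ^ 2 * (extS2 N p q - (N - 2) / N * T) := by
        rw [div_le_iff₀ hh0]
        refine le_of_mul_le_mul_right (a := N) ?_ hN0
        rw [show 2 * (T - 1) * (N - 1) / N ^ 2 * (extS2 N p q - (N - 2) / N * T) * h * N
          = 2 * (T - 1) * (N - 1) / N ^ 2 * ((extS2 N p q - (N - 2) / N * T) * (N * h)) by ring,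
          hr, show 2 * (T - 1) * (2 * (N - 1) / N ^ 2 * (q * T + 1 + D)) * N
          = 2 * (T - 1) * (N - 1) / N ^ 2 * (2 * (N * (q * T + 1 + D))) by ring]
        refine mul_le_mul_of_nonneg_left (by linarith) ?_
        have : 0 ≤ N - 1 := by linarith
        have : 0 ≤ T - 1 := by linarith
        positivity

lemma topU_key {u : ℝ} (hN : 6 ≤ N) (hcase : 1 ≤ sEq N p q) (hu0 : 0 ≤ u)
    (hu : u = (N - 2) * (upSi N p q - 1))
    (htu : 0 ≤ u / (u + 6)) (hb0 : 0 ≤ upBe N p q) (hb1 : upBe N p q ≤ 3 / 4) :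
    101 / 100 * (2 * ((p + 1) / (q + 1) - 1) * (N - 1) / N ^ 2)
      ≤ upA N p q * (11 / 10 - upBe N p q + 11 / 100 * (u / (u + 6))) := by
  have hh2 : 0 < N - 2 := by linarith
  have hN1 : 0 < N - 1 := by linarith
  have hN0 : 0 < N := by linarith
  have hsi : upSi N p q = sEq N p q := max_eq_right hcase
  have eu : (p + 1) / (q + 1) - 1 = (u * (N / (N - 2)) + 2) / (N - 2) := by
    rw [hu, hsi, sEq]; field_simp; ring
  have eA : upA N p q = (2 * (N - 1) + 19 / 10 * u) / ((N - 2) * (N - 1)) := by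
    rw [hu, upA]; field_simp
  set t' := 11 / 10 - upBe N p q + 11 / 100 * (u / (u + 6)) with ht'
  set m := (N - 1) ^ 2 / N ^ 2 with hm
  suffices h : 101 / 50 * (m * (2 + u * (N / (N - 2)))) ≤ (2 * (N - 1) + 19 / 10 * u) * t' by
    rw [eu, eA, show 101 / 100 * (2 * ((u * (N / (N - 2)) + 2) / (N - 2)) * (N - 1) / N ^ 2)
      = 101 / 50 * (m * (2 + u * (N / (N - 2)))) / ((N - 2) * (N - 1)) by
        rw [hm]; field_simp; ring,
      div_mul_eq_mul_div (2 * (N - 1) + 19 / 10 * u)]
    gcongr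
  have hmn : m * (N / (N - 2)) ≤ 25 / 24 := by
    rw [hm, div_mul_div_comm, div_le_div_iff₀ (by positivity) (by norm_num)]
    nlinarith [mul_le_mul_of_nonneg_left hN (show 0 ≤ N * (N - 2) by positivity)]
  have hm1 : m ≤ 1 := by
    rw [hm, div_le_one (by positivity)]; nlinarith
  have h1 : m * (2 + u * (N / (N - 2))) ≤ 2 * m + 25 / 24 * u := by
    linarith [mul_le_mul_of_nonneg_left hmn hu0]
  have hbe : upBe N p q * (1 + 2 * u) = 3 / 4 := by
    rw [upBe, mul_assoc, ← hu, div_mul_cancel₀]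
    positivity
  have hw : 0 ≤ 2 * (N - 1) + 19 / 10 * u := by positivity
  have hfrac : ∀ a : ℝ, 0 ≤ a → a ≤ u → a / (a + 6) ≤ u / (u + 6) := fun a ha hau => by
    rw [div_le_div_iff₀ (by linarith) (by linarith)]; linarith
  have hbound : ∀ a c : ℝ, a ≤ u → 0 < 1 + 2 * a → 3 / 4 ≤ c * (1 + 2 * a) → upBe N p q ≤ c :=
    fun a c hau ha hc => by
      refine le_of_mul_le_mul_right ?_ ha
      linarith [mul_le_mul_of_nonneg_left (show 1 + 2 * a ≤ 1 + 2 * u by linarith) hb0]
  have step : ∀ c : ℝ, c ≤ t' →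
      c * (2 * (N - 1) + 19 / 10 * u) ≤ (2 * (N - 1) + 19 / 10 * u) * t' := fun c hc =>
    (mul_le_mul_of_nonneg_right hc hw).trans_eq (mul_comm _ _)
  rcases le_total u (1 / 4) with hu1 | hu1
  · have hc : 101 / 25 * m ≤ 7 / 10 * (N - 1) - 9 / 25 := by
      rw [hm, mul_div_assoc', div_le_iff₀ (by positivity)]
      nlinarith [mul_le_mul_of_nonneg_left hN (show 0 ≤ N * (N - 1) by positivity)]
    have := step (7 / 20) (by linarith)
    linarith
  rcases le_total u 2 with hu2 | hu2
  · have := hbound (1 / 4) (1 / 2) hu1 (by norm_num) (by norm_num)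
    have := step (3 / 5) (by linarith)
    linarith
  rcases le_total u 6 with hu6 | hu6
  · have := hbound 2 (3 / 20) hu2 (by norm_num) (by norm_num)
    have := hfrac 2 (by norm_num) hu2
    have := step (977 / 1000) (by linarith)
    linarith
  rcases le_total u 20 with hu20 | hu20
  · have := hbound 6 (3 / 52) hu6 (by norm_num) (by norm_num)
    have := hfrac 6 (by norm_num) hu6
    have := step (109 / 100) (by linarith)
    linarith
  · have := hbound 20 (3 / 164) hu20 (by norm_num) (by norm_num)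
    have := hfrac 20 (by norm_num) hu20
    have := step (116 / 100) (by linarith)
    linarith

/-- `51/50 C₀` is below the top. -/
lemma extC0_le_topU (hN : 6 ≤ N) (hq : 0 < q) (hpq : q < p)
    (hcrit : N / (p + 1) + N / (q + 1) = N - 2) :
    51 / 50 * extC0 N p q ≤ boxTopU N p q := by
  have hp : 0 < p := hq.trans hpq
  have hN0 : 0 < N := by linarith
  have h1 := one_lt_extS2 hN0 hq hpq
  have h2 := extS2_lt_tb hN0 hq hpq
  have hr := boxR_pos (N := N) (by linarith) hq hpq
  have eT : (p + 1) / (q + 1) * (q + 1) = p + 1 := div_mul_cancel₀ _ (by linarith)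
  set T := (p + 1) / (q + 1) with hT
  set h := N * (q + 1) + 2 with hh
  have hh0 : 0 < h := by positivity
  have hh2 : 0 < N - 2 := by linarith
  have hN1 : 0 < N - 1 := by linarith
  -- the value of `U` at `s₂`
  have hU : upU N p q (extS2 N p q) + upA N p q * boxR N p q / 10
      = upA N p q * boxR N p q * (11 / 10 - upBe N p q
        + 11 / 100 * ((N - 2) * (upSi N p q - 1) / ((N - 2) * (upSi N p q - 1) + 6))) := by
    simp only [upU, upB, upR_eq_boxR, show extS2 N p q - upSi N p q = boxR N p q from rfl]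
    field_simp
    ring
  suffices 101 / 100 * extC0 N p q ≤ upU N p q (extS2 N p q) + upA N p q * boxR N p q / 10 by
    simp only [boxTopU]; linarith
  rw [hU]
  obtain ⟨hb0, hb1⟩ := upBe_box (p := p) (q := q) hN
  set u := (N - 2) * (upSi N p q - 1) with hu
  have hu0 : 0 ≤ u := mul_nonneg hh2.le (by
    have := le_max_left (1 : ℝ) (sEq N p q); unfold upSi; linarith)
  set t := 11 / 10 - upBe N p q + 11 / 100 * (u / (u + 6)) with ht
  have htu : 0 ≤ u / (u + 6) := by positivity
  have ht1 : 7 / 20 ≤ t := by rw [ht]; linarith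
  have hA := upA_nonneg (p := p) (q := q) hN
  rcases le_total (sEq N p q) 1 with hcase | hcase
  · have hsi : upSi N p q = 1 := max_eq_left hcase
    have hA' : upA N p q = 2 / (N - 2) := by rw [upA, hsi]; ring
    have hR : boxR N p q = extS2 N p q - 1 := by rw [boxR, max_eq_left hcase]
    have hTle : T ≤ N / (N - 2) := by
      rw [sEq, ← hT, div_mul_eq_mul_div, div_le_one hN0] at hcase
      rw [le_div_iff₀ hh2]; linarith
    have hk : k0 N p q (extS2 N p q) ≤ 7 / 10 * (h / (2 * (N - 2))) * (100 / 101) := by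
      rw [k0, ← hT, div_le_iff₀ (by positivity)]
      have e1 : N * T - (N - 2) * extS2 N p q ≤ 4 * (N - 1) / (N - 2) := by
        have : N * T ≤ N * (N / (N - 2)) := mul_le_mul_of_nonneg_left hTle hN0.le
        have e : N * (N / (N - 2)) - (N - 2) * 1 = 4 * (N - 1) / (N - 2) := by field_simp; ring
        linarith [mul_le_mul_of_nonneg_left h1.le hh2.le]
      have e2 : 0 ≤ N * T - (N - 2) * extS2 N p q := by nlinarith
      refine (mul_le_mul (show p + 2 - extS2 N p q ≤ p + 1 by linarith) e1 e2 (by linarith)).trans ?_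
      have hT32 : T ≤ 3 / 2 := hTle.trans (by rw [div_le_div_iff₀ hh2 (by norm_num)]; linarith)
      have k1 : T ≤ 3 / 5 * (extS2 N p q + T) := by linarith
      rw [mul_div_assoc', div_le_iff₀ hh2,
        show 7 / 10 * (h / (2 * (N - 2))) * (100 / 101) * (N * (extS2 N p q + T)) * (N - 2)
          = 35 / 101 * h * N * (extS2 N p q + T) by field_simp; ring, ← eT]
      have k2 : T * (q + 1) * (4 * (N - 1)) ≤ 3 / 5 * (extS2 N p q + T) * ((q + 1) * (4 * (N - 1))) := by
        rw [mul_assoc]; exact mul_le_mul_of_nonneg_right k1 (by positivity)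
      refine k2.trans ?_
      have k3 : 3 / 5 * (4 * (N - 1)) * (q + 1) ≤ 35 / 101 * h * N := by
        rw [hh]; nlinarith [mul_le_mul_of_nonneg_left hN (show 0 ≤ N * (q + 1) by positivity)]
      nlinarith [mul_le_mul_of_nonneg_left k3 (show 0 ≤ extS2 N p q + T by linarith)]
    refine le_trans ?_ (mul_le_mul_of_nonneg_left ht1 (by positivity))
    rw [hA', hR, extC0]
    have hk' := mul_le_mul_of_nonneg_left hk
      (show 0 ≤ 101 / 100 * (2 * (extS2 N p q - 1) / h) by
        have : 0 ≤ extS2 N p q - 1 := by linarith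
        positivity)
    have e : 101 / 100 * (2 * (extS2 N p q - 1) / h) * (7 / 10 * (h / (2 * (N - 2))) * (100 / 101))
        = 2 / (N - 2) * (extS2 N p q - 1) * (7 / 20) := by field_simp; ring
    have e2 : 101 / 100 * (2 * (extS2 N p q - 1) * k0 N p q (extS2 N p q) / h)
        = 101 / 100 * (2 * (extS2 N p q - 1) / h) * k0 N p q (extS2 N p q) := by ring
    rw [← hh, e2]
    linarith
  · exact (mul_le_mul_of_nonneg_left (extC0_le_mul_boxR hN hq hpq hcrit hcase) (by norm_num)).trans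
      (by rw [← mul_assoc]; exact mul_le_mul_of_nonneg_right (topU_key hN hcase hu0 hu
        htu hb0 hb1) hr.le |>.trans_eq (by ring))

namespace IsOrbitExt

/-- `extCc σ₀ ≤ boxTopU`. -/
lemma extCc_le_topU (o : IsOrbitExt N p q τ₀ τb S κ ε) (hN : 6 ≤ N) (hq : 0 < q) (hpq : q < p)
    (hcrit : N / (p + 1) + N / (q + 1) = N - 2)
    (hXM : extS2 N p q - boxXmax N p q ≤ S τ₀) :
    extCc N p q (S τ₀) ≤ boxTopU N p q := by
  have hp : 0 < p := hq.trans hpq
  refine max_le ?_ (extC0_le_topU hN hq hpq hcrit)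
  have h := o.oW_le_upU' hN hq hpq hcrit le_rfl
  rw [o.W_τ₀ (by linarith) hp hq] at h
  have h2 := upU_le_top hN hq hpq hXM
    (o.S_lt_s2 (by linarith) hp hq hpq hcrit le_rfl).le
  simp only [boxTopU]; linarith

/-- The top in three variables along the orbit. -/
theorem lt_top_of_box (o : IsOrbitExt N p q τ₀ τb S κ ε) {C : CPar} (hA : C.Adm) (hCN : C.N = N)
    (hCp : C.p = p) (hCq : C.q = q) (hN : 6 ≤ N) (hpq : q < p)
    (hcrit : N / (p + 1) + N / (q + 1) = N - 2)
    (hXM : extS2 N p q - boxXmax N p q ≤ S τ₀) {x : ℝ}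
    (hx : x ∈ Ioc τ₀ (Real.log ((p + 1) / (q + 1))))
    (hbox : ∀ y ∈ Ioc τ₀ (Real.log ((p + 1) / (q + 1))),
      extL N p q < oW p q S y ∧ oW p q S y < extCc N p q (S τ₀)) :
    oW p q S x < boxTopU N p q ∧ (S x ≤ extS2 N p q → oW p q S x < upU N p q (S x)) := by
  have hq : 0 < q := hCq ▸ hA.hq
  refine ⟨(hbox x hx).2.trans_le (o.extCc_le_topU hN hq hpq hcrit hXM), fun hs => ?_⟩
  have hp : 0 < p := hq.trans hpq
  have hb : ∀ y ∈ Icc τ₀ x, y < τb := fun y hy => (hy.2.trans hx.2).trans_lt o.lt_τb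
  have hmono : MonotoneOn S (Icc τ₀ x) := by
    refine monotoneOn_of_deriv_nonneg (convex_Icc _ _)
      (fun y hy => (o.hasDerivAt_S hq (hb y hy)).continuousAt.continuousWithinAt)
      (fun y hy => ?_) (fun y hy => ?_)
    · exact (o.hasDerivAt_S hq (hb y (interior_subset hy))).differentiableAt.differentiableWithinAt
    · rw [interior_Icc] at hy
      have hyb := hb y (Ioo_subset_Icc_self hy)
      rw [(o.hasDerivAt_S hq hyb).deriv]
      exact (div_pos ((extL_pos (show (2:ℝ) < N by linarith) hq hpq).trans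
        (hbox y ⟨hy.1, hy.2.le.trans hx.2⟩).1) (o.L_pos hq hyb)).le
  exact o.oW_lt_upU_ext hA hCN hCp hCq hN hpq hcrit (hb x ⟨hx.1.le, le_rfl⟩)
    (fun y hy => (hmono hy ⟨hx.1.le, le_rfl⟩ hy.2).trans hs) ⟨hx.1.le, le_rfl⟩

end IsOrbitExt

end Vale.Agent.P100T
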