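import Vale.Agent.P100T.BoxDiscPts
import Vale.Agent.P100T.BoxTop

/-!
The templates at the parameters of the extension box, and the bounds on `C₀`.
-/

noncomputable section

namespace Vale.Agent.P100T.BoxDisc

/-- The slope `G` of the certificate. -/
def gv (N t si : ℝ) : ℝ :=
  (4 / 25 + 15 / (2 * N ^ 2)) * (1 + 69 / (5 * (N ^ 2 - 12))) * (t - 1)
    / ((t - 1 + 19 / 84 - 5 / (7 * N)) * (1 + 6 * t / (5 * N)) * (t - si))

/-- `s₂` in `T`. -/
def s2T (N t : ℝ) : ℝ :=
  t * (N ^ 2 * (1 + t) + 2 * (N - 2)) / (N ^ 2 * (1 + t) + 2 * (N - 2) * t)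

lemma gden_pos {N t : ℝ} (hN : 6 ≤ N) (ht : 1 < t) : 0 < t - 1 + 19 / 84 - 5 / (7 * N) := by
  have : 5 / (7 * N) ≤ 5 / 42 :=
    div_le_div_of_nonneg_left (by norm_num) (by norm_num) (by linarith)
  linarith

lemma gF_pos {N a t : ℝ} (hN : 6 ≤ N) (ha : 0 < a) (ht : 1 < t) :
    0 < gF Int.cast N a (t * a) := by
  simp only [gF, Int.cast_ofNat]
  have h12 : 0 < N * N - 12 := by nlinarith
  have : 0 < 84 * N * (t * a - a) + (19 * N - 60) * a := by
    have := mul_pos (show 0 < 19 * N - 60 by linarith) ha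
    have : 0 ≤ 84 * N * (t * a - a) := by
      have : a ≤ t * a := le_mul_of_one_le_left ha.le ht.le
      have : 0 ≤ t * a - a := by linarith
      positivity
    linarith
  have : 0 < 5 * N * a + 6 * (t * a) := by positivity
  positivity

lemma gv_one {N a t : ℝ} (hN : 6 ≤ N) (ht : 1 < t) :
    gv N t 1 * gF Int.cast N a (t * a) = 42 * a * a * gK Int.cast N := by
  have h1 : t - 1 ≠ 0 := by linarith
  have h12 : N ^ 2 - 12 ≠ 0 := by nlinarith
  have hN0 : N ≠ 0 := by linarith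
  have h2 : 84 * N * (t - 1) + (19 * N - 60) ≠ 0 := by nlinarith
  have h3 : 5 * N + 6 * t ≠ 0 := by linarith
  have e1 : t - 1 + 19 / 84 - 5 / (7 * N) = (84 * N * (t - 1) + (19 * N - 60)) / (84 * N) := by
    field_simp; ring
  have e2 : 1 + 6 * t / (5 * N) = (5 * N + 6 * t) / (5 * N) := by field_simp
  simp only [gv, gF, gK, Int.cast_ofNat]
  rw [e1, e2, show 84 * N * (t * a - a) + (19 * N - 60) * a
      = a * (84 * N * (t - 1) + (19 * N - 60)) by ring,
    show 5 * N * a + 6 * (t * a) = a * (5 * N + 6 * t) by ring,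
    show N * N - 12 = N ^ 2 - 12 by ring]
  generalize 84 * N * (t - 1) + (19 * N - 60) = u at h2 ⊢
  generalize 5 * N + 6 * t = v at h3 ⊢
  generalize t - 1 = w at h1 ⊢
  field_simp
  ring

lemma gv_eq {N a t : ℝ} (hN : 6 ≤ N) (ht : 1 < t) :
    gv N t ((N - 2) * t / N) * (gF Int.cast N a (t * a) * (t * a))
      = 21 * N * (t * a - a) * a * a * gK Int.cast N := by
  have hN0 : N ≠ 0 := by linarith
  have h1 : t - 1 ≠ 0 := by linarith
  have h4 : t - (N - 2) * t / N ≠ 0 := by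
    rw [show t - (N - 2) * t / N = 2 * t / N by field_simp; ring]; positivity
  have e : gv N t ((N - 2) * t / N) = gv N t 1 * ((t - 1) / (t - (N - 2) * t / N)) := by
    simp only [gv]
    generalize (4 / 25 + 15 / (2 * N ^ 2)) * (1 + 69 / (5 * (N ^ 2 - 12))) = k
    generalize (t - 1 + 19 / 84 - 5 / (7 * N)) * (1 + 6 * t / (5 * N)) = l
    generalize t - (N - 2) * t / N = r at h4 ⊢
    rcases eq_or_ne l 0 with rfl | hl
    · simp
    field_simp
  rw [e, show gv N t 1 * ((t - 1) / (t - (N - 2) * t / N)) * (gF Int.cast N a (t * a) * (t * a))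
    = gv N t 1 * gF Int.cast N a (t * a) * ((t - 1) / (t - (N - 2) * t / N) * (t * a)) by ring,
    gv_one hN ht, show t - (N - 2) * t / N = 2 * t / N by field_simp; ring]
  field_simp
  ring

lemma pt_congr {P Q : Pt ℝ} (h1 : P.N = Q.N) (h2 : P.m = Q.m) (h3 : P.D = Q.D) (h4 : P.S = Q.S)
    (h5 : P.T = Q.T) (h6 : P.Si = Q.Si) (h7 : P.E = Q.E) (h8 : P.W = Q.W)
    (h9 : P.gNum = Q.gNum) (h10 : P.gDen = Q.gDen) (h11 : P.cNum = Q.cNum)
    (h12 : P.cDen = Q.cDen) : P = Q := by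
  cases P; cases Q; simp_all

/-- `ptA` at the parameters of the box. -/
lemma ptA_eq {N t a Ln Ld w s W : ℝ} (hN : 6 ≤ N) (ht : 1 < t) (ha : 0 < a) (hLd : 0 < Ld)
    (hs : s = s2T N t + Ln / Ld * ((t - s2T N t) / 25))
    (hW : W = w / 500 * ((s2T N t - 1) / (N - 2))) :
    ptA Int.cast N (N - 2) a (t * a) Ln Ld w
      = ptR N (25 * a * gH Int.cast N (N - 2) a (t * a) * Ld) (20 * (N - 2))
          (gF Int.cast N a (t * a)) ((N - 2) * (a + t * a)) s t 1 W (gv N t 1)
          ((N - 1) * t / ((N - 2) * (1 + t))) := by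
  have hm : 0 < N - 2 := by linarith
  have hH : 0 < N ^ 2 * (1 + t) + 2 * (N - 2) * t := by positivity
  have eH : gH Int.cast N (N - 2) a (t * a) = a * (N ^ 2 * (1 + t) + 2 * (N - 2) * t) := by
    simp only [gH, Int.cast_ofNat]; ring
  have eG : gG Int.cast N (N - 2) a (t * a) = a * (N ^ 2 * (1 + t) + 2 * (N - 2)) := by
    simp only [gG, Int.cast_ofNat]; ring
  subst hs hW
  apply pt_congr
  · rfl
  · rfl
  · simp only [ptA, ptR, Int.cast_ofNat]
  · simp only [ptA, ptR, Int.cast_ofNat, eH, eG, s2T]; field_simp; ring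
  · simp only [ptA, ptR, Int.cast_ofNat]; ring
  · simp only [ptA, ptR, Int.cast_ofNat]; ring
  · simp only [ptA, ptR, Int.cast_ofNat]
  · simp only [ptA, ptR, rA, Int.cast_ofNat, eH, s2T]; field_simp; ring
  · simp only [ptA, ptR, Int.cast_ofNat]; rw [gv_one hN ht]
  · rfl
  · simp only [ptA, ptR, Int.cast_one]; field_simp
  · rfl

/-- The width `s₂ - σ∞` when `σ∞ = (N-2) T / N`. -/
def rT (N t : ℝ) : ℝ := s2T N t - (N - 2) * t / N
/-- The slope `A` of the upper curve then. -/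
def aT (N t : ℝ) : ℝ := 2 / (N - 2) + 19 / 10 * ((N - 2) * t / N - 1) / (N - 1)
/-- `(N-2) (σ∞ - 1)`. -/
def xT (N t : ℝ) : ℝ := (N - 2) * ((N - 2) * t / N - 1)

/-- `ptB` at the parameters of the box. -/
lemma ptB_eq {N t a Ln Ld En Ed c s W φ : ℝ} (hN : 6 ≤ N) (ht : 1 < t) (ha : 0 < a) (hLd : 0 < Ld)
    (hs : s = s2T N t + Ln / Ld * (2 / (5 * N) * ((t - 1) / (t + 1)) * rT N t))
    (hφ : φ * (c * Ed) = 2 * En) (hW : W = aT N t * rT N t * φ) :
    ptB Int.cast N (N - 2) a (t * a) Ln Ld En Ed c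
      = ptR N (5 * N * (a + t * a) * N * a * gH Int.cast N (N - 2) a (t * a) * Ld)
          (c * (N - 2) * (N - 1) * a * Ed) (gF Int.cast N a (t * a) * (t * a))
          (20 * N * N * (N - 2) * (t * a) * (t * a)) s t ((N - 2) * t / N) W
          (gv N t ((N - 2) * t / N))
          (N / (2 * (N - 2)) + ((N - 2) * t / N - 1) / (20 * N * t ^ 2)) := by
  have hm : 0 < N - 2 := by linarith
  have hN1 : 0 < N - 1 := by linarith
  have hH : 0 < N ^ 2 * (1 + t) + 2 * (N - 2) * t := by positivity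
  have hab : 0 < 1 + t := by linarith
  have eH : gH Int.cast N (N - 2) a (t * a) = a * (N ^ 2 * (1 + t) + 2 * (N - 2) * t) := by
    simp only [gH, Int.cast_ofNat]; ring
  have eG : gG Int.cast N (N - 2) a (t * a) = a * (N ^ 2 * (1 + t) + 2 * (N - 2)) := by
    simp only [gG, Int.cast_ofNat]; ring
  have eR : rB Int.cast N (N - 2) a (t * a)
      = rT N t * (N * a * gH Int.cast N (N - 2) a (t * a)) := by
    rw [rB, eH, eG, rT, s2T]; field_simp
  have eA : gAn Int.cast N (N - 2) a (t * a) = aT N t * (10 * (N - 2) * (N - 1) * N * a) := by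
    simp only [gAn, ee, aT, Int.cast_ofNat, Int.cast_one]; field_simp; ring
  subst hs hW
  apply pt_congr
  · rfl
  · rfl
  · simp only [ptB, ptR, Int.cast_ofNat]
  · simp only [ptB, ptR, Int.cast_ofNat, eR, eH, eG]
    rw [s2T]; field_simp; ring
  · simp only [ptB, ptR, Int.cast_ofNat]; ring
  · simp only [ptB, ptR, Int.cast_ofNat]; field_simp
  · simp only [ptB, ptR, Int.cast_one]
  · simp only [ptB, ptR, Int.cast_ofNat, eR, eA]
    linear_combination (-(5 * aT N t * rT N t * N * (a + t * a) * N * a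
      * gH Int.cast N (N - 2) a (t * a) * Ld * (N - 2) * (N - 1) * a)) * hφ
  · simp only [ptB, ptR, Int.cast_ofNat]; rw [gv_eq hN ht]
  · rfl
  · simp only [ptB, ptR, Int.cast_ofNat]; field_simp; ring
  · simp only [ptB, ptR, Int.cast_ofNat]

/-- `φ` below `U s₂ + A r / 10`. -/
def phiLo (N t : ℝ) : ℝ := 35 / 100 + 86 / 100 * (xT N t / (xT N t + 6))
/-- `φ` above the top. -/
def phiHi (N t : ℝ) : ℝ := 362 / 1000 + 86 / 100 * (2 * xT N t / (1 + 2 * xT N t))

lemma F4_eq {N t a : ℝ} (hN : N ≠ 0) :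
    F4 Int.cast N (N - 2) a (t * a) = N * a * (xT N t + 6) := by
  simp only [F4, ee, xT, Int.cast_ofNat]; field_simp

lemma F3_eq {N t a : ℝ} (hN : N ≠ 0) :
    F3 Int.cast N (N - 2) a (t * a) = N * a * (1 + 2 * xT N t) := by
  simp only [F3, ee, xT, Int.cast_ofNat]; field_simp

lemma phiLo_mul {N t a : ℝ} (hN : N ≠ 0) (hx : 0 ≤ xT N t) :
    phiLo N t * (((200 : ℤ) : ℝ) * F4 Int.cast N (N - 2) a (t * a))
      = 2 * gLo Int.cast N (N - 2) a (t * a) := by
  have e : ee N (N - 2) a (t * a) * (N - 2) = N * a * xT N t := by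
    rw [ee, xT]; field_simp
  rw [gLo, F4_eq hN, phiLo]
  simp only [Int.cast_ofNat]
  rw [show 86 * (N - 2) * ee N (N - 2) a (t * a) = 86 * (N * a * xT N t) by rw [← e]; ring]
  field_simp
  ring

lemma phiHi_mul {N t a : ℝ} (hN : N ≠ 0) (hx : 0 ≤ xT N t) :
    phiHi N t * (((2000 : ℤ) : ℝ) * F3 Int.cast N (N - 2) a (t * a))
      = 2 * gHi Int.cast N (N - 2) a (t * a) := by
  have e : ee N (N - 2) a (t * a) * (N - 2) = N * a * xT N t := by
    rw [ee, xT]; field_simp
  rw [gHi, F3_eq hN, phiHi]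
  simp only [Int.cast_ofNat]
  rw [show 1720 * (N - 2) * ee N (N - 2) a (t * a) = 1720 * (N * a * xT N t) by rw [← e]; ring]
  field_simp
  ring

section facts

variable {N p q : ℝ}

lemma pq_eq (hN : 2 < N) (hq : 0 < q) (hpq : q < p)
    (hcrit : N / (p + 1) + N / (q + 1) = N - 2) {t : ℝ} (ht : t = (p + 1) / (q + 1)) :
    p + 1 = N * (1 + t) / (N - 2) ∧ q + 1 = N * (1 + t) / ((N - 2) * t) ∧ 1 < t := by
  have hk := crit_iff (hq.trans hpq) hq hcrit
  rw [← ht] at hk
  have hm : N - 2 ≠ 0 := by linarith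
  have ht1 : 1 < t := by rw [ht, one_lt_div (by linarith)]; linarith
  have hQ : (q + 1) * t = p + 1 := by rw [ht]; field_simp
  have e : p + 1 = N * (1 + t) / (N - 2) := by rw [eq_div_iff hm]; linarith
  refine ⟨e, ?_, ht1⟩
  rw [eq_div_iff (mul_ne_zero hm (by linarith))]
  linear_combination (N - 2) * hQ + hk

lemma extS2_eq_s2T (hN : 2 < N) (hq : 0 < q) (hpq : q < p)
    (hcrit : N / (p + 1) + N / (q + 1) = N - 2) {t : ℝ} (ht : t = (p + 1) / (q + 1)) :
    extS2 N p q = s2T N t := by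
  obtain ⟨e1, e2, ht1⟩ := pq_eq hN hq hpq hcrit ht
  have hm : 0 < N - 2 := by linarith
  have hn : 0 < N := by linarith
  rw [extS2, e1, e2, s2T]
  field_simp

/-- `C₀` against the gap `T - s₂` when `σ∞ = 1`. -/
lemma extC0_small (hN : 6 ≤ N) (hq : 0 < q) (hpq : q < p)
    (hcrit : N / (p + 1) + N / (q + 1) = N - 2) {t : ℝ} (ht : t = (p + 1) / (q + 1))
    (hA : (N - 2) * t ≤ N) :
    extC0 N p q ≤ (p + 1) * (t - s2T N t) / 5 ∧
      extC0 N p q ≤ 2 / 5 * ((s2T N t - 1) / (N - 2)) := by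
  obtain ⟨e1, e2, ht1⟩ := pq_eq (show 2 < N by linarith) hq hpq hcrit ht
  have hn : 0 < N := by linarith
  set m := N - 2 with hm
  have hm0 : 0 < m := by linarith
  set H := N ^ 2 * (1 + t) + 2 * m * t with hH
  set G := N ^ 2 * (1 + t) + 2 * m with hG
  set E := N * (1 + t) * H + m * H - m * t * G with hE
  have hH0 : 0 < H := by positivity
  have hG0 : 0 < G := by positivity
  have hd : t - s2T N t = 2 * m * t * (t - 1) / H := by
    rw [s2T, ← hm, ← hH, sub_div' hH0.ne', hH]; ring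
  have hr : s2T N t - 1 = N ^ 2 * (1 + t) * (t - 1) / H := by
    rw [s2T, ← hm, ← hH, div_sub_one hH0.ne', hH]; ring
  have hk : k0 N p q (s2T N t) = E * (N * H - m * G) / (N * m * H * (G + H)) := by
    have e : p + 2 = N * (1 + t) / m + 1 := by linarith
    rw [k0, ← ht, e, s2T, ← hm, ← hH, ← hG, hE]
    field_simp
  have hh : N * (q + 1) + 2 = H / (m * t) := by rw [e2, hH]; field_simp
  have hC : extC0 N p q
      = (p + 1) * (t - s2T N t) / 5 * (5 * E * (N * H - m * G) / (H ^ 2 * (G + H))) := by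
    rw [extC0, extS2_eq_s2T (by linarith) hq hpq hcrit ht, hr, hk, hh, hd, e1]
    field_simp
  have hE1 : E ≤ N * (1 + t) * H := by
    have : m * (H - t * G) = m * (N ^ 2 * (1 + t) * (1 - t)) := by rw [hH, hG]; ring
    have : m * (N ^ 2 * (1 + t) * (1 - t)) ≤ 0 :=
      mul_nonpos_of_nonneg_of_nonpos hm0.le
        (mul_nonpos_of_nonneg_of_nonpos (by positivity) (by linarith))
    rw [hE]; linarith
  have hP0 : 0 ≤ N * H - m * G := by
    have : N * H - m * G = 2 * N ^ 2 * (1 + t) + 2 * m * (N * t - m) := by rw [hH, hG, hm]; ring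
    rw [this]
    have : 0 ≤ N * t - m := by nlinarith
    positivity
  have hP1 : N * H - m * G ≤ (2 * N ^ 2 + 4 * m) * (1 + t) := by
    have e : N * H - m * G = 2 * N ^ 2 * (1 + t) + 2 * m * (N * t - m) := by rw [hH, hG, hm]; ring
    have : N * t - m ≤ 2 * (1 + t) := by rw [hm] at hA ⊢; linarith
    have := mul_le_mul_of_nonneg_left this (show 0 ≤ 2 * m by positivity)
    linarith
  have hK : 5 * (2 * N ^ 2 + 4 * m) ≤ N * (2 * N ^ 2 + 2 * m) := by
    rw [hm]; nlinarith [mul_le_mul_of_nonneg_left hN (sq_nonneg N)]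
  have hle : 5 * E * (N * H - m * G) / (H ^ 2 * (G + H)) ≤ 1 := by
    rw [div_le_one (by positivity)]
    calc 5 * E * (N * H - m * G) ≤ 5 * (N * (1 + t) * H) * ((2 * N ^ 2 + 4 * m) * (1 + t)) := by
          gcongr
      _ = N * (1 + t) ^ 2 * H * (5 * (2 * N ^ 2 + 4 * m)) := by ring
      _ ≤ N * (1 + t) ^ 2 * H * (N * (2 * N ^ 2 + 2 * m)) := by gcongr
      _ = H * (N ^ 2 * (1 + t)) * (G + H) := by rw [hH, hG]; ring
      _ ≤ H ^ 2 * (G + H) := by
          rw [show H ^ 2 = H * H from sq H]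
          gcongr
          rw [hH]
          linarith [show 0 ≤ 2 * m * t by positivity]
  have h1 : extC0 N p q ≤ (p + 1) * (t - s2T N t) / 5 := by
    rw [hC]
    refine mul_le_of_le_one_right ?_ hle
    rw [hd, e1]
    have : 0 ≤ t - 1 := by linarith
    positivity
  refine ⟨h1, h1.trans ?_⟩
  rw [hd, hr, e1]
  have ht0 : 0 ≤ t - 1 := by linarith
  rw [show N * (1 + t) / m * (2 * m * t * (t - 1) / H) / 5
    = 2 / 5 * ((1 + t) * (t - 1) / (m * H)) * (N * (m * t)) by field_simp,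
    show 2 / 5 * (N ^ 2 * (1 + t) * (t - 1) / H / m)
    = 2 / 5 * ((1 + t) * (t - 1) / (m * H)) * (N * N) by field_simp]
  exact mul_le_mul_of_nonneg_left (mul_le_mul_of_nonneg_left hA hn.le) (by positivity)

/-- `C₀` against `s₂ - σ∞` when `σ∞ = (N-2) T / N`. -/
lemma extC0_large (hN : 6 ≤ N) (hq : 0 < q) (hpq : q < p)
    (hcrit : N / (p + 1) + N / (q + 1) = N - 2) {t : ℝ} (ht : t = (p + 1) / (q + 1))
    (hB : N ≤ (N - 2) * t) :
    extC0 N p q / (5 * (p + 1)) ≤ 2 / (5 * N) * ((t - 1) / (t + 1)) * rT N t ∧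
      extC0 N p q / 100 ≤ 12 / 1000 * (aT N t * rT N t) ∧
      boxR N p q = rT N t ∧ upA N p q = aT N t ∧ upSi N p q = (N - 2) * t / N := by
  obtain ⟨e1, -, ht1⟩ := pq_eq (show 2 < N by linarith) hq hpq hcrit ht
  have hm : 0 < N - 2 := by linarith
  have hn : 0 < N := by linarith
  have hN1 : 0 < N - 1 := by linarith
  have hs : sEq N p q = (N - 2) * t / N := by rw [sEq, ← ht]; ring
  have h1 : 1 ≤ sEq N p q := by rw [hs, le_div_iff₀ hn]; linarith
  have hr : boxR N p q = rT N t := by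
    rw [boxR, max_eq_right h1, hs, extS2_eq_s2T (by linarith) hq hpq hcrit ht, rT]
  have hu : upSi N p q = (N - 2) * t / N := (max_eq_right h1).trans hs
  have hA : upA N p q = aT N t := by rw [upA, hu, aT]
  have hr0 : 0 ≤ rT N t := hr ▸ (boxR_pos (N := N) (by linarith) hq hpq).le
  have hC := extC0_le_mul_boxR hN hq hpq hcrit h1
  rw [hr, ← ht] at hC
  refine ⟨?_, ?_, hr, hA, hu⟩
  · rw [e1, div_le_iff₀ (by positivity)]
    refine hC.trans ?_
    rw [show 2 / (5 * N) * ((t - 1) / (t + 1)) * rT N t * (5 * (N * (1 + t) / (N - 2)))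
      = 2 * (t - 1) * (1 / (N - 2)) * rT N t by field_simp; ring]
    refine mul_le_mul_of_nonneg_right ?_ hr0
    rw [mul_div_assoc]
    refine mul_le_mul_of_nonneg_left ?_ (by linarith)
    rw [div_le_div_iff₀ (by positivity) hm]
    nlinarith
  · have hd : 0 ≤ (N - 2) * t / N - 1 := by rw [sub_nonneg, le_div_iff₀ hn]; linarith
    have h : 2 * (t - 1) * (N - 1) / N ^ 2 ≤ 6 / 5 * aT N t := by
      have et : t - 1 = (N * ((N - 2) * t / N - 1) + 2) / (N - 2) := by field_simp; ring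
      rw [et, aT]
      generalize (N - 2) * t / N - 1 = d at hd
      have hE : 6 / 5 * (2 / (N - 2) + 19 / 10 * d / (N - 1))
          - 2 * ((N * d + 2) / (N - 2)) * (N - 1) / N ^ 2
          = ((12 / 5 * N ^ 2 - 4 * (N - 1)) * (N - 1)
            + d * (57 / 25 * (N - 2) * N ^ 2 - 2 * N * (N - 1) ^ 2)) / ((N - 2) * (N - 1) * N ^ 2) := by
        field_simp; ring
      have k1 : 0 ≤ 12 / 5 * N ^ 2 - 4 * (N - 1) := by nlinarith
      have k2 : 0 ≤ 57 / 25 * (N - 2) * N ^ 2 - 2 * N * (N - 1) ^ 2 := by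
        have : 0 ≤ 57 / 25 * (N - 2) * N - 2 * (N - 1) ^ 2 := by nlinarith
        have := mul_nonneg hn.le this
        linarith
      have := div_nonneg (add_nonneg (mul_nonneg k1 hN1.le) (mul_nonneg hd k2))
        (show 0 ≤ (N - 2) * (N - 1) * N ^ 2 by positivity)
      rw [← hE] at this
      linarith
    have := mul_le_mul_of_nonneg_right h hr0
    linarith

end facts

end Vale.Agent.P100T.BoxDisc
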