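import Vale.Agent.P100T.PosCheck

/-!
Algebra of the lower line `W = k (σ - σm)`: `linePhi ≥ 0` for `σm ≤ σ < s2`, `N ≥ 6` and
`1 < T < (7N-17)/5`, by coefficient positivity of four cleared polynomials.
-/

noncomputable section

namespace Vale.Agent.P100T

/-- The slope `k` of the lower line. -/
def lineK (N T : ℝ) : ℝ :=
  (T - 1) / N * (2 / 5 + (T - 1) / (T + 5)) + 4 / N ^ 3

/-- The end `s2` in terms of `T`. -/
def lineS2 (N T : ℝ) : ℝ :=
  T * (N ^ 2 * (1 + T) + 2 * (N - 2)) / (N ^ 2 * (1 + T) + 2 * (N - 2) * T)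

/-- The offset denominator of the lower line. -/
def lineM (N T : ℝ) : ℝ :=
  3 * T ^ 2 + N * (T - 1) ^ 2 / (4 * T ^ 2)

/-- The start of the lower line. -/
def lineSm (N T : ℝ) : ℝ :=
  max 1 ((N - 2) * T / N) + (lineS2 N T - max 1 ((N - 2) * T / N)) / lineM N T

/-- `(N+4)(σ+T)(Wd - kW)/σ` in `w = W/σ`. -/
def linePhi (N T k s w : ℝ) : ℝ :=
  (N + 4) * (s + T) * (w * w - (s + k) * w)
    + w * ((2 * T - 4 * s) * (N * (1 + T) / (N - 2) + 1 - s - w) - N * (s + T))
    + (N * (1 + T) / ((N - 2) * T) * s - (1 + T))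
      * ((s - 1) * (N * T - (N - 2) * s) - (N - 2) * s * w)

lemma lineM_ge {N : ℝ} (hN : 0 < N) (T : ℝ) : 3 * T ^ 2 ≤ lineM N T := by
  unfold lineM; linarith [show 0 ≤ N * (T - 1) ^ 2 / (4 * T ^ 2) by positivity]

namespace LinePos

open PosCheck

instance (k : ℕ) : OfNat Ex k := ⟨.num k⟩
instance : Add Ex := ⟨.add⟩
instance : Sub Ex := ⟨.sub⟩
instance : Mul Ex := ⟨.mul⟩

variable {X Y Z : ℝ}

lemma eval_add (a b : Ex) : (a + b).eval X Y Z = a.eval X Y Z + b.eval X Y Z := rfl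
lemma eval_sub (a b : Ex) : (a - b).eval X Y Z = a.eval X Y Z - b.eval X Y Z := rfl
lemma eval_mul (a b : Ex) : (a * b).eval X Y Z = a.eval X Y Z * b.eval X Y Z := rfl
lemma eval_num (k : ℕ) : (no_index (OfNat.ofNat k) : Ex).eval X Y Z = (k : ℝ) := by
  show (((k : ℤ)) : ℝ) = (k : ℝ)
  simp

def eN : Ex := .x + 6
def eh : Ex := .x + 4
def eD (Tn Td : Ex) : Ex := eN * eN * (Td + Tn) + eh * Tn * 2
def eS2 (Tn Td : Ex) : Ex := Tn * (eN * eN * (Td + Tn) + eh * Td * 2)
def eR (Tn Td si : Ex) : Ex := eS2 Tn Td * eN - si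
def eM (Tn Td : Ex) : Ex :=
  Tn * Tn * Tn * Tn * 12 + eN * (Tn - Td) * (Tn - Td) * Td * Td
def eL (Tn Td : Ex) : Ex := Tn * Tn * Td * Td * 4
def eZ (za zb : Ex) : Ex := .z * zb + za
def ed1 (Tn Td zd : Ex) : Ex := Td * eD Tn Td * eN * eM Tn Td * (.z + 1) * zd
def esn (Tn Td si za zb zd : Ex) : Ex :=
  si * eM Tn Td * (.z + 1) * zd
    + eR Tn Td si * (eL Tn Td * (.z + 1) * zd + (eM Tn Td - eL Tn Td) * eZ za zb)
def edl (Tn Td si za zb : Ex) : Ex := eR Tn Td si * (eM Tn Td - eL Tn Td) * eZ za zb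
def ekn (Tn Td : Ex) : Ex :=
  eN * eN * (Tn - Td) * ((Tn + Td * 5) * 2 + (Tn - Td) * 5) + Td * (Tn + Td * 5) * 20
def ekd (Tn Td : Ex) : Ex := eN * eN * eN * Td * (Tn + Td * 5) * 5

/-- The cleared polynomial. -/
def eP (Tn Td si za zb zd : Ex) : Ex :=
  let d1 := ed1 Tn Td zd
  let sn := esn Tn Td si za zb zd
  let wn := ekn Tn Td * edl Tn Td si za zb
  let kd := ekd Tn Td
  let wd := kd * sn
  let sT := sn * Td + Tn * d1
  let A := (eN + 4) * sT * (wn * wn * d1 * kd - (sn * kd + ekn Tn Td * d1) * wn * wd) * eh * Tn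
  let B := wn * ((Tn * d1 * 2 - sn * Td * 4)
      * ((eN * (Td + Tn) + eh * Td) * d1 * wd - sn * eh * Td * wd - wn * eh * Td * d1)
      - eN * sT * eh * Td * d1 * wd)
  let e := eN * (Td + Tn) * sn * Td - (Td + Tn) * eh * Tn * d1
  let g := (sn - d1) * (eN * Tn * d1 - eh * sn * Td) * wd - eh * sn * wn * Td * d1
  A * d1 * Td + B * d1 * kd * Tn + e * g * wd * kd

def eTdA : Ex := eh * (.y + 1)
def eTnA : Ex := eh * (.y + 1) + .y * 2
def eSiA : Ex := eTdA * eD eTnA eTdA * eN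
def eTdB : Ex := eh * (.y + 1) * 5
def eTnB : Ex := eN * 5 + eh * (eN * 7 - 17) * .y
def eSiB : Ex := eh * eTnB * eD eTnB eTdB

theorem checkA1 : check (eP eTnA eTdA eSiA 0 1 4) = true := by decide +kernel
theorem checkA2 : check (eP eTnA eTdA eSiA 1 4 4) = true := by decide +kernel
theorem checkB1 : check (eP eTnB eTdB eSiB 0 1 4) = true := by decide +kernel
theorem checkB2 : check (eP eTnB eTdB eSiB 1 4 4) = true := by decide +kernel

/-- The algebra that turns the cleared polynomial into `linePhi`. -/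
lemma clear_eq {N T k s w Tn Td d1 sn wn kn kd : ℝ} (hT : Tn = T * Td) (hs : sn = s * d1)
    (hk : kn = k * kd) (hw : wn = w * (kd * sn)) (hN : N - 2 ≠ 0) (hT0 : T ≠ 0) :
    (N + 4) * (sn * Td + Tn * d1)
          * (wn * wn * d1 * kd - (sn * kd + kn * d1) * wn * (kd * sn)) * (N - 2) * Tn * d1 * Td
        + wn * ((Tn * d1 * 2 - sn * Td * 4) * ((N * (Td + Tn) + (N - 2) * Td) * d1 * (kd * sn)
            - sn * (N - 2) * Td * (kd * sn) - wn * (N - 2) * Td * d1)
          - N * (sn * Td + Tn * d1) * (N - 2) * Td * d1 * (kd * sn)) * d1 * kd * Tn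
        + (N * (Td + Tn) * sn * Td - (Td + Tn) * (N - 2) * Tn * d1)
          * ((sn - d1) * (N * Tn * d1 - (N - 2) * sn * Td) * (kd * sn)
            - (N - 2) * sn * wn * Td * d1) * (kd * sn) * kd
      = linePhi N T k s w * (d1 ^ 3 * Td ^ 3 * kd * (kd * sn) ^ 2 * (N - 2) * T) := by
  subst hw hk hs hT
  simp only [linePhi]
  field_simp

lemma piece_pos {σi S T p q : ℝ} (hσi : 1 ≤ σi) (hs2 : σi ≤ S) (hT : 1 ≤ T) (hp : 0 ≤ p)
    (hq : 0 ≤ q) : 0 < σi + (S - σi) / T + (S - (σi + (S - σi) / T)) * (p / q) := by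
  have h1 : (S - σi) / T ≤ S - σi := div_le_self (sub_nonneg.2 hs2) hT
  have h2 : 0 ≤ (S - (σi + (S - σi) / T)) * (p / q) :=
    mul_nonneg (by linarith) (div_nonneg hp hq)
  have h3 : 0 ≤ (S - σi) / T := div_nonneg (sub_nonneg.2 hs2) (by linarith)
  linarith

/-- One piece. -/
lemma piece {Tn Td si za zb zd : Ex} (hc : check (eP Tn Td si za zb zd) = true) {N T σi : ℝ}
    (hN : 6 ≤ N) {Y Z : ℝ} (hY : 0 ≤ Y) (hZ : 0 ≤ Z)
    (hT : Tn.eval (N - 6) Y Z = T * Td.eval (N - 6) Y Z) (hTd : 0 < Td.eval (N - 6) Y Z)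
    (hT1 : 1 < T)
    (hsi : si.eval (N - 6) Y Z
      = σi * (Td.eval (N - 6) Y Z * (eD Tn Td).eval (N - 6) Y Z * N)) (hσi : 1 ≤ σi)
    (hs2 : σi ≤ lineS2 N T)
    {a b d : ℕ} (hza : za = OfNat.ofNat a) (hzb : zb = OfNat.ofNat b) (hzd : zd = OfNat.ofNat d)
    (hd : 0 < d) {s : ℝ}
    (hs : s = σi + (lineS2 N T - σi) / lineM N T
      + (lineS2 N T - (σi + (lineS2 N T - σi) / lineM N T)) * ((Z * b + a) / ((Z + 1) * d))) :
    0 ≤ linePhi N T (lineK N T) s
      (lineK N T * (s - (σi + (lineS2 N T - σi) / lineM N T)) / s) := by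
  have hP := nonneg_of_check hc (show (0 : ℝ) ≤ N - 6 by linarith) hY hZ
  set td := Td.eval (N - 6) Y Z with htd
  have hN0 : (0 : ℝ) < N := by linarith
  have hN2 : (0 : ℝ) < N - 2 := by linarith
  have hT0 : 0 < T := by linarith
  have e6 : (eN).eval (N - 6) Y Z = N := by
    simp only [eN, eval_add, Ex.eval]; push_cast; ring
  have e4 : (eh).eval (N - 6) Y Z = N - 2 := by
    simp only [eh, eval_add, Ex.eval]; push_cast; ring
  have eZ1 : (Ex.z + 1 : Ex).eval (N - 6) Y Z = Z + 1 := by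
    simp only [Ex.eval]; push_cast; ring
  set D := N ^ 2 * (1 + T) + 2 * (N - 2) * T with hD
  have hD0 : 0 < D := by positivity
  have eDv : (eD Tn Td).eval (N - 6) Y Z = D * td := by
    simp only [eD, eval_add, eval_mul, eval_num, e6, e4, hT, ← htd]; push_cast; rw [hD]; ring
  have eS2v : (eS2 Tn Td).eval (N - 6) Y Z = lineS2 N T * (D * td * td) := by
    simp only [eS2, eval_add, eval_mul, eval_num, e6, e4, hT, ← htd]
    simp only [lineS2, ← hD]; push_cast; field_simp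
  rw [eDv] at hsi
  have eRv : (eR Tn Td si).eval (N - 6) Y Z = (lineS2 N T - σi) * (td * (D * td) * N) := by
    simp only [eR, eval_sub, eval_mul, eS2v, e6, hsi]; ring
  have hM1 : 1 ≤ lineM N T :=
    le_trans (by nlinarith only [hT1]) (lineM_ge hN0 T)
  have hM : 0 < lineM N T := lt_of_lt_of_le one_pos hM1
  have eMv : (eM Tn Td).eval (N - 6) Y Z = lineM N T * (4 * T ^ 2 * (td * td * (td * td))) := by
    simp only [eM, eval_add, eval_sub, eval_mul, eval_num, e6, hT, ← htd, lineM]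
    push_cast
    field_simp
    ring
  have eLv : (eL Tn Td).eval (N - 6) Y Z = 4 * T ^ 2 * (td * td * (td * td)) := by
    simp only [eL, eval_mul, eval_num, hT, ← htd]; push_cast; ring
  set d1 := td * (D * td) * N * (lineM N T * (4 * T ^ 2 * (td * td * (td * td)))) * (Z + 1) * d
    with hd1d
  have hd' : (0 : ℝ) < d := by exact_mod_cast hd
  have ed1v : (ed1 Tn Td zd).eval (N - 6) Y Z = d1 := by
    rw [ed1, hzd]; simp only [eval_mul, eDv, e6, eMv, eZ1, eval_num, ← htd, hd1d]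
  have eZv : (eZ za zb).eval (N - 6) Y Z = Z * b + a := by
    rw [eZ, hza, hzb]; simp only [Ex.eval, Int.cast_natCast]
  have esnv : (esn Tn Td si za zb zd).eval (N - 6) Y Z = s * d1 := by
    rw [esn, hzd, hs]
    simp only [eval_add, eval_sub, eval_mul, hsi, eRv, eMv, eLv, eZ1, eZv, eval_num, hd1d]
    field_simp
    ring
  have edlv : (edl Tn Td si za zb).eval (N - 6) Y Z
      = (s - (σi + (lineS2 N T - σi) / lineM N T)) * d1 := by
    rw [edl, hs]
    simp only [eval_sub, eval_mul, eRv, eMv, eLv, eZv, hd1d]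
    field_simp
    ring
  set kd := N * N * N * td * (T * td + td * 5) * 5 with hkd
  have ekdv : (ekd Tn Td).eval (N - 6) Y Z = kd := by
    simp only [ekd, eval_add, eval_mul, eval_num, e6, hT, ← htd, hkd]; push_cast; ring
  have eknv : (ekn Tn Td).eval (N - 6) Y Z = lineK N T * kd := by
    simp only [ekn, eval_add, eval_sub, eval_mul, eval_num, e6, hT, ← htd, hkd, lineK]
    have : T + 5 ≠ 0 := by linarith
    push_cast
    field_simp
    ring
  have hd10 : 0 < d1 := by rw [hd1d]; positivity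
  have hkd0 : 0 < kd := by rw [hkd]; positivity
  have hs0 : 0 < s := by
    rw [hs]; exact piece_pos hσi hs2 hM1 (by positivity) (by positivity)
  simp only [eP, eval_add, eval_sub, eval_mul, eval_num, e6, e4, ed1v, esnv, edlv, ekdv, eknv,
    ← htd] at hP
  push_cast at hP
  have key := clear_eq (N := N) (T := T) (k := lineK N T) (s := s)
    (w := lineK N T * (s - (σi + (lineS2 N T - σi) / lineM N T)) / s)
    (Tn := Tn.eval (N - 6) Y Z) (Td := td) (d1 := d1) (sn := s * d1)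
    (wn := lineK N T * kd * ((s - (σi + (lineS2 N T - σi) / lineM N T)) * d1))
    (kn := lineK N T * kd) (kd := kd) hT rfl rfl (by field_simp) hN2.ne' hT0.ne'
  exact nonneg_of_mul_nonneg_left (key ▸ hP) (by positivity)

lemma zA {z : ℝ} (h : z < 1 / 4) :
    (z / (1 / 4 - z) * ((1 : ℕ) : ℝ) + ((0 : ℕ) : ℝ)) / ((z / (1 / 4 - z) + 1) * ((4 : ℕ) : ℝ))
      = z := by
  have hne : 1 / 4 - z ≠ 0 := by linarith
  rw [div_add_one hne]; norm_num; field_simp
  exact mul_div_cancel_right₀ z (by linarith)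

lemma zB {z : ℝ} (h : z < 1) :
    ((z - 1 / 4) / (1 - z) * ((4 : ℕ) : ℝ) + ((1 : ℕ) : ℝ))
        / (((z - 1 / 4) / (1 - z) + 1) * ((4 : ℕ) : ℝ)) = z := by
  have hne : 1 - z ≠ 0 := by linarith
  have e : (z - 1 / 4) / (1 - z) + 1 = 3 / 4 / (1 - z) := by
    rw [div_add_one hne]; ring
  rw [e]; push_cast; field_simp; ring

end LinePos

open LinePos PosCheck in
/-- **`linePhi ≥ 0` on the lower line.** -/
theorem linePhi_nonneg {N T s : ℝ} (hN : 6 ≤ N) (hT : 1 < T) (hTB : T < (7 * N - 17) / 5)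
    (hs : lineSm N T ≤ s) (hs' : s < lineS2 N T) :
    0 ≤ linePhi N T (lineK N T) s (lineK N T * (s - lineSm N T) / s) := by
  have hN2 : (0 : ℝ) < N - 2 := by linarith
  have hN0 : (0 : ℝ) < N := by linarith
  have hD : 0 < N ^ 2 * (1 + T) + 2 * (N - 2) * T := by positivity
  set σi := max 1 ((N - 2) * T / N) with hσi
  have hsm : lineSm N T = σi + (lineS2 N T - σi) / lineM N T := rfl
  have hs2 : σi ≤ lineS2 N T := by
    refine max_le ?_ ?_
    · rw [lineS2, le_div_iff₀ hD]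
      nlinarith [mul_pos (sub_pos.2 hT) (show (0 : ℝ) < N ^ 2 * (1 + T) by positivity)]
    · rw [lineS2, div_le_div_iff₀ hN0 hD]
      have h1 : (N - 2) * (N - 2) * T < N ^ 2 * (1 + T) := by
        nlinarith [mul_pos (show 0 < T by linarith) (show (0 : ℝ) < 4 * N - 4 by linarith)]
      have h2 : (N - 2) * (N ^ 2 * (1 + T) + 2 * (N - 2) * T)
          ≤ N * (N ^ 2 * (1 + T) + 2 * (N - 2)) := by nlinarith
      linarith [mul_le_mul_of_nonneg_left h2 (show 0 ≤ T by linarith)]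
  set z := (s - lineSm N T) / (lineS2 N T - lineSm N T) with hz
  have hgap : 0 < lineS2 N T - lineSm N T := by linarith
  have hz0 : 0 ≤ z := div_nonneg (by linarith) hgap.le
  have hz1 : z < 1 := (div_lt_one hgap).2 (by linarith)
  have hszz : s = σi + (lineS2 N T - σi) / lineM N T
      + (lineS2 N T - (σi + (lineS2 N T - σi) / lineM N T)) * z := by
    rw [← hsm, hz, mul_div_cancel₀ _ hgap.ne']; ring
  rw [hsm]
  rcases lt_or_ge ((N - 2) * T) N with hA | hB
  · have hσ : σi = 1 := max_eq_left ((div_le_one hN0).2 hA.le)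
    set Y := (N - 2) * (T - 1) / (N - (N - 2) * T) with hY
    have hY0 : 0 ≤ Y := div_nonneg (mul_nonneg hN2.le (by linarith)) (by linarith)
    have hTd : ∀ Z, eTdA.eval (N - 6) Y Z = (N - 2) * (Y + 1) := fun Z => by
      simp only [eTdA, eh, eval_mul, Ex.eval]; push_cast; ring
    have hTn : ∀ Z, eTnA.eval (N - 6) Y Z = T * eTdA.eval (N - 6) Y Z := fun Z => by
      have hne : N - (N - 2) * T ≠ 0 := by linarith
      simp only [eTnA, eTdA, eh, eval_add, eval_mul, Ex.eval]; push_cast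
      rw [hY]; field_simp; ring
    have hSi : ∀ Z, eSiA.eval (N - 6) Y Z
        = σi * (eTdA.eval (N - 6) Y Z * (eD eTnA eTdA).eval (N - 6) Y Z * N) := fun Z => by
      rw [hσ, eSiA]; simp only [eN, eval_add, Ex.eval]; push_cast; ring
    rcases lt_or_ge z (1 / 4) with h4 | h4
    · set Z := z / (1 / 4 - z) with hZ
      have hne : 1 / 4 - z ≠ 0 := by linarith
      refine piece checkA1 hN hY0 (div_nonneg hz0 (by linarith) : 0 ≤ Z) (hTn Z)
        (by rw [hTd]; positivity) hT (hSi Z) (le_max_left _ _) hs2 rfl rfl rfl (by norm_num) ?_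
      rw [zA h4]; exact hszz
    · set Z := (z - 1 / 4) / (1 - z) with hZ
      have hne : 1 - z ≠ 0 := by linarith
      refine piece checkA2 hN hY0 (div_nonneg (by linarith) (by linarith) : 0 ≤ Z) (hTn Z)
        (by rw [hTd]; positivity) hT (hSi Z) (le_max_left _ _) hs2 rfl rfl rfl (by norm_num) ?_
      rw [zB hz1]; exact hszz
  · have hσ : σi = (N - 2) * T / N := max_eq_right ((one_le_div hN0).2 hB)
    set Y := (T - N / (N - 2)) / ((7 * N - 17) / 5 - T) with hY
    have hY0 : 0 ≤ Y := div_nonneg (by rw [sub_nonneg, div_le_iff₀ hN2]; linarith) (by linarith)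
    have hTd : ∀ Z, eTdB.eval (N - 6) Y Z = (N - 2) * (Y + 1) * 5 := fun Z => by
      simp only [eTdB, eh, eval_mul, Ex.eval]; push_cast; ring
    have hTn : ∀ Z, eTnB.eval (N - 6) Y Z = T * eTdB.eval (N - 6) Y Z := fun Z => by
      have hne : (7 * N - 17) / 5 - T ≠ 0 := by linarith
      have hm : Y * ((N - 2) * (7 * N - 17 - 5 * T)) = 5 * ((N - 2) * T - N) := by
        rw [hY, div_mul_eq_mul_div, div_eq_iff hne]; field_simp
      simp only [eTnB, eTdB, eh, eN, eval_add, eval_sub, eval_mul, Ex.eval]; push_cast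
      linear_combination hm
    have hSi : ∀ Z, eSiB.eval (N - 6) Y Z
        = σi * (eTdB.eval (N - 6) Y Z * (eD eTnB eTdB).eval (N - 6) Y Z * N) := fun Z => by
      rw [hσ, eSiB]; simp only [eh, eval_add, Ex.eval, hTn Z]; push_cast
      field_simp; ring
    rcases lt_or_ge z (1 / 4) with h4 | h4
    · set Z := z / (1 / 4 - z) with hZ
      have hne : 1 / 4 - z ≠ 0 := by linarith
      refine piece checkB1 hN hY0 (div_nonneg hz0 (by linarith) : 0 ≤ Z) (hTn Z)
        (by rw [hTd]; positivity) hT (hSi Z) (le_max_left _ _) hs2 rfl rfl rfl (by norm_num) ?_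
      rw [zA h4]; exact hszz
    · set Z := (z - 1 / 4) / (1 - z) with hZ
      have hne : 1 - z ≠ 0 := by linarith
      refine piece checkB2 hN hY0 (div_nonneg (by linarith) (by linarith) : 0 ≤ Z) (hTn Z)
        (by rw [hTd]; positivity) hT (hSi Z) (le_max_left _ _) hs2 rfl rfl rfl (by norm_num) ?_
      rw [zB hz1]; exact hszz

end Vale.Agent.P100T
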