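import Vale.Agent.P100T.BoxDiscGeo
import Vale.Agent.P100T.LinePos

/-!
The lower line is below the upper curve on the last fifth `[s₂ - r/5, s₂]`.
-/

noncomputable section

namespace Vale.Agent.P100T

open BoxDisc

namespace BoxDisc

lemma lineK_nonneg {N t : ℝ} (hN : 0 < N) (ht : 1 < t) : 0 ≤ lineK N t := by
  have : 0 < t - 1 := by linarith
  unfold lineK; positivity

/-- The slope of the line against `A / 5` when `σ∞ = 1`. -/
lemma lineK_small {N t : ℝ} (hN : 6 ≤ N) (ht : 1 < t) (hA : (N - 2) * t ≤ N) :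
    lineK N t ≤ 2 / 5 / (N - 2) := by
  have hm : 0 < N - 2 := by linarith
  have hn : 0 < N := by linarith
  have h0 : 0 ≤ t - 1 := by linarith
  have h1 : t - 1 ≤ 2 / (N - 2) := by rw [le_div_iff₀ hm]; linarith
  have h2 : t - 1 ≤ 1 / 2 := h1.trans (by rw [div_le_div_iff₀ hm (by norm_num)]; linarith)
  have h3 : (t - 1) / (t + 5) ≤ 1 / 10 := by rw [div_le_iff₀ (by linarith)]; linarith
  calc lineK N t ≤ 2 / (N - 2) / N * (1 / 2) + 4 / N ^ 3 := by
        have h4 : 2 / 5 + (t - 1) / (t + 5) ≤ 1 / 2 := by linarith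
        rw [lineK]
        gcongr
    _ ≤ 2 / 5 / (N - 2) := by
        have h6 : 1 / N ≤ 1 / 6 := one_div_le_one_div_of_le (by norm_num) hN
        have h7 : 4 * (N - 2) / N ^ 3 ≤ 1 / 9 := by
          rw [div_le_div_iff₀ (by positivity) (by norm_num)]
          nlinarith [mul_le_mul_of_nonneg_left hN (sq_nonneg N), mul_le_mul hN hN (by norm_num) hn.le]
        rw [show 2 / (N - 2) / N * (1 / 2) + 4 / N ^ 3
          = (1 / N + 4 * (N - 2) / N ^ 3) / (N - 2) by field_simp]
        gcongr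
        linarith

/-- The slope of the line against the curve when `σ∞ = (N-2) T / N`. -/
lemma lineK_large {N t : ℝ} (hN : 6 ≤ N) (hB : N ≤ (N - 2) * t) (hT : t < (7 * N - 17) / 5) :
    lineK N t ≤ aT N t * (4 / 5 * (1 - 3 / 4 / (1 + 2 * xT N t))
      + 11 / 100 * (xT N t / (xT N t + 6))) := by
  have hm : 0 < N - 2 := by linarith
  have hn : 0 < N := by linarith
  have hN1 : 0 < N - 1 := by linarith
  have ht : 1 < t := by nlinarith
  have hx : 0 ≤ xT N t := mul_nonneg hm.le (by rw [sub_nonneg, le_div_iff₀ hn]; linarith)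
  set Y := ((N - 2) * t - N) / ((N - 2) * ((7 * N - 17) / 5 - t)) with hY
  have hY0 : 0 ≤ Y := div_nonneg (by linarith) (mul_nonneg hm.le (by linarith))
  obtain ⟨a, ha⟩ : ∃ a, a = 5 * (N - 2) * (1 + Y) := ⟨_, rfl⟩
  have ha0 : 0 < a := by rw [ha]; positivity
  have hb : 5 * N + (N - 2) * (7 * N - 17) * Y = t * a := by
    have hm' : Y * ((N - 2) * ((7 * N - 17) / 5 - t)) = (N - 2) * t - N :=
      div_mul_cancel₀ _ (mul_pos hm (by linarith)).ne'
    rw [ha]; linear_combination 5 * hm'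
  have h := certLine hN hY0
  rw [hb, ← ha] at h
  have eA : gAn Int.cast N (N - 2) a (t * a) = aT N t * (10 * (N - 2) * (N - 1) * N * a) := by
    simp only [gAn, ee, aT, Int.cast_ofNat, Int.cast_one]; field_simp; ring
  have ee' : (N - 2) * ee N (N - 2) a (t * a) = N * a * xT N t := by
    rw [ee, xT]; field_simp
  simp only [gLine, eA, F3_eq hn.ne', F4_eq hn.ne', Int.cast_ofNat, Int.cast_one, mul_assoc,
    ee'] at h
  refine sub_nonneg.1 ?_
  refine le_of_lt (pos_of_mul_pos_left (b := 1000 * (N - 2) * (N - 1) * N ^ 5 * a ^ 4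
    * (1 + 2 * xT N t) * (xT N t + 6) * (t + 5)) ?_ (by positivity))
  refine lt_of_lt_of_eq h ?_
  rw [lineK]
  generalize xT N t = x at hx ⊢
  generalize aT N t = A
  field_simp
  ring

/-- `U` on the last fifth against its slope. -/
lemma upU_ge {N p q s : ℝ} (hN : 6 ≤ N) (hq : 0 < q) (hpq : q < p)
    (h1 : extS2 N p q - boxXmax N p q ≤ s) (h2 : s ≤ extS2 N p q) :
    upA N p q * boxR N p q * (4 / 5 * (1 - upBe N p q)) + upB N p q ≤ upU N p q s := by
  have hA := upA_nonneg (p := p) (q := q) hN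
  obtain ⟨hb0, hb1⟩ := upBe_box (p := p) (q := q) hN
  have hr := boxR_pos (N := N) (by linarith) hq hpq
  have e : extS2 N p q - upSi N p q = boxR N p q := rfl
  obtain ⟨y, hy⟩ : ∃ y, y = s - upSi N p q := ⟨_, rfl⟩
  have hy1 : y ≤ boxR N p q := by linarith
  have hy0 : 4 / 5 * boxR N p q ≤ y := by simp only [boxXmax] at h1; linarith
  have hU : upU N p q s = upA N p q * (y * (1 - upBe N p q * (y / boxR N p q))) + upB N p q := by
    simp only [upU, upR_eq_boxR, ← hy]; ring
  rw [hU, add_le_add_iff_right, mul_assoc]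
  refine mul_le_mul_of_nonneg_left ?_ hA
  have h3 : upBe N p q * (y / boxR N p q) ≤ upBe N p q :=
    mul_le_of_le_one_right hb0 ((div_le_one hr).2 hy1)
  calc boxR N p q * (4 / 5 * (1 - upBe N p q)) = 4 / 5 * boxR N p q * (1 - upBe N p q) := by ring
    _ ≤ y * (1 - upBe N p q) := mul_le_mul_of_nonneg_right hy0 (by linarith)
    _ ≤ y * (1 - upBe N p q * (y / boxR N p q)) :=
      mul_le_mul_of_nonneg_left (by linarith) (by linarith)

end BoxDisc

/-- **The lower line is below `U`** on `[s₂ - r/5, s₂]`. -/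
theorem lineK_le_upU {N p q s : ℝ} (hN : 6 ≤ N) (hq : 0 < q) (hpq : q < p)
    (hcrit : N / (p + 1) + N / (q + 1) = N - 2)
    (hT : (p + 1) / (q + 1) < (7 * N - 17) / 5)
    (h1 : extS2 N p q - boxXmax N p q ≤ s) (h2 : s ≤ extS2 N p q) :
    lineK N ((p + 1) / (q + 1)) * (s - lineSm N ((p + 1) / (q + 1))) ≤ upU N p q s := by
  refine le_trans ?_ (upU_ge hN hq hpq h1 h2)
  obtain ⟨t, ht⟩ : ∃ t, t = (p + 1) / (q + 1) := ⟨_, rfl⟩
  obtain ⟨e1, -, ht1⟩ := pq_eq (show 2 < N by linarith) hq hpq hcrit ht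
  rw [← ht] at hT ⊢
  have hn : 0 < N := by linarith
  have hm : 0 < N - 2 := by linarith
  have hr := boxR_pos (N := N) (by linarith) hq hpq
  have eS : extS2 N p q = lineS2 N t := extS2_eq_s2T (by linarith) hq hpq hcrit ht
  have hsE : sEq N p q = (N - 2) * t / N := by rw [sEq, ← ht]; ring
  have hy : s - lineSm N t ≤ boxR N p q := by
    have hM : 0 < lineM N t := by have := lineM_ge hn t; nlinarith
    have : 0 ≤ (lineS2 N t - max 1 ((N - 2) * t / N)) / lineM N t := by
      refine div_nonneg ?_ hM.le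
      rw [← eS, ← hsE]; exact hr.le
    rw [lineSm, boxR, hsE]
    linarith
  have hk := mul_le_mul_of_nonneg_left hy (lineK_nonneg hn ht1)
  refine hk.trans ?_
  rcases lt_or_ge ((N - 2) * t) N with hA | hB
  · have hu : upSi N p q = 1 := max_eq_left (by rw [hsE, div_le_one hn]; exact hA.le)
    have := mul_le_mul_of_nonneg_right (lineK_small hN ht1 hA.le) hr.le
    have eA : upA N p q = 2 / (N - 2) := by rw [upA, hu]; ring
    have eb : upBe N p q = 3 / 4 := by rw [upBe, hu]; ring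
    have eB : upB N p q = 0 := by rw [upB, hu]; ring
    rw [eA, eb, eB]
    rw [show 2 / (N - 2) * boxR N p q * (4 / 5 * (1 - 3 / 4)) + 0
      = 2 / 5 / (N - 2) * boxR N p q by ring]
    exact this
  · obtain ⟨-, -, er, eA, eu⟩ := extC0_large hN hq hpq hcrit ht hB
    have hbe : upBe N p q = 3 / 4 / (1 + 2 * xT N t) := by rw [upBe, eu, xT, mul_assoc]
    have hUB : upB N p q = 11 / 100 * aT N t * rT N t * (xT N t / (xT N t + 6)) := by
      rw [upB, upR_eq_boxR, er, eA, eu, xT]
    have := mul_le_mul_of_nonneg_right (lineK_large hN hB hT) hr.le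
    rw [hbe, hUB, eA, er]
    rw [er] at this
    linarith

end Vale.Agent.P100T
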