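import Vale.Agent.P100T.BoxDiscEval
import Vale.Agent.P100T.BoxDiscCertA
import Vale.Agent.P100T.BoxDiscCertB
import Vale.Agent.P100T.BoxDiscCertHi
import Vale.Agent.P100T.BoxDiscCertLo

/-!
The checked templates at real parameters.
-/

noncomputable section

namespace Vale.Agent.P100T.BoxDisc

open PosCheck

variable {X Y Z : ℝ}

lemma eval_eN (N : ℝ) : eN.eval (N - 6) Y Z = N := by
  show (N - 6) + ((6 : ℤ) : ℝ) = N
  push_cast; ring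

lemma eval_em (N : ℝ) : em.eval (N - 6) Y Z = N - 2 := by
  show (N - 6) + ((4 : ℤ) : ℝ) = N - 2
  push_cast; ring

lemma eval_aA (N : ℝ) : aA.eval (N - 6) Y Z = (N - 2) * (1 + Y) := by
  show em.eval (N - 6) Y Z * (((1 : ℤ) : ℝ) + Y) = _
  rw [eval_em]; push_cast; ring

lemma eval_bA (N : ℝ) : bA.eval (N - 6) Y Z = (N - 2) * (1 + Y) + 2 * Y := by
  show em.eval (N - 6) Y Z * (((1 : ℤ) : ℝ) + Y) + ((2 : ℤ) : ℝ) * Y = _
  rw [eval_em]; push_cast; ring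

lemma eval_aB (N : ℝ) : aB.eval (N - 6) Y Z = 5 * (N - 2) * (1 + Y) := by
  show ((5 : ℤ) : ℝ) * em.eval (N - 6) Y Z * (((1 : ℤ) : ℝ) + Y) = _
  rw [eval_em]; push_cast; ring

lemma eval_bB (N : ℝ) :
    bB.eval (N - 6) Y Z = 5 * N + (N - 2) * (7 * N - 17) * Y := by
  show ((5 : ℤ) : ℝ) * eN.eval (N - 6) Y Z + em.eval (N - 6) Y Z
    * (((7 : ℤ) : ℝ) * eN.eval (N - 6) Y Z - ((17 : ℤ) : ℝ)) * Y = _
  rw [eval_em, eval_eN]; push_cast; ring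

lemma eval_n (j : ℤ) : (n j).eval X Y Z = (j : ℝ) := rfl

lemma eval_eLd : eLd.eval X Y Z = 1 + Z := by
  show ((1 : ℤ) : ℝ) + Z = 1 + Z
  rw [Int.cast_one]

/-- `pDisc` of `ptA` at real parameters. -/
def dA (N a b Ln Ld w : ℝ) : ℝ := pDisc Int.cast (ptA Int.cast N (N - 2) a b Ln Ld w)
/-- `pCon` of `ptA` at real parameters. -/
def kA (N a b Ln Ld w : ℝ) : ℝ := pCon Int.cast (ptA Int.cast N (N - 2) a b Ln Ld w)

lemma eval_dA (w : ℤ) (Ln Ld : Ex) :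
    (pDisc n (tA w Ln Ld)).eval X Y Z = pDisc Int.cast (ptA Int.cast (eN.eval X Y Z)
      (em.eval X Y Z) (aA.eval X Y Z) (bA.eval X Y Z) (Ln.eval X Y Z) (Ld.eval X Y Z) (w : ℝ)) :=
  rfl

lemma eval_kA (w : ℤ) (Ln Ld : Ex) :
    (pCon n (tA w Ln Ld)).eval X Y Z = pCon Int.cast (ptA Int.cast (eN.eval X Y Z)
      (em.eval X Y Z) (aA.eval X Y Z) (bA.eval X Y Z) (Ln.eval X Y Z) (Ld.eval X Y Z) (w : ℝ)) :=
  rfl

lemma dA_pos {N Y Z Vn Vd : ℝ} {w : ℤ} {Ln Ld : Ex}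
    (hc : check (lessY (pDisc n (tA w Ln Ld)) 4) = true) (hN : 6 ≤ N) (hY : 0 < Y) (hZ : 0 ≤ Z)
    (hn : Ln.eval (N - 6) Y Z = Vn) (hd : Ld.eval (N - 6) Y Z = Vd) :
    0 < dA N ((N - 2) * (1 + Y)) ((N - 2) * (1 + Y) + 2 * Y) Vn Vd w := by
  have h : (0 : ℝ) ≤ (pDisc n (tA w Ln Ld)).eval (N - 6) Y Z - Y ^ 4 :=
    nonneg_of_check hc (by linarith) hY.le hZ
  rw [eval_dA, eval_eN, eval_em, eval_aA, eval_bA, hn, hd] at h
  rw [dA]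
  linarith [pow_pos hY 4]

lemma kA_pos {N Y Z Vn Vd : ℝ} {w : ℤ} {Ln Ld : Ex}
    (hc : check (lessY (pCon n (tA w Ln Ld)) 2) = true) (hN : 6 ≤ N) (hY : 0 < Y) (hZ : 0 ≤ Z)
    (hn : Ln.eval (N - 6) Y Z = Vn) (hd : Ld.eval (N - 6) Y Z = Vd) :
    0 < kA N ((N - 2) * (1 + Y)) ((N - 2) * (1 + Y) + 2 * Y) Vn Vd w := by
  have h : (0 : ℝ) ≤ (pCon n (tA w Ln Ld)).eval (N - 6) Y Z - Y ^ 2 :=
    nonneg_of_check hc (by linarith) hY.le hZ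
  rw [eval_kA, eval_eN, eval_em, eval_aA, eval_bA, hn, hd] at h
  rw [kA]
  linarith [pow_pos hY 2]

/-- The three signs at the position `lam` when `σ∞ = 1`. -/
theorem certA {N Y lam : ℝ} (hN : 6 ≤ N) (hY : 0 < Y) (h0 : 0 ≤ lam) (h1 : lam ≤ 1) :
    ∃ Ln Ld : ℝ, 0 < Ld ∧ Ln / Ld = lam ∧
      0 < dA N ((N - 2) * (1 + Y)) ((N - 2) * (1 + Y) + 2 * Y) Ln Ld 350 ∧
      0 < dA N ((N - 2) * (1 + Y)) ((N - 2) * (1 + Y) + 2 * Y) Ln Ld 352 ∧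
      0 < kA N ((N - 2) * (1 + Y)) ((N - 2) * (1 + Y) + 2 * Y) Ln Ld 352 := by
  rcases h1.lt_or_eq with h1 | rfl
  · have hz : 0 ≤ lam / (1 - lam) := div_nonneg h0 (by linarith)
    refine ⟨lam / (1 - lam), 1 + lam / (1 - lam), by linarith, ?_,
      by exact_mod_cast dA_pos checkA0z hN hY hz rfl eval_eLd,
      by exact_mod_cast dA_pos checkA2z hN hY hz rfl eval_eLd,
      by exact_mod_cast kA_pos checkAKz hN hY hz rfl eval_eLd⟩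
    have : 1 - lam ≠ 0 := by linarith
    field_simp
    ring
  · have e : (n 1).eval (N - 6) Y 0 = (1 : ℝ) := by rw [eval_n, Int.cast_one]
    exact ⟨1, 1, one_pos, div_one 1, by exact_mod_cast dA_pos checkA01 hN hY le_rfl e e,
      by exact_mod_cast dA_pos checkA21 hN hY le_rfl e e,
      by exact_mod_cast kA_pos checkAK1 hN hY le_rfl e e⟩

/-- The two ends of `W` when `σ∞ > 1`, and the point for the concavity. -/
def ptLo (N a b Ln Ld : ℝ) : Pt ℝ :=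
  ptB Int.cast N (N - 2) a b Ln Ld (gLo Int.cast N (N - 2) a b) (F4 Int.cast N (N - 2) a b)
    ((200 : ℤ) : ℝ)
/-- The upper one. -/
def ptHi (N a b Ln Ld : ℝ) : Pt ℝ :=
  ptB Int.cast N (N - 2) a b Ln Ld (gHi Int.cast N (N - 2) a b) (F3 Int.cast N (N - 2) a b)
    ((2000 : ℤ) : ℝ)

lemma eval_dLo (Ln Ld : Ex) :
    (pDisc n (tLo Ln Ld)).eval X Y Z = pDisc Int.cast (ptB Int.cast (eN.eval X Y Z)
      (em.eval X Y Z) (aB.eval X Y Z) (bB.eval X Y Z) (Ln.eval X Y Z) (Ld.eval X Y Z)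
      (gLo Int.cast (eN.eval X Y Z) (em.eval X Y Z) (aB.eval X Y Z) (bB.eval X Y Z))
      (F4 Int.cast (eN.eval X Y Z) (em.eval X Y Z) (aB.eval X Y Z) (bB.eval X Y Z))
      ((200 : ℤ) : ℝ)) :=
  rfl

lemma eval_dHi (Ln Ld : Ex) :
    (pDisc n (tHi Ln Ld)).eval X Y Z = pDisc Int.cast (ptB Int.cast (eN.eval X Y Z)
      (em.eval X Y Z) (aB.eval X Y Z) (bB.eval X Y Z) (Ln.eval X Y Z) (Ld.eval X Y Z)
      (gHi Int.cast (eN.eval X Y Z) (em.eval X Y Z) (aB.eval X Y Z) (bB.eval X Y Z))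
      (F3 Int.cast (eN.eval X Y Z) (em.eval X Y Z) (aB.eval X Y Z) (bB.eval X Y Z))
      ((2000 : ℤ) : ℝ)) :=
  rfl

lemma eval_kHi (Ln Ld : Ex) :
    (pCon n (tHi Ln Ld)).eval X Y Z = pCon Int.cast (ptB Int.cast (eN.eval X Y Z)
      (em.eval X Y Z) (aB.eval X Y Z) (bB.eval X Y Z) (Ln.eval X Y Z) (Ld.eval X Y Z)
      (gHi Int.cast (eN.eval X Y Z) (em.eval X Y Z) (aB.eval X Y Z) (bB.eval X Y Z))
      (F3 Int.cast (eN.eval X Y Z) (em.eval X Y Z) (aB.eval X Y Z) (bB.eval X Y Z))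
      ((2000 : ℤ) : ℝ)) :=
  rfl

lemma cB_pos {N Y Z Vn Vd : ℝ} {Ln Ld : Ex}
    (hL : check (lessOne (pDisc n (tLo Ln Ld))) = true)
    (hH : check (lessOne (pDisc n (tHi Ln Ld))) = true)
    (hK : check (lessOne (pCon n (tHi Ln Ld))) = true) (hN : 6 ≤ N) (hY : 0 ≤ Y) (hZ : 0 ≤ Z)
    (hn : Ln.eval (N - 6) Y Z = Vn) (hd : Ld.eval (N - 6) Y Z = Vd) :
    0 < pDisc Int.cast (ptLo N (5 * (N - 2) * (1 + Y)) (5 * N + (N - 2) * (7 * N - 17) * Y) Vn Vd) ∧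
    0 < pDisc Int.cast (ptHi N (5 * (N - 2) * (1 + Y)) (5 * N + (N - 2) * (7 * N - 17) * Y) Vn Vd) ∧
    0 < pCon Int.cast
      (ptHi N (5 * (N - 2) * (1 + Y)) (5 * N + (N - 2) * (7 * N - 17) * Y) Vn Vd) := by
  have hx : (0 : ℝ) ≤ N - 6 := by linarith
  have h1 : (0 : ℝ) ≤ (pDisc n (tLo Ln Ld)).eval (N - 6) Y Z - ((1 : ℤ) : ℝ) :=
    nonneg_of_check hL hx hY hZ
  have h2 : (0 : ℝ) ≤ (pDisc n (tHi Ln Ld)).eval (N - 6) Y Z - ((1 : ℤ) : ℝ) :=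
    nonneg_of_check hH hx hY hZ
  have h3 : (0 : ℝ) ≤ (pCon n (tHi Ln Ld)).eval (N - 6) Y Z - ((1 : ℤ) : ℝ) :=
    nonneg_of_check hK hx hY hZ
  rw [eval_dLo, eval_eN, eval_em, eval_aB, eval_bB, hn, hd, Int.cast_one] at h1
  rw [eval_dHi, eval_eN, eval_em, eval_aB, eval_bB, hn, hd, Int.cast_one] at h2
  rw [eval_kHi, eval_eN, eval_em, eval_aB, eval_bB, hn, hd, Int.cast_one] at h3
  rw [ptLo, ptHi]
  exact ⟨by linarith, by linarith, by linarith⟩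

/-- The three signs at the position `lam` when `σ∞ ≥ 1` comes from `T`. -/
theorem certB {N Y lam : ℝ} (hN : 6 ≤ N) (hY : 0 ≤ Y) (h0 : 0 ≤ lam) (h1 : lam ≤ 1) :
    ∃ Ln Ld : ℝ, 0 < Ld ∧ Ln / Ld = lam ∧
    0 < pDisc Int.cast (ptLo N (5 * (N - 2) * (1 + Y)) (5 * N + (N - 2) * (7 * N - 17) * Y) Ln Ld) ∧
    0 < pDisc Int.cast (ptHi N (5 * (N - 2) * (1 + Y)) (5 * N + (N - 2) * (7 * N - 17) * Y) Ln Ld) ∧
    0 < pCon Int.cast
      (ptHi N (5 * (N - 2) * (1 + Y)) (5 * N + (N - 2) * (7 * N - 17) * Y) Ln Ld) := by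
  rcases h1.lt_or_eq with h1 | rfl
  · have hz : 0 ≤ lam / (1 - lam) := div_nonneg h0 (by linarith)
    refine ⟨lam / (1 - lam), 1 + lam / (1 - lam), by linarith, ?_,
      cB_pos checkLz checkHz checkKz hN hY hz rfl eval_eLd⟩
    have : 1 - lam ≠ 0 := by linarith
    field_simp
    ring
  · have e : (n 1).eval (N - 6) Y 0 = (1 : ℝ) := by rw [eval_n, Int.cast_one]
    exact ⟨1, 1, one_pos, div_one 1, cB_pos checkL1 checkH1 checkK1 hN hY le_rfl e e⟩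

lemma eval_line : eLine.eval X Y Z = gLine Int.cast (eN.eval X Y Z) (em.eval X Y Z)
    (aB.eval X Y Z) (bB.eval X Y Z) :=
  rfl

/-- The sign behind `U` against the lower line. -/
theorem certLine {N Y : ℝ} (hN : 6 ≤ N) (hY : 0 ≤ Y) :
    0 < gLine Int.cast N (N - 2) (5 * (N - 2) * (1 + Y))
      (5 * N + (N - 2) * (7 * N - 17) * Y) := by
  have h : (0 : ℝ) ≤ eLine.eval (N - 6) Y 0 - ((1 : ℤ) : ℝ) :=
    nonneg_of_check checkLine (by linarith) hY le_rfl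
  rw [eval_line, eval_eN, eval_em, eval_aB, eval_bB, Int.cast_one] at h
  linarith

end Vale.Agent.P100T.BoxDisc
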