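import Vale.Agent.P100T.BoxK

/-!
The box of the orbit between `τ₀` and `log t_b`, from the point certificates.
-/

open Set Filter Topology

noncomputable section

namespace Vale.Agent.P100T

variable {N p q τ₀ τb : ℝ} {S κ ε : ℝ → ℝ}

lemma boxXmin_pos (hN : 2 < N) (hq : 0 < q) (hpq : q < p) : 0 < boxXmin N p q := by
  have := boxBe_pos (show 0 < N by linarith) (hq.trans hpq) hq
  have := boxR_pos hN hq hpq
  have := extC0_pos hN hq hpq
  unfold boxXmin; positivity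

/-- The sign conditions in three variables used by the box. -/
structure BoxCerts (N p q : ℝ) : Prop where
  xmin_lt : boxXmin N p q < boxXmax N p q
  l_lt : extL N p q < wm N p q (extS2 N p q - boxXmin N p q)
  low1 : ∀ s ∈ Icc (extS2 N p q - boxXmin N p q) (extS3 N p q),
    0 < lowF N p q (boxXmin N p q) (51 / 50 * extC0 N p q)
      (max 0 (extK N p q (extS3 N p q) (51 / 50 * extC0 N p q))) s
  low2 : ∀ s ∈ Icc (extS2 N p q - boxXmin N p q) (extS3 N p q),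
    0 < lowF N p q (boxXmin N p q) (boxTopLin N p q (boxXmin N p q))
      (max 0 (extK N p q (extS3 N p q) (boxTop N p q (boxXmax N p q)))) s ∧
    0 < lowF N p q (boxXmax N p q / 2) (boxTopLin N p q (boxXmax N p q / 2))
      (max 0 (extK N p q (extS3 N p q) (boxTop N p q (boxXmax N p q)))) s ∧
    0 < lowF N p q (boxXmax N p q) (boxTop N p q (boxXmax N p q))
      (max 0 (extK N p q (extS3 N p q) (boxTop N p q (boxXmax N p q)))) s
  exit1 : 0 < exitF N p q (boxXmin N p q) (51 / 50 * extC0 N p q)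
    (max 0 (extK N p q (extS3 N p q) (51 / 50 * extC0 N p q)))
  exit2 : ∀ X ∈ Icc (boxXmin N p q) (boxXmax N p q),
    0 < exitF N p q X (boxTop N p q X) (max 0 (extK N p q (extS3 N p q) (boxTop N p q X)))

namespace IsOrbitExt

/-- A bound on `extLine` before `τ₀` holds at `τ₀`. -/
lemma extLine_le_wm (o : IsOrbitExt N p q τ₀ τb S κ ε) (hN : 2 < N) (hp : 0 < p) (hq : 0 < q)
    (hline : ∀ τ < τ₀, extLine N p q (S τ) ≤ oW p q S τ) :
    extLine N p q (S τ₀) ≤ wm N p q (S τ₀) := by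
  rw [← o.W_τ₀ (by linarith) hp hq]
  refine le_of_tendsto_of_tendsto (b := 𝓝[<] τ₀) ?_
    ((o.continuousAt_W o.τ₀_lt_τb).tendsto.mono_left nhdsWithin_le_nhds)
    (eventually_nhdsWithin_of_forall hline)
  refine (ContinuousAt.tendsto ?_).mono_left nhdsWithin_le_nhds
  have hS := (o.hasDerivAt_S hq o.τ₀_lt_τb).continuousAt
  unfold extLine
  fun_prop

/-- The box on `(τ₀, log t_b]`. -/
theorem box_of_certs (o : IsOrbitExt N p q τ₀ τb S κ ε) {C : CPar} (hA : C.Adm) (hCN : C.N = N)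
    (hCp : C.p = p) (hCq : C.q = q) (hN : 6 ≤ N) (hpq : q < p)
    (hcrit : N / (p + 1) + N / (q + 1) = N - 2) (hc : BoxCerts N p q)
    (hline : ∀ τ < τ₀, extLine N p q (S τ) ≤ oW p q S τ)
    (hXM : extS2 N p q - boxXmax N p q ≤ S τ₀)
    (hUreg : ∀ s ∈ Icc (S τ₀) (extS3 N p q), (N + 2) * (extCc N p q (S τ₀) - wm N p q s)
      ≤ 2 * q * s * (s + (p + 1) / (q + 1)))
    (hUd : ∀ s ∈ Icc (S τ₀) (extS3 N p q), C.Wd s (extCc N p q (S τ₀)) ≤ 0)
    {x : ℝ} (hx : x ∈ Ioc τ₀ (Real.log ((p + 1) / (q + 1)))) :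
    S τ₀ < S x ∧ S x < extS3 N p q ∧ wm N p q (S x) < oW p q S x ∧
      extL N p q < oW p q S x ∧ oW p q S x < extCc N p q (S τ₀) ∧ κ x < 0 ∧
      (S x - (p + 1) / (q + 1)) / oV p q S x ≤ κ x := by
  have hp : 0 < p := hCp ▸ hA.hp
  have hq : 0 < q := hCq ▸ hA.hq
  have hN2 : 2 < N := by linarith
  have hN0 : 0 < N := by linarith
  have h2 : S τ₀ ≤ extS2 N p q := (o.S_lt_s2 hN2 hp hq hpq hcrit le_rfl).le
  have hXlo := boxXmin_le hN2 hq hpq h2 (o.extLine_le_wm hN2 hp hq hline)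
  have hXhi : extS2 N p q - S τ₀ ≤ boxXmax N p q := by linarith
  obtain ⟨hr, hs2⟩ := boxR_lt hN0 hq hpq
  have hsi : max 1 (sEq N p q) ≤ S τ₀ :=
    max_le (o.one_lt τ₀ o.τ₀_lt_τb).le (o.sEq_lt hN2 hp hq hcrit le_rfl).le
  have hL0 : extL N p q < wm N p q (S τ₀) := by
    have h := wm_sub_mono hN0 hp hq hXlo
      (by unfold boxXmax at hXhi; linarith)
    rw [sub_sub_cancel] at h
    exact hc.l_lt.trans_le h
  exact o.extDef_box hA hCN hCp hCq hN hpq hcrit hL0 hUreg hUd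
    (fun s W h1 h3 _ _ hW => extK_le_extKm hN hq hpq hcrit hsi
      ⟨(boxXmin_pos hN2 hq hpq).le.trans hXlo, hXhi⟩ h1 h3 hW)
    (fun s h1 h3 hw => low_of_points hN hq hpq hc.xmin_lt hc.l_lt hc.low1 hc.low2
      ⟨hXlo, hXhi⟩ h1 h3 hw)
    (exit_of_points hN hq hpq (extS3_le_tb hN hq hpq) hc.exit1 hc.exit2 ⟨hXlo, hXhi⟩) hx

end IsOrbitExt

end Vale.Agent.P100T
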