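import Vale.Agent.P100T.BoxExitEval
import Vale.Agent.P100T.BoxMain

/-!
The exit inequalities `exit1`, `exit2` of the extension box. Beyond `X = 101/100 C₀ / boxBe` the
top of the box is below its tangent, and the exit function is bounded below by an increasing
function of `X`.
-/

open Set

noncomputable section

namespace Vale.Agent.P100T.ExitCert

open PosCheck UpperCert

variable {N p q : ℝ}

/-- The sign conditions in (N, T). -/
structure Signs (N p q : ℝ) : Prop where
  i0 : 0 < exitF N p q (boxXmin N p q) (51 / 50 * extC0 N p q) 0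
  i1 : 0 < exitF N p q (boxXmin N p q) (51 / 50 * extC0 N p q)
    (extK N p q (extS3 N p q) (51 / 50 * extC0 N p q))
  a0 : 0 < exitF N p q (101 / 100 * extC0 N p q / boxBe N p q) (51 / 50 * extC0 N p q) 0
  a1 : 0 < exitF N p q (101 / 100 * extC0 N p q / boxBe N p q) (51 / 50 * extC0 N p q)
    (extK N p q (extS3 N p q) (51 / 50 * extC0 N p q))
  s0 : 0 < cSl N p q 0 - N * ((p + 1) / (q + 1) - extS3 N p q) * tanK N p q
  s1 : 0 < cSl N p q (extK N p q (extS3 N p q) (51 / 50 * extC0 N p q))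
    - N * ((p + 1) / (q + 1) - extS3 N p q) * tanK N p q
      * (1 + 2 * (N - 1) * (q + 1) / (N * ((p + 1) + (q + 1) * extS3 N p q))
        * (101 / 100 * extC0 N p q / boxBe N p q + boxDl N p q))

lemma signs_of_evals (hN : 6 ≤ N) (hq : 0 < q) (hpq : q < p) {y y' : ℝ} {H H' : Hat}
    (e : Eval H N p q y) (e' : Eval H' N p q y')
    (gI : 0 < (xI H' (c 0) H'.D).eval (N - 6) y' 0 ∧
      0 < (xI H' (k1 H') (dl1 H')).eval (N - 6) y' 0)
    (gA : 0 < (xA H (c 0) H.D).eval (N - 6) y 0 ∧ 0 < (xA H (k1 H) (dl1 H)).eval (N - 6) y 0)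
    (gS : 0 < (xS0 H).eval (N - 6) y 0 ∧ 0 < (xS H).eval (N - 6) y 0) : Signs N p q := by
  have hp : 0 < p := hq.trans hpq
  have hN2 : 2 < N := by linarith
  have hN0 : 0 < N := by linarith
  have hs2 : 0 < extS2 N p q := (boxR_lt hN0 hq hpq).2
  have hr := boxR_pos (N := N) hN2 hq hpq
  have hC := extC0_pos hN2 hq hpq
  have hQ : 0 < N * (q + 1) + 2 := by positivity
  have hd : 0 < (p + 1) + (q + 1) * extS3 N p q := by
    have : 0 < extS3 N p q := by unfold extS3; positivity
    positivity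
  exact ⟨xI_pos e' (rate0 e') hN2 hs2 hr hQ hC gI.1, xI_pos e' (rate1 e' hN0 hd) hN2 hs2 hr hQ hC gI.2,
    xA_pos e (rate0 e) hN2 hs2 hQ gA.1, xA_pos e (rate1 e hN0 hd) hN2 hs2 hQ gA.2,
    xS0_pos e hN2 hs2 gS.1, xS_pos e hN2 hs2 hQ hd gS.2⟩

/-- The sign conditions hold for `T < (7N-17)/5`. -/
theorem signs_hold (hN : 6 ≤ N) (hq : 0 < q) (hpq : q < p)
    (hcrit : N / (p + 1) + N / (q + 1) = N - 2)
    (hT : (p + 1) / (q + 1) < (7 * N - 17) / 5) : Signs N p q := by
  have hp : 0 < p := hq.trans hpq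
  have hh : 0 < N - 2 := by linarith
  have hX : 0 ≤ N - 6 := by linarith
  have hN0 : 0 < N := by linarith
  obtain ⟨T, hTd⟩ : ∃ T, (p + 1) / (q + 1) = T := ⟨_, rfl⟩
  rw [hTd] at hT
  have hT1 : 1 < T := by rw [← hTd, one_lt_div (by linarith)]; linarith
  have hQ : (q + 1) * T = p + 1 := by rw [← hTd]; exact mul_div_cancel₀ _ (by linarith)
  have hk := crit_iff hp hq hcrit
  rw [hTd] at hk
  have hDq : 0 < N ^ 2 * (1 + T) + 2 * (N - 2) * T := by positivity
  have hsE : sEq N p q = (N - 2) * T / N := by rw [sEq, hTd]; ring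
  have hS := extS2_eq (show 2 < N by linarith) (show 0 < T by linarith) hk hQ
  rcases lt_or_ge (T * (N - 2)) N with hss | hss
  · obtain ⟨y, hy, hyt⟩ : ∃ y, 0 < y ∧ (T - 1) * ((N - 2) * (1 + y)) = 2 * y := by
      have hg : 0 < 2 - (N - 2) * (T - 1) := by nlinarith
      refine ⟨(N - 2) * (T - 1) / (2 - (N - 2) * (T - 1)),
        div_pos (mul_pos hh (by linarith)) hg, ?_⟩
      rw [one_add_div hg.ne', ← mul_div_assoc, ← mul_div_assoc, ← mul_div_assoc]
      congr 1
      ring
    have hTdv : A.Td.eval (N - 6) y 0 = (N - 2) * (1 + y) := by simp [A.Td, eh_eval, Ex.eval]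
    have hTn : A.Tn.eval (N - 6) y 0 = T * A.Td.eval (N - 6) y 0 := by
      simp [A.Tn, hTdv, Ex.eval]; linarith
    have hr : boxR N p q = N * N * (1 + T) * (T - 1) / (N ^ 2 * (1 + T) + 2 * (N - 2) * T) := by
      rw [boxR, hsE, max_eq_left (by rw [div_le_one hN0]; linarith), hS, lineS2,
        div_sub_one hDq.ne']
      ring
    have e : Eval HA N p q y := mk_eval hN hT1 hk hQ (by rw [hTdv]; positivity) hTn (by
      simp only [eval_add', eval_sub', eval_mul', eN_eval, hTn, hr]
      field_simp)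
    have m1 : 0 < (Ex.y : Ex).eval (N - 6) y 0 := hy
    have m2 : 0 < (Ex.y * Ex.y).eval (N - 6) y 0 := mul_pos hy hy
    have m3 : 0 < (Ex.y * Ex.y * Ex.y).eval (N - 6) y 0 := mul_pos (mul_pos hy hy) hy
    exact signs_of_evals hN hq hpq e e
      ⟨pos_of_sub checkA_I0 hX hy.le le_rfl m3, pos_of_sub checkA_I1 hX hy.le le_rfl m3⟩
      ⟨pos_of_sub checkA_A0 hX hy.le le_rfl m2, pos_of_sub checkA_A1 hX hy.le le_rfl m2⟩
      ⟨pos_of_sub checkA_S0 hX hy.le le_rfl m1, pos_of_sub checkA_S1 hX hy.le le_rfl m1⟩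
  · obtain ⟨d, hd, htd⟩ : ∃ d, 0 ≤ d ∧ T * (N - 2) = N * (1 + d) := by
      refine ⟨T * (N - 2) / N - 1, sub_nonneg.2 ((one_le_div hN0).2 hss), ?_⟩
      field_simp
      ring
    have hlt : 5 * d < 7 * N - 30 := by
      rw [lt_div_iff₀ (by norm_num)] at hT
      nlinarith
    obtain ⟨z, hz, hzd⟩ : ∃ z, 0 ≤ z ∧ (5 : ℝ) * (1 + z) * d = (7 * N - 30) * z := by
      have hg : 0 < 7 * N - 30 - 5 * d := by linarith
      refine ⟨5 * d / (7 * N - 30 - 5 * d), div_nonneg (by positivity) hg.le, ?_⟩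
      field_simp
      ring
    have hr : boxR N p q = lineS2 N T - (N - 2) * T / N := by
      rw [boxR, hsE, max_eq_right (by rw [one_le_div hN0]; linarith), hS]
    have mk : ∀ {u : ℝ} {dn dd : Ex}, 0 < dd.eval (N - 6) u 0 →
        dn.eval (N - 6) u 0 = d * dd.eval (N - 6) u 0 → Eval (HB dn dd) N p q u := by
      intro u dn dd hdd hdn
      refine mk_eval hN hT1 hk hQ (by simp only [eval_mul', eh_eval]; positivity) ?_ ?_
      · simp only [eval_add', eval_mul', eN_eval, eh_eval, hdn]
        linear_combination (-(dd.eval (N - 6) u 0)) * htd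
      · have hd' : d = T * (N - 2) / N - 1 := by rw [htd]; field_simp; ring
        simp only [eval_add', eval_sub', eval_mul', eval_c, Int.cast_ofNat, Int.cast_one, eN_eval,
          eh_eval, hdn, hr, lineS2]
        rw [hd']
        field_simp
        ring
    have m : ∀ t, 0 < (c 1).eval (N - 6) t 0 := fun t => by simp
    have e : Eval HU N p q d := mk (m d) (by simp [Ex.eval])
    have e' : Eval HL N p q z := mk (by simp [Ex.eval]; linarith) (by
      simp [Ex.eval, eN_eval]; linarith)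
    exact signs_of_evals hN hq hpq e e'
      ⟨pos_of_sub checkL_I0 hX hz le_rfl (m z), pos_of_sub checkL_I1 hX hz le_rfl (m z)⟩
      ⟨pos_of_sub checkU_A0 hX hd le_rfl (m d), pos_of_sub checkU_A1 hX hd le_rfl (m d)⟩
      ⟨pos_of_sub checkU_S0 hX hd le_rfl (m d), pos_of_sub checkU_S1 hX hd le_rfl (m d)⟩

end Vale.Agent.P100T.ExitCert

namespace Vale.Agent.P100T

open ExitCert

variable {N p q : ℝ}

/-- The hypothesis `exit1` of `BoxCerts`. -/
theorem box_exit1 (hN : 6 ≤ N) (hq : 0 < q) (hpq : q < p)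
    (hcrit : N / (p + 1) + N / (q + 1) = N - 2)
    (hcov : 1 < q ∨ N - 1 ≤ (p + 1) * (q * (N - 3) - 2)) :
    0 < exitF N p q (boxXmin N p q) (51 / 50 * extC0 N p q)
      (max 0 (extK N p q (extS3 N p q) (51 / 50 * extC0 N p q))) := by
  have hp : 0 < p := hq.trans hpq
  have hS := signs_hold hN hq hpq hcrit
    (lt_lineTB hN ((one_lt_div (by linarith)).2 (by linarith)) (crit_iff hp hq hcrit)
      (mul_div_cancel₀ _ (by linarith)) hcov)
  rcases max_choice (0 : ℝ) (extK N p q (extS3 N p q) (51 / 50 * extC0 N p q)) with h | h <;>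
    rw [h]
  · exact hS.i0
  · exact hS.i1

/-- The hypothesis `exit2` of `BoxCerts`. -/
theorem box_exit2 (hN : 6 ≤ N) (hq : 0 < q) (hpq : q < p)
    (hcrit : N / (p + 1) + N / (q + 1) = N - 2)
    (hcov : 1 < q ∨ N - 1 ≤ (p + 1) * (q * (N - 3) - 2)) :
    ∀ X ∈ Icc (boxXmin N p q) (boxXmax N p q),
      0 < exitF N p q X (boxTop N p q X) (max 0 (extK N p q (extS3 N p q) (boxTop N p q X))) := by
  intro X hX
  have hp : 0 < p := hq.trans hpq
  have hN2 : 2 < N := by linarith
  have hN0 : 0 < N := by linarith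
  have hS := signs_hold hN hq hpq hcrit
    (lt_lineTB hN ((one_lt_div (by linarith)).2 (by linarith)) (crit_iff hp hq hcrit)
      (mul_div_cancel₀ _ (by linarith)) hcov)
  have hk1 := box_exit1 hN hq hpq hcrit hcov
  have hT3 := extS3_le_tb hN hq hpq
  have hC := extC0_pos hN2 hq hpq
  have hBe := boxBe_pos hN0 hp hq
  have hX0 : 0 < X := (boxXmin_pos hN2 hq hpq).trans_le hX.1
  have hs2 : 0 < extS2 N p q := (boxR_lt hN0 hq hpq).2
  have hd0 : 0 < boxDl N p q := by unfold boxDl; positivity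
  obtain ⟨s3, hs3⟩ : ∃ s3, extS3 N p q = s3 := ⟨_, rfl⟩
  obtain ⟨τ, hτ⟩ : ∃ τ, ((p + 1) / (q + 1) - s3) * (N / 2) = τ := ⟨_, rfl⟩
  obtain ⟨V, hV⟩ : ∃ V, s3 * (s3 - 1) + extL N p q = V := ⟨_, rfl⟩
  have hτ0 : 0 ≤ τ := by rw [← hτ]; have := hs3 ▸ hT3; apply mul_nonneg <;> linarith
  have hF : ∀ X C K, exitF N p q X C K
      = (X + boxDl N p q) * V - τ * (C + K * (X + boxDl N p q)) := fun X C K => by
    simp only [exitF, hs3, hτ, hV]
  have hcs : ∀ K, cSl N p q K = 2 * (V - τ * K) := fun K => by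
    simp only [cSl, hs3]; rw [← hτ, ← hV]; ring
  have hc2 : ∀ Z, N * ((p + 1) / (q + 1) - s3) * Z = 2 * (τ * Z) := fun Z => by rw [← hτ]; ring
  rw [hs3] at hk1 ⊢
  rcases le_or_gt (boxTop N p q X) (51 / 50 * extC0 N p q) with hle | hgt
  · have hK : max 0 (extK N p q s3 (boxTop N p q X))
        ≤ max 0 (extK N p q s3 (51 / 50 * extC0 N p q)) := by
      refine max_le_max le_rfl ?_
      have h3 : 0 < s3 := by rw [← hs3]; unfold extS3; positivity
      simp only [extK]
      have : 0 ≤ 2 * (N - 1) / N := div_nonneg (by linarith) hN0.le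
      gcongr <;> first | linarith | positivity
    set K := max 0 (extK N p q s3 (51 / 50 * extC0 N p q))
    set K' := max 0 (extK N p q s3 (boxTop N p q X))
    rw [hF] at hk1 ⊢
    have hKd : τ * (boxTop N p q X + K' * (X + boxDl N p q))
        ≤ τ * (51 / 50 * extC0 N p q + K * (X + boxDl N p q)) :=
      mul_le_mul_of_nonneg_left (add_le_add hle (mul_le_mul_of_nonneg_right hK (by linarith))) hτ0
    have hsl : 0 ≤ V - τ * K := by
      have : 0 < (boxXmin N p q + boxDl N p q) * (V - τ * K) := by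
        have := mul_nonneg hτ0 (show 0 ≤ 51 / 50 * extC0 N p q by positivity)
        linarith
      exact (pos_of_mul_pos_right this (by have := boxXmin_pos hN2 hq hpq; linarith)).le
    have := mul_le_mul_of_nonneg_left hX.1 hsl
    linarith
  · -- beyond `101/100 C₀ / boxBe`
    obtain ⟨XA, hXA⟩ : ∃ XA, 101 / 100 * extC0 N p q / boxBe N p q = XA := ⟨_, rfl⟩
    have hXA' : boxBe N p q * XA = 101 / 100 * extC0 N p q := by
      rw [← hXA]; exact mul_div_cancel₀ _ hBe.ne'
    have hXA0 : 0 < XA := by rw [← hXA]; positivity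
    have hu : XA ≤ X := by
      by_contra hlt
      push Not at hlt
      have h1 := mul_le_mul_of_nonneg_left hlt.le hBe.le
      have h2 : 0 ≤ boxBe N p q * X * (X / extS2 N p q) := by positivity
      simp only [boxTop] at hgt
      linarith
    obtain ⟨u, hu0, rfl⟩ : ∃ u, 0 ≤ u ∧ X = XA + u := ⟨X - XA, by linarith, by ring⟩
    -- the top against its tangent
    have htop : boxTop N p q (XA + u)
        ≤ 51 / 50 * extC0 N p q + tanK N p q * u - boxBe N p q / extS2 N p q * u ^ 2 := by
      have e : boxTop N p q (XA + u) = 51 / 50 * extC0 N p q + tanK N p q * u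
          - boxBe N p q / extS2 N p q * u ^ 2 - boxBe N p q / extS2 N p q * XA ^ 2
          + (boxBe N p q * XA - 101 / 100 * extC0 N p q) * (1 - 2 * u / extS2 N p q) := by
        simp only [boxTop, tanK]; field_simp; ring
      rw [e, hXA']
      have : 0 ≤ boxBe N p q / extS2 N p q * XA ^ 2 := by positivity
      linarith
    have hnn : 0 ≤ boxBe N p q / extS2 N p q * u ^ 2 := by positivity
    have hs1 := hS.s1
    have hs0 := hS.s0
    rw [hs3, hXA, hcs, mul_assoc (N * _), hc2] at hs1
    rw [hs3, hcs, hc2] at hs0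
    set M := 51 / 50 * extC0 N p q with hM
    rcases max_choice (0 : ℝ) (extK N p q s3 (boxTop N p q (XA + u))) with h | h <;> rw [h, hF]
    · have ha := hS.a0
      rw [hXA, hF, ← hM] at ha
      have h1 := mul_le_mul_of_nonneg_left (htop.trans (show _ ≤ M + tanK N p q * u by linarith)) hτ0
      have h2 := mul_nonneg hu0 (show 0 ≤ V - τ * 0 - τ * tanK N p q by linarith)
      linarith
    · have ha := hS.a1
      rw [hXA, hs3, hF, ← hM] at ha
      set cc := 2 * (N - 1) * (q + 1) / (N * ((p + 1) + (q + 1) * s3)) with hcc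
      have h3 : 0 < s3 := by rw [← hs3]; unfold extS3; positivity
      have hden : 0 < (p + 1) + (q + 1) * s3 := by positivity
      have hcc0 : 0 ≤ cc := by rw [hcc]; have : 0 ≤ N - 1 := by linarith
                               positivity
      have hcs2 : cc ≤ 1 / extS2 N p q := by
        rw [hcc, div_le_div_iff₀ (by positivity) hs2]
        have h23 : extS2 N p q ≤ s3 := by rw [← hs3, extS3]; linarith [show 0 ≤ extC0 N p q / (5 * (p + 1)) by positivity]
        have h2T : (q + 1) * extS2 N p q ≤ p + 1 := by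
          have := extS2_lt_tb hN0 hq hpq
          rw [lt_div_iff₀ (by linarith)] at this
          linarith
        have a1 := mul_le_mul_of_nonneg_left h2T hN0.le
        have a2 := mul_le_mul_of_nonneg_left h23 (show 0 ≤ N * (q + 1) by positivity)
        have a3 : 0 ≤ (q + 1) * extS2 N p q := by positivity
        linarith
      have hK : ∀ W, extK N p q s3 W = extK N p q s3 M + cc * (W - M) := fun W => by
        simp only [extK, hcc]; field_simp; ring
      rw [hK (boxTop N p q (XA + u))]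
      set Kc := extK N p q s3 M
      set W := boxTop N p q (XA + u)
      set e := 1 + cc * (XA + boxDl N p q) with he
      have he1 : 1 ≤ e := by
        have := mul_nonneg hcc0 (show 0 ≤ XA + boxDl N p q by linarith)
        linarith
      have hb : boxBe N p q / extS2 N p q * e - cc * tanK N p q ≥ 0 := by
        have k1 : cc * tanK N p q ≤ cc * boxBe N p q := by
          refine mul_le_mul_of_nonneg_left ?_ hcc0
          simp only [tanK]
          linarith [show 0 ≤ 101 / 50 * extC0 N p q / extS2 N p q by positivity]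
        have k2 := mul_le_mul_of_nonneg_left hcs2 hBe.le
        have k3 := mul_le_mul_of_nonneg_left he1 (show 0 ≤ boxBe N p q / extS2 N p q by positivity)
        rw [mul_one_div] at k2
        linarith
      have h1 := mul_le_mul_of_nonneg_left htop
        (mul_nonneg hτ0 (show 0 ≤ e + cc * u by have := mul_nonneg hcc0 hu0; linarith))
      have h2 := mul_nonneg hu0 (show 0 ≤ V - τ * Kc - τ * (tanK N p q * e) by linarith)
      have h4 := mul_nonneg (mul_nonneg hτ0 (sq_nonneg u)) hb
      have h5 := mul_nonneg (mul_nonneg hτ0 (mul_nonneg hcc0 hu0))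
        (mul_nonneg hnn (show (0:ℝ) ≤ 1 by norm_num))
      rw [he] at h1 h2 h4
      linarith

end Vale.Agent.P100T
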