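import Vale.Agent.P100T.BarrierPoly

/-!
Templates for the exit inequality of the extension box in (N, T). Every quantity is scaled by one
common denominator `D`; `k / dl` stands for the bound of the rate `Kp0`.
-/

namespace Vale.Agent.P100T.ExitCert

open PosCheck UpperCert

/-- The scaled quantities. -/
structure Hat where
  D : Ex
  s2 : Ex
  r : Ex
  C0 : Ex
  l : Ex
  d : Ex
  T : Ex
  p1 : Ex
  q1 : Ex

/-- The scaled quantities from `T = Tn/Td` and the width `M`. -/
def mk (Td Tn M : Ex) : Hat :=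
  let Qn := eN * eN * (Td + Tn) + c 2 * eh * Tn
  let Q2 := (eN + c 2) * Qn * Qn
  let P3 := Q2 * Qn
  let G1 := eN * eN * (Td + Tn) + eh * eN * Tn - eh * eh * Td
  let X0 := (Tn - Td) * Tn * (eN * Td + c 2 * Tn) * G1
  let C0n := c 4 * eN * eN * (Td + Tn) * X0
  { D := c 500 * Td * Td * Tn * eh * P3
    s2 := c 500 * Q2 * Tn * Tn * eh * Td * (eN * eN * (Td + Tn) + c 2 * eh * Td)
    r := c 500 * Tn * eh * Q2 * Td * M
    C0 := c 500 * Tn * eh * C0n
    l := c 5 * eh * (c 67 * Tn - c 3 * Td) * C0n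
    d := c 100 * Tn * eh * Td * (c 4 * eN * eh * X0)
    T := c 500 * Td * Tn * Tn * eh * P3
    p1 := c 500 * Td * Tn * P3 * eN * (Td + Tn)
    q1 := c 500 * Td * Td * P3 * eN * (Td + Tn) }

section templates

variable (H : Hat)

def s3 : Ex := H.s2 + H.d
def Qh : Ex := eN * H.q1 + c 2 * H.D
def den : Ex := H.p1 * H.D + H.q1 * s3 H
def dl1 : Ex := c 100 * (eN * den H * H.D * H.D)
/-- The rate at `W = 51/50 C₀`. -/
def k1 : Ex :=
  eN * (H.D * H.D + (H.q1 - H.D) * s3 H) * den H * c 100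
    - c 2 * (eN - c 1) * H.q1
      * (((H.p1 + H.D) * s3 H - s3 H * s3 H) * c 100 - c 102 * H.C0 * H.D) * H.D
def Xn : Ex := c 90 * (eN + c 2) * H.C0 * H.r * H.D
def Xd : Ex := c 100 * H.s2 * H.r * Qh H + c 135 * (eN + c 2) * H.D * H.D * H.C0
def An : Ex := c 101 * H.C0 * H.D * (eN + c 2) * H.D
def Ad : Ex := c 100 * H.s2 * Qh H
def YA : Ex := An H + H.d * Ad H
def KP : Ex := c 100 * H.s2 * H.s2 * Qh H - c 202 * (eN + c 2) * H.C0 * H.D * H.D
def KPd : Ex := c 100 * (eN + c 2) * H.s2 * H.D * H.D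
def tn : Ex := eN * (H.T - s3 H)
def V : Ex := s3 H * s3 H - s3 H * H.D + H.l * H.D

variable (k dl : Ex)

/-- Value at the left end of the range. -/
def xI : Ex :=
  c 100 * (Xn H * H.D + H.d * Xd H) * (c 2 * V H * dl - H.D * tn H * k)
    - c 102 * tn H * H.C0 * H.D * dl * Xd H
/-- Value at `X = 101/100 C₀ / boxBe`. -/
def xA : Ex :=
  c 100 * YA H * (c 2 * V H * dl - H.D * tn H * k) - c 102 * tn H * H.C0 * H.D * dl * Ad H
/-- Slope along the tangent for the rate `0`. -/
def xS0 : Ex := c 2 * V H * KPd H - tn H * KP H * H.D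
/-- Slope along the tangent. -/
def xS : Ex :=
  c 2 * V H * dl1 H * KPd H * Ad H - H.D * tn H * (k1 H * KPd H * Ad H
    + KP H * (dl1 H * Ad H + c 200 * (eN - c 1) * H.q1 * YA H * H.D * H.D))

end templates

/-! `σ∞ = 1`. -/

def HA : Hat := mk A.Td A.Tn (eN * eN * (A.Td + A.Tn) * (A.Tn - A.Td))

/-! `σ∞ = 1 + dn/dd`. -/

def HB (dn dd : Ex) : Hat :=
  mk (eh * dd) (eN * (dd + dn)) (c 4 * eN * (dd + dn) * (eN - c 1) * (eN * dd + c 2 * dn))

/-- Any `dn/dd ≥ 0`. -/
def HU : Hat := HB Ex.y (c 1)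
/-- `dn/dd < (7N-30)/5`. -/
def HL : Hat := HB ((c 7 * eN - c 30) * Ex.y) (c 5 * (c 1 + Ex.y))

theorem checkA_I0 : check (xI HA (c 0) HA.D - Ex.y * Ex.y * Ex.y) = true := by decide +kernel
theorem checkA_I1 : check (xI HA (k1 HA) (dl1 HA) - Ex.y * Ex.y * Ex.y) = true := by
  decide +kernel
theorem checkA_A0 : check (xA HA (c 0) HA.D - Ex.y * Ex.y) = true := by decide +kernel
theorem checkA_A1 : check (xA HA (k1 HA) (dl1 HA) - Ex.y * Ex.y) = true := by decide +kernel
theorem checkA_S0 : check (xS0 HA - Ex.y) = true := by decide +kernel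
theorem checkA_S1 : check (xS HA - Ex.y) = true := by decide +kernel
theorem checkL_I0 : check (xI HL (c 0) HL.D - c 1) = true := by decide +kernel
theorem checkL_I1 : check (xI HL (k1 HL) (dl1 HL) - c 1) = true := by decide +kernel
theorem checkU_A0 : check (xA HU (c 0) HU.D - c 1) = true := by decide +kernel
theorem checkU_A1 : check (xA HU (k1 HU) (dl1 HU) - c 1) = true := by decide +kernel
theorem checkU_S0 : check (xS0 HU - c 1) = true := by decide +kernel
theorem checkU_S1 : check (xS HU - c 1) = true := by decide +kernel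

end Vale.Agent.P100T.ExitCert
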