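import Vale.Agent.P100T.InvAlgebra
import Vale.Agent.P100T.CertFun

/-!
The constants of the extension box of the certificate for `N ≥ 6`: `σ₀ ≤ σ ≤ extS3`,
`extL ≤ W ≤ extCc σ₀`, and the second lower line `extLine` below `τ₀`.
-/

noncomputable section

namespace Vale.Agent.P100T

variable (N p q : ℝ)

/-- The zero `s₂` of `wm`, in the form used by the box. -/
def extS2 : ℝ := (N * (p + 1) + 2) / (N * (q + 1) + 2)

/-- The size of `W` at the equilibrium. -/
def extC0 : ℝ := 2 * (extS2 N p q - 1) * k0 N p q (extS2 N p q) / (N * (q + 1) + 2)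

/-- The right end of the box. -/
def extS3 : ℝ := extS2 N p q + extC0 N p q / (5 * (p + 1))

/-- The lower end of the box. -/
def extL : ℝ := (67 / 100 - 3 / (100 * ((p + 1) / (q + 1)))) * extC0 N p q

/-- The upper end of the box, from `σ₀`. -/
def extCc (s0 : ℝ) : ℝ := max (wm N p q s0 + extC0 N p q / 100) (51 / 50 * extC0 N p q)

/-- `Kp0` in the variables `(σ, W)`. -/
def extK (s W : ℝ) : ℝ :=
  1 - 2 * (N - 1) / N * (((p + 1) * s - (s * (s - 1) + W)) * (q + 1) / ((p + 1) + (q + 1) * s))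
    + q * s

/-- The bound of `Kp0` on the box. -/
def extKm (s0 : ℝ) : ℝ := max 0 (extK N p q (extS3 N p q) (extCc N p q s0))

/-- The denominator of the slope of `-κ`: `extDen * c = 2 / N`. -/
def extDen (s0 : ℝ) : ℝ := extCc N p q s0 + extKm N p q s0 * (extS3 N p q - s0)

/-- The second lower line below `τ₀`. -/
def extLine (s : ℝ) : ℝ :=
  9 / 10 * extC0 N p q *
    (1 - 3 / 2 * (extS2 N p q - s) / (extS2 N p q - max 1 (sEq N p q)))

variable {N p q}

lemma Kp0_eq_extK {C : CPar} (hCN : C.N = N) (hCp : C.p = p) (hCq : C.q = q) (hN : 0 < N)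
    (s W : ℝ) : C.Kp0 s W = extK N p q s W := by
  have : N ≠ 0 := hN.ne'
  simp only [CPar.Kp0, CPar.E0, CPar.l, CPar.K, CPar.V, extK, hCN, hCp, hCq]
  field_simp
  ring

end Vale.Agent.P100T
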