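import Vale.Agent.P100T.ExtBox
import Vale.Agent.P100T.ExtDef

/-!
The box `ExtDef` along the orbit, from the scalar inequalities at `σ₀ = S τ₀`.
-/

open Set

noncomputable section

namespace Vale.Agent.P100T

variable {N p q : ℝ}

lemma one_lt_extS2 (hN : 0 < N) (hq : 0 < q) (hpq : q < p) : 1 < extS2 N p q := by
  rw [extS2, lt_div_iff₀ (by positivity)]
  nlinarith

lemma extS2_lt_tb (hN : 0 < N) (hq : 0 < q) (hpq : q < p) :
    extS2 N p q < (p + 1) / (q + 1) := by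
  rw [extS2, div_lt_div_iff₀ (by positivity) (by linarith)]
  nlinarith

lemma extC0_pos (hN : 2 < N) (hq : 0 < q) (hpq : q < p) : 0 < extC0 N p q := by
  have h1 := one_lt_extS2 (show 0 < N by linarith) hq hpq
  have h2 := extS2_lt_tb (show 0 < N by linarith) hq hpq
  have hk := k0_pos (p := p) hN (hq.trans hpq) hq (show 0 ≤ extS2 N p q by linarith) h2.le
  have := sub_pos.2 h1
  unfold extC0
  positivity

lemma extS2_le_extS3 (hN : 2 < N) (hq : 0 < q) (hpq : q < p) :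
    extS2 N p q ≤ extS3 N p q := by
  have := extC0_pos hN hq hpq
  have : 0 < p + 1 := by linarith
  unfold extS3
  have h : 0 ≤ extC0 N p q / (5 * (p + 1)) := by positivity
  linarith

lemma extL_pos (hN : 2 < N) (hq : 0 < q) (hpq : q < p) : 0 < extL N p q := by
  refine mul_pos ?_ (extC0_pos hN hq hpq)
  have h : 1 < (p + 1) / (q + 1) := by rw [lt_div_iff₀ (by linarith)]; linarith
  have : 3 / (100 * ((p + 1) / (q + 1))) ≤ 3 / 100 := by
    rw [div_le_div_iff₀ (by positivity) (by norm_num)]; linarith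
  linarith

lemma lt_extCc (hN : 2 < N) (hq : 0 < q) (hpq : q < p) (s0 : ℝ) :
    wm N p q s0 < extCc N p q s0 :=
  lt_of_lt_of_le (by linarith [extC0_pos hN hq hpq]) (le_max_left _ _)

lemma extKm_nonneg (s0 : ℝ) : 0 ≤ extKm N p q s0 := le_max_left _ _

lemma extDen_pos (hN : 2 < N) (hq : 0 < q) (hpq : q < p) {s0 : ℝ} (hs : s0 ≤ extS3 N p q) :
    0 < extDen N p q s0 := by
  have h1 : 0 < extCc N p q s0 :=
    lt_of_lt_of_le (by linarith [extC0_pos hN hq hpq]) (le_max_right _ _)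
  have h2 := mul_nonneg (extKm_nonneg (N := N) (p := p) (q := q) s0) (sub_nonneg.2 hs)
  unfold extDen; linarith

namespace IsOrbitExt

variable {τ₀ τb : ℝ} {S κ ε : ℝ → ℝ}

/-- The box on `(τ₀, log t_b]`, from the scalar inequalities at `σ₀`. -/
theorem extDef_box (o : IsOrbitExt N p q τ₀ τb S κ ε) {C : CPar} (hA : C.Adm) (hCN : C.N = N)
    (hCp : C.p = p) (hCq : C.q = q) (hN : 6 ≤ N) (hpq : q < p)
    (hcrit : N / (p + 1) + N / (q + 1) = N - 2)
    (hL0 : extL N p q < wm N p q (S τ₀))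
    (hUreg : ∀ s ∈ Icc (S τ₀) (extS3 N p q), (N + 2) * (extCc N p q (S τ₀) - wm N p q s)
      ≤ 2 * q * s * (s + (p + 1) / (q + 1)))
    (hUd : ∀ s ∈ Icc (S τ₀) (extS3 N p q), C.Wd s (extCc N p q (S τ₀)) ≤ 0)
    (hK : ∀ s W, S τ₀ ≤ s → s ≤ extS3 N p q → wm N p q s ≤ W → extL N p q ≤ W →
      W ≤ extCc N p q (S τ₀) → extK N p q s W ≤ extKm N p q (S τ₀))
    (hlr : ∀ s, S τ₀ < s → s ≤ extS3 N p q → wm N p q s < extL N p q →
      (N + 2) / 2 * (extL N p q - wm N p q s) * extDen N p q (S τ₀)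
        < frc N p q s (extL N p q) * (s - S τ₀))
    (hexit : ((p + 1) / (q + 1) - extS3 N p q) * (N / 2) * extDen N p q (S τ₀)
      < (extS3 N p q - S τ₀) * (extS3 N p q * (extS3 N p q - 1) + extL N p q))
    {x : ℝ} (hx : x ∈ Ioc τ₀ (Real.log ((p + 1) / (q + 1)))) :
    S τ₀ < S x ∧ S x < extS3 N p q ∧ wm N p q (S x) < oW p q S x ∧
      extL N p q < oW p q S x ∧ oW p q S x < extCc N p q (S τ₀) ∧ κ x < 0 ∧
      (S x - (p + 1) / (q + 1)) / oV p q S x ≤ κ x := by
  have hp : 0 < p := hCp ▸ hA.hp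
  have hq : 0 < q := hCq ▸ hA.hq
  have hN2 : 2 < N := by linarith
  have hW0 : oW p q S τ₀ = wm N p q (S τ₀) := o.W_τ₀ (by linarith) hp hq
  have h23 := extS2_le_extS3 hN2 hq hpq
  have hS03 : S τ₀ ≤ extS3 N p q := (o.S_lt_s2 hN2 hp hq hpq hcrit le_rfl).le.trans h23
  have hD := extDen_pos hN2 hq hpq hS03
  obtain ⟨b1, b2, b3, b4, b5, b6, b7, -⟩ := o.ext_box hA hCN hCp hCq (by linarith) hpq hcrit
    (c := 2 / (N * extDen N p q (S τ₀))) (s3 := extS3 N p q) (Cc := extCc N p q (S τ₀))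
    (l := extL N p q) (Km := extKm N p q (S τ₀)) h23 (extL_pos hN2 hq hpq) (hW0 ▸ hL0)
    (hW0 ▸ lt_extCc hN2 hq hpq _) (by positivity) hUreg hUd (extKm_nonneg _)
    (fun s W h1 h2 h3 h4 h5 => by
      rw [Kp0_eq_extK hCN hCp hCq (by linarith)]; exact hK s W h1 h2 h3 h4 h5)
    (le_of_eq (by
      show 2 / (N * extDen N p q (S τ₀)) * extDen N p q (S τ₀) = 2 / N
      field_simp))
    (fun s h1 h2 h3 => by
      have h := hlr s h1 h2 h3
      rw [show frc N p q s (extL N p q) * (2 / (N * extDen N p q (S τ₀)) * (s - S τ₀))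
        = frc N p q s (extL N p q) * (s - S τ₀) * (2 / (N * extDen N p q (S τ₀))) by ring,
        ← mul_div_assoc, lt_div_iff₀ (by positivity)]
      have e : (N + 2) / N * (extL N p q - wm N p q s) * (N * extDen N p q (S τ₀))
          = 2 * ((N + 2) / 2 * (extL N p q - wm N p q s) * extDen N p q (S τ₀)) := by
        field_simp
      rw [e]; linarith)
    (by
      rw [div_mul_eq_mul_div, div_mul_eq_mul_div, lt_div_iff₀ (by positivity)]
      linarith)
    hx
  exact ⟨b1, b2, b3, b4, b5, b6, b7⟩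

end IsOrbitExt

end Vale.Agent.P100T
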