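import Vale.Agent.P100T.BoxDef
import Vale.Agent.P100T.ExtGlue

/-!
Reduction of the scalar hypotheses of `extDef_box` to finitely many sign conditions in three
variables: `X = s₂ - σ₀` enters affinely after `W₀` is majorised by two lines.
-/

open Set

noncomputable section

namespace Vale.Agent.P100T

variable {N p q : ℝ}

/-- `wm (s₂ - X)` in terms of `X`. -/
lemma wm_sub (hN : 0 < N) (hp : 0 < p) (hq : 0 < q) (X : ℝ) :
    wm N p q (extS2 N p q - X)
      = boxBe N p q * X * (1 - X / extS2 N p q) := by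
  have h1 : N * (q + 1) + 2 ≠ 0 := by positivity
  have h3 : N + 2 ≠ 0 := by linarith
  have e : extS2 N p q * (N * (q + 1) + 2) = N * (p + 1) + 2 := by
    rw [extS2, div_mul_cancel₀ _ h1]
  have h2 : extS2 N p q ≠ 0 := by rw [extS2]; positivity
  simp only [wm, boxBe]
  field_simp
  linear_combination -(extS2 N p q - X) * e

lemma boxTop_eq (hN : 0 < N) (hp : 0 < p) (hq : 0 < q) (X : ℝ) :
    boxTop N p q X = wm N p q (extS2 N p q - X) + extC0 N p q / 100 := by
  rw [boxTop, wm_sub hN hp hq]

lemma extCc_eq (hN : 0 < N) (hp : 0 < p) (hq : 0 < q) (s0 : ℝ) :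
    extCc N p q s0 = max (boxTop N p q (extS2 N p q - s0)) (51 / 50 * extC0 N p q) := by
  rw [extCc, boxTop_eq hN hp hq, sub_sub_cancel]

lemma boxBe_pos (hN : 0 < N) (hp : 0 < p) (hq : 0 < q) : 0 < boxBe N p q := by
  unfold boxBe extS2; positivity

lemma boxR_pos (hN : 2 < N) (hq : 0 < q) (hpq : q < p) : 0 < boxR N p q := by
  refine sub_pos.2 (max_lt (one_lt_extS2 (by linarith) hq hpq) ?_)
  rw [sEq, extS2, div_mul_div_comm, div_lt_div_iff₀ (by positivity) (by positivity)]
  nlinarith [mul_pos hq (show 0 < p by linarith), mul_pos (show 0 < N by linarith) hq]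

lemma boxR_lt (hN : 0 < N) (hq : 0 < q) (hpq : q < p) :
    boxR N p q < extS2 N p q ∧ 0 < extS2 N p q := by
  have := one_lt_extS2 hN hq hpq
  refine ⟨?_, by linarith⟩
  have := le_max_left (1 : ℝ) (sEq N p q)
  simp only [boxR]; linarith

/-- The second lower line bounds `X` from below. -/
lemma boxXmin_le (hN : 2 < N) (hq : 0 < q) (hpq : q < p) {s0 : ℝ} (h2 : s0 ≤ extS2 N p q)
    (hL : extLine N p q s0 ≤ wm N p q s0) : boxXmin N p q ≤ extS2 N p q - s0 := by
  have hp : 0 < p := hq.trans hpq
  have hN0 : 0 < N := by linarith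
  have hC := extC0_pos hN hq hpq
  have hR := boxR_pos hN hq hpq
  have hB := boxBe_pos hN0 hp hq
  obtain ⟨X, rfl⟩ : ∃ X, s0 = extS2 N p q - X := ⟨extS2 N p q - s0, by ring⟩
  rw [sub_sub_cancel]
  have hs2 := (boxR_lt hN0 hq hpq).2
  have hX : 0 ≤ X := by linarith
  have hle : wm N p q (extS2 N p q - X) ≤ boxBe N p q * X := by
    rw [wm_sub hN0 hp hq]
    exact mul_le_of_le_one_right (by positivity) (by linarith [div_nonneg hX hs2.le])
  have e : extLine N p q (extS2 N p q - X)
      = 9 / 10 * extC0 N p q - 27 / 20 * extC0 N p q / boxR N p q * X := by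
    rw [extLine, sub_sub_cancel, boxR]
    field_simp
    ring
  rw [e] at hL
  rw [boxXmin, div_le_iff₀ (by positivity)]
  linarith

lemma wm_sub_mono (hN : 0 < N) (hp : 0 < p) (hq : 0 < q) {X Y : ℝ} (hXY : X ≤ Y)
    (hY : X + Y ≤ extS2 N p q) :
    wm N p q (extS2 N p q - X) ≤ wm N p q (extS2 N p q - Y) := by
  have hs : 0 < extS2 N p q := by unfold extS2; positivity
  rw [wm_sub hN hp hq, wm_sub hN hp hq, mul_assoc, mul_assoc]
  refine mul_le_mul_of_nonneg_left ?_ (boxBe_pos hN hp hq).le
  have e : Y * (1 - Y / extS2 N p q) - X * (1 - X / extS2 N p q)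
      = (Y - X) * (extS2 N p q - (X + Y)) / extS2 N p q := by field_simp; ring
  have : 0 ≤ (Y - X) * (extS2 N p q - (X + Y)) / extS2 N p q :=
    div_nonneg (mul_nonneg (by linarith) (by linarith)) hs.le
  linarith

/-- `extK` increases in `W`. -/
lemma extK_mono_W (hN : 1 ≤ N) (hp : 0 < p) (hq : 0 < q) {s W W' : ℝ} (hs : 0 ≤ s) (h : W ≤ W') :
    extK N p q s W ≤ extK N p q s W' := by
  unfold extK
  have : 0 ≤ N - 1 := by linarith
  gcongr

/-- `(p+2)T`-form of the bound that makes `extK` increase in `σ`. -/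
lemma extK_mono_s (hN : 6 ≤ N) (hq : 0 < q) (hpq : q < p)
    (hcrit : N / (p + 1) + N / (q + 1) = N - 2) {s s' W : ℝ}
    (hs : max 1 (sEq N p q) ≤ s) (hss : s ≤ s') (hW : W ≤ 17 / 50 * ((p + 1) / (q + 1)) ^ 2) :
    extK N p q s W ≤ extK N p q s' W := by
  have hp : 0 < p := hq.trans hpq
  have hk := crit_iff hp hq hcrit
  set T := (p + 1) / (q + 1) with hT
  have hT1 : 1 < T := by rw [hT, lt_div_iff₀ (by linarith)]; linarith
  have hP : p + 1 = (q + 1) * T := by rw [hT]; field_simp
  rw [sEq, ← hT] at hs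
  obtain ⟨h1, h2⟩ := max_le_iff.1 hs
  have hN0 : 0 < N := by linarith
  set m := 2 * (N - 1) / N with hm
  have hmN : m * N = 2 * (N - 1) := by rw [hm, div_mul_cancel₀ _ hN0.ne']
  have hm1 : 5 / 3 ≤ m := by
    rw [hm, div_le_div_iff₀ (by norm_num) hN0]; linarith
  have hsT : m * T ≤ s + T := by
    have : (N - 2) / N * T + T = m * T := by rw [hm]; field_simp; ring
    linarith
  have hqT : 1 ≤ q * T := by
    have : (N - 2) * (q * T) = N + 2 * T := by rw [hP] at hk; linarith
    nlinarith
  have key : (q + 2) * T ^ 2 + T + W ≤ (q / m + 1) * ((s + T) * (s' + T)) := by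
    have h3 : (m * T) * (m * T) ≤ (s + T) * (s' + T) :=
      mul_le_mul hsT (hsT.trans (by linarith)) (by positivity) (by linarith)
    refine le_trans ?_ (mul_le_mul_of_nonneg_left h3 (by positivity))
    have e : (q / m + 1) * (m * T * (m * T)) = (q * m + m ^ 2) * T ^ 2 := by field_simp
    rw [e]
    nlinarith [mul_le_mul_of_nonneg_left hm1 (show 0 ≤ q * T ^ 2 by positivity),
      mul_le_mul_of_nonneg_left (show (25 / 9 : ℝ) ≤ m ^ 2 by nlinarith) (sq_nonneg T),
      mul_le_mul_of_nonneg_left hqT (show (0 : ℝ) ≤ T by linarith)]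
  have hs0 : 0 < s + T := by linarith
  have hs0' : 0 < s' + T := by linarith
  have el : ∀ x, 0 < x + T →
      ((p + 1) * x - (x * (x - 1) + W)) * (q + 1) / ((p + 1) + (q + 1) * x)
        = (q + 1) * T + 1 + T - x - ((q + 2) * T ^ 2 + T + W) / (x + T) := by
    intro x hx
    have e2 : p + 1 + (q + 1) * x = (q + 1) * (x + T) := by rw [hP]; ring
    rw [e2, hP]
    field_simp
    ring
  unfold extK
  rw [el s hs0, el s' hs0']
  have e1 : ((q + 2) * T ^ 2 + T + W) / (s + T) - ((q + 2) * T ^ 2 + T + W) / (s' + T)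
      = (s' - s) * (((q + 2) * T ^ 2 + T + W) / ((s + T) * (s' + T))) := by field_simp; ring
  have e3 : ((q + 2) * T ^ 2 + T + W) / ((s + T) * (s' + T)) ≤ q / m + 1 := by
    rw [div_le_iff₀ (by positivity)]; exact key
  have e4 : m * ((s' - s) * (q / m)) = (s' - s) * q := by field_simp
  have h5 := mul_le_mul_of_nonneg_left
    (mul_le_mul_of_nonneg_left e3 (sub_nonneg.2 hss)) (show 0 ≤ m by linarith)
  rw [← e1] at h5
  simp only [← hm] at *
  linarith [e4, h5]

lemma lowF_mono {X Cc Cc' K K' s : ℝ} (hN : 0 ≤ N) (hA : 0 ≤ extL N p q - wm N p q s)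
    (hX : 0 ≤ X + boxDl N p q) (hK : K ≤ K') (hC : Cc ≤ Cc') :
    lowF N p q X Cc' K' s ≤ lowF N p q X Cc K s := by
  have h := mul_le_mul_of_nonneg_left
    (add_le_add hC (mul_le_mul_of_nonneg_right hK hX))
    (mul_nonneg (show 0 ≤ (N + 2) / 2 by linarith) hA)
  simp only [lowF]
  linarith

/-- An affine majorant reduces `lowF` to the two ends. -/
lemma lowF_pos_of_ends {a b c d X K s : ℝ} (hab : a < b) (hX : X ∈ Icc a b)
    (ha : 0 < lowF N p q a (c * a + d) K s) (hb : 0 < lowF N p q b (c * b + d) K s) :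
    0 < lowF N p q X (c * X + d) K s := by
  obtain ⟨u, hu, hu1, rfl⟩ : ∃ u, 0 ≤ u ∧ u ≤ 1 ∧ X = (1 - u) * a + u * b :=
    ⟨(X - a) / (b - a), div_nonneg (by linarith [hX.1]) (by linarith),
      (div_le_one (by linarith)).2 (by linarith [hX.2]), by
        field_simp [show b - a ≠ 0 by linarith]; ring⟩
  have e : lowF N p q ((1 - u) * a + u * b) (c * ((1 - u) * a + u * b) + d) K s
      = (1 - u) * lowF N p q a (c * a + d) K s + u * lowF N p q b (c * b + d) K s := by
    simp only [lowF]; ring
  rw [e]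
  rcases hu.eq_or_lt with rfl | h
  · simpa using ha
  · exact add_pos_of_nonneg_of_pos (mul_nonneg (by linarith) ha.le) (mul_pos h hb)

/-- The lower barrier inequality from eight point certificates. -/
theorem low_of_points (hN : 6 ≤ N) (hq : 0 < q) (hpq : q < p)
    (hX0 : boxXmin N p q < boxXmax N p q)
    (hsX : extL N p q < wm N p q (extS2 N p q - boxXmin N p q))
    (h1 : ∀ s ∈ Icc (extS2 N p q - boxXmin N p q) (extS3 N p q),
      0 < lowF N p q (boxXmin N p q) (51 / 50 * extC0 N p q)
        (max 0 (extK N p q (extS3 N p q) (51 / 50 * extC0 N p q))) s)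
    (h2 : ∀ s ∈ Icc (extS2 N p q - boxXmin N p q) (extS3 N p q),
      0 < lowF N p q (boxXmin N p q) (boxTopLin N p q (boxXmin N p q))
        (max 0 (extK N p q (extS3 N p q) (boxTop N p q (boxXmax N p q)))) s ∧
      0 < lowF N p q (boxXmax N p q / 2) (boxTopLin N p q (boxXmax N p q / 2))
        (max 0 (extK N p q (extS3 N p q) (boxTop N p q (boxXmax N p q)))) s ∧
      0 < lowF N p q (boxXmax N p q) (boxTop N p q (boxXmax N p q))
        (max 0 (extK N p q (extS3 N p q) (boxTop N p q (boxXmax N p q)))) s)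
    {s0 s : ℝ} (hX : extS2 N p q - s0 ∈ Icc (boxXmin N p q) (boxXmax N p q)) (hs : s0 < s)
    (hs3 : s ≤ extS3 N p q) (hwl : wm N p q s < extL N p q) :
    (N + 2) / 2 * (extL N p q - wm N p q s) * extDen N p q s0
      < frc N p q s (extL N p q) * (s - s0) := by
  have hp : 0 < p := hq.trans hpq
  have hN2 : 2 < N := by linarith
  have hN0 : 0 < N := by linarith
  obtain ⟨X, rfl⟩ : ∃ X, s0 = extS2 N p q - X := ⟨extS2 N p q - s0, by ring⟩
  rw [sub_sub_cancel] at hX
  have hC0 := extC0_pos hN2 hq hpq
  have hdl : 0 < boxDl N p q := by unfold boxDl; positivity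
  have hXm0 : 0 < boxXmin N p q := by
    have := boxBe_pos hN0 hp hq
    have := boxR_pos hN2 hq hpq
    unfold boxXmin; positivity
  obtain ⟨hr2, hs2⟩ := boxR_lt hN0 hq hpq
  have hXM : boxXmax N p q ≤ extS2 N p q / 5 := by unfold boxXmax; linarith
  have hsmin : extS2 N p q - boxXmin N p q ≤ s := by
    by_contra hlt
    push Not at hlt
    have := wm_sub_mono hN0 hp hq (X := boxXmin N p q) (Y := extS2 N p q - s) (by linarith)
      (by linarith [hX.2])
    rw [sub_sub_cancel] at this
    linarith
  have hA : 0 ≤ extL N p q - wm N p q s := by linarith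
  suffices 0 < lowF N p q X (extCc N p q (extS2 N p q - X))
      (extKm N p q (extS2 N p q - X)) s by
    have e : extS3 N p q - (extS2 N p q - X) = X + boxDl N p q := by
      simp only [extS3, boxDl]; ring
    simp only [lowF] at this
    simp only [extDen, e, frc]
    linarith
  have hCeq := extCc_eq hN0 hp hq (extS2 N p q - X)
  rw [sub_sub_cancel] at hCeq
  simp only [extKm, hCeq]
  rcases le_total (boxTop N p q X) (51 / 50 * extC0 N p q) with h | h
  · rw [max_eq_right h]
    set C1 := 51 / 50 * extC0 N p q with hC1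
    set K := max 0 (extK N p q (extS3 N p q) C1)
    have hK : 0 ≤ K := le_max_left _ _
    have h0 := h1 s ⟨hsmin, hs3⟩
    have hslope : 0 ≤ ((extL N p q + s * (s - 1)) * (k0 N p q s + 2 * nu N p q s * extL N p q)
        - (2 * s - 1) * extL N p q) - (N + 2) / 2 * (extL N p q - wm N p q s) * K := by
      simp only [lowF] at h0
      set F := (extL N p q + s * (s - 1)) * (k0 N p q s + 2 * nu N p q s * extL N p q)
        - (2 * s - 1) * extL N p q
      set A := (N + 2) / 2 * (extL N p q - wm N p q s) with hA'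
      have hA0 : 0 ≤ A := mul_nonneg (by linarith) hA
      have hd : 0 ≤ C1 := by positivity
      have hle : s - (extS2 N p q - boxXmin N p q) ≤ boxXmin N p q + boxDl N p q := by
        simp only [extS3] at hs3
        simp only [boxDl]; linarith
      have h3 : 0 < F * (s - (extS2 N p q - boxXmin N p q)) := by
        linarith [mul_nonneg hA0 hd, mul_nonneg hA0 (mul_nonneg hK
          (show 0 ≤ boxXmin N p q + boxDl N p q by linarith))]
      have hF : 0 < F := pos_of_mul_pos_left h3 (by linarith)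
      by_contra hneg
      push Not at hneg
      nlinarith [mul_le_mul_of_nonneg_left hle hF.le, mul_nonneg hA0 hd,
        mul_lt_mul_of_pos_right hneg (show 0 < boxXmin N p q + boxDl N p q by linarith)]
    have h4 := mul_nonneg (sub_nonneg.2 hX.1) hslope
    simp only [lowF] at h0 ⊢
    linarith
  · rw [max_eq_left h]
    set KM := max 0 (extK N p q (extS3 N p q) (boxTop N p q (boxXmax N p q)))
    have hs30 : 0 ≤ extS3 N p q := by linarith [extS2_le_extS3 hN2 hq hpq]
    have htop : boxTop N p q X ≤ boxTop N p q (boxXmax N p q) := by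
      rw [boxTop_eq hN0 hp hq, boxTop_eq hN0 hp hq]
      linarith [wm_sub_mono hN0 hp hq hX.2 (by linarith [hX.2])]
    have hKle : max 0 (extK N p q (extS3 N p q) (boxTop N p q X)) ≤ KM :=
      max_le_max le_rfl (extK_mono_W (by linarith) hp hq hs30 htop)
    obtain ⟨p2, p3, p4⟩ := h2 s ⟨hsmin, hs3⟩
    have hB := boxBe_pos hN0 hp hq
    rcases le_total X (boxXmax N p q / 2) with hle | hle
    · refine lt_of_lt_of_le ?_ (lowF_mono hN0.le hA (by linarith [hX.1]) hKle
        (show boxTop N p q X ≤ boxBe N p q * X + extC0 N p q / 100 from by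
          simp only [boxTop]
          linarith [mul_le_of_le_one_right (show 0 ≤ boxBe N p q * X by nlinarith [hX.1])
            (show 1 - X / extS2 N p q ≤ 1 by
              linarith [div_nonneg (show 0 ≤ X by linarith [hX.1]) hs2.le])]))
      rcases (hX.1.trans hle).eq_or_lt with he | he
      · have : X = boxXmin N p q := le_antisymm (by linarith) hX.1
        subst this; exact p2
      · exact lowF_pos_of_ends he ⟨hX.1, hle⟩ p2 p3
    · set XM := boxXmax N p q
      set c := boxBe N p q * (1 - 2 * XM / extS2 N p q) with hc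
      set d := boxBe N p q * XM ^ 2 / extS2 N p q + extC0 N p q / 100 with hd
      have et : ∀ Y, c * Y + d - boxTop N p q Y
          = boxBe N p q / extS2 N p q * (Y - XM) ^ 2 := fun Y => by
        simp only [hc, hd, boxTop]; field_simp; ring
      refine lt_of_lt_of_le ?_ (lowF_mono hN0.le hA (by linarith [hX.1]) hKle
        (show boxTop N p q X ≤ c * X + d by
          linarith [et X, show 0 ≤ boxBe N p q / extS2 N p q * (X - XM) ^ 2 by positivity]))
      have hXM0 : XM / 2 < XM := by linarith
      refine lowF_pos_of_ends hXM0 ⟨hle, hX.2⟩ ?_ ?_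
      · have : c * (XM / 2) + d ≤ boxTopLin N p q (XM / 2) := by
          have := et (XM / 2)
          simp only [boxTop, boxTopLin] at *
          have e2 : boxBe N p q * (XM / 2) * (1 - XM / 2 / extS2 N p q)
              + boxBe N p q / extS2 N p q * (XM / 2 - XM) ^ 2 = boxBe N p q * (XM / 2) := by
            field_simp; ring
          linarith
        exact lt_of_lt_of_le p3 (lowF_mono hN0.le hA (by linarith) le_rfl this)
      · have : c * XM + d = boxTop N p q XM := by
          have := et XM; simp only [sub_self, zero_pow two_ne_zero, mul_zero] at this; linarith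
        rw [this]; exact p4

/-- The exit inequality from its certificates. -/
theorem exit_of_points (hN : 6 ≤ N) (hq : 0 < q) (hpq : q < p)
    (hs3 : extS3 N p q ≤ (p + 1) / (q + 1))
    (h1 : 0 < exitF N p q (boxXmin N p q) (51 / 50 * extC0 N p q)
      (max 0 (extK N p q (extS3 N p q) (51 / 50 * extC0 N p q))))
    (h2 : ∀ X ∈ Icc (boxXmin N p q) (boxXmax N p q),
      0 < exitF N p q X (boxTop N p q X) (max 0 (extK N p q (extS3 N p q) (boxTop N p q X))))
    {s0 : ℝ} (hX : extS2 N p q - s0 ∈ Icc (boxXmin N p q) (boxXmax N p q)) :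
    ((p + 1) / (q + 1) - extS3 N p q) * (N / 2) * extDen N p q s0
      < (extS3 N p q - s0) * (extS3 N p q * (extS3 N p q - 1) + extL N p q) := by
  have hp : 0 < p := hq.trans hpq
  have hN2 : 2 < N := by linarith
  have hN0 : 0 < N := by linarith
  obtain ⟨X, rfl⟩ : ∃ X, s0 = extS2 N p q - X := ⟨extS2 N p q - s0, by ring⟩
  rw [sub_sub_cancel] at hX
  have e : extS3 N p q - (extS2 N p q - X) = X + boxDl N p q := by
    simp only [extS3, boxDl]; ring
  suffices 0 < exitF N p q X (extCc N p q (extS2 N p q - X))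
      (extKm N p q (extS2 N p q - X)) by
    simp only [exitF] at this
    simp only [extDen, e]
    linarith
  have hCeq := extCc_eq hN0 hp hq (extS2 N p q - X)
  rw [sub_sub_cancel] at hCeq
  simp only [extKm, hCeq]
  rcases le_total (boxTop N p q X) (51 / 50 * extC0 N p q) with h | h
  · rw [max_eq_right h]
    set K := max 0 (extK N p q (extS3 N p q) (51 / 50 * extC0 N p q))
    have hC0 := extC0_pos hN2 hq hpq
    have hdl : 0 < boxDl N p q := by unfold boxDl; positivity
    have hXm0 : 0 < boxXmin N p q := by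
      have := boxBe_pos hN0 hp hq
      have := boxR_pos hN2 hq hpq
      unfold boxXmin; positivity
    simp only [exitF] at h1 ⊢
    set P := extS3 N p q * (extS3 N p q - 1) + extL N p q
    set Q := ((p + 1) / (q + 1) - extS3 N p q) * (N / 2)
    have hQ : 0 ≤ Q := mul_nonneg (by linarith) (by linarith)
    have hsl : 0 ≤ P - Q * K := by
      by_contra hneg
      push Not at hneg
      nlinarith [mul_lt_mul_of_pos_left hneg (show 0 < boxXmin N p q + boxDl N p q by linarith),
        mul_nonneg hQ hC0.le]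
    linarith [mul_nonneg (sub_nonneg.2 hX.1) hsl]
  · rw [max_eq_left h]
    exact h2 X hX

end Vale.Agent.P100T
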