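import Vale.Agent.P100T.Invariants
import Vale.Agent.P100T.Assembly

/-!
The extended orbit in the coordinates of the certificate: `S = σ`, `W = L dσ/dτ`, `z = κ`.
-/

open Set Filter Topology
open scoped ContDiff

noncomputable section

namespace Vale.Agent.P100T

namespace IsOrbitExt

variable {N p q τ₀ τb τ : ℝ} {S κ ε : ℝ → ℝ}

/-- `N ε = 1 + κ l`: the Pohozaev relation along the orbit. -/
lemma eps_eq (o : IsOrbitExt N p q τ₀ τb S κ ε) (hp : 0 < p) (hq : 0 < q) (hτ : τ < τb) :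
    N * ε τ = 1 + κ τ * (((p + 1) * S τ - (S τ * (S τ - 1) + oW p q S τ)) * (q + 1)
      / ((p + 1) + (q + 1) * S τ)) := by
  have hS := o.one_lt τ hτ
  have hpo := o.poho τ hτ
  have h := o.eqV hτ
  simp only [oV] at h
  rw [show Real.exp τ = S τ - κ τ * (oW p q S τ + S τ * (S τ - 1)) by linarith] at hpo
  have : (0 : ℝ) < (p + 1) + (q + 1) * S τ := by positivity
  field_simp at hpo ⊢
  linear_combination hpo

theorem isCurve (o : IsOrbitExt N p q τ₀ τb S κ ε) (hN : 0 < N) (hp : 0 < p) (hq : 0 < q)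
    {C : CPar} (hCN : C.N = N) (hCp : C.p = p) (hCq : C.q = q) :
    IsCurve C τ₀ τb S (oW p q S) κ := by
  refine ⟨(o.smooth 1).1, o.smooth_W 1, (o.smooth 1).2.1, fun τ hτ => ?_, fun τ hτ => ?_,
    fun τ hτ => ?_, fun τ hτ => ?_, fun τ hτ hne => ?_, fun τ hτ => ?_⟩
  · simp only [CPar.L, hCp, hCq]
    exact o.hasDerivAt_S hq hτ
  · convert o.derivκ τ hτ using 1
    have he : ε τ = (1 + κ τ * (((p + 1) * S τ - (S τ * (S τ - 1) + oW p q S τ)) * (q + 1)
        / ((p + 1) + (q + 1) * S τ))) / N := by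
      rw [eq_div_iff hN.ne', ← o.eps_eq hp hq hτ, mul_comm]
    have : (0 : ℝ) < (p + 1) + (q + 1) * S τ := by
      have := o.one_lt τ hτ
      positivity
    have := o.L_pos hq hτ
    simp only [CPar.dz, CPar.Kp0, CPar.E0, CPar.l, CPar.K, CPar.L, CPar.V, hCN, hCp, hCq, he]
    field_simp
    ring
  · exact one_pos.trans (o.one_lt τ hτ)
  · simp only [CPar.L, hCp, hCq]
    exact o.L_pos hq hτ
  · rcases lt_or_gt_of_ne hne with h | h
    · exact (o.κ_pos τ h).ne'
    · exact (o.κ_neg τ h hτ).ne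
  · have h := o.eqV hτ
    simp only [oV] at h
    simp only [CPar.V]
    linear_combination h

end IsOrbitExt

end Vale.Agent.P100T
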