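import Vale.Agent.P100T.LowerPos
import Vale.Agent.P100T.OrbitCurve

/-!
The slope bound `Wd/W` along the extended orbit: `Wd < L W'` before `τ₀`, `L W' < Wd` after it as
long as `(σ, W)` stays in the region of `Gc_pos`.
-/

open Set

noncomputable section

namespace Vale.Agent.P100T

open CPar

variable {N p q τ₀ τb : ℝ} {S κ ε : ℝ → ℝ} {C : CPar}

/-- `A = (N+2) y - N` has the sign of `wm - W`. -/
lemma Av_eq_wm (hA : C.Adm) {s : ℝ} (hs : 0 < s) (W : ℝ) :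
    C.Av s W * (C.q * s * (s + (C.p + 1) / (C.q + 1)))
      = (C.N + 2) * (wm C.N C.p C.q s - W) := by
  have := hA.hp
  have := hA.hq
  have : C.q + 1 ≠ 0 := by linarith
  have : (0 : ℝ) < C.N := by linarith [hA.hN]
  have : C.N + 2 ≠ 0 := by linarith
  have hK : C.K s ≠ 0 := (K_pos hA hs).ne'
  have hc := hA.crit
  simp only [Av, yv, l, V, wm]
  simp only [K] at hK ⊢
  field_simp
  linear_combination (-(s * ((C.p + 1) + (C.q + 1) * s))) * hc

namespace IsOrbitExt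

/-- The slope bound before `τ₀`. -/
theorem Wd_lt (o : IsOrbitExt N p q τ₀ τb S κ ε) (hA : C.Adm) (hCN : C.N = N) (hCp : C.p = p)
    (hCq : C.q = q) (hN : 5 ≤ N) (hpq : q < p) (hcrit : N / (p + 1) + N / (q + 1) = N - 2)
    {τ : ℝ} (hτ : τ < τ₀) :
    C.Wd (S τ) (oW p q S τ) < C.L (S τ) * deriv (oW p q S) τ := by
  have hp : 0 < p := hCp ▸ hA.hp
  have hq : 0 < q := hCq ▸ hA.hq
  have hN2 : 2 < N := by linarith
  have h := o.isCurve (C := C) (by linarith) hp hq hCN hCp hCq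
  refine h.Wd_lt hA o.τ₀_lt_τb o.κ_zero (a := τ) (fun x hx _ => ?_) ⟨le_rfl, hτ⟩
    (o.hasDerivAt_W (hτ.trans o.τ₀_lt_τb))
  have hxb := hx.2.trans o.τ₀_lt_τb
  refine Gc_pos hA (by rw [hCN]; exact hN) (by rw [hCp, hCq]; exact hpq) (o.one_lt x hxb).le
    (by rw [hCp, hCq]; exact (o.lt_tb x hxb).le) ?_ (o.W_pos hN2 hp hq hcrit hx.2) ?_
  · have := o.sEq_lt hN2 hp hq hcrit hx.2.le
    rw [sEq, div_mul_div_comm, div_lt_iff₀ (by positivity)] at this
    rw [hCN, hCp, hCq]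
    linarith
  · have hs := one_pos.trans (o.one_lt x hxb)
    have e := Av_eq_wm hA hs (oW p q S x)
    rw [hCN, hCp, hCq] at e
    have hw := o.W_lt_wm hN2 hp hq hpq hcrit hx.2
    have h0 : 0 ≤ (N + 2) * (wm N p q (S x) - oW p q S x) :=
      mul_nonneg (by linarith) (sub_nonneg.2 hw.le)
    rw [← e] at h0
    have := nonneg_of_mul_nonneg_left h0 (by positivity)
    simp only [Av] at this
    linarith

/-- The slope bound after `τ₀`, while the orbit stays in the region of `Gc_pos`. -/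
theorem lt_Wd (o : IsOrbitExt N p q τ₀ τb S κ ε) (hA : C.Adm) (hCN : C.N = N) (hCp : C.p = p)
    (hCq : C.q = q) (hN : 5 ≤ N) (hpq : q < p) {a : ℝ} (ha : a < τb)
    (hreg : ∀ x ∈ Ioc τ₀ a, sEq N p q ≤ S x ∧ 0 < oW p q S x ∧
      N - 2 ≤ (N + 2) * C.yv (S x) (oW p q S x))
    {τ : ℝ} (hτ : τ ∈ Ioc τ₀ a) :
    C.L (S τ) * deriv (oW p q S) τ < C.Wd (S τ) (oW p q S τ) := by
  have hp : 0 < p := hCp ▸ hA.hp
  have hq : 0 < q := hCq ▸ hA.hq
  have h := o.isCurve (C := C) (by linarith) hp hq hCN hCp hCq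
  refine h.lt_Wd hA o.τ₀_lt_τb o.κ_zero ha (fun x hx _ => ?_) hτ
    (o.hasDerivAt_W (hτ.2.trans_lt ha))
  have hxb := hx.2.trans_lt ha
  obtain ⟨h1, h2, h3⟩ := hreg x hx
  refine Gc_pos hA (by rw [hCN]; exact hN) (by rw [hCp, hCq]; exact hpq) (o.one_lt x hxb).le
    (by rw [hCp, hCq]; exact (o.lt_tb x hxb).le) ?_ h2 (by rw [hCN]; exact h3)
  rw [sEq, div_mul_div_comm, div_le_iff₀ (by positivity)] at h1
  rw [hCN, hCp, hCq]
  linarith

end IsOrbitExt

end Vale.Agent.P100T
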