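import Vale.Agent.P100T.LinePos
import Vale.Agent.P100T.LowerOrbit

/-!
The lower line: `k (σ - σm) ≤ W` for all `τ < τ₀`, for `N ≥ 6` outside the corner.
-/

open Set Filter Topology

noncomputable section

namespace Vale.Agent.P100T

open CPar

variable {N p q τ₀ τb : ℝ} {S κ ε : ℝ → ℝ} {C : CPar}

/-- Outside the corner, `(p+1)/(q+1) < (7N-17)/5`. -/
lemma lt_lineTB {N p q T : ℝ} (hN : 6 ≤ N) (hT : 1 < T) (hP : (N - 2) * (p + 1) = N * (1 + T))
    (hQ : (q + 1) * T = p + 1) (hcov : 1 < q ∨ N - 1 ≤ (p + 1) * (q * (N - 3) - 2)) :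
    T < (7 * N - 17) / 5 := by
  rcases hcov with h | h
  · have h1 : 2 * T < p + 1 := by nlinarith
    have h2 : (N - 2) * (2 * T) < N * (1 + T) := by
      rw [← hP]; exact mul_lt_mul_of_pos_left h1 (by linarith)
    nlinarith
  · by_contra hle
    push Not at hle
    have e : (p + 1) * (q * (N - 3) - 2) * ((N - 2) ^ 2 * T)
        = N * (1 + T) * (N * (N - 3) - 2 * T) := by
      have hq : q * ((N - 2) * T) = N + 2 * T := by
        linear_combination hP + (N - 2) * hQ
      linear_combination (N * (1 + T) * (N - 3)) * hq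
        + ((q * (N - 3) - 2) * ((N - 2) * T)) * hP
    have h0 : (N - 1) * ((N - 2) ^ 2 * T) ≤ N * (1 + T) * (N * (N - 3) - 2 * T) :=
      e ▸ mul_le_mul_of_nonneg_right h (by positivity)
    have h1 : 2 * N * T ^ 2 - (2 * N ^ 2 - 10 * N + 4) * T - N ^ 2 * (N - 3) ≤ 0 := by linarith
    have h2 : 2 * N ^ 2 - 10 * N + 4 ≤ 4 * N * ((7 * N - 17) / 5) := by nlinarith
    have h3 : 0 ≤ (T - (7 * N - 17) / 5)
        * (2 * N * (T + (7 * N - 17) / 5) - (2 * N ^ 2 - 10 * N + 4)) :=
      mul_nonneg (by linarith) (by nlinarith)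
    have h4 : 0 < 3 * N ^ 3 + 119 * N ^ 2 - 412 * N + 340 := by nlinarith [sq_nonneg N]
    linarith

/-- `Wd - k W` in terms of `linePhi`. -/
lemma Wd_line (C : CPar) {T : ℝ} (hN : 2 < C.N) (hq : 0 < C.q) (hT : 0 < T)
    (hP : (C.N - 2) * (C.p + 1) = C.N * (1 + T)) (hQ : (C.q + 1) * T = C.p + 1) {s : ℝ}
    (hs : 0 < s) (k w : ℝ) :
    (C.Wd s (s * w) - k * (s * w)) * ((C.N + 4) * (s + T)) = s * linePhi C.N T k s w := by
  have hq1 : C.q + 1 ≠ 0 := by linarith
  have hN2 : C.N - 2 ≠ 0 := by linarith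
  have hN4 : C.N + 4 ≠ 0 := by linarith
  have hsT : s + T ≠ 0 := by linarith
  have hT' : (C.p + 1) / (C.q + 1) = T := by rw [div_eq_iff hq1]; linarith
  have hu : C.p + 2 - s - w = C.N * (1 + T) / (C.N - 2) + 1 - s - w := by
    have : C.p + 1 = C.N * (1 + T) / (C.N - 2) := by rw [eq_div_iff hN2]; linarith
    linarith
  have hl : C.l s (s * w) = s * (C.p + 2 - s - w) / (s + T) := by
    have : C.K s = (C.q + 1) * (s + T) := by simp only [K]; linarith
    rw [l, this, V]; field_simp; ring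
  have hy : C.q * C.yv s (s * w) = (C.p + 2 - s - w) / (s + T) := by
    rw [yv, hl]; field_simp
  have he : C.q * (1 - C.yv s (s * w)) * (s + T)
      = C.N * (1 + T) / ((C.N - 2) * T) * s - (1 + T) + w := by
    have e1 : C.q + 1 = C.N * (1 + T) / ((C.N - 2) * T) := by
      rw [eq_div_iff (by positivity)]; linear_combination (C.N - 2) * hQ + hP
    have e2 : C.q * C.yv s (s * w) * (s + T) = C.p + 2 - s - w := by
      rw [hy, div_mul_cancel₀ _ hsT]
    linear_combination s * e1 - e2 + hQ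
  have hB : C.Bv s (s * w) * (s + T)
      = (s - 1) * (C.N * T - (C.N - 2) * s) - (C.N - 2) * s * w := by
    rw [Bv, hl]; field_simp
    linear_combination s * hP
  have hDl : C.Dl s (s * w) * (C.N + 4) * (s + T) * (s + T)
      = s * (-((C.q * (1 - C.yv s (s * w)) * (s + T)) * (C.Bv s (s * w) * (s + T)))
        + (C.N + 2) * (C.q * C.yv s (s * w)) * w * (s + T) * (s + T)) := by
    simp only [Dl, Xh, kb]; field_simp; ring
  rw [he, hB] at hDl
  have hl' : C.l s (s * w) * (s + T) = s * (C.p + 2 - s - w) := by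
    rw [hl, div_mul_cancel₀ _ hsT]
  have hy' : C.q * C.yv s (s * w) * (s + T) = C.p + 2 - s - w := by
    rw [hy, div_mul_cancel₀ _ hsT]
  simp only [Wd, hT', linePhi]
  rw [← hu]
  linear_combination (-(C.N + 4) * s * w) * hl' - hDl - (s * (C.N + 2) * w * (s + T)) * hy'
    - (s ^ 2 * w) * hP

namespace IsOrbitExt

/-- **The lower line.** -/
theorem lineK_mul_le (o : IsOrbitExt N p q τ₀ τb S κ ε) (hA : C.Adm) (hCN : C.N = N)
    (hCp : C.p = p) (hCq : C.q = q) (hN : 6 ≤ N) (hpq : q < p)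
    (hcrit : N / (p + 1) + N / (q + 1) = N - 2)
    (hcov : 1 < q ∨ N - 1 ≤ (p + 1) * (q * (N - 3) - 2)) {τ : ℝ} (hτ : τ < τ₀) :
    lineK N ((p + 1) / (q + 1)) * (S τ - lineSm N ((p + 1) / (q + 1))) ≤ oW p q S τ := by
  set T := (p + 1) / (q + 1) with hTd
  have hp : 0 < p := hCp ▸ hA.hp
  have hq : 0 < q := hCq ▸ hA.hq
  have hN0 : 0 < N := by linarith
  have hN2 : 2 < N := by linarith
  have hT : 1 < T := by rw [hTd, lt_div_iff₀ (by linarith)]; linarith
  have hT0 : 0 < T := by linarith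
  have hQ : (q + 1) * T = p + 1 := by rw [hTd, mul_div_cancel₀ _ (by linarith)]
  have hP : (N - 2) * (p + 1) = N * (1 + T) := by
    rw [div_add_div _ _ (by linarith) (by linarith), div_eq_iff (by positivity)] at hcrit
    refine mul_left_cancel₀ (show q + 1 ≠ 0 by linarith) ?_
    linear_combination -hcrit - N * hQ
  have hTB := lt_lineTB hN hT hP hQ hcov
  have hs2e : (N * (p + 1) + 2) / (N * (q + 1) + 2) = lineS2 N T := by
    rw [lineS2, div_eq_div_iff (by positivity) (by positivity)]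
    linear_combination (2 * N * (T - 1)) * hP
      + (-(N ^ 2 * (1 + T) + 2 * (N - 2)) * N) * hQ
  set sm := lineSm N T with hsm
  set k := lineK N T with hk
  have hk0 : 0 < k := by
    have : 0 ≤ (T - 1) / N * (2 / 5 + (T - 1) / (T + 5)) :=
      mul_nonneg (div_nonneg (by linarith) hN0.le)
        (add_nonneg (by norm_num) (div_nonneg (by linarith) (by linarith)))
    have : 0 < 4 / N ^ 3 := by positivity
    rw [hk, lineK]; linarith
  by_contra hlt
  push Not at hlt
  have hbelow : ∀ x ≤ τ, oW p q S x - k * (S x - sm) < 0 := by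
    intro x hx
    rcases hx.eq_or_lt with rfl | hx
    · linarith
    by_contra hge
    push Not at hge
    refine absurd (upcross (f := fun y => oW p q S y - k * (S y - sm)) hx (fun y hy =>
      (o.hasDerivAt_W ((hy.2.trans_lt hτ).trans o.τ₀_lt_τb)).sub
        (((o.hasDerivAt_S hq ((hy.2.trans_lt hτ).trans o.τ₀_lt_τb)).sub_const sm).const_mul k))
      (fun y hy h0 => ?_) hge) (by linarith)
    have hy0 := hy.2.trans_lt hτ
    have hyb := hy0.trans o.τ₀_lt_τb
    have hW := o.W_pos hN2 hp hq hcrit hy0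
    have hs : 0 < S y := one_pos.trans (o.one_lt y hyb)
    have hWk : oW p q S y = k * (S y - sm) := by linarith
    have hsy : sm ≤ S y := by
      rw [hWk] at hW
      linarith [pos_of_mul_pos_right hW hk0.le]
    have hs2 : S y < lineS2 N T := hs2e ▸ o.S_lt_s2 hN2 hp hq hpq hcrit hy0.le
    have hphi := linePhi_nonneg hN hT hTB hsy hs2
    have hid := Wd_line C (T := T) (by linarith) (hCq ▸ hq) hT0 (by rw [hCN, hCp]; exact hP)
      (by rw [hCp, hCq]; exact hQ) hs k (k * (S y - sm) / S y)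
    rw [mul_div_cancel₀ _ hs.ne', hCN] at hid
    have hge' : k * oW p q S y ≤ C.Wd (S y) (oW p q S y) := by
      rw [hWk]
      have h1 : 0 ≤ (C.Wd (S y) (k * (S y - sm)) - k * (k * (S y - sm)))
          * ((N + 4) * (S y + T)) := by
        rw [hid]; exact mul_nonneg hs.le hphi
      linarith [nonneg_of_mul_nonneg_left h1 (by positivity)]
    have hd := o.Wd_lt hA hCN hCp hCq (by linarith) hpq hcrit hy0
    have hL : C.L (S y) = (p + 1) - (q + 1) * S y := by simp only [CPar.L, hCp, hCq]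
    rw [hL] at hd
    have hLp := o.L_pos hq hyb
    rw [sub_pos, ← mul_div_assoc, div_lt_iff₀ hLp]
    linarith
  set σi := max 1 ((N - 2) * T / N) with hσi
  have he : 0 < (lineS2 N T - σi) / lineM N T := by
    have hD : 0 < N ^ 2 * (1 + T) + 2 * (N - 2) * T := by positivity
    refine div_pos (sub_pos.2 (max_lt ?_ ?_)) (lt_of_lt_of_le (by positivity) (lineM_ge hN0 T))
    · rw [lineS2, lt_div_iff₀ hD]
      nlinarith [mul_pos (sub_pos.2 hT) (show (0 : ℝ) < N ^ 2 * (1 + T) by positivity)]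
    · rw [lineS2, div_lt_div_iff₀ hN0 hD]
      have h1 : (N - 2) * (N - 2) * T < N ^ 2 * (1 + T) := by
        nlinarith [mul_pos hT0 (show (0 : ℝ) < 4 * N - 4 by linarith)]
      have h2 : (N - 2) * (N ^ 2 * (1 + T) + 2 * (N - 2) * T)
          < N * (N ^ 2 * (1 + T) + 2 * (N - 2)) := by nlinarith
      linarith [mul_lt_mul_of_pos_left h2 hT0]
  obtain ⟨x, hx, hxτ⟩ :=
    ((o.eventually_S_lt hN2 hp hq hcrit he).and (eventually_le_atBot τ)).exists
  have hsEq : sEq N p q = (N - 2) * T / N := by rw [sEq, hTd]; ring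
  rw [hsEq, ← hσi] at hx
  have hxs : S x < sm := hx
  have hW := o.W_pos hN2 hp hq hcrit (hxτ.trans_lt hτ)
  nlinarith [hbelow x hxτ, mul_pos hk0 (sub_pos.2 hxs)]

end IsOrbitExt

end Vale.Agent.P100T
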