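import Vale.Agent.P100T.ExtLinePos
import Vale.Agent.P100T.ExtDef
import Vale.Agent.P100T.LowerLine

/-!
The second lower line of the extension box: `extLine σ ≤ W` for all `τ < τ₀`, `N ≥ 6`, outside the
corner.
-/

open Set Filter Topology

noncomputable section

namespace Vale.Agent.P100T

open CPar

variable {N p q τ₀ τb : ℝ} {S κ ε : ℝ → ℝ} {C : CPar}

lemma lineC0_alg {N T D : ℝ} (hN : N ≠ 0) (hh : N - 2 ≠ 0) (hT : T ≠ 0) (hD : D ≠ 0)
    (h1 : 1 + T ≠ 0) (h' : N ^ 2 + (N - 2) ≠ 0) :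
    2 * (N ^ 2 * (1 + T) * (T - 1) / D)
        * (2 * (N - 1) * N * (1 + T) * (N + 2 * T) / ((N - 2) * D)
          * (2 * T * (N ^ 2 * (1 + T) + N * (N - 2) * T - (N - 2) ^ 2) / D)
          / (N * (2 * T * (1 + T) * (N ^ 2 + (N - 2)) / D)))
        / (D / ((N - 2) * T))
      = 4 * (N - 1) * N ^ 2 * T * (T - 1) * (1 + T) * (N + 2 * T)
          * (N ^ 2 * (1 + T) + N * (N - 2) * T - (N - 2) ^ 2) / (D ^ 3 * (N ^ 2 + (N - 2))) := by
  field_simp
  ring

lemma extS2_eq {T : ℝ} (hN : 2 < N) (hT : 0 < T) (hP : (N - 2) * (p + 1) = N * (1 + T))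
    (hQ : (q + 1) * T = p + 1) : extS2 N p q = lineS2 N T := by
  have hh : N - 2 ≠ 0 := by linarith
  have hp : p + 1 = N * (1 + T) / (N - 2) := by rw [eq_div_iff hh]; linarith
  have hq : q + 1 = N * (1 + T) / ((N - 2) * T) := by
    rw [eq_div_iff (mul_ne_zero hh hT.ne')]; linear_combination (N - 2) * hQ + hP
  rw [extS2, lineS2, hp, hq]
  field_simp

lemma extC0_eq {T : ℝ} (hN : 2 < N) (hT : 0 < T) (hP : (N - 2) * (p + 1) = N * (1 + T))
    (hQ : (q + 1) * T = p + 1) : extC0 N p q = lineC0 N T := by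
  have hh : N - 2 ≠ 0 := by linarith
  have hD : 0 < N ^ 2 * (1 + T) + 2 * (N - 2) * T := by
    have : 0 < N - 2 := by linarith
    positivity
  have hp : p + 1 = N * (1 + T) / (N - 2) := by rw [eq_div_iff hh]; linarith
  have hq : q + 1 = N * (1 + T) / ((N - 2) * T) := by
    rw [eq_div_iff (mul_ne_zero hh hT.ne')]; linear_combination (N - 2) * hQ + hP
  have hc : (p + 1) / (q + 1) = T := by
    have : N * (1 + T) ≠ 0 := mul_ne_zero (by linarith) (by linarith)
    rw [hp, hq]; field_simp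
  have hs := extS2_eq hN hT hP hQ
  have e1 : lineS2 N T - 1 = N ^ 2 * (1 + T) * (T - 1) / (N ^ 2 * (1 + T) + 2 * (N - 2) * T) := by
    rw [lineS2, eq_div_iff hD.ne', sub_mul, div_mul_cancel₀ _ hD.ne']; ring
  have e2 : N * T - (N - 2) * lineS2 N T
      = 2 * T * (N ^ 2 * (1 + T) + N * (N - 2) * T - (N - 2) ^ 2)
        / (N ^ 2 * (1 + T) + 2 * (N - 2) * T) := by
    rw [lineS2, eq_div_iff hD.ne', sub_mul, mul_assoc (N - 2), div_mul_cancel₀ _ hD.ne']; ring
  have e3 : lineS2 N T + T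
      = 2 * T * (1 + T) * (N ^ 2 + (N - 2)) / (N ^ 2 * (1 + T) + 2 * (N - 2) * T) := by
    rw [lineS2, eq_div_iff hD.ne', add_mul, div_mul_cancel₀ _ hD.ne']; ring
  have e4 : p + 2 - lineS2 N T = 2 * (N - 1) * N * (1 + T) * (N + 2 * T)
      / ((N - 2) * (N ^ 2 * (1 + T) + 2 * (N - 2) * T)) := by
    have h1 : lineS2 N T * (N ^ 2 * (1 + T) + 2 * (N - 2) * T)
        = T * (N ^ 2 * (1 + T) + 2 * (N - 2)) := by rw [lineS2, div_mul_cancel₀ _ hD.ne']
    rw [eq_div_iff (mul_ne_zero hh hD.ne')]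
    linear_combination (N ^ 2 * (1 + T) + 2 * (N - 2) * T) * hP - (N - 2) * h1
  have e5 : N * (q + 1) + 2 = (N ^ 2 * (1 + T) + 2 * (N - 2) * T) / ((N - 2) * T) := by
    rw [hq]; field_simp
  rw [extC0, k0, hs, hc, e1, e2, e3, e4, e5, lineC0]
  exact lineC0_alg (by linarith) hh hT.ne' hD.ne' (by linarith) (by nlinarith)

lemma wm_le_lineK2 {T s : ℝ} (hN : 2 < N) (hq : 0 < q) (hT : 0 < T)
    (hP : (N - 2) * (p + 1) = N * (1 + T)) (hQ : (q + 1) * T = p + 1)
    (hs : s ≤ lineS2 N T) :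
    wm N p q s ≤ lineK2 N T * (lineS2 N T - s) := by
  have hN2 : N + 2 ≠ 0 := by linarith
  have hh : N - 2 ≠ 0 := by linarith
  have hQ' : 0 < N * (q + 1) + 2 := by positivity
  have h1 : lineS2 N T * (N * (q + 1) + 2) = N * (p + 1) + 2 := by
    rw [← extS2_eq hN hT hP hQ, extS2, div_mul_cancel₀ _ hQ'.ne']
  have hK : lineK2 N T = (N * (p + 1) + 2) / (N + 2) := by
    rw [lineK2, eq_div_iff hN2]; field_simp; linear_combination -N * hP
  have e : wm N p q s = s * (N * (q + 1) + 2) / (N + 2) * (lineS2 N T - s) := by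
    rw [wm, div_mul_eq_mul_div]
    congr 1
    linear_combination (-s) * h1
  rw [e, hK, ← h1]
  gcongr

namespace IsOrbitExt

/-- **The second lower line.** -/
theorem extLine_le (o : IsOrbitExt N p q τ₀ τb S κ ε) (hA : C.Adm) (hCN : C.N = N)
    (hCp : C.p = p) (hCq : C.q = q) (hN : 6 ≤ N) (hpq : q < p)
    (hcrit : N / (p + 1) + N / (q + 1) = N - 2)
    (hcov : 1 < q ∨ N - 1 ≤ (p + 1) * (q * (N - 3) - 2)) {τ : ℝ} (hτ : τ < τ₀) :
    extLine N p q (S τ) ≤ oW p q S τ := by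
  set T := (p + 1) / (q + 1) with hTd
  have hp : 0 < p := hCp ▸ hA.hp
  have hq : 0 < q := hCq ▸ hA.hq
  have hN0 : 0 < N := by linarith
  have hN2 : 2 < N := by linarith
  have hT : 1 < T := by rw [hTd, lt_div_iff₀ (by linarith)]; linarith
  have hT0 : 0 < T := by linarith
  have hQ : (q + 1) * T = p + 1 := by rw [hTd, mul_div_cancel₀ _ (by linarith)]
  have hP : (N - 2) * (p + 1) = N * (1 + T) := by
    rw [div_add_div _ _ (by linarith) (by linarith), div_eq_iff (by positivity)] at hcrit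
    refine mul_left_cancel₀ (show q + 1 ≠ 0 by linarith) ?_
    linear_combination -hcrit - N * hQ
  have hTB := lt_lineTB hN hT hP hQ hcov
  have hsEq : sEq N p q = (N - 2) * T / N := by rw [sEq, hTd]; ring
  have hs2e : (N * (p + 1) + 2) / (N * (q + 1) + 2) = lineS2 N T :=
    extS2_eq hN2 hT0 hP hQ
  set r := lineS2 N T - max 1 ((N - 2) * T / N) with hr
  have hD : 0 < N ^ 2 * (1 + T) + 2 * (N - 2) * T := by
    have : 0 < N - 2 := by linarith
    positivity
  have hr0 : 0 < r := by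
    refine sub_pos.2 (max_lt ?_ ?_)
    · rw [lineS2, lt_div_iff₀ hD]
      nlinarith [mul_pos (sub_pos.2 hT) (show (0 : ℝ) < N ^ 2 * (1 + T) by positivity)]
    · rw [lineS2, div_lt_div_iff₀ hN0 hD]
      have h1 : (N - 2) * (N - 2) * T < N ^ 2 * (1 + T) := by
        nlinarith [mul_pos hT0 (show (0 : ℝ) < 4 * N - 4 by linarith)]
      have h2 : (N - 2) * (N ^ 2 * (1 + T) + 2 * (N - 2) * T)
          < N * (N ^ 2 * (1 + T) + 2 * (N - 2)) := by nlinarith
      linarith [mul_lt_mul_of_pos_left h2 hT0]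
  set k := lineKE N T with hk
  have hk0 : 0 < k := by
    have hX : 0 < N ^ 2 * (1 + T) + N * (N - 2) * T - (N - 2) ^ 2 := by nlinarith
    have : 0 < T - 1 := by linarith
    have : 0 < N - 1 := by linarith
    have : 0 < N ^ 2 + (N - 2) := by nlinarith
    rw [hk, lineKE, ← hr, lineC0]
    positivity
  set sm := lineS2 N T - 2 * r / 3 with hsm
  have hline : ∀ x, extLine N p q x = k * (x - sm) := fun x => by
    rw [extLine, extC0_eq hN2 hT0 hP hQ, extS2_eq hN2 hT0 hP hQ, hsEq, ← hr, hk, lineKE, ← hr, hsm]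
    field_simp
    ring
  rw [hline]
  by_contra hlt
  push Not at hlt
  have hbelow : ∀ x ≤ τ, oW p q S x - k * (S x - sm) < 0 := by
    intro x hx
    rcases hx.eq_or_lt with rfl | hx
    · linarith
    by_contra hge
    push Not at hge
    refine absurd (upcross (f := fun y => oW p q S y - k * (S y - sm)) hx (fun y hy =>
      (o.hasDerivAt_W ((hy.2.trans_lt hτ).trans o.τ₀_lt_τb)).sub
        (((o.hasDerivAt_S hq ((hy.2.trans_lt hτ).trans o.τ₀_lt_τb)).sub_const sm).const_mul k))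
      (fun y hy h0 => ?_) hge) (by linarith)
    have hy0 := hy.2.trans_lt hτ
    have hyb := hy0.trans o.τ₀_lt_τb
    have hW := o.W_pos hN2 hp hq hcrit hy0
    have hs : 0 < S y := one_pos.trans (o.one_lt y hyb)
    have hWk : oW p q S y = k * (S y - sm) := by linarith
    have hsy : sm < S y := by
      rw [hWk] at hW
      linarith [pos_of_mul_pos_right hW hk0.le]
    have hs2 : S y < lineS2 N T := hs2e ▸ o.S_lt_s2 hN2 hp hq hpq hcrit hy0.le
    have hwm := (o.W_lt_wm hN2 hp hq hpq hcrit hy0).trans_le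
      (wm_le_lineK2 hN2 hq hT0 hP hQ hs2.le)
    rw [hWk] at hwm
    have hphi := extLinePhi_nonneg hN hT hTB hs hr hsy hs2 hwm
    have hid := Wd_line C (T := T) (by linarith) (hCq ▸ hq) hT0 (by rw [hCN, hCp]; exact hP)
      (by rw [hCp, hCq]; exact hQ) hs k (k * (S y - sm) / S y)
    rw [mul_div_cancel₀ _ hs.ne', hCN] at hid
    have hge' : k * oW p q S y ≤ C.Wd (S y) (oW p q S y) := by
      rw [hWk]
      have h1 : 0 ≤ (C.Wd (S y) (k * (S y - sm)) - k * (k * (S y - sm)))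
          * ((N + 4) * (S y + T)) := by
        rw [hid]; exact mul_nonneg hs.le hphi
      linarith [nonneg_of_mul_nonneg_left h1 (by positivity)]
    have hd := o.Wd_lt hA hCN hCp hCq (by linarith : 5 ≤ N) hpq hcrit hy0
    have hL : C.L (S y) = (p + 1) - (q + 1) * S y := by simp only [CPar.L, hCp, hCq]
    rw [hL] at hd
    have hLp := o.L_pos hq hyb
    rw [sub_pos, ← mul_div_assoc, div_lt_iff₀ hLp]
    linarith
  obtain ⟨x, hx, hxτ⟩ := ((o.eventually_S_lt hN2 hp hq hcrit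
    (show 0 < r / 3 by linarith)).and (eventually_le_atBot τ)).exists
  rw [hsEq] at hx
  have hxs : S x < sm := by rw [hsm, hr]; linarith
  have hW := o.W_pos hN2 hp hq hcrit (hxτ.trans_lt hτ)
  nlinarith [hbelow x hxτ, mul_pos hk0 (sub_pos.2 hxs)]

end IsOrbitExt

end Vale.Agent.P100T
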