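import Vale.Agent.P100T.BarrierSign
import Vale.Agent.P100T.BoxExitTpl
import Vale.Agent.P100T.BoxPre
import Vale.Agent.P100T.LowerExtLine

/-!
Values of the templates of `BoxExitTpl` in the quantities of the extension box.
-/

noncomputable section

namespace Vale.Agent.P100T.ExitCert

open PosCheck UpperCert

variable {N p q : ℝ}

/-- `N (p+1 + (q+1) σ)` times the rate at (σ, W). -/
def Kt (N p q s W : ℝ) : ℝ :=
  N * (1 + q * s) * ((p + 1) + (q + 1) * s)
    - 2 * (N - 1) * (q + 1) * ((p + 2) * s - s * s - W)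

lemma extK_eq (hN : N ≠ 0) {s : ℝ} (hs : (p + 1) + (q + 1) * s ≠ 0) (W : ℝ) :
    extK N p q s W = Kt N p q s W / (N * ((p + 1) + (q + 1) * s)) := by
  rw [eq_div_iff (mul_ne_zero hN hs), extK, Kt]
  generalize (p + 1) + (q + 1) * s = d at hs ⊢
  field_simp
  ring

/-- The values at (N - 6, y). -/
structure Eval (H : Hat) (N p q y : ℝ) : Prop where
  hD : 0 < H.D.eval (N - 6) y 0
  s2 : H.s2.eval (N - 6) y 0 = extS2 N p q * H.D.eval (N - 6) y 0
  r : H.r.eval (N - 6) y 0 = boxR N p q * H.D.eval (N - 6) y 0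
  C0 : H.C0.eval (N - 6) y 0 = extC0 N p q * H.D.eval (N - 6) y 0
  l : H.l.eval (N - 6) y 0 = extL N p q * H.D.eval (N - 6) y 0
  d : H.d.eval (N - 6) y 0 = boxDl N p q * H.D.eval (N - 6) y 0
  T : H.T.eval (N - 6) y 0 = (p + 1) / (q + 1) * H.D.eval (N - 6) y 0
  p1 : H.p1.eval (N - 6) y 0 = (p + 1) * H.D.eval (N - 6) y 0
  q1 : H.q1.eval (N - 6) y 0 = (q + 1) * H.D.eval (N - 6) y 0

/-- `k / dl` stands for the rate `K`. -/
def Rate (k dl : Ex) (X y K : ℝ) : Prop :=
  0 < dl.eval X y 0 ∧ k.eval X y 0 = K * dl.eval X y 0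

variable {H : Hat} {y K : ℝ}

lemma rate0 (e : Eval H N p q y) : Rate (c 0) H.D (N - 6) y 0 := ⟨e.hD, by simp⟩

lemma dl1_eval (e : Eval H N p q y) : (dl1 H).eval (N - 6) y 0
    = N * ((p + 1) + (q + 1) * extS3 N p q) * (100 * H.D.eval (N - 6) y 0 ^ 4) := by
  simp only [dl1, den, s3, eval_add', eval_mul', eval_c, Int.cast_ofNat, eN_eval, e.s2, e.d,
    e.p1, e.q1, extS3, boxDl]
  ring

lemma rate1 (e : Eval H N p q y) (hN : 0 < N) (hs : 0 < (p + 1) + (q + 1) * extS3 N p q) :
    Rate (k1 H) (dl1 H) (N - 6) y (extK N p q (extS3 N p q) (51 / 50 * extC0 N p q)) := by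
  refine ⟨by rw [dl1_eval e]; have := e.hD; positivity, ?_⟩
  rw [dl1_eval e, extK_eq hN.ne' hs.ne', ← mul_assoc, div_mul_cancel₀ _ (by positivity)]
  simp only [k1, den, s3, eval_add', eval_sub', eval_mul', eval_c, Int.cast_ofNat, Int.cast_one,
    eN_eval, e.s2, e.d, e.p1, e.q1, e.C0, Kt, extS3, boxDl]
  ring

/-- `2 (V - τ K)` at the right end, `τ = (T - s3) N/2`. -/
def cSl (N p q K : ℝ) : ℝ :=
  2 * (extS3 N p q * (extS3 N p q - 1) + extL N p q)
    - N * ((p + 1) / (q + 1) - extS3 N p q) * K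

lemma xI_pos (e : Eval H N p q y) {k dl : Ex} (hk : Rate k dl (N - 6) y K) (hN : 2 < N)
    (hs : 0 < extS2 N p q) (hr : 0 < boxR N p q) (hQ : 0 < N * (q + 1) + 2)
    (hC : 0 < extC0 N p q) (h : 0 < (xI H k dl).eval (N - 6) y 0) :
    0 < exitF N p q (boxXmin N p q) (51 / 50 * extC0 N p q) K := by
  set Xd' := 100 * extS2 N p q * boxR N p q * (N * (q + 1) + 2)
    + 135 * (N + 2) * extC0 N p q with hXd
  have hXd0 : 0 < Xd' := by
    have : 0 < N + 2 := by linarith
    positivity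
  have hX : boxXmin N p q * Xd' = 90 * (N + 2) * extC0 N p q * boxR N p q := by
    have : N + 2 ≠ 0 := by linarith
    have hB : boxBe N p q + 27 / 20 * extC0 N p q / boxR N p q
        = Xd' / (100 * (N + 2) * boxR N p q) := by
      rw [boxBe, hXd]; field_simp; ring
    rw [boxXmin, hB]; field_simp; ring
  have h' : 0 < exitF N p q (boxXmin N p q) (51 / 50 * extC0 N p q) K
      * (200 * Xd' * H.D.eval (N - 6) y 0 ^ 6 * dl.eval (N - 6) y 0) := by
    refine lt_of_lt_of_eq h ?_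
    simp only [xI, Xn, Xd, V, tn, Qh, s3, eval_add', eval_sub', eval_mul', eval_c,
      Int.cast_ofNat, eN_eval, e.s2, e.r, e.C0, e.l, e.d, e.T, e.q1, hk.2, exitF, extS3, boxDl]
    rw [hXd] at hX ⊢
    linear_combination (-100 * H.D.eval (N - 6) y 0 ^ 6 * dl.eval (N - 6) y 0
      * (2 * ((extS2 N p q + extC0 N p q / (5 * (p + 1)))
        * (extS2 N p q + extC0 N p q / (5 * (p + 1)) - 1) + extL N p q)
        - N * ((p + 1) / (q + 1) - (extS2 N p q + extC0 N p q / (5 * (p + 1)))) * K)) * hX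
  have := e.hD
  have := hk.1
  exact pos_of_mul_pos_left h' (by positivity)

lemma xA_pos (e : Eval H N p q y) {k dl : Ex} (hk : Rate k dl (N - 6) y K) (hN : 2 < N)
    (hs : 0 < extS2 N p q) (hQ : 0 < N * (q + 1) + 2)
    (h : 0 < (xA H k dl).eval (N - 6) y 0) :
    0 < exitF N p q (101 / 100 * extC0 N p q / boxBe N p q) (51 / 50 * extC0 N p q) K := by
  have hN2 : 0 < N + 2 := by linarith
  have hX : 101 / 100 * extC0 N p q / boxBe N p q * (100 * extS2 N p q * (N * (q + 1) + 2))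
      = 101 * extC0 N p q * (N + 2) := by
    rw [boxBe]; field_simp
  have h' : 0 < exitF N p q (101 / 100 * extC0 N p q / boxBe N p q) (51 / 50 * extC0 N p q) K
      * (200 * (100 * extS2 N p q * (N * (q + 1) + 2)) * H.D.eval (N - 6) y 0 ^ 5
        * dl.eval (N - 6) y 0) := by
    refine lt_of_lt_of_eq h ?_
    simp only [xA, YA, An, Ad, V, tn, Qh, s3, eval_add', eval_sub', eval_mul', eval_c,
      Int.cast_ofNat, eN_eval, e.s2, e.C0, e.l, e.d, e.T, e.q1, hk.2, exitF, extS3, boxDl]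
    linear_combination (-100 * H.D.eval (N - 6) y 0 ^ 5 * dl.eval (N - 6) y 0
      * (2 * ((extS2 N p q + extC0 N p q / (5 * (p + 1)))
        * (extS2 N p q + extC0 N p q / (5 * (p + 1)) - 1) + extL N p q)
        - N * ((p + 1) / (q + 1) - (extS2 N p q + extC0 N p q / (5 * (p + 1)))) * K)) * hX
  have := e.hD
  have := hk.1
  exact pos_of_mul_pos_left h' (by positivity)

/-- The slope of the tangent of `boxTop` at `101/100 C₀ / boxBe`. -/
def tanK (N p q : ℝ) : ℝ := boxBe N p q - 101 / 50 * extC0 N p q / extS2 N p q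

lemma xS0_pos (e : Eval H N p q y) (hN : 2 < N) (hs : 0 < extS2 N p q)
    (h : 0 < (xS0 H).eval (N - 6) y 0) :
    0 < cSl N p q 0 - N * ((p + 1) / (q + 1) - extS3 N p q) * tanK N p q := by
  have hN2 : 0 < N + 2 := by linarith
  have h' : 0 < (cSl N p q 0 - N * ((p + 1) / (q + 1) - extS3 N p q) * tanK N p q)
      * (100 * (N + 2) * extS2 N p q * H.D.eval (N - 6) y 0 ^ 5) := by
    refine lt_of_lt_of_eq h ?_
    simp only [xS0, V, tn, KP, KPd, Qh, s3, eval_add', eval_sub', eval_mul', eval_c,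
      Int.cast_ofNat, eN_eval, e.s2, e.C0, e.l, e.d, e.T, e.q1, cSl, tanK, boxBe, extS3, boxDl]
    field_simp
    ring
  have := e.hD
  exact pos_of_mul_pos_left h' (by positivity)

lemma xS_pos (e : Eval H N p q y) (hN : 2 < N) (hs : 0 < extS2 N p q)
    (hQ : 0 < N * (q + 1) + 2) (hd : 0 < (p + 1) + (q + 1) * extS3 N p q)
    (h : 0 < (xS H).eval (N - 6) y 0) :
    0 < cSl N p q (extK N p q (extS3 N p q) (51 / 50 * extC0 N p q))
      - N * ((p + 1) / (q + 1) - extS3 N p q) * tanK N p q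
        * (1 + 2 * (N - 1) * (q + 1) / (N * ((p + 1) + (q + 1) * extS3 N p q))
          * (101 / 100 * extC0 N p q / boxBe N p q + boxDl N p q)) := by
  have hN0 : 0 < N := by linarith
  have hN2 : 0 < N + 2 := by linarith
  have hd' : (p + 1) + (q + 1) * (extS2 N p q + extC0 N p q / (5 * (p + 1))) ≠ 0 := hd.ne'
  have hk := (rate1 e hN0 hd).2
  have h' : 0 < (cSl N p q (extK N p q (extS3 N p q) (51 / 50 * extC0 N p q))
      - N * ((p + 1) / (q + 1) - extS3 N p q) * tanK N p q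
        * (1 + 2 * (N - 1) * (q + 1) / (N * ((p + 1) + (q + 1) * extS3 N p q))
          * (101 / 100 * extC0 N p q / boxBe N p q + boxDl N p q)))
      * ((100 * (N + 2) * extS2 N p q) * (100 * extS2 N p q * (N * (q + 1) + 2))
        * (100 * (N * ((p + 1) + (q + 1) * extS3 N p q))) * H.D.eval (N - 6) y 0 ^ 11) := by
    refine lt_of_lt_of_eq h ?_
    generalize hK : extK N p q (extS3 N p q) (51 / 50 * extC0 N p q) = K at hk ⊢
    simp only [xS, eval_add', eval_sub', eval_mul', eval_c, eN_eval, hk, dl1_eval e]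
    simp only [YA, An, Ad, KP, KPd, V, tn, eval_add', eval_sub', eval_mul', eval_c, eN_eval]
    simp only [Qh, s3, eval_add', eval_sub', eval_mul', eval_c, eN_eval]
    simp only [e.s2, e.C0, e.l, e.d, e.T, e.q1, Int.cast_ofNat, Int.cast_one]
    simp only [cSl, tanK, boxBe, extS3, boxDl] at hd ⊢
    generalize extC0 N p q / (5 * (p + 1)) = dd at hd ⊢
    generalize extS2 N p q = s2 at hs hd ⊢
    generalize (p + 1) / (q + 1) = t
    generalize extC0 N p q = C0
    generalize extL N p q = L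
    generalize H.D.eval (N - 6) y 0 = D
    set de := p + 1 + (q + 1) * (s2 + dd) with hde
    set hQ' := N * (q + 1) + 2 with hQd
    field_simp
    rw [hde, hQd]
    ring
  have := e.hD
  exact pos_of_mul_pos_left h' (by positivity)

/-- The scaled quantities at a point. -/
lemma mk_eval {T : ℝ} (hN : 6 ≤ N) (hT : 1 < T) (hP : (N - 2) * (p + 1) = N * (1 + T))
    (hQ : (q + 1) * T = p + 1) {y : ℝ} {Td Tn M : Ex} (hTd : 0 < Td.eval (N - 6) y 0)
    (hTn : Tn.eval (N - 6) y 0 = T * Td.eval (N - 6) y 0)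
    (hM : M.eval (N - 6) y 0 = boxR N p q * (Td.eval (N - 6) y 0 ^ 2
      * (N ^ 2 * (1 + T) + 2 * (N - 2) * T))) :
    Eval (mk Td Tn M) N p q y := by
  have hh : 0 < N - 2 := by linarith
  have hN0 : 0 < N := by linarith
  have hN2 : 0 < N + 2 := by linarith
  have hN1 : 0 < N - 1 := by linarith
  have ht0 : 0 < T := by linarith
  have ht1 : 0 < 1 + T := by linarith
  have hp : p + 1 = N * (1 + T) / (N - 2) := by rw [eq_div_iff hh.ne']; linarith
  have hq : q + 1 = N * (1 + T) / ((N - 2) * T) := by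
    rw [eq_div_iff (by positivity)]; linear_combination (N - 2) * hQ + hP
  have hc : (p + 1) / (q + 1) = T := by
    rw [hp, hq]; field_simp
  have hS := extS2_eq (show 2 < N by linarith) ht0 hP hQ
  have hC := extC0_eq (show 2 < N by linarith) ht0 hP hQ
  have h' : N ^ 2 + (N - 2) = (N - 1) * (N + 2) := by ring
  set t := Td.eval (N - 6) y 0 with ht
  have hDq : 0 < N ^ 2 * (1 + T) + 2 * (N - 2) * T := by positivity
  constructor <;>
    simp only [mk, boxDl, extL, eval_add', eval_sub', eval_mul', eval_c, Int.cast_ofNat, eN_eval,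
      eh_eval, hTn, hM, ← ht, hc, hS, hC, hp, hq, lineS2, lineC0, h']
  · positivity
  all_goals first
    | (field_simp; done)
    | (field_simp; ring)

end Vale.Agent.P100T.ExitCert
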