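import Vale.Agent.P100T.BoxLow

/-!
`L < wm (s₂ - X₀)`: the field `l_lt` of `BoxCerts`, from the conditions at `s3`.
-/

noncomputable section

namespace Vale.Agent.P100T

variable {N p q : ℝ}

/-- The hypothesis `hsX` of `box_low`. -/
theorem extL_lt_wm_Xmin (hN : 6 ≤ N) (hq : 0 < q) (hpq : q < p)
    (hcrit : N / (p + 1) + N / (q + 1) = N - 2)
    (hT : (p + 1) / (q + 1) < (7 * N - 17) / 5) :
    extL N p q < wm N p q (extS2 N p q - boxXmin N p q) := by
  have hp : 0 < p := hq.trans hpq
  have hN0 : 0 < N := by linarith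
  have hN2 : 2 < N := by linarith
  have hii := (LowCert.ends_hold hN hq hpq hcrit hT).ii
  have hT3 := extS3_le_tb hN hq hpq
  have hs3 := extS2_le_extS3 hN2 hq hpq
  have hs2 := one_lt_extS2 hN0 hq hpq
  have hC0 := extC0_pos hN2 hq hpq
  have hr := boxR_pos hN2 hq hpq
  have hbe := boxBe_pos hN0 hp hq
  have hdl : 0 < boxDl N p q := by unfold boxDl; positivity
  have hX0 : 0 < boxXmin N p q := by unfold boxXmin; positivity
  have hk : 0 ≤ k0 N p q (extS3 N p q) + 2 * nu N p q (extS3 N p q) * extL N p q := by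
    have := (k0_pos hN2 hp hq (show 0 ≤ extS3 N p q by linarith) hT3).le
    have := (extL_pos hN2 hq hpq).le
    have hT0 : 0 ≤ (p + 1) / (q + 1) := by positivity
    have : 0 ≤ nu N p q (extS3 N p q) :=
      div_nonneg (by linarith) (mul_nonneg hN0.le (by linarith))
    positivity
  have h0 : 0 ≤ 10 * (boxXmin N p q + boxDl N p q) * (2 * extS3 N p q - 1)
      * (k0 N p q (extS3 N p q) + 2 * nu N p q (extS3 N p q) * extL N p q) :=
    mul_nonneg (mul_nonneg (by positivity) (by linarith)) hk
  have := pos_of_mul_pos_right (h0.trans_lt hii)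
    (show 0 ≤ 3 * (N + 2) * boxBe N p q by positivity)
  linarith

end Vale.Agent.P100T
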