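import Vale.Agent.P100T.PosCheck

/-!
Polynomial templates for the lower barrier of the extension box at its right end `σ = s3`, in
`N`, `m = N - 2` and `T = b / a`, and the kernel checks of their coefficient positivity in the two
regimes `σ∞ = 1` and `σ∞ = (N-2) T / N`.
-/

namespace Vale.Agent.P100T.LowCert

open PosCheck

section templates

variable {R : Type} [Add R] [Sub R] [Mul R] (k : ℤ → R) (N m a b rr rd : R)

def gG : R := N * N * (a + b) + k 2 * m * a
def gH : R := N * N * (a + b) + k 2 * m * b
/-- The numerator of `p + 2 - s₂`. -/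
def gE : R := N * (a + b) * gH k N m a b + m * a * gH k N m a b - m * b * gG k N m a b
def gW : R := (b - a) * gE k N m a b * (N * gH k N m a b - m * gG k N m a b)
def gQ : R := m * a * (N + k 2)
/-- The common denominator `D` of `s₂`, `T`, `C₀`, `L` and `s3`. -/
def gD : R :=
  k 50 * a * a * gH k N m a b * gH k N m a b * gH k N m a b * (gG k N m a b + gH k N m a b)
def gT : R :=
  k 50 * a * b * gH k N m a b * gH k N m a b * gH k N m a b * (gG k N m a b + gH k N m a b)
def gS2 : R :=
  k 50 * a * b * gG k N m a b * gH k N m a b * gH k N m a b * (gG k N m a b + gH k N m a b)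
def gd : R := k 20 * m * a * b * gW k N m a b
def gL : R := (k 67 * b - k 3 * a) * N * (a + b) * gW k N m a b
def gC0 : R := k 100 * N * (a + b) * b * gW k N m a b
def gS : R := gS2 k N m a b + gd k N m a b
/-- `r = gRn / (rd D)`, from `r = rr / (rd a H)`. -/
def gRn : R := rr * (k 50 * a * gH k N m a b * gH k N m a b * (gG k N m a b + gH k N m a b))
/-- `boxXmin = gX0 / (gU1 D)`. -/
def gU1 : R :=
  k 20 * gG k N m a b * gRn k N m a b rr + k 27 * gC0 k N m a b * gQ k N m a * rd
def gX0 : R := k 18 * gC0 k N m a b * gRn k N m a b rr * gQ k N m a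
/-- `k₀ + 2νL` at `s3`, times `N (s + T) m a D²`. -/
def gK2 : R :=
  ((N * (a + b) + m * a) * gD k N m a b - m * a * gS k N m a b)
      * (N * gT k N m a b - m * gS k N m a b)
    + k 2 * (N - k 1) * m * a * gL k N m a b * gD k N m a b
/-- `frc` at `s3`, times `N (s + T) m a D⁴`. -/
def gF : R :=
  (gL k N m a b * gD k N m a b + gS k N m a b * (gS k N m a b - gD k N m a b)) * gK2 k N m a b
    - (k 2 * gS k N m a b - gD k N m a b) * gL k N m a b * N
      * (gS k N m a b + gT k N m a b) * gD k N m a b * m * a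
/-- `(N + 2) (L - wm)` at `s3`, times `m b D²`. -/
def gA : R :=
  (N + k 2) * gL k N m a b * m * b * gD k N m a b
    - gS k N m a b * (N * N * (a + b) * (gT k N m a b - gS k N m a b)
      - k 2 * (gS k N m a b - gD k N m a b) * m * b)
/-- `extK` at `s3` and `W = CK / (u D)`, times `N (s + T) m a b D² u`. -/
def gK (u CK : R) : R :=
  a * N * (gS k N m a b + gT k N m a b)
      * (m * b * gD k N m a b + (N * (a + b) - m * b) * gS k N m a b) * u
    - k 2 * (N - k 1) * ((N * (a + b) * b * gS k N m a b * gD k N m a b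
        - m * a * b * gS k N m a b * (gS k N m a b - gD k N m a b)) * u
      - m * a * b * CK * gD k N m a b)
/-- `lowF` at `s3`, for `X + d = Y / (u D)`, top `C / (u D)` and slope `extK (CK / (u D))`. -/
def gPK (u Y C CK : R) : R :=
  k 2 * m * b * b * u * gF k N m a b * Y
    - gA k N m a b * (m * a * b * N * (gS k N m a b + gT k N m a b) * gD k N m a b * u * C
      + gK k N m a b u CK * Y)
/-- The same with slope `0`. -/
def gP0 (Y C : R) : R :=
  k 2 * b * gF k N m a b * Y
    - gA k N m a b * a * N * (gS k N m a b + gT k N m a b) * gD k N m a b * C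

/-! The three points. -/

def u1 : R := k 50 * gU1 k N m a b rr rd
def Y1 : R := k 50 * (gX0 k N m a b rr + gd k N m a b * gU1 k N m a b rr rd)
def C1 : R := k 51 * gC0 k N m a b * gU1 k N m a b rr rd
def u4 : R := k 500 * rd * rd * gQ k N m a * b * gG k N m a b
def Y4 : R :=
  k 100 * gRn k N m a b rr * rd * gQ k N m a * b * gG k N m a b
    + gd k N m a b * u4 k N m a b rd
def C4 : R :=
  k 20 * gG k N m a b * gRn k N m a b rr * (k 5 * b * gG k N m a b * rd - rr)
    + k 5 * gC0 k N m a b * rd * rd * gQ k N m a * b * gG k N m a b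
def Y3 : R :=
  k 50 * gRn k N m a b rr * rd * gQ k N m a * b * gG k N m a b
    + gd k N m a b * u4 k N m a b rd
def C3 : R :=
  k 50 * gG k N m a b * gRn k N m a b rr * rd * b * gG k N m a b
    + k 5 * gC0 k N m a b * rd * rd * gQ k N m a * b * gG k N m a b

def p1K : R :=
  gPK k N m a b (u1 k N m a b rr rd) (Y1 k N m a b rr rd) (C1 k N m a b rr rd)
    (C1 k N m a b rr rd)
def p1Z : R := gP0 k N m a b (Y1 k N m a b rr rd) (C1 k N m a b rr rd)
def p3K : R :=
  gPK k N m a b (u4 k N m a b rd) (Y3 k N m a b rr rd) (C3 k N m a b rr rd)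
    (C4 k N m a b rr rd)
def p3Z : R := gP0 k N m a b (Y3 k N m a b rr rd) (C3 k N m a b rr rd)
def p4K : R :=
  gPK k N m a b (u4 k N m a b rd) (Y4 k N m a b rr rd) (C4 k N m a b rr rd)
    (C4 k N m a b rr rd)
def p4Z : R := gP0 k N m a b (Y4 k N m a b rr rd) (C4 k N m a b rr rd)
/-- `3 (N+2) be (wm (s₂ - X0) - L) - 10 (X0 + d) (2 s3 - 1) (k₀ + 2νL)`, scaled. -/
def pII : R :=
  k 3 * gG k N m a b * (gG k N m a b * gX0 k N m a b rr
        * (gS2 k N m a b * gU1 k N m a b rr rd - gX0 k N m a b rr)
      - gL k N m a b * gQ k N m a * gS2 k N m a b * gU1 k N m a b rr rd * gU1 k N m a b rr rd)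
      * N * (gS k N m a b + gT k N m a b) * gD k N m a b * gD k N m a b
    - k 10 * (gX0 k N m a b rr + gd k N m a b * gU1 k N m a b rr rd)
      * (k 2 * gS k N m a b - gD k N m a b) * gK2 k N m a b * gQ k N m a
      * gS2 k N m a b * gU1 k N m a b rr rd
/-- The sign of `boxXmax / 2 - boxXmin`. -/
def pX : R :=
  k 20 * gG k N m a b * gRn k N m a b rr - k 153 * gC0 k N m a b * gQ k N m a * rd

end templates

instance : Add Ex := ⟨Ex.add⟩
instance : Sub Ex := ⟨Ex.sub⟩
instance : Mul Ex := ⟨Ex.mul⟩

/-- An integer constant. -/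
abbrev n (j : ℤ) : Ex := Ex.num j

def eN : Ex := Ex.x + n 6
def em : Ex := Ex.x + n 4

/-! `σ∞ = 1`. -/

def aA : Ex := em * (n 1 + Ex.y)
def bA : Ex := em * (n 1 + Ex.y) + n 2 * Ex.y
def rA : Ex := eN * eN * (aA + bA) * (bA - aA)

/-! `σ∞ = (N-2) T / N`, `T < (7N-17)/5`. -/

def aB : Ex := n 5 * em * (n 1 + Ex.y)
def bB : Ex := n 5 * eN + em * (n 7 * eN - n 17) * Ex.y
def rB : Ex := bB * (eN * gG n eN em aB bB - em * gH n eN em aB bB)

/-- A template in regime A, less the monomial `y ^ j`. -/
def inA (g : (ℤ → Ex) → Ex → Ex → Ex → Ex → Ex → Ex → Ex) (j : ℕ) : Ex :=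
  g n eN em aA bA rA (n 1) - Ex.pow Ex.y j

/-- A template in regime B, less `1`. -/
def inB (g : (ℤ → Ex) → Ex → Ex → Ex → Ex → Ex → Ex → Ex) : Ex :=
  g n eN em aB bB rB eN - n 1

theorem checkA1K : check (inA p1K 4) = true := by decide +kernel
theorem checkA1Z : check (inA p1Z 3) = true := by decide +kernel
theorem checkA3K : check (inA p3K 2) = true := by decide +kernel
theorem checkA3Z : check (inA p3Z 2) = true := by decide +kernel
theorem checkA4K : check (inA p4K 2) = true := by decide +kernel
theorem checkA4Z : check (inA p4Z 2) = true := by decide +kernel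
theorem checkAII : check (inA pII 3) = true := by decide +kernel
theorem checkAX : check (inA pX 1) = true := by decide +kernel
theorem checkBX : check (inB pX) = true := by decide +kernel
theorem checkB1K : check (inB p1K) = true := by decide +kernel
theorem checkB1Z : check (inB p1Z) = true := by decide +kernel
theorem checkB3K : check (inB p3K) = true := by decide +kernel
theorem checkB3Z : check (inB p3Z) = true := by decide +kernel
theorem checkB4K : check (inB p4K) = true := by decide +kernel
theorem checkB4Z : check (inB p4Z) = true := by decide +kernel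
theorem checkBII : check (inB pII) = true := by decide +kernel

end Vale.Agent.P100T.LowCert
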