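import Vale.Agent.P100T.BoxK
import Vale.Agent.P100T.BoxLowPoly

/-!
The lower barrier certificates `h1`, `h2` of `low_of_points`. Along `[s₂ - X0, s3]` the function
`lowF` lies above a combination of its value at `s3` and of a positive multiple of
`wm (s₂ - X0) - L`, so only sign conditions in `(N, T)` remain, checked in `BoxLowPoly`.
-/

open Set

noncomputable section

namespace Vale.Agent.P100T.LowCert

open PosCheck

variable {N p q : ℝ}

/-- The sign conditions at `s3`. -/
structure Ends (N p q : ℝ) : Prop where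
  x_lt : boxXmin N p q < boxXmax N p q / 2
  i1 : (N + 2) / 2 * (extL N p q - wm N p q (extS3 N p q)) * (51 / 50 * extC0 N p q
      + max 0 (extK N p q (extS3 N p q) (51 / 50 * extC0 N p q))
        * (boxXmin N p q + boxDl N p q))
    < frc N p q (extS3 N p q) (extL N p q) * (boxXmin N p q + boxDl N p q)
  i3 : (N + 2) / 2 * (extL N p q - wm N p q (extS3 N p q)) * (boxTopLin N p q (boxXmax N p q / 2)
      + max 0 (extK N p q (extS3 N p q) (boxTop N p q (boxXmax N p q)))
        * (boxXmax N p q / 2 + boxDl N p q))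
    < frc N p q (extS3 N p q) (extL N p q) * (boxXmax N p q / 2 + boxDl N p q)
  i4 : (N + 2) / 2 * (extL N p q - wm N p q (extS3 N p q)) * (boxTop N p q (boxXmax N p q)
      + max 0 (extK N p q (extS3 N p q) (boxTop N p q (boxXmax N p q)))
        * (boxXmax N p q + boxDl N p q))
    < frc N p q (extS3 N p q) (extL N p q) * (boxXmax N p q + boxDl N p q)
  ii : 10 * (boxXmin N p q + boxDl N p q) * (2 * extS3 N p q - 1)
      * (k0 N p q (extS3 N p q) + 2 * nu N p q (extS3 N p q) * extL N p q)
    < 3 * (N + 2) * boxBe N p q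
      * (wm N p q (extS2 N p q - boxXmin N p q) - extL N p q)

lemma kk_id {m a b D S T L s t l : ℝ} (hS : S = s * D) (hT : T = t * D) (hL : L = l * D)
    (hP : p + 1 = N * (a + b) / (m * a)) (hm : m = N - 2) (hm0 : m ≠ 0) (ha : a ≠ 0) (hN : N ≠ 0)
    (ht : (p + 1) / (q + 1) = t) (hst : s + t ≠ 0) :
    ((N * (a + b) + m * a) * D - m * a * S) * (N * T - m * S)
        + 2 * (N - 1) * m * a * L * D
      = (k0 N p q s + 2 * nu N p q s * l) * (N * (s + t)) * (m * a * D ^ 2) := by
  have hp : p + 2 = N * (a + b) / (m * a) + 1 := by linarith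
  subst hS hT hL
  rw [k0, nu, ht, hp, ← hm]
  field_simp

lemma wm_id {m a b D S T L s t l : ℝ} (hS : S = s * D) (hT : T = t * D) (hL : L = l * D)
    (hP : p + 1 = N * (a + b) / (m * a)) (hQ : q + 1 = N * (a + b) / (m * b))
    (hb : b = t * a) (hm0 : m ≠ 0) (ha : a ≠ 0) (ht : t ≠ 0) (hN : N + 2 ≠ 0) :
    (N + 2) * L * m * b * D - S * (N * N * (a + b) * (T - S) - 2 * (S - D) * m * b)
      = (N + 2) * (l - wm N p q s) * (m * b * D ^ 2) := by
  subst hS hT hL hb
  rw [wm, hP, hQ]
  field_simp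

lemma K_id {m a b D S T s t u CK ck : ℝ} (hS : S = s * D) (hT : T = t * D)
    (hCK : CK = ck * (u * D))
    (hP : p + 1 = N * (a + b) / (m * a)) (hQ : q + 1 = N * (a + b) / (m * b))
    (hb : b = t * a) (hm0 : m ≠ 0) (ha : a ≠ 0) (ht : t ≠ 0) (hN : N ≠ 0)
    (hab : 1 + t ≠ 0) (hst : s + t ≠ 0) :
    a * N * (S + T) * (m * b * D + (N * (a + b) - m * b) * S) * u
        - 2 * (N - 1) * ((N * (a + b) * b * S * D - m * a * b * S * (S - D)) * u
          - m * a * b * CK * D)
      = extK N p q s ck * (N * (s + t)) * (m * a * b * D ^ 2 * u) := by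
  have hq : q = N * (a + b) / (m * b) - 1 := by linarith
  have e : p + 1 + (q + 1) * s = N * (a + b) / (m * b) * (s + t) := by
    rw [hP, hQ, hb]; field_simp; ring
  subst hS hT hCK
  rw [extK, e, hP, hQ, hq]
  subst hb
  field_simp
  ring

/-- The meaning of the template with slope `extK`. -/
lemma pk_lt {m a b D S T u Y C F' A' K' s t F A K y c : ℝ} (hY : Y = y * (u * D))
    (hC : C = c * (u * D)) (hS : S = s * D) (hT : T = t * D)
    (hF : F' = F * (N * (s + t)) * (m * a * D ^ 4)) (hA : A' = A * (m * b * D ^ 2))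
    (hK : K' = K * (N * (s + t)) * (m * a * b * D ^ 2 * u))
    (hpos : 0 < 2 * m * b * b * u * F' * Y - A' * (m * a * b * N * (S + T) * D * u * C + K' * Y))
    (hsc : 0 < N * (s + t) * m * a * b * D * u) (hm : 0 < m) (hb : 0 < b) (hD : 0 < D)
    (hu : 0 < u) : A / 2 * (c + K * y) < F * y := by
  subst hY hC hS hT hF hA hK
  have e : 2 * m * b * b * u * (F * (N * (s + t)) * (m * a * D ^ 4)) * (y * (u * D))
      - A * (m * b * D ^ 2) * (m * a * b * N * (s * D + t * D) * D * u * (c * (u * D))
        + K * (N * (s + t)) * (m * a * b * D ^ 2 * u) * (y * (u * D)))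
      = (F * y - A / 2 * (c + K * y))
        * (2 * (N * (s + t) * m * a * b * D * u) * (m * b * D ^ 4 * u)) := by ring
  rw [e] at hpos
  have := pos_of_mul_pos_left hpos (by positivity)
  linarith

/-- The meaning of the template with slope `0`. -/
lemma p0_lt {m a b D S T u Y C F' A' s t F A y c : ℝ} (hY : Y = y * (u * D))
    (hC : C = c * (u * D)) (hS : S = s * D) (hT : T = t * D)
    (hF : F' = F * (N * (s + t)) * (m * a * D ^ 4)) (hA : A' = A * (m * b * D ^ 2))
    (hpos : 0 < 2 * b * F' * Y - A' * a * N * (S + T) * D * C)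
    (hsc : 0 < N * (s + t) * m * a * b * D * u) (hD : 0 < D) :
    A / 2 * c < F * y := by
  subst hY hC hS hT hF hA
  have e : 2 * b * (F * (N * (s + t)) * (m * a * D ^ 4)) * (y * (u * D))
      - A * (m * b * D ^ 2) * a * N * (s * D + t * D) * D * (c * (u * D))
      = (F * y - A / 2 * c) * (2 * (N * (s + t) * m * a * b * D * u) * D ^ 4) := by ring
  rw [e] at hpos
  have := pos_of_mul_pos_left hpos (by positivity)
  linarith

/-- The meaning of the templates, for `T = b / a` and `r = rr / (rd a H)`. -/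
theorem ends_of_pos {a b rr rd : ℝ} (hN : 6 ≤ N) (hq : 0 < q) (hpq : q < p)
    (hcrit : N / (p + 1) + N / (q + 1) = N - 2) (ha : 0 < a) (hrd : 0 < rd)
    (hb : b = (p + 1) / (q + 1) * a)
    (hr : boxR N p q = rr / (rd * a * gH Int.cast N (N - 2) a b))
    (h1 : 0 < p1K Int.cast N (N - 2) a b rr rd) (h1z : 0 < p1Z Int.cast N (N - 2) a b rr rd)
    (h3 : 0 < p3K Int.cast N (N - 2) a b rr rd) (h3z : 0 < p3Z Int.cast N (N - 2) a b rr rd)
    (h4 : 0 < p4K Int.cast N (N - 2) a b rr rd) (h4z : 0 < p4Z Int.cast N (N - 2) a b rr rd)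
    (h2 : 0 < pII Int.cast N (N - 2) a b rr rd) (hx : 0 < pX Int.cast N (N - 2) a b rr rd) :
    Ends N p q := by
  have hp : 0 < p := hq.trans hpq
  have hN0 : 0 < N := by linarith
  have hk := crit_iff hp hq hcrit
  set t := (p + 1) / (q + 1) with ht
  have ht1 : 1 < t := by rw [ht, lt_div_iff₀ (by linarith)]; linarith
  have ht0 : 0 < t := by linarith
  have hab : a < b := by rw [hb]; exact (lt_mul_iff_one_lt_left ha).2 ht1
  have hb0 : 0 < b := by linarith
  set m := N - 2 with hm
  have hm0 : 0 < m := by linarith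
  have hP : p + 1 = N * (a + b) / (m * a) := by
    rw [eq_div_iff (by positivity), hb]; linear_combination a * hk
  have hQ : q + 1 = N * (a + b) / (m * b) := by
    rw [eq_div_iff (by positivity), hb]
    have : (q + 1) * t = p + 1 := by rw [ht]; field_simp
    linear_combination (m * a) * this + a * hk
  set G := gG Int.cast N m a b with hG
  set H := gH Int.cast N m a b with hH
  have eG : G = N * N * (a + b) + 2 * m * a := by simp [hG, gG]
  have eH : H = N * N * (a + b) + 2 * m * b := by simp [hH, gH]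
  have hG0 : 0 < G := by rw [eG]; positivity
  have hH0 : 0 < H := by rw [eH]; positivity
  set D := gD Int.cast N m a b with hD
  have eD : D = 50 * a * a * H * H * H * (G + H) := by simp [hD, gD, hG, hH]
  have hD0 : 0 < D := by rw [eD]; positivity
  have hh : N * (q + 1) + 2 = H / (m * b) := by rw [hQ, eH]; field_simp
  have hg : N * (p + 1) + 2 = G / (m * a) := by rw [hP, eG]; field_simp
  have hs2 : extS2 N p q = b * G / (a * H) := by rw [extS2, hh, hg]; field_simp
  have hs21 : extS2 N p q - 1 = N * N * (a + b) * (b - a) / (a * H) := by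
    rw [hs2, eG, eH]; field_simp; ring
  have eS2 : gS2 Int.cast N m a b = extS2 N p q * D := by
    rw [hs2, eD]; simp only [gS2, ← hG, ← hH, Int.cast_ofNat]; field_simp
  have hk0 : k0 N p q (extS2 N p q)
      = gE Int.cast N m a b * (N * H - m * G) / (N * m * a * H * (G + H)) := by
    have e1 : p + 2 = N * (a + b) / (m * a) + 1 := by linarith
    rw [k0, ← ht, e1, hs2, show N - 2 = m from rfl]
    simp only [gE, ← hG, ← hH]
    have : t = b / a := by rw [hb]; field_simp
    rw [this]
    field_simp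
  have eC0 : gC0 Int.cast N m a b = extC0 N p q * D := by
    rw [extC0, hs21, hk0, hh, eD]
    simp only [gC0, gW, ← hG, ← hH, Int.cast_ofNat]
    field_simp
    ring
  have eL : gL Int.cast N m a b = extL N p q * D := by
    have : gL Int.cast N m a b = (67 / 100 - 3 / (100 * t)) * gC0 Int.cast N m a b := by
      simp only [gL, gC0, Int.cast_ofNat]; rw [hb]; field_simp
    rw [this, eC0, extL, ← ht]; ring
  have ed : gd Int.cast N m a b = boxDl N p q * D := by
    have : gd Int.cast N m a b = gC0 Int.cast N m a b / (5 * (p + 1)) := by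
      simp only [gd, gC0, Int.cast_ofNat]; rw [hP]; field_simp; ring
    rw [this, eC0, boxDl]; ring
  have eS : gS Int.cast N m a b = extS3 N p q * D := by
    rw [gS, eS2, ed, extS3, boxDl]; ring
  have eT : gT Int.cast N m a b = t * D := by
    rw [eD]; simp only [gT, ← hG, ← hH, Int.cast_ofNat]; rw [hb]; ring
  set Q := gQ Int.cast N m a with hQ'
  have eQ : Q = m * a * (N + 2) := by simp [hQ', gQ]
  have hQ0 : 0 < Q := by rw [eQ]; positivity
  have ebe : G = boxBe N p q * Q := by
    rw [boxBe, hs2, hh, eQ]; field_simp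
  set R := gRn Int.cast N m a b rr with hR
  have eR : R = boxR N p q * (rd * D) := by
    rw [hr, eD, hR]; simp only [gRn, ← hG, ← hH, Int.cast_ofNat]; field_simp
  have hC0 := extC0_pos (show 2 < N by linarith) hq hpq
  have hR0 := boxR_pos (show 2 < N by linarith) hq hpq
  have hB0 := boxBe_pos hN0 hp hq
  set U := gU1 Int.cast N m a b rr rd with hU
  have eU : U = 20 * (boxBe N p q * boxR N p q + 27 / 20 * extC0 N p q) * (Q * rd * D) := by
    rw [hU]; simp only [gU1, ← hG, ← hR, ← hQ', eC0, eR, Int.cast_ofNat]; rw [ebe]; ring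
  have hU0 : 0 < U := by rw [eU]; positivity
  have eX : gX0 Int.cast N m a b rr = boxXmin N p q * (U * D) := by
    rw [eU]; simp only [gX0, boxXmin, ← hR, ← hQ', eC0, eR, Int.cast_ofNat]
    field_simp
    ring
  have hst : extS3 N p q + t ≠ 0 := by
    linarith [extS2_le_extS3 (show 2 < N by linarith) hq hpq, one_lt_extS2 hN0 hq hpq]
  have hst0 : 0 < extS3 N p q + t := by
    linarith [extS2_le_extS3 (show 2 < N by linarith) hq hpq, one_lt_extS2 hN0 hq hpq]
  have eK2 : gK2 Int.cast N m a b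
      = (k0 N p q (extS3 N p q) + 2 * nu N p q (extS3 N p q) * extL N p q)
        * (N * (extS3 N p q + t)) * (m * a * D ^ 2) := by
    simp only [gK2, ← hD, Int.cast_ofNat, Int.cast_one]
    exact kk_id eS eT eL hP rfl hm0.ne' ha.ne' hN0.ne' ht.symm hst
  have eF : gF Int.cast N m a b = frc N p q (extS3 N p q) (extL N p q)
      * (N * (extS3 N p q + t)) * (m * a * D ^ 4) := by
    simp only [gF, ← hD, eK2, eS, eT, eL, frc, Int.cast_ofNat]
    ring
  have eA : gA Int.cast N m a b
      = (N + 2) * (extL N p q - wm N p q (extS3 N p q)) * (m * b * D ^ 2) := by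
    simp only [gA, ← hD, Int.cast_ofNat]
    exact wm_id eS eT eL hP hQ hb hm0.ne' ha.ne' ht0.ne' (by linarith)
  have eK : ∀ {u CK ck : ℝ}, CK = ck * (u * D) → gK Int.cast N m a b u CK
      = extK N p q (extS3 N p q) ck * (N * (extS3 N p q + t)) * (m * a * b * D ^ 2 * u) := by
    intro u CK ck h
    simp only [gK, ← hD, Int.cast_ofNat, Int.cast_one]
    exact K_id eS eT h hP hQ hb hm0.ne' ha.ne' ht0.ne' hN0.ne' (by linarith) hst
  have both : ∀ {u Y C CK y c ck : ℝ}, 0 < u → Y = y * (u * D) → C = c * (u * D) →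
      CK = ck * (u * D) → 0 < gPK Int.cast N m a b u Y C CK → 0 < gP0 Int.cast N m a b Y C →
      (N + 2) / 2 * (extL N p q - wm N p q (extS3 N p q))
          * (c + max 0 (extK N p q (extS3 N p q) ck) * y)
        < frc N p q (extS3 N p q) (extL N p q) * y := by
    intro u Y C CK y c ck hu hy hc hck hK hZ
    have hsc : 0 < N * (extS3 N p q + t) * m * a * b * D * u := by positivity
    simp only [gPK, ← hD, Int.cast_ofNat] at hK
    simp only [gP0, ← hD, Int.cast_ofNat] at hZ
    rcases max_choice 0 (extK N p q (extS3 N p q) ck) with e | e <;> rw [e]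
    · have := p0_lt hy hc eS eT eF eA hZ hsc hD0
      linarith
    · have := pk_lt hy hc eS eT eF eA (eK hck) hK hsc hm0 hb0 hD0 hu
      linarith
  set u' := LowCert.u4 Int.cast N m a b rd with hu'
  have eu' : u' = 500 * rd * rd * Q * b * G := by simp [hu', LowCert.u4, hG, hQ']
  have hu0 : 0 < u' := by rw [eu']; positivity
  have hs20 : extS2 N p q ≠ 0 := by linarith [one_lt_extS2 hN0 hq hpq]
  have e4 : LowCert.C4 Int.cast N m a b rr rd
      = boxTop N p q (boxXmax N p q) * (u' * D) := by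
    have err : rr = boxR N p q * (rd * a * H) := by rw [hr]; field_simp
    have eG2 : b * G = extS2 N p q * (a * H) := by rw [hs2]; field_simp
    rw [eu']
    simp only [LowCert.C4, ← hG, ← hQ', ← hR, eR, eC0, Int.cast_ofNat]
    simp only [err, boxTop, boxXmax]
    rw [show (5 : ℝ) * b * G * rd = 5 * (extS2 N p q * (a * H)) * rd by rw [← eG2]; ring]
    rw [show (500 : ℝ) * rd * rd * Q * b * G = 500 * rd * rd * Q * (extS2 N p q * (a * H)) by
      rw [← eG2]; ring]
    rw [show (5 : ℝ) * (extC0 N p q * D) * rd * rd * Q * b * G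
      = 5 * (extC0 N p q * D) * rd * rd * Q * (extS2 N p q * (a * H)) by rw [← eG2]; ring]
    rw [ebe]
    field_simp
    ring
  refine ⟨?_, ?_, ?_, ?_, ?_⟩
  · simp only [pX, ← hG, ← hQ', ← hR, eR, eC0, Int.cast_ofNat] at hx
    rw [ebe] at hx
    have e : 20 * (boxBe N p q * Q) * (boxR N p q * (rd * D)) - 153 * (extC0 N p q * D) * Q * rd
        = (20 * (boxBe N p q * boxR N p q) - 153 * extC0 N p q) * (Q * rd * D) := by ring
    rw [e] at hx
    have h := pos_of_mul_pos_left hx (by positivity)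
    have e1 : boxR N p q / 5 / 2 * (boxBe N p q + 27 / 20 * extC0 N p q / boxR N p q)
        = boxBe N p q * boxR N p q / 10 + 27 / 200 * extC0 N p q := by field_simp; ring
    rw [boxXmin, boxXmax, div_lt_iff₀ (by positivity), e1]
    linarith
  · refine both (u := LowCert.u1 Int.cast N m a b rr rd) ?_ ?_ ?_ ?_ h1 h1z
    · simp only [LowCert.u1, ← hU, Int.cast_ofNat]; positivity
    all_goals
      simp only [LowCert.u1, LowCert.Y1, LowCert.C1, ← hU, eX, ed, eC0, Int.cast_ofNat]; ring
  · refine both (u := u') hu0 ?_ ?_ e4 h3 h3z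
    · simp only [LowCert.Y3, ← hu', ← hG, ← hQ', ← hR, eR, ed, eu', boxXmax, Int.cast_ofNat]
      ring
    · simp only [LowCert.C3, ← hG, ← hQ', ← hR, eR, eC0, eu', boxXmax, boxTopLin, Int.cast_ofNat]
      rw [ebe]
      ring
  · refine both (u := u') hu0 ?_ e4 e4 h4 h4z
    simp only [LowCert.Y4, ← hu', ← hG, ← hQ', ← hR, eR, ed, eu', boxXmax, Int.cast_ofNat]
    ring
  · simp only [pII, ← hG, ← hQ', ← hU, ← hD, eX, ed, eS, eT, eK2, eS2, eL, Int.cast_ofNat] at h2
    rw [wm_sub hN0 hp hq]
    generalize k0 N p q (extS3 N p q) + 2 * nu N p q (extS3 N p q) * extL N p q = kk at h2 ⊢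
    rw [ebe] at h2
    have e : 3 * (boxBe N p q * Q) * (boxBe N p q * Q * (boxXmin N p q * (U * D))
          * (extS2 N p q * D * U - boxXmin N p q * (U * D))
          - extL N p q * D * Q * (extS2 N p q * D) * U * U)
          * N * (extS3 N p q * D + t * D) * D * D
        - 10 * (boxXmin N p q * (U * D) + boxDl N p q * D * U)
          * (2 * (extS3 N p q * D) - D) * (kk * (N * (extS3 N p q + t)) * (m * a * D ^ 2)) * Q
          * (extS2 N p q * D) * U
        = (3 * (N + 2) * boxBe N p q * (boxBe N p q * boxXmin N p q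
              * (1 - boxXmin N p q / extS2 N p q) - extL N p q)
            - 10 * (boxXmin N p q + boxDl N p q) * (2 * extS3 N p q - 1) * kk)
          * (Q * m * a * D ^ 5 * U ^ 2 * (N * (extS3 N p q + t)) * extS2 N p q) := by
      rw [eQ]; field_simp
    rw [e] at h2
    have := pos_of_mul_pos_left h2 (by
      have := (one_lt_extS2 hN0 hq hpq).le
      positivity)
    linarith

/-- The conditions hold for `T < (7N-17)/5`. -/
theorem ends_hold (hN : 6 ≤ N) (hq : 0 < q) (hpq : q < p)
    (hcrit : N / (p + 1) + N / (q + 1) = N - 2)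
    (hT : (p + 1) / (q + 1) < (7 * N - 17) / 5) : Ends N p q := by
  have hp : 0 < p := hq.trans hpq
  have hN0 : 0 < N := by linarith
  have hm : 0 < N - 2 := by linarith
  set t := (p + 1) / (q + 1) with ht
  have ht1 : 1 < t := by rw [ht, lt_div_iff₀ (by linarith)]; linarith
  have hs : extS2 N p q = (N * (p + 1) + 2) / (N * (q + 1) + 2) := rfl
  have hk := crit_iff hp hq hcrit
  rw [← ht] at hk
  have hQt : (q + 1) * t = p + 1 := by rw [ht]; field_simp
  have hr0 : ∀ {a b : ℝ}, 0 < a → b = t * a →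
      extS2 N p q = b * gG Int.cast N (N - 2) a b / (a * gH Int.cast N (N - 2) a b) := by
    intro a b ha hb
    subst hb
    simp only [gG, gH, Int.cast_ofNat]
    rw [hs, div_eq_div_iff (by positivity) (by positivity)]
    have : p + 1 = N * (1 + t) / (N - 2) := by rw [eq_div_iff hm.ne']; linarith
    have h2 : q + 1 = N * (1 + t) / ((N - 2) * t) := by
      rw [eq_div_iff (by positivity)]
      linear_combination (N - 2) * hQt + hk
    rw [this, h2]
    field_simp
  have ex6 : ∀ Y : ℝ, eN.eval (N - 6) Y 0 = N := fun Y => by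
    show (N - 6) + ((6 : ℤ) : ℝ) = N
    push_cast; ring
  have ex4 : ∀ Y : ℝ, em.eval (N - 6) Y 0 = N - 2 := fun Y => by
    show (N - 6) + ((4 : ℤ) : ℝ) = N - 2
    push_cast; ring
  have hx : (0 : ℝ) ≤ N - 6 := by linarith
  rcases lt_or_ge ((N - 2) * t) N with hA | hB
  · set Y := (N - 2) * (t - 1) / (N - (N - 2) * t) with hY
    have hY0 : 0 < Y := div_pos (mul_pos hm (by linarith)) (by linarith)
    set a := (N - 2) * (1 + Y) with ha
    set b := (N - 2) * (1 + Y) + 2 * Y with hb
    have ha0 : 0 < a := by positivity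
    have hba : b = t * a := by
      have hne : N - (N - 2) * t ≠ 0 := by linarith
      rw [hb, ha, hY]; field_simp; ring
    have va : aA.eval (N - 6) Y 0 = a := by
      show em.eval (N - 6) Y 0 * (((1 : ℤ) : ℝ) + Y) = a
      rw [ex4, ha]; push_cast; ring
    have vb : bA.eval (N - 6) Y 0 = b := by
      show em.eval (N - 6) Y 0 * (((1 : ℤ) : ℝ) + Y) + ((2 : ℤ) : ℝ) * Y = b
      rw [ex4, hb]; push_cast; ring
    have vr : rA.eval (N - 6) Y 0 = N * N * (a + b) * (b - a) := by
      show eN.eval (N - 6) Y 0 * eN.eval (N - 6) Y 0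
        * (aA.eval (N - 6) Y 0 + bA.eval (N - 6) Y 0)
        * (bA.eval (N - 6) Y 0 - aA.eval (N - 6) Y 0) = _
      rw [ex6, va, vb]
    have v1 : (n 1).eval (N - 6) Y 0 = (1 : ℝ) := Int.cast_one
    have pos : ∀ (g : (ℤ → Ex) → Ex → Ex → Ex → Ex → Ex → Ex → Ex)
        (gR : (ℤ → ℝ) → ℝ → ℝ → ℝ → ℝ → ℝ → ℝ → ℝ) (j : ℕ),
        check (inA g j) = true →
        (g n eN em aA bA rA (n 1)).eval (N - 6) Y 0
          = gR Int.cast (eN.eval (N - 6) Y 0) (em.eval (N - 6) Y 0) (aA.eval (N - 6) Y 0)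
            (bA.eval (N - 6) Y 0) (rA.eval (N - 6) Y 0) ((n 1).eval (N - 6) Y 0) →
        0 < gR Int.cast N (N - 2) a b (N * N * (a + b) * (b - a)) 1 := by
      intro g gR j hc he
      have h : (0 : ℝ) ≤ (g n eN em aA bA rA (n 1)).eval (N - 6) Y 0 - Y ^ j :=
        nonneg_of_check hc hx hY0.le le_rfl
      rw [he, ex6, ex4, va, vb, vr, v1] at h
      linarith [pow_pos hY0 j]
    refine ends_of_pos hN hq hpq hcrit ha0 one_pos hba ?_ (pos p1K p1K 4 checkA1K rfl)
      (pos p1Z p1Z 3 checkA1Z rfl) (pos p3K p3K 2 checkA3K rfl) (pos p3Z p3Z 2 checkA3Z rfl)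
      (pos p4K p4K 2 checkA4K rfl) (pos p4Z p4Z 2 checkA4Z rfl) (pos pII pII 3 checkAII rfl)
      (pos pX pX 1 checkAX rfl)
    have hs1 : sEq N p q ≤ 1 := by
      rw [sEq, ← ht, div_mul_eq_mul_div, div_le_one hN0]; linarith
    rw [boxR, max_eq_left hs1, hr0 ha0 hba]
    simp only [gG, gH, Int.cast_ofNat]
    have : 0 < N * N * (a + b) + 2 * (N - 2) * b := by
      rw [hba]; positivity
    rw [div_sub_one (by positivity), div_eq_div_iff (by positivity) (by positivity)]
    ring
  · set Y := ((N - 2) * t - N) / ((N - 2) * ((7 * N - 17) / 5 - t)) with hY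
    have hY0 : 0 ≤ Y := div_nonneg (by linarith) (mul_nonneg hm.le (by linarith))
    set a := 5 * (N - 2) * (1 + Y) with ha
    set b := 5 * N + (N - 2) * (7 * N - 17) * Y with hb
    have ha0 : 0 < a := by positivity
    have hba : b = t * a := by
      have hm' : Y * ((N - 2) * ((7 * N - 17) / 5 - t)) = (N - 2) * t - N :=
        div_mul_cancel₀ _ (mul_pos hm (by linarith)).ne'
      rw [hb, ha]; linear_combination 5 * hm'
    have va : aB.eval (N - 6) Y 0 = a := by
      show ((5 : ℤ) : ℝ) * em.eval (N - 6) Y 0 * (((1 : ℤ) : ℝ) + Y) = a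
      rw [ex4, ha]; push_cast; ring
    have vb : bB.eval (N - 6) Y 0 = b := by
      show ((5 : ℤ) : ℝ) * eN.eval (N - 6) Y 0 + em.eval (N - 6) Y 0
        * (((7 : ℤ) : ℝ) * eN.eval (N - 6) Y 0 - ((17 : ℤ) : ℝ)) * Y = b
      rw [ex4, ex6, hb]; push_cast; ring
    set rr := b * (N * gG Int.cast N (N - 2) a b - (N - 2) * gH Int.cast N (N - 2) a b) with hrr
    have vr : rB.eval (N - 6) Y 0 = rr := by
      show bB.eval (N - 6) Y 0 * (eN.eval (N - 6) Y 0
          * gG Int.cast (eN.eval (N - 6) Y 0) (em.eval (N - 6) Y 0) (aB.eval (N - 6) Y 0)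
            (bB.eval (N - 6) Y 0)
        - em.eval (N - 6) Y 0
          * gH Int.cast (eN.eval (N - 6) Y 0) (em.eval (N - 6) Y 0) (aB.eval (N - 6) Y 0)
            (bB.eval (N - 6) Y 0)) = _
      rw [ex6, ex4, va, vb]
    have pos : ∀ (g : (ℤ → Ex) → Ex → Ex → Ex → Ex → Ex → Ex → Ex)
        (gR : (ℤ → ℝ) → ℝ → ℝ → ℝ → ℝ → ℝ → ℝ → ℝ),
        check (inB g) = true →
        (g n eN em aB bB rB eN).eval (N - 6) Y 0
          = gR Int.cast (eN.eval (N - 6) Y 0) (em.eval (N - 6) Y 0) (aB.eval (N - 6) Y 0)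
            (bB.eval (N - 6) Y 0) (rB.eval (N - 6) Y 0) (eN.eval (N - 6) Y 0) →
        0 < gR Int.cast N (N - 2) a b rr N := by
      intro g gR hc he
      have h : (0 : ℝ) ≤ (g n eN em aB bB rB eN).eval (N - 6) Y 0 - ((1 : ℤ) : ℝ) :=
        nonneg_of_check hc hx hY0 le_rfl
      rw [he, ex6, ex4, va, vb, vr, Int.cast_one] at h
      linarith
    refine ends_of_pos hN hq hpq hcrit ha0 hN0 hba ?_ (pos p1K p1K checkB1K rfl)
      (pos p1Z p1Z checkB1Z rfl) (pos p3K p3K checkB3K rfl) (pos p3Z p3Z checkB3Z rfl)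
      (pos p4K p4K checkB4K rfl) (pos p4Z p4Z checkB4Z rfl) (pos pII pII checkBII rfl)
      (pos pX pX checkBX rfl)
    have hs1 : 1 ≤ sEq N p q := by
      rw [sEq, ← ht, div_mul_eq_mul_div, one_le_div hN0]; linarith
    rw [boxR, max_eq_right hs1, hr0 ha0 hba, hrr, sEq, ← ht]
    simp only [gG, gH, Int.cast_ofNat]
    rw [hba]
    field_simp

end LowCert

open LowCert

variable {N p q : ℝ}

lemma wm_chord (hN : 0 < N) (hq : 0 < q) {u : ℝ} (hu0 : 0 ≤ u) (hu1 : u ≤ 1) (x d : ℝ) :
    (1 - u) * wm N p q x + u * wm N p q (x + d) ≤ wm N p q (x + u * d) := by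
  have e : wm N p q (x + u * d) = (1 - u) * wm N p q x + u * wm N p q (x + d)
      + u * (1 - u) * ((N * (q + 1) + 2) * d ^ 2 / (N + 2)) := by
    simp only [wm]; ring
  have : 0 ≤ u * (1 - u) * ((N * (q + 1) + 2) * d ^ 2 / (N + 2)) :=
    mul_nonneg (mul_nonneg hu0 (by linarith)) (by positivity)
  linarith

lemma kk_anti (hN : 2 < N) (hq : 0 < q) (hpq : q < p) {s s' l : ℝ} (hs : 0 ≤ s) (hss : s ≤ s')
    (hT : s' ≤ (p + 1) / (q + 1)) (hl : 0 ≤ l) :
    k0 N p q s' + 2 * nu N p q s' * l ≤ k0 N p q s + 2 * nu N p q s * l := by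
  have hp : 0 < p := hq.trans hpq
  have h1 : (p + 1) / (q + 1) < p + 1 := div_lt_self (by linarith) (by linarith)
  have h0 : 0 < (p + 1) / (q + 1) := by positivity
  simp only [k0, nu]
  generalize (p + 1) / (q + 1) = T at *
  have h2 : N * (s + T) ≤ N * (s' + T) :=
    mul_le_mul_of_nonneg_left (by linarith) (by linarith)
  have h3 : 0 < N * (s + T) := mul_pos (by linarith) (by linarith)
  have h4 : 0 ≤ N * T - (N - 2) * s' := by
    linarith [mul_le_mul_of_nonneg_left hT (show 0 ≤ N - 2 by linarith)]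
  have h5 : (N - 2) * s ≤ (N - 2) * s' := mul_le_mul_of_nonneg_left hss (by linarith)
  refine add_le_add (div_le_div₀ (mul_nonneg (by linarith) (by linarith)) ?_ h3 h2)
    (mul_le_mul_of_nonneg_right (mul_le_mul_of_nonneg_left ?_ two_pos.le) hl)
  · exact mul_le_mul (by linarith) (by linarith) h4 (by linarith)
  · exact div_le_div_of_nonneg_left (by linarith) h3 h2

lemma frc_lower {s s' l u d : ℝ}
    (hkk : k0 N p q s' + 2 * nu N p q s' * l ≤ k0 N p q s + 2 * nu N p q s * l)
    (h0 : 0 ≤ k0 N p q s' + 2 * nu N p q s' * l) (hs : 1 ≤ s) (hss : s ≤ s') (hl : 0 ≤ l)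
    (hd : s' - s = (1 - u) * d) :
    frc N p q s' l - (1 - u) * (d * (2 * s' - 1) * (k0 N p q s' + 2 * nu N p q s' * l))
      ≤ frc N p q s l := by
  simp only [frc]
  generalize k0 N p q s' + 2 * nu N p q s' * l = c at *
  generalize k0 N p q s + 2 * nu N p q s * l = c' at *
  have h1 : (l + s * (s - 1)) * c ≤ (l + s * (s - 1)) * c' :=
    mul_le_mul_of_nonneg_left hkk
      (add_nonneg hl (mul_nonneg (by linarith) (by linarith)))
  have h2 : (s' - s) * (s' + s - 1) * c ≤ (s' - s) * (2 * s' - 1) * c :=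
    mul_le_mul_of_nonneg_right
      (mul_le_mul_of_nonneg_left (by linarith) (by linarith)) h0
  have h3 : (1 - u) * (d * (2 * s' - 1) * c) = (s' - s) * (2 * s' - 1) * c := by rw [hd]; ring
  have h4 : (2 * s - 1) * l ≤ (2 * s' - 1) * l :=
    mul_le_mul_of_nonneg_right (by linarith) hl
  linarith

lemma wm_s3_nonpos (hN : 6 ≤ N) (hq : 0 < q) (hpq : q < p) : wm N p q (extS3 N p q) ≤ 0 := by
  have hp : 0 < p := hq.trans hpq
  have hN0 : 0 < N := by linarith
  have hC0 := extC0_pos (show 2 < N by linarith) hq hpq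
  have hd : 0 ≤ boxDl N p q := by unfold boxDl; positivity
  have hs2 : 0 ≤ extS2 N p q := by linarith [one_lt_extS2 hN0 hq hpq]
  have e : extS3 N p q = extS2 N p q - -boxDl N p q := by simp only [extS3, boxDl]; ring
  rw [e, wm_sub hN0 hp hq]
  refine mul_nonpos_of_nonpos_of_nonneg
    (mul_nonpos_of_nonneg_of_nonpos (boxBe_pos hN0 hp hq).le (neg_nonpos.2 hd)) ?_
  rw [neg_div, sub_neg_eq_add]
  linarith [div_nonneg hd hs2]

lemma extL_ge (hN : 6 ≤ N) (hq : 0 < q) (hpq : q < p) :
    32 / 50 * extC0 N p q ≤ extL N p q := by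
  have hC0 := extC0_pos (show 2 < N by linarith) hq hpq
  refine mul_le_mul_of_nonneg_right ?_ hC0.le
  have hT : 1 < (p + 1) / (q + 1) := by rw [lt_div_iff₀ (by linarith)]; linarith
  generalize (p + 1) / (q + 1) = T at *
  have : 3 / (100 * T) ≤ 3 / 100 := by
    rw [div_le_div_iff₀ (by positivity) (by norm_num)]; linarith
  linarith

/-- The final combination. -/
lemma end_comb {u M a0 A3 C den F3 Y F S0 A : ℝ} (hu0 : 0 ≤ u) (hu1 : u ≤ 1) (hM : 0 ≤ M)
    (ha03 : a0 ≤ A3) (ha0 : 0 < a0) (hC : 0 < C) (hden : C ≤ den) (hY : 0 < Y)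
    (hMY : M * Y < a0 * C) (hI : A3 * den < F3 * Y) (hF : F3 - (1 - u) * M ≤ F)
    (hS : u * Y ≤ S0) (hA : A ≤ u * A3 - (1 - u) * a0) : 0 < F * S0 - A * den := by
  have hd : 0 < den := hC.trans_le hden
  have hMF : M < F3 := lt_of_mul_lt_mul_right
    (hMY.trans_le ((mul_le_mul ha03 hden hC.le (ha0.le.trans ha03)).trans hI.le)) hY.le
  have hn : 0 ≤ F3 - (1 - u) * M := by linarith [mul_nonneg hu0 hM]
  have h1 : (F3 - (1 - u) * M) * (u * Y) ≤ F * S0 :=
    mul_le_mul hF hS (mul_nonneg hu0 hY.le) (hn.trans hF)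
  have h2 := mul_le_mul_of_nonneg_right hA hd.le
  have hlast : 0 < a0 * den - u * (M * Y) := by
    linarith [mul_le_mul_of_nonneg_left hden ha0.le,
      mul_le_mul_of_nonneg_right hu1 (mul_nonneg hM hY.le)]
  have h3 : 0 < u * (F3 * Y - A3 * den) + (1 - u) * (a0 * den - u * (M * Y)) := by
    rcases hu0.eq_or_lt with hu | hu
    · subst hu; linarith
    · exact add_pos_of_pos_of_nonneg (mul_pos hu (sub_pos.2 hI))
        (mul_nonneg (by linarith) hlast.le)
  linarith

/-- `lowF` on `[s₂ - X0, s3]` from its value at `s3`. -/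
theorem lowF_pos_of_end (hN : 6 ≤ N) (hq : 0 < q) (hpq : q < p) (he : Ends N p q)
    (hsX : extL N p q < wm N p q (extS2 N p q - boxXmin N p q)) {X C K : ℝ}
    (hX : boxXmin N p q ≤ X) (hK : 0 ≤ K)
    (hC : 3 / 5 * (boxBe N p q * (X + boxDl N p q)) ≤ C)
    (hI : (N + 2) / 2 * (extL N p q - wm N p q (extS3 N p q)) * (C + K * (X + boxDl N p q))
      < frc N p q (extS3 N p q) (extL N p q) * (X + boxDl N p q))
    {s : ℝ} (hs : s ∈ Icc (extS2 N p q - boxXmin N p q) (extS3 N p q)) :
    0 < lowF N p q X C K s := by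
  have hp : 0 < p := hq.trans hpq
  have hN2 : 2 < N := by linarith
  have hN0 : 0 < N := by linarith
  have hC0 := extC0_pos hN2 hq hpq
  have hr := boxR_pos hN2 hq hpq
  have hbe := boxBe_pos hN0 hp hq
  have hdl : 0 < boxDl N p q := by unfold boxDl; positivity
  have hX0 : 0 < boxXmin N p q := by unfold boxXmin; positivity
  have hs30 := extS2_le_extS3 hN2 hq hpq
  have hLpos := extL_pos hN2 hq hpq
  have hT3 := extS3_le_tb hN hq hpq
  set T := (p + 1) / (q + 1) with hT
  have hTP : T < p + 1 := div_lt_self (by linarith) (by linarith)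
  have hT1 : 1 < T := by rw [hT, lt_div_iff₀ (by linarith)]; linarith
  set X0 := boxXmin N p q with hX0d
  set L := extL N p q with hL
  set s3 := extS3 N p q with hs3
  set sX := extS2 N p q - X0 with hsXd
  have hbeX : boxBe N p q * X0 ≤ 9 / 10 * extC0 N p q := by
    rw [hX0d, boxXmin, mul_div_assoc', div_le_iff₀ (by positivity)]
    nlinarith [show 0 ≤ 27 / 20 * extC0 N p q / boxR N p q by positivity,
      mul_nonneg hC0.le (show 0 ≤ 27 / 20 * extC0 N p q / boxR N p q by positivity)]
  have hsX1 : 1 ≤ sX := by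
    have h1 : X0 ≤ boxR N p q := by
      rw [hX0d, boxXmin, div_le_iff₀ (by positivity)]
      have : boxR N p q * (boxBe N p q + 27 / 20 * extC0 N p q / boxR N p q)
          = boxR N p q * boxBe N p q + 27 / 20 * extC0 N p q := by field_simp
      rw [this]
      nlinarith [mul_pos hr hbe]
    have h2 := le_max_left (1 : ℝ) (sEq N p q)
    simp only [boxR] at h1
    rw [hsXd]; linarith
  have hs1 : 1 ≤ s := hsX1.trans hs.1
  have hD : 0 < X0 + boxDl N p q := by positivity
  have hY : 0 < X + boxDl N p q := by linarith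
  obtain ⟨u, hu0, hu1, hsu⟩ : ∃ u, 0 ≤ u ∧ u ≤ 1 ∧ s = sX + u * (X0 + boxDl N p q) := by
    have e : s3 = sX + (X0 + boxDl N p q) := by
      rw [hs3, hsXd, extS3, boxDl]; ring
    refine ⟨(s - sX) / (X0 + boxDl N p q), div_nonneg (by linarith [hs.1]) hD.le,
      (div_le_one hD).2 (by linarith [hs.2]), ?_⟩
    field_simp; ring
  have e3 : s3 = sX + (X0 + boxDl N p q) := by rw [hs3, hsXd, extS3, boxDl]; ring
  have hwm : (1 - u) * wm N p q sX + u * wm N p q s3 ≤ wm N p q s := by
    rw [hsu, e3]; exact wm_chord hN0 hq hu0 hu1 _ _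
  have hkk : k0 N p q s3 + 2 * nu N p q s3 * L ≤ k0 N p q s + 2 * nu N p q s * L :=
    kk_anti hN2 hq hpq (by linarith) hs.2 hT3 hLpos.le
  set kk := k0 N p q s3 + 2 * nu N p q s3 * L with hkk3
  have hkk0 : 0 ≤ kk := by
    have h1 : 0 ≤ k0 N p q s3 := (k0_pos hN2 hp hq (by linarith [hs.2]) hT3).le
    have h2 : 0 ≤ nu N p q s3 := by
      simp only [nu, ← hT]; exact div_nonneg (by linarith) (by nlinarith [hs.2])
    rw [hkk3]; positivity
  set M := (X0 + boxDl N p q) * (2 * s3 - 1) * kk with hM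
  have hF : frc N p q s3 L - (1 - u) * M ≤ frc N p q s L := by
    rw [hM, hkk3]
    exact frc_lower hkk (hkk3 ▸ hkk0) hs1 hs.2 hLpos.le (by rw [hsu, e3]; ring)
  set a0 := (N + 2) / 2 * (wm N p q sX - L) with ha0
  set A3 := (N + 2) / 2 * (L - wm N p q s3) with hA3
  have ha0p : 0 < a0 := mul_pos (by linarith) (by linarith)
  have ha03 : a0 ≤ A3 := by
    refine mul_le_mul_of_nonneg_left ?_ (by linarith)
    have h1 : wm N p q sX ≤ boxBe N p q * X0 := by
      rw [hsXd, wm_sub hN0 hp hq]
      refine mul_le_of_le_one_right (by positivity) ?_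
      linarith [div_nonneg hX0.le (show 0 ≤ extS2 N p q by linarith [one_lt_extS2 hN0 hq hpq])]
    have h2 : wm N p q s3 ≤ 0 := wm_s3_nonpos hN hq hpq
    have h3 : 32 / 50 * extC0 N p q ≤ L := extL_ge hN hq hpq
    linarith
  have hC' : 0 < C := lt_of_lt_of_le (by positivity) hC
  have hM0 : 0 ≤ M := mul_nonneg (mul_nonneg hD.le (by linarith [hs.2])) hkk0
  have hMY : M * (X + boxDl N p q) < a0 * C := by
    have h := mul_lt_mul_of_pos_right he.ii hY
    have h' := mul_le_mul_of_nonneg_left hC ha0p.le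
    have e1 : 10 * (X0 + boxDl N p q) * (2 * s3 - 1) * kk * (X + boxDl N p q)
        = 10 * (M * (X + boxDl N p q)) := by rw [hM]; ring
    have e2 : 3 * (N + 2) * boxBe N p q * (wm N p q sX - L) * (X + boxDl N p q)
        = 10 * (a0 * (3 / 5 * (boxBe N p q * (X + boxDl N p q)))) := by rw [ha0]; ring
    change 10 * (X0 + boxDl N p q) * (2 * s3 - 1) * kk * (X + boxDl N p q)
      < 3 * (N + 2) * boxBe N p q * (wm N p q sX - L) * (X + boxDl N p q) at h
    rw [e1, e2] at h
    linarith
  have hss0 : u * (X + boxDl N p q) ≤ s - (extS2 N p q - X) := by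
    have e : s - (extS2 N p q - X) - u * (X + boxDl N p q) = (1 - u) * (X - X0) := by
      rw [hsu, hsXd]; ring
    linarith [mul_nonneg (show 0 ≤ 1 - u by linarith) (sub_nonneg.2 hX)]
  have hA : (N + 2) / 2 * (L - wm N p q s) ≤ u * A3 - (1 - u) * a0 := by
    have e : u * A3 - (1 - u) * a0 - (N + 2) / 2 * (L - wm N p q s)
        = (N + 2) / 2 * (wm N p q s - ((1 - u) * wm N p q sX + u * wm N p q s3)) := by
      rw [hA3, ha0]; ring
    linarith [mul_nonneg (show 0 ≤ (N + 2) / 2 by linarith) (sub_nonneg.2 hwm)]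
  exact end_comb hu0 hu1 hM0 ha03 ha0p hC' (le_add_of_nonneg_right (mul_nonneg hK hY.le))
    hY hMY hI hF hss0 hA

/-- **The eight point certificates of `low_of_points`.** -/
theorem box_low (hN : 6 ≤ N) (hq : 0 < q) (hpq : q < p)
    (hcrit : N / (p + 1) + N / (q + 1) = N - 2)
    (hT : (p + 1) / (q + 1) < (7 * N - 17) / 5)
    (hsX : extL N p q < wm N p q (extS2 N p q - boxXmin N p q)) :
    ∀ s ∈ Icc (extS2 N p q - boxXmin N p q) (extS3 N p q),
      0 < lowF N p q (boxXmin N p q) (51 / 50 * extC0 N p q)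
        (max 0 (extK N p q (extS3 N p q) (51 / 50 * extC0 N p q))) s ∧
      0 < lowF N p q (boxXmin N p q) (boxTopLin N p q (boxXmin N p q))
        (max 0 (extK N p q (extS3 N p q) (boxTop N p q (boxXmax N p q)))) s ∧
      0 < lowF N p q (boxXmax N p q / 2) (boxTopLin N p q (boxXmax N p q / 2))
        (max 0 (extK N p q (extS3 N p q) (boxTop N p q (boxXmax N p q)))) s ∧
      0 < lowF N p q (boxXmax N p q) (boxTop N p q (boxXmax N p q))
        (max 0 (extK N p q (extS3 N p q) (boxTop N p q (boxXmax N p q)))) s := by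
  intro s hs
  have hp : 0 < p := hq.trans hpq
  have hN2 : 2 < N := by linarith
  have hN0 : 0 < N := by linarith
  have he := ends_hold hN hq hpq hcrit hT
  have hX02 : boxXmin N p q ≤ boxXmax N p q / 2 := he.x_lt.le
  have hC0 := extC0_pos hN2 hq hpq
  have hr := boxR_pos hN2 hq hpq
  have hbe := boxBe_pos hN0 hp hq
  obtain ⟨hr2, hs2⟩ := boxR_lt hN0 hq hpq
  have hbd : boxBe N p q * boxDl N p q ≤ extC0 N p q / 5 := by
    have e : boxBe N p q * boxDl N p q
        = (N * (p + 1) + 2) / ((N + 2) * (p + 1)) * (extC0 N p q / 5) := by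
      simp only [boxBe, boxDl, extS2]; field_simp
    rw [e]
    refine mul_le_of_le_one_left (by positivity) ?_
    rw [div_le_one (by positivity)]; linarith
  have hpos : 0 < boxBe N p q + 27 / 20 * extC0 N p q / boxR N p q := by positivity
  have hbeX : boxBe N p q * boxXmin N p q ≤ 9 / 10 * extC0 N p q := by
    rw [boxXmin, mul_div_assoc', div_le_iff₀ hpos]
    nlinarith [mul_nonneg hC0.le (show 0 ≤ 27 / 20 * extC0 N p q / boxR N p q by positivity)]
  have hber : 63 / 20 * extC0 N p q ≤ boxBe N p q * boxR N p q := by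
    have h : boxXmin N p q < boxXmax N p q :=
      he.x_lt.trans (half_lt_self (div_pos hr (by norm_num)))
    rw [boxXmin, boxXmax, div_lt_iff₀ hpos] at h
    have : boxR N p q / 5 * (boxBe N p q + 27 / 20 * extC0 N p q / boxR N p q)
        = boxBe N p q * boxR N p q / 5 + 27 / 100 * extC0 N p q := by field_simp; ring
    linarith
  have hbeX' : 7 / 25 * extC0 N p q ≤ boxBe N p q * boxXmin N p q := by
    rw [boxXmin, mul_div_assoc', le_div_iff₀ hpos]
    have e : 27 / 20 * extC0 N p q / boxR N p q ≤ 27 / 63 * boxBe N p q := by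
      rw [div_le_iff₀ hr]; linarith
    nlinarith [mul_le_mul_of_nonneg_left e hC0.le, mul_pos hC0 hbe]
  have hmax : ∀ x : ℝ, 0 ≤ max 0 x := fun x => le_max_left _ _
  have hq2 : (1 : ℝ) - boxXmax N p q / extS2 N p q ≥ 4 / 5 := by
    rw [boxXmax, ge_iff_le, div_div, le_sub_comm, div_le_iff₀ (by positivity)]
    linarith
  refine ⟨lowF_pos_of_end hN hq hpq he hsX le_rfl (hmax _) (by linarith) he.i1 hs, ?_, ?_, ?_⟩
  · refine lowF_pos_of_end hN hq hpq he hsX le_rfl (hmax _) ?_ ?_ hs
    · simp only [boxTopLin]; linarith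
    · refine lt_of_le_of_lt (mul_le_mul_of_nonneg_left ?_ ?_) he.i1
      · set T := (p + 1) / (q + 1) with hTd
        have hT1 : 1 < T := by rw [hTd, lt_div_iff₀ (by linarith)]; linarith
        have hs3 : extS2 N p q ≤ extS3 N p q := extS2_le_extS3 hN2 hq hpq
        have hrT : boxXmax N p q ≤ (extS3 N p q + T) / 25 := by
          have h1 := le_max_right (1 : ℝ) (sEq N p q)
          have h2 := extS2_lt_tb hN0 hq hpq
          have h3 : sEq N p q = T - 2 * T / N := by
            rw [sEq, ← hTd]; field_simp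
          have h4 : 2 * T / N ≤ T / 3 := by
            rw [div_le_div_iff₀ hN0 (by norm_num)]; nlinarith
          rw [← hTd] at h2
          simp only [boxXmax, boxR]
          linarith
        have hK : ∀ W W', extK N p q (extS3 N p q) W - extK N p q (extS3 N p q) W'
            = 2 * (N - 1) / (N * (extS3 N p q + T)) * (W - W') := fun W W' => by
          have : extS3 N p q + T ≠ 0 := by linarith [one_lt_extS2 hN0 hq hpq]
          have e : p + 1 + (q + 1) * extS3 N p q = (q + 1) * (extS3 N p q + T) := by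
            rw [hTd]; field_simp; ring
          have : q + 1 ≠ 0 := by linarith
          simp only [extK, e]
          field_simp
          ring
        have hle : extK N p q (extS3 N p q) (boxTop N p q (boxXmax N p q))
            ≤ extK N p q (extS3 N p q) (51 / 50 * extC0 N p q) + 2 / 25 * boxBe N p q := by
          have hst : 0 < extS3 N p q + T := by linarith [one_lt_extS2 hN0 hq hpq]
          have h1 : boxTop N p q (boxXmax N p q) - 51 / 50 * extC0 N p q
              ≤ boxBe N p q * ((extS3 N p q + T) / 25) := by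
            have h2 : boxTop N p q (boxXmax N p q)
                ≤ boxBe N p q * boxXmax N p q + extC0 N p q / 100 := by
              simp only [boxTop, add_le_add_iff_right]
              refine mul_le_of_le_one_right ?_ ?_
              · exact mul_nonneg hbe.le (div_nonneg hr.le (by norm_num))
              · linarith [div_nonneg (show 0 ≤ boxXmax N p q from
                  div_nonneg hr.le (by norm_num)) hs2.le]
            linarith [mul_le_mul_of_nonneg_left hrT hbe.le]
          have h3 := hK (boxTop N p q (boxXmax N p q)) (51 / 50 * extC0 N p q)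
          have h4 : 2 * (N - 1) / (N * (extS3 N p q + T))
              * (boxBe N p q * ((extS3 N p q + T) / 25)) ≤ 2 / 25 * boxBe N p q := by
            rw [show 2 * (N - 1) / (N * (extS3 N p q + T))
              * (boxBe N p q * ((extS3 N p q + T) / 25))
              = (N - 1) / N * (2 / 25 * boxBe N p q) by field_simp]
            exact mul_le_of_le_one_left (by positivity) ((div_le_one hN0).2 (by linarith))
          have h5 := mul_le_mul_of_nonneg_left h1 (show 0 ≤ 2 * (N - 1) / (N * (extS3 N p q + T))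
            from div_nonneg (by linarith) (by positivity))
          linarith
        have hY : 0 ≤ boxXmin N p q + boxDl N p q := by
          have : 0 ≤ boxDl N p q := by unfold boxDl; positivity
          have : 0 < boxXmin N p q := by unfold boxXmin; positivity
          linarith
        set K1 := max 0 (extK N p q (extS3 N p q) (51 / 50 * extC0 N p q))
        have hKM : max 0 (extK N p q (extS3 N p q) (boxTop N p q (boxXmax N p q)))
            ≤ K1 + 2 / 25 * boxBe N p q :=
          max_le (add_nonneg (le_max_left _ _) (by positivity))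
            (hle.trans (add_le_add (le_max_right _ _) le_rfl))
        have := mul_le_mul_of_nonneg_right hKM hY
        simp only [boxTopLin]
        linarith
      · have h1 : wm N p q (extS3 N p q) ≤ extL N p q :=
          (wm_s3_nonpos hN hq hpq).trans (extL_pos hN2 hq hpq).le
        exact mul_nonneg (by linarith) (by linarith)
  · refine lowF_pos_of_end hN hq hpq he hsX hX02 (hmax _) ?_ he.i3 hs
    simp only [boxTopLin, boxXmax] at *
    linarith
  · refine lowF_pos_of_end hN hq hpq he hsX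
      (hX02.trans (half_le_self (div_nonneg hr.le (by norm_num)))) (hmax _) ?_ he.i4 hs
    simp only [boxTop, boxXmax] at *
    nlinarith [mul_le_mul_of_nonneg_left hq2 (show 0 ≤ boxBe N p q * (boxR N p q / 5) by positivity)]

/-- The field `xmin_lt` of `BoxCerts`. -/
theorem boxXmin_lt_boxXmax (hN : 6 ≤ N) (hq : 0 < q) (hpq : q < p)
    (hcrit : N / (p + 1) + N / (q + 1) = N - 2)
    (hT : (p + 1) / (q + 1) < (7 * N - 17) / 5) : boxXmin N p q < boxXmax N p q :=
  (ends_hold hN hq hpq hcrit hT).x_lt.trans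
    (half_lt_self (div_pos (boxR_pos (show 2 < N by linarith) hq hpq) (by norm_num)))

end Vale.Agent.P100T
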