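import Vale.Agent.P100T.BoxLowPoly

/-!
Polynomial templates for `Wd ≤ 0` on the box of the extension at the two ends `W = 51/50 C₀` and
`W = 5/2 (s₂ - σ∞) T / (N-2)`, with `σ = s3 - 11/10 (z/(1+z)) (r/5 + δ)`, and their checks.
-/

namespace Vale.Agent.P100T.UdCert

open PosCheck LowCert

section templates

variable {R : Type} [Add R] [Sub R] [Mul R] (k : ℤ → R) (N m a b rr rd z : R)

/-- `-(N+4)(σ+T) σ Wd`, scaled, at `σ = S / D`, `T = Tv / D`, `W = W / (u D)`. -/
def udP (D S Tv W u : R) : R :=
  (N + k 2) * b * D * (S + Tv) * W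
      * (u * ((N * (a + b) + m * a) * S * D - m * a * S * S) - m * a * W * D)
    - (N + k 4) * b * D * S * W
      * (u * ((N * (a + b) + m * a) * Tv * D - m * a * (k 2 * (S * Tv) + S * S)) + m * a * W * D)
    - S * (u * S * (N * (a + b) * S - m * b * (Tv + D)) + m * b * W * D)
      * (u * (N * (a + b) * S * D - m * a * S * S - m * a * Tv * D - k 2 * (a * (S + Tv) * D))
        - m * a * W * D)

def sD : R := k 50 * rd * gD k N m a b * (k 1 + z)
def sT : R := k 50 * rd * gT k N m a b * (k 1 + z)
def sS : R :=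
  k 50 * rd * gS k N m a b * (k 1 + z)
    - k 11 * z * (gRn k N m a b rr + k 5 * rd * gd k N m a b)
def uTop : R := k 10 * (m * a * a * rd * gH k N m a b)

/-- The end `W = 51/50 C₀`. -/
def udLo : R :=
  udP k N m a b (sD k N m a b rd z) (sS k N m a b rr rd z) (sT k N m a b rd z)
    (k 510 * (gC0 k N m a b * rd * (k 1 + z))) (k 10)

/-- The end `W = 5/2 r T / (N-2)`. -/
def udTop : R :=
  udP k N m a b (sD k N m a b rd z) (sS k N m a b rr rd z) (sT k N m a b rd z)
    (k 25 * (b * rr) * sD k N m a b rd z) (uTop k N m a b rd)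

end templates

theorem checkALo : check (udLo n eN em aA bA rA (n 1) Ex.z) = true := by decide +kernel
theorem checkBLo : check (udLo n eN em aB bB rB eN Ex.z) = true := by decide +kernel
theorem checkATop : check (udTop n eN em aA bA rA (n 1) Ex.z) = true := by decide +kernel
theorem checkBTop : check (udTop n eN em aB bB rB eN Ex.z) = true := by decide +kernel

end Vale.Agent.P100T.UdCert
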