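import Vale.Agent.P100T.BoxIneqI
import Vale.Agent.P100T.BoxLow
import Vale.Agent.P100T.BoxUdPoly
import Vale.Agent.P100T.LowerLine

/-!
`Wd ≤ 0` on `s₂ - r/5 ≤ σ ≤ s3`, `51/50 C₀ ≤ W ≤ boxTopU`: `Wd` is convex in `W`, so two ends
suffice, and each is one sign condition in `(N, T, z)` checked in `BoxUdPoly`.
-/

open Set

noncomputable section

namespace Vale.Agent.P100T.UdCert

open PosCheck LowCert

variable {N p q : ℝ}

/-- `(N+4)(σ+T) σ Wd` as a polynomial in `W`. -/
def udF (N p q s W : ℝ) : ℝ :=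
  (N + 4) * s * W * ((p + 1) * ((p + 1) / (q + 1)) + (p + 1) / (q + 1)
      - 2 * s * ((p + 1) / (q + 1)) - s ^ 2 + W)
    + s * (s * ((q + 1) * s - (p + 1) / (q + 1) - 1) + W)
      * ((N - 2) * ((p + 1) * s - s ^ 2 - (p + 1) / (q + 1) - W)
        - 2 * (s + (p + 1) / (q + 1)))
    - (N + 2) * (s + (p + 1) / (q + 1)) * W * ((p + 2) * s - s ^ 2 - W)

lemma Wd_eq {C : CPar} (hCN : C.N = N) (hCp : C.p = p) (hCq : C.q = q) (hN : 0 < N) (hp : 0 < p)
    (hq : 0 < q) {s : ℝ} (hs : 0 < s) (W : ℝ) :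
    C.Wd s W * ((N + 4) * (s + (p + 1) / (q + 1)) * s) = udF N p q s W := by
  obtain ⟨t, ht⟩ : ∃ t, t = (p + 1) / (q + 1) := ⟨_, rfl⟩
  have ht0 : 0 < t := by rw [ht]; positivity
  have hP : p = (q + 1) * t - 1 := by rw [ht]; field_simp; ring
  have : N + 4 ≠ 0 := by linarith
  have : s + t ≠ 0 := by linarith
  simp only [CPar.Wd, CPar.Dl, CPar.Xh, CPar.yv, CPar.Bv, CPar.kb, CPar.l, CPar.K, CPar.V, udF,
    hCN, hCp, hCq, ← ht]
  rw [hP, show (q + 1) * t - 1 + 1 + (q + 1) * s = (q + 1) * (s + t) by ring]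
  field_simp
  ring

/-- `udF` is convex in `W`. -/
lemma udF_nonpos_between (hN : 0 < N) (hp : 0 < p) (hq : 0 < q) {s Wa Wb W : ℝ} (hs : 0 < s)
    (ha : udF N p q s Wa ≤ 0) (hb : udF N p q s Wb ≤ 0) (h1 : Wa ≤ W) (h2 : W ≤ Wb) :
    udF N p q s W ≤ 0 := by
  rcases (h1.trans h2).eq_or_lt with e | e
  · rwa [show W = Wa by linarith]
  have ht : 0 < (p + 1) / (q + 1) := by positivity
  have id : udF N p q s W * (Wb - Wa) = (Wb - W) * udF N p q s Wa + (W - Wa) * udF N p q s Wb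
      - (W - Wa) * (Wb - W) * (Wb - Wa) * (6 * s + (N + 2) * (s + (p + 1) / (q + 1))) := by
    simp only [udF]; ring
  refine nonpos_of_mul_nonpos_left ?_ (sub_pos.2 e)
  rw [id]
  have h1' := sub_nonneg.2 h1
  have h2' := sub_nonneg.2 h2
  have : 0 ≤ (W - Wa) * (Wb - W) * (Wb - Wa) * (6 * s + (N + 2) * (s + (p + 1) / (q + 1))) := by
    have := sub_pos.2 e
    positivity
  linarith [mul_nonpos_of_nonneg_of_nonpos h2' ha, mul_nonpos_of_nonneg_of_nonpos h1' hb]

/-- The meaning of `udP`. -/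
lemma udP_eq {m a b D S T W u s t w : ℝ} (hS : S = s * D) (hT : T = t * D) (hW : W = w * (u * D))
    (hP : p + 1 = N * (a + b) / (m * a)) (hQ : q + 1 = N * (a + b) / (m * b))
    (hb : b = t * a) (hm : m = N - 2) (hm0 : m ≠ 0) (ha : a ≠ 0) (ht : (p + 1) / (q + 1) = t)
    (ht0 : t ≠ 0) :
    udP Int.cast N m a b D S T W u = -udF N p q s w * (m * a * b * D ^ 5 * u ^ 2) := by
  have hp2 : p + 2 = N * (a + b) / (m * a) + 1 := by linarith
  subst hS hT hW
  simp only [udP, udF, Int.cast_ofNat, ht]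
  rw [hp2, hP, hQ, ← hm, hb]
  field_simp
  ring

/-- The two ends from the two sign conditions. -/
theorem ends_le {a b rr rd z : ℝ} (hN : 6 ≤ N) (hq : 0 < q) (hpq : q < p)
    (hcrit : N / (p + 1) + N / (q + 1) = N - 2) (ha : 0 < a) (hrd : 0 < rd) (hz : 0 ≤ z)
    (hb : b = (p + 1) / (q + 1) * a)
    (hr : boxR N p q = rr / (rd * a * gH Int.cast N (N - 2) a b))
    (h1 : 0 ≤ udLo Int.cast N (N - 2) a b rr rd z)
    (h2 : 0 ≤ udTop Int.cast N (N - 2) a b rr rd z) :
    udF N p q (extS3 N p q - 11 / 10 * (z / (1 + z)) * (boxXmax N p q + boxDl N p q))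
        (51 / 50 * extC0 N p q) ≤ 0 ∧
      udF N p q (extS3 N p q - 11 / 10 * (z / (1 + z)) * (boxXmax N p q + boxDl N p q))
        (5 / 2 * boxR N p q * ((p + 1) / (q + 1)) / (N - 2)) ≤ 0 := by
  have hp : 0 < p := hq.trans hpq
  have hN0 : 0 < N := by linarith
  have hk := crit_iff hp hq hcrit
  set t := (p + 1) / (q + 1) with ht
  have ht1 : 1 < t := by rw [ht, lt_div_iff₀ (by linarith)]; linarith
  have ht0 : 0 < t := by linarith
  have hb0 : 0 < b := by rw [hb]; positivity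
  set m := N - 2 with hm
  have hm0 : 0 < m := by linarith
  have hP : p + 1 = N * (a + b) / (m * a) := by
    rw [eq_div_iff (by positivity), hb]; linear_combination a * hk
  have hQ : q + 1 = N * (a + b) / (m * b) := by
    rw [eq_div_iff (by positivity), hb]
    have : (q + 1) * t = p + 1 := by rw [ht]; field_simp
    linear_combination (m * a) * this + a * hk
  set G := gG Int.cast N m a b with hG
  set H := gH Int.cast N m a b with hH
  have eG : G = N * N * (a + b) + 2 * m * a := by simp [hG, gG]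
  have eH : H = N * N * (a + b) + 2 * m * b := by simp [hH, gH]
  have hG0 : 0 < G := by rw [eG]; positivity
  have hH0 : 0 < H := by rw [eH]; positivity
  set D := gD Int.cast N m a b with hD
  have eD : D = 50 * a * a * H * H * H * (G + H) := by simp [hD, gD, hG, hH]
  have hD0 : 0 < D := by rw [eD]; positivity
  have hh : N * (q + 1) + 2 = H / (m * b) := by rw [hQ, eH]; field_simp
  have hg : N * (p + 1) + 2 = G / (m * a) := by rw [hP, eG]; field_simp
  have hs2 : extS2 N p q = b * G / (a * H) := by rw [extS2, hh, hg]; field_simp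
  have hs21 : extS2 N p q - 1 = N * N * (a + b) * (b - a) / (a * H) := by
    rw [hs2, eG, eH]; field_simp; ring
  have eS2 : gS2 Int.cast N m a b = extS2 N p q * D := by
    rw [hs2, eD]; simp only [gS2, ← hG, ← hH, Int.cast_ofNat]; field_simp
  have hk0 : k0 N p q (extS2 N p q)
      = gE Int.cast N m a b * (N * H - m * G) / (N * m * a * H * (G + H)) := by
    have e1 : p + 2 = N * (a + b) / (m * a) + 1 := by linarith
    rw [k0, ← ht, e1, hs2, show N - 2 = m from rfl]
    simp only [gE, ← hG, ← hH]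
    have : t = b / a := by rw [hb]; field_simp
    rw [this]
    field_simp
  have eC0 : gC0 Int.cast N m a b = extC0 N p q * D := by
    rw [extC0, hs21, hk0, hh, eD]
    simp only [gC0, gW, ← hG, ← hH, Int.cast_ofNat]
    field_simp
    ring
  have ed : gd Int.cast N m a b = boxDl N p q * D := by
    have : gd Int.cast N m a b = gC0 Int.cast N m a b / (5 * (p + 1)) := by
      simp only [gd, gC0, Int.cast_ofNat]; rw [hP]; field_simp; ring
    rw [this, eC0, boxDl]; ring
  have eS : gS Int.cast N m a b = extS3 N p q * D := by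
    rw [gS, eS2, ed, extS3, boxDl]; ring
  have eT : gT Int.cast N m a b = t * D := by
    rw [eD]; simp only [gT, ← hG, ← hH, Int.cast_ofNat]; rw [hb]; ring
  have eR : gRn Int.cast N m a b rr = boxR N p q * (rd * D) := by
    rw [hr, eD]; simp only [gRn, ← hG, ← hH, Int.cast_ofNat]; field_simp
  have err : rr = boxR N p q * (rd * a * H) := by rw [hr]; field_simp
  set s := extS3 N p q - 11 / 10 * (z / (1 + z)) * (boxXmax N p q + boxDl N p q) with hs
  have hz1 : 0 < 1 + z := by linarith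
  set D' := sD Int.cast N m a b rd z with hD'
  have eD' : D' = 50 * rd * D * (1 + z) := by simp [hD', sD, hD]
  have eT' : sT Int.cast N m a b rd z = t * D' := by
    rw [eD']; simp only [sT, eT, Int.cast_ofNat, Int.cast_one]; ring
  have eS' : sS Int.cast N m a b rr rd z = s * D' := by
    rw [eD', hs]; simp only [sS, eS, eR, ed, boxXmax, Int.cast_ofNat, Int.cast_one]
    field_simp
    ring
  have hD'0 : 0 < D' := by rw [eD']; positivity
  have fin : ∀ {u W w : ℝ}, 0 < u → W = w * (u * D') →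
      0 ≤ udP Int.cast N m a b D' (sS Int.cast N m a b rr rd z) (sT Int.cast N m a b rd z) W u →
      udF N p q s w ≤ 0 := fun {u W w} hu hW h => by
    rw [udP_eq eS' eT' hW hP hQ hb hm hm0.ne' ha.ne' ht.symm ht0.ne'] at h
    exact neg_nonneg.1 (nonneg_of_mul_nonneg_left h (by positivity))
  refine ⟨fin (u := ((10 : ℤ) : ℝ)) (by norm_num) ?_ h1, fin ?_ ?_ h2⟩
  · rw [eD', eC0]; push_cast; ring
  · simp only [uTop, ← hH, Int.cast_ofNat]; positivity
  · simp only [uTop, ← hH, err, Int.cast_ofNat]; rw [hD', hb]; field_simp; ring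

/-- The ends hold for `T < (7N-17)/5`. -/
theorem ends_hold (hN : 6 ≤ N) (hq : 0 < q) (hpq : q < p)
    (hcrit : N / (p + 1) + N / (q + 1) = N - 2)
    (hT : (p + 1) / (q + 1) < (7 * N - 17) / 5) {z : ℝ} (hz : 0 ≤ z) :
    udF N p q (extS3 N p q - 11 / 10 * (z / (1 + z)) * (boxXmax N p q + boxDl N p q))
        (51 / 50 * extC0 N p q) ≤ 0 ∧
      udF N p q (extS3 N p q - 11 / 10 * (z / (1 + z)) * (boxXmax N p q + boxDl N p q))
        (5 / 2 * boxR N p q * ((p + 1) / (q + 1)) / (N - 2)) ≤ 0 := by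
  have hp : 0 < p := hq.trans hpq
  have hN0 : 0 < N := by linarith
  have hm : 0 < N - 2 := by linarith
  set t := (p + 1) / (q + 1) with ht
  have ht1 : 1 < t := by rw [ht, lt_div_iff₀ (by linarith)]; linarith
  have hk := crit_iff hp hq hcrit
  rw [← ht] at hk
  have hQt : (q + 1) * t = p + 1 := by rw [ht]; field_simp
  have hr0 : ∀ {a b : ℝ}, 0 < a → b = t * a →
      extS2 N p q = b * gG Int.cast N (N - 2) a b / (a * gH Int.cast N (N - 2) a b) := by
    intro a b ha hb
    subst hb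
    simp only [gG, gH, Int.cast_ofNat]
    rw [extS2, div_eq_div_iff (by positivity) (by positivity)]
    have : p + 1 = N * (1 + t) / (N - 2) := by rw [eq_div_iff hm.ne']; linarith
    have h2 : q + 1 = N * (1 + t) / ((N - 2) * t) := by
      rw [eq_div_iff (by positivity)]
      linear_combination (N - 2) * hQt + hk
    rw [this, h2]
    field_simp
  have ex6 : ∀ Y Z : ℝ, eN.eval (N - 6) Y Z = N := fun Y Z => by
    show (N - 6) + ((6 : ℤ) : ℝ) = N
    push_cast; ring
  have ex4 : ∀ Y Z : ℝ, em.eval (N - 6) Y Z = N - 2 := fun Y Z => by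
    show (N - 6) + ((4 : ℤ) : ℝ) = N - 2
    push_cast; ring
  have hx : (0 : ℝ) ≤ N - 6 := by linarith
  rcases lt_or_ge ((N - 2) * t) N with hA | hB
  · set Y := (N - 2) * (t - 1) / (N - (N - 2) * t) with hY
    have hY0 : 0 < Y := div_pos (mul_pos hm (by linarith)) (by linarith)
    set a := (N - 2) * (1 + Y) with ha
    set b := (N - 2) * (1 + Y) + 2 * Y with hb
    have ha0 : 0 < a := by positivity
    have hba : b = t * a := by
      have hne : N - (N - 2) * t ≠ 0 := by linarith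
      rw [hb, ha, hY]; field_simp; ring
    have va : aA.eval (N - 6) Y z = a := by
      show em.eval (N - 6) Y z * (((1 : ℤ) : ℝ) + Y) = a
      rw [ex4, ha]; push_cast; ring
    have vb : bA.eval (N - 6) Y z = b := by
      show em.eval (N - 6) Y z * (((1 : ℤ) : ℝ) + Y) + ((2 : ℤ) : ℝ) * Y = b
      rw [ex4, hb]; push_cast; ring
    have vr : rA.eval (N - 6) Y z = N * N * (a + b) * (b - a) := by
      show eN.eval (N - 6) Y z * eN.eval (N - 6) Y z
        * (aA.eval (N - 6) Y z + bA.eval (N - 6) Y z)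
        * (bA.eval (N - 6) Y z - aA.eval (N - 6) Y z) = _
      rw [ex6, va, vb]
    have v1 : (n 1).eval (N - 6) Y z = (1 : ℝ) := Int.cast_one
    have pos : ∀ (g : (ℤ → Ex) → Ex → Ex → Ex → Ex → Ex → Ex → Ex → Ex)
        (gR : (ℤ → ℝ) → ℝ → ℝ → ℝ → ℝ → ℝ → ℝ → ℝ → ℝ),
        check (g n eN em aA bA rA (n 1) Ex.z) = true →
        (g n eN em aA bA rA (n 1) Ex.z).eval (N - 6) Y z
          = gR Int.cast (eN.eval (N - 6) Y z) (em.eval (N - 6) Y z) (aA.eval (N - 6) Y z)
            (bA.eval (N - 6) Y z) (rA.eval (N - 6) Y z) ((n 1).eval (N - 6) Y z)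
            (Ex.z.eval (N - 6) Y z) →
        0 ≤ gR Int.cast N (N - 2) a b (N * N * (a + b) * (b - a)) 1 z := by
      intro g gR hc he
      have h : (0 : ℝ) ≤ (g n eN em aA bA rA (n 1) Ex.z).eval (N - 6) Y z :=
        nonneg_of_check hc hx hY0.le hz
      rw [he, ex6, ex4, va, vb, vr, v1] at h
      exact h
    refine ends_le hN hq hpq hcrit ha0 one_pos hz hba ?_ (pos udLo udLo checkALo rfl)
      (pos udTop udTop checkATop rfl)
    have hs1 : sEq N p q ≤ 1 := by
      rw [sEq, ← ht, div_mul_eq_mul_div, div_le_one hN0]; linarith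
    rw [boxR, max_eq_left hs1, hr0 ha0 hba]
    simp only [gG, gH, Int.cast_ofNat]
    have : 0 < N * N * (a + b) + 2 * (N - 2) * b := by
      rw [hba]; positivity
    rw [div_sub_one (by positivity), div_eq_div_iff (by positivity) (by positivity)]
    ring
  · set Y := ((N - 2) * t - N) / ((N - 2) * ((7 * N - 17) / 5 - t)) with hY
    have hY0 : 0 ≤ Y := div_nonneg (by linarith) (mul_nonneg hm.le (by linarith))
    set a := 5 * (N - 2) * (1 + Y) with ha
    set b := 5 * N + (N - 2) * (7 * N - 17) * Y with hb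
    have ha0 : 0 < a := by positivity
    have hba : b = t * a := by
      have hm' : Y * ((N - 2) * ((7 * N - 17) / 5 - t)) = (N - 2) * t - N :=
        div_mul_cancel₀ _ (mul_pos hm (by linarith)).ne'
      rw [hb, ha]; linear_combination 5 * hm'
    have va : aB.eval (N - 6) Y z = a := by
      show ((5 : ℤ) : ℝ) * em.eval (N - 6) Y z * (((1 : ℤ) : ℝ) + Y) = a
      rw [ex4, ha]; push_cast; ring
    have vb : bB.eval (N - 6) Y z = b := by
      show ((5 : ℤ) : ℝ) * eN.eval (N - 6) Y z + em.eval (N - 6) Y z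
        * (((7 : ℤ) : ℝ) * eN.eval (N - 6) Y z - ((17 : ℤ) : ℝ)) * Y = b
      rw [ex4, ex6, hb]; push_cast; ring
    set rr := b * (N * gG Int.cast N (N - 2) a b - (N - 2) * gH Int.cast N (N - 2) a b) with hrr
    have vr : rB.eval (N - 6) Y z = rr := by
      show bB.eval (N - 6) Y z * (eN.eval (N - 6) Y z
          * gG Int.cast (eN.eval (N - 6) Y z) (em.eval (N - 6) Y z) (aB.eval (N - 6) Y z)
            (bB.eval (N - 6) Y z)
        - em.eval (N - 6) Y z
          * gH Int.cast (eN.eval (N - 6) Y z) (em.eval (N - 6) Y z) (aB.eval (N - 6) Y z)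
            (bB.eval (N - 6) Y z)) = _
      rw [ex6, ex4, va, vb]
    have pos : ∀ (g : (ℤ → Ex) → Ex → Ex → Ex → Ex → Ex → Ex → Ex → Ex)
        (gR : (ℤ → ℝ) → ℝ → ℝ → ℝ → ℝ → ℝ → ℝ → ℝ → ℝ),
        check (g n eN em aB bB rB eN Ex.z) = true →
        (g n eN em aB bB rB eN Ex.z).eval (N - 6) Y z
          = gR Int.cast (eN.eval (N - 6) Y z) (em.eval (N - 6) Y z) (aB.eval (N - 6) Y z)
            (bB.eval (N - 6) Y z) (rB.eval (N - 6) Y z) (eN.eval (N - 6) Y z)
            (Ex.z.eval (N - 6) Y z) →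
        0 ≤ gR Int.cast N (N - 2) a b rr N z := by
      intro g gR hc he
      have h : (0 : ℝ) ≤ (g n eN em aB bB rB eN Ex.z).eval (N - 6) Y z :=
        nonneg_of_check hc hx hY0 hz
      rw [he, ex6, ex4, va, vb, vr] at h
      exact h
    refine ends_le hN hq hpq hcrit ha0 hN0 hz hba ?_ (pos udLo udLo checkBLo rfl)
      (pos udTop udTop checkBTop rfl)
    have hs1 : 1 ≤ sEq N p q := by
      rw [sEq, ← ht, div_mul_eq_mul_div, one_le_div hN0]; linarith
    rw [boxR, max_eq_right hs1, hr0 ha0 hba, hrr, sEq, ← ht]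
    simp only [gG, gH, Int.cast_ofNat]
    rw [hba]
    field_simp

end Vale.Agent.P100T.UdCert

namespace Vale.Agent.P100T

open UdCert

variable {N p q : ℝ}

/-- The top of the box is below `5/2 (s₂ - σ∞) T / (N-2)`. -/
lemma boxTopU_le_lin (hN : 6 ≤ N) (hq : 0 < q) (hpq : q < p)
    (hcrit : N / (p + 1) + N / (q + 1) = N - 2) :
    boxTopU N p q ≤ 5 / 2 * boxR N p q * ((p + 1) / (q + 1)) / (N - 2) := by
  have hp : 0 < p := hq.trans hpq
  have hh : 0 < N - 2 := by linarith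
  have hr := boxR_pos (N := N) (by linarith) hq hpq
  have hA := upA_nonneg (p := p) (q := q) hN
  obtain ⟨hb0, -⟩ := upBe_box (p := p) (q := q) hN
  have hT1 : 1 < (p + 1) / (q + 1) := by rw [lt_div_iff₀ (by linarith)]; linarith
  have hsi : upSi N p q ≤ (p + 1) / (q + 1) := by
    refine max_le hT1.le ?_
    rw [sEq]
    exact mul_le_of_le_one_left (by linarith) ((div_le_one (by linarith)).2 (by linarith))
  have hsi1 : 1 ≤ upSi N p q := le_max_left _ _
  have hA2 : upA N p q * (N - 2) ≤ 2 * ((p + 1) / (q + 1)) := by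
    rw [upA, add_mul, div_mul_cancel₀ _ hh.ne', div_mul_eq_mul_div]
    have : 19 / 10 * (upSi N p q - 1) * (N - 2) / (N - 1) ≤ 2 * (upSi N p q - 1) := by
      rw [div_le_iff₀ (by linarith)]
      linarith [mul_nonneg (sub_nonneg.2 hsi1) hh.le]
    linarith
  have e := upU_s2_eq hN hq hpq
  obtain ⟨hB0, hB1⟩ := upB_le hN hq hpq
  have hAr : 0 ≤ upA N p q * boxR N p q := mul_nonneg hA hr.le
  have h := boxTopU_excess hN hq hpq hcrit
  rw [le_div_iff₀ hh]
  have h2 : boxTopU N p q ≤ 5 / 4 * (upA N p q * boxR N p q) := by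
    linarith [mul_nonneg hAr hb0]
  calc boxTopU N p q * (N - 2) ≤ 5 / 4 * (upA N p q * boxR N p q) * (N - 2) :=
        mul_le_mul_of_nonneg_right h2 hh.le
    _ = 5 / 4 * boxR N p q * (upA N p q * (N - 2)) := by ring
    _ ≤ 5 / 4 * boxR N p q * (2 * ((p + 1) / (q + 1))) :=
        mul_le_mul_of_nonneg_left hA2 (by positivity)
    _ = _ := by ring

/-- **`Wd ≤ 0` on the three-variable box.** -/
theorem CPar.Wd_nonpos_box {C : CPar} (hCN : C.N = N) (hCp : C.p = p) (hCq : C.q = q)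
    (hN : 6 ≤ N) (hq : 0 < q) (hpq : q < p) (hcrit : N / (p + 1) + N / (q + 1) = N - 2)
    (hT : (p + 1) / (q + 1) < (7 * N - 17) / 5) {s W : ℝ}
    (hs : s ∈ Icc (extS2 N p q - boxXmax N p q) (extS3 N p q))
    (hW : W ∈ Icc (51 / 50 * extC0 N p q) (boxTopU N p q)) : C.Wd s W ≤ 0 := by
  have hp : 0 < p := hq.trans hpq
  have hN0 : 0 < N := by linarith
  have hr := boxR_pos (N := N) (by linarith) hq hpq
  obtain ⟨hr2, hs20⟩ := boxR_lt hN0 hq hpq
  have hs0 : 0 < s := by
    have := hs.1; unfold boxXmax at this; linarith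
  have hd : 0 < boxXmax N p q + boxDl N p q := by
    have := extC0_pos (show (2 : ℝ) < N by linarith) hq hpq
    unfold boxXmax boxDl; positivity
  obtain ⟨θ, hθ0, hθ1, hθ⟩ : ∃ θ : ℝ, 0 ≤ θ ∧ θ ≤ 1 ∧
      s = extS3 N p q - θ * (boxXmax N p q + boxDl N p q) := by
    refine ⟨(extS3 N p q - s) / (boxXmax N p q + boxDl N p q), div_nonneg (by linarith [hs.2]) hd.le,
      (div_le_one hd).2 ?_, by rw [div_mul_cancel₀ _ hd.ne']; ring⟩
    have e : extS3 N p q = extS2 N p q + boxDl N p q := rfl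
    linarith [hs.1]
  have h11 : 0 < 11 / 10 - θ := by linarith
  have hz : 0 ≤ θ / (11 / 10 - θ) := by positivity
  have e : 11 / 10 * (θ / (11 / 10 - θ) / (1 + θ / (11 / 10 - θ))) = θ := by
    rw [one_add_div h11.ne', sub_add_cancel, div_div_div_cancel_right₀ h11.ne']; ring
  have h := ends_hold hN hq hpq hcrit hT hz
  rw [e, ← hθ] at h
  have hF := udF_nonpos_between hN0 hp hq hs0 h.1 h.2 hW.1
    (hW.2.trans (boxTopU_le_lin hN hq hpq hcrit))
  rw [← Wd_eq hCN hCp hCq hN0 hp hq hs0 W] at hF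
  exact nonpos_of_mul_nonpos_left hF (by positivity)

/-- `Wd ≤ 0` on the box, outside the corner. -/
theorem CPar.Wd_nonpos_box_cov {C : CPar} (hCN : C.N = N) (hCp : C.p = p) (hCq : C.q = q)
    (hN : 6 ≤ N) (hq : 0 < q) (hpq : q < p) (hcrit : N / (p + 1) + N / (q + 1) = N - 2)
    (hcov : 1 < q ∨ N - 1 ≤ (p + 1) * (q * (N - 3) - 2)) {s W : ℝ}
    (hs : s ∈ Icc (extS2 N p q - boxXmax N p q) (extS3 N p q))
    (hW : W ∈ Icc (51 / 50 * extC0 N p q) (boxTopU N p q)) : C.Wd s W ≤ 0 :=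
  CPar.Wd_nonpos_box hCN hCp hCq hN hq hpq hcrit
    (lt_lineTB hN ((one_lt_div (by linarith)).2 (by linarith)) (crit_iff (hq.trans hpq) hq hcrit)
      (mul_div_cancel₀ _ (by linarith)) hcov) hs hW

namespace IsOrbitExt

/-- The hypothesis `hUd` of `box_of_certs`. -/
theorem hUd_box {τ₀ τb : ℝ} {S κ ε : ℝ → ℝ} (o : IsOrbitExt N p q τ₀ τb S κ ε) {C : CPar}
    (hCN : C.N = N) (hCp : C.p = p) (hCq : C.q = q) (hN : 6 ≤ N) (hq : 0 < q) (hpq : q < p)
    (hcrit : N / (p + 1) + N / (q + 1) = N - 2)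
    (hcov : 1 < q ∨ N - 1 ≤ (p + 1) * (q * (N - 3) - 2))
    (hXM : extS2 N p q - boxXmax N p q ≤ S τ₀) {s : ℝ} (hs : s ∈ Icc (S τ₀) (extS3 N p q)) :
    C.Wd s (extCc N p q (S τ₀)) ≤ 0 :=
  CPar.Wd_nonpos_box_cov hCN hCp hCq hN hq hpq hcrit hcov ⟨hXM.trans hs.1, hs.2⟩
    ⟨le_max_right _ _, o.extCc_le_topU hN hq hpq hcrit hXM⟩

end IsOrbitExt

end Vale.Agent.P100T
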