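import Vale.Agent.P100T.BoxTop
import Vale.Agent.P100T.LowerLine

/-!
The point `σ₀` lies in the last fifth of `(σ∞, s₂)`: `U < wm` on the rest.
-/

open Set

noncomputable section

namespace Vale.Agent.P100T

variable {N p q τ₀ τb : ℝ} {S κ ε : ℝ → ℝ}

/-- The polynomial inequality in `u = (N-2)(σ∞ - 1)`. -/
lemma boxXM_poly {u : ℝ} (hN : 6 ≤ N) (hu : 0 ≤ u)
    (hub : u * (5 * N) ≤ (N - 2) * ((N - 2) * (7 * N - 17) - 5 * N)) :
    91 / 20 * (2 * (N - 1) + 19 / 10 * u) * (N + 2) * (N - 2)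
      < (N - 1) * ((N - 2) * (2 * N ^ 2 - 4) + u * (N ^ 2 + 2 * N - 4)
          + 16 / 5 * (N - 1) * (N - 2) + 32 / 5 * (N - 1) * (1 + u / (N - 2))) := by
  obtain ⟨v, rfl⟩ : ∃ v, u = v * (N - 2) :=
    ⟨u / (N - 2), by rw [div_mul_cancel₀]; linarith⟩
  have hv : 0 ≤ v := nonneg_of_mul_nonneg_left hu (by linarith)
  rw [mul_div_cancel_right₀ _ (by linarith : N - 2 ≠ 0), ← sub_pos]
  set x := N - 6 with hx'
  have hx : 0 ≤ x := by linarith
  have e : (N - 1) * ((N - 2) * (2 * N ^ 2 - 4) + v * (N - 2) * (N ^ 2 + 2 * N - 4)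
        + 16 / 5 * (N - 1) * (N - 2) + 32 / 5 * (N - 1) * (1 + v))
      - 91 / 20 * (2 * (N - 1) + 19 / 10 * (v * (N - 2))) * (N + 2) * (N - 2)
      = (384 + 2634 / 5 * x + 441 / 2 * x ^ 2 + 361 / 10 * x ^ 3 + 2 * x ^ 4)
        + v * (-1664 / 25 + 242 / 5 * x + 1452 / 25 * x ^ 2 + 2871 / 200 * x ^ 3 + x ^ 4) := by
    rw [hx']; ring
  rw [e]
  rcases le_total 7 N with h7 | h7
  · have h1 : 1 ≤ x := by linarith
    have h2 : 0 ≤ -1664 / 25 + 242 / 5 * x + 1452 / 25 * x ^ 2 + 2871 / 200 * x ^ 3 + x ^ 4 := by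
      linarith [one_le_pow₀ (n := 2) h1, one_le_pow₀ (n := 3) h1, one_le_pow₀ (n := 4) h1]
    positivity
  · obtain ⟨y, rfl⟩ : ∃ y, N = 7 - y := ⟨7 - N, by ring⟩
    have hy : 0 ≤ y := by linarith
    have hy1 : y ≤ 1 := by linarith
    have hv5 : v * (5 - y) ≤ 18 := by
      refine le_of_mul_le_mul_right (a := 5 * (7 - y)) ?_ (by linarith)
      have : 0 ≤ 5 + 345 * y - 97 * y ^ 2 + 7 * y ^ 3 := by
        linarith [mul_le_mul_of_nonneg_left hy1 hy, show 0 ≤ 7 * y ^ 3 by positivity]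
      linarith
    have hk : -17 * (5 - y) ≤ -1664 / 25 + 242 / 5 * x + 1452 / 25 * x ^ 2 + 2871 / 200 * x ^ 3
        + x ^ 4 := by
      have : 0 ≤ 36 / 25 + 327 / 5 * x + 1452 / 25 * x ^ 2 + 2871 / 200 * x ^ 3 + x ^ 4 := by
        positivity
      linarith
    have : 0 ≤ 2634 / 5 * x + 441 / 2 * x ^ 2 + 361 / 10 * x ^ 3 + 2 * x ^ 4 := by positivity
    linarith [mul_le_mul_of_nonneg_left hk hv]

/-- The inequality at `X = r/5`. -/
lemma upA_lt_boxBe (hN : 6 ≤ N) (hq : 0 < q) (hpq : q < p)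
    (hcrit : N / (p + 1) + N / (q + 1) = N - 2) (hT : (p + 1) / (q + 1) < (7 * N - 17) / 5) :
    upA N p q * (4 / 5 + 11 / 100 *
        ((N - 2) * (upSi N p q - 1) / ((N - 2) * (upSi N p q - 1) + 6)))
      < boxBe N p q / 5 * (1 - boxR N p q / 5 / extS2 N p q) := by
  have hp : 0 < p := hq.trans hpq
  have hN0 : 0 < N := by linarith
  have hh2 : 0 < N - 2 := by linarith
  have hN1 : 0 < N - 1 := by linarith
  have hk := crit_iff hp hq hcrit
  obtain ⟨hr2, hs2⟩ := boxR_lt hN0 hq hpq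
  have hr := boxR_pos (N := N) (by linarith) hq hpq
  have eT : (p + 1) / (q + 1) * (q + 1) = p + 1 := div_mul_cancel₀ _ (by linarith)
  set T := (p + 1) / (q + 1) with hTd
  set h := N * (q + 1) + 2 with hh
  have hh0 : 0 < h := by positivity
  have hT1 : 1 < T := by rw [hTd, lt_div_iff₀ (by linarith)]; linarith
  set si := upSi N p q with hsi
  have hsi1 : 1 ≤ si := le_max_left _ _
  have e : boxBe N p q / 5 * (1 - boxR N p q / 5 / extS2 N p q)
      = h * (si + 4 / 5 * boxR N p q) / (5 * (N + 2)) := by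
    have e2 : si + 4 / 5 * boxR N p q = extS2 N p q - boxR N p q / 5 := by
      rw [hsi, upSi]; simp only [boxR]; ring
    rw [e2, boxBe, ← hh]
    field_simp
  rw [e, lt_div_iff₀ (by positivity)]
  set u := (N - 2) * (si - 1) with hu
  have hu0 : 0 ≤ u := mul_nonneg hh2.le (by linarith)
  have hqT : (N - 2) * (q * T) = N + 2 * T := by linear_combination hk + (N - 2) * eT
  rcases le_total (sEq N p q) 1 with hc | hc
  · have h1 : si = 1 := max_eq_left hc
    have h2 : upA N p q = 2 / (N - 2) := by rw [upA, ← hsi, h1]; ring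
    rw [sEq, ← hTd, div_mul_eq_mul_div, div_le_one hN0] at hc
    have hh' : 2 * N * (N - 1) + 2 * (N - 2) ≤ (N - 2) * h := by
      have : N ≤ (N - 2) * q := by
        refine le_of_mul_le_mul_right (a := T) ?_ (by linarith)
        rw [mul_assoc, hqT]; nlinarith
      rw [hh]; nlinarith
    rw [hu, h1, h2, sub_self, mul_zero, zero_div, mul_zero, add_zero, div_mul_eq_mul_div,
      div_mul_eq_mul_div, div_lt_iff₀ hh2]
    nlinarith [mul_nonneg (mul_nonneg hh0.le hh2.le) hr.le]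
  · have h1 : si = (N - 2) / N * T := by rw [hsi, upSi, max_eq_right hc, sEq, ← hTd]
    have hTu : T = N * (1 + u / (N - 2)) / (N - 2) := by rw [hu, h1]; field_simp; ring
    have hsh : h * si = N * (1 + T) + 2 * si := by
      rw [hh, h1]; field_simp; linear_combination N * hk + (N * (N - 2)) * eT
    have hD : (T - extS2 N p q) * h = 2 * (T - 1) := by
      rw [sub_mul, extS2, ← hh, div_mul_cancel₀ _ hh0.ne', hh]
      linear_combination N * eT
    have hrh : h * boxR N p q * (N * (N - 2)) = 4 * (N - 1) * (N + 2 * T) := by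
      have : boxR N p q = extS2 N p q - si := by rw [hsi]; rfl
      rw [this, h1]
      rw [hh] at hD ⊢
      field_simp
      linear_combination (-(N * (N - 2))) * hD + 2 * N * hqT
    have hA : upA N p q = (2 * (N - 1) + 19 / 10 * u) / ((N - 2) * (N - 1)) := by
      rw [hu, upA, ← hsi]; field_simp
    have hf : 4 / 5 + 11 / 100 * (u / (u + 6)) ≤ 91 / 100 := by
      have : u / (u + 6) ≤ 1 := (div_le_one (by linarith)).2 (by linarith)
      linarith
    have hA0 : 0 ≤ upA N p q := upA_nonneg hN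
    refine lt_of_le_of_lt (mul_le_mul_of_nonneg_right (mul_le_mul_of_nonneg_left hf hA0)
      (by linarith)) ?_
    refine lt_of_mul_lt_mul_right (a := (N - 2) ^ 2 * (N - 1)) ?_ (by positivity)
    have eR : h * (si + 4 / 5 * boxR N p q) * ((N - 2) ^ 2 * (N - 1))
        = (N - 1) * ((N - 2) * (2 * N ^ 2 - 4) + u * (N ^ 2 + 2 * N - 4)
          + 16 / 5 * (N - 1) * (N - 2) + 32 / 5 * (N - 1) * (1 + u / (N - 2))) := by
      have e1 : h * (si + 4 / 5 * boxR N p q)
          = N * (1 + T) + 2 * si + 4 / 5 * (4 * (N - 1) * (N + 2 * T)) / (N * (N - 2)) := by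
        rw [← hsh, ← hrh]; field_simp
      rw [e1, hTu, show si = 1 + u / (N - 2) by rw [hu]; field_simp; ring]
      field_simp
      ring
    rw [eR, hA, show (2 * (N - 1) + 19 / 10 * u) / ((N - 2) * (N - 1)) * (91 / 100)
        * (5 * (N + 2)) * ((N - 2) ^ 2 * (N - 1))
      = 91 / 20 * (2 * (N - 1) + 19 / 10 * u) * (N + 2) * (N - 2) by field_simp; ring]
    have hub : u * (5 * N) ≤ (N - 2) * ((N - 2) * (7 * N - 17) - 5 * N) := by
      have := mul_le_mul_of_nonneg_left hT.le (mul_nonneg hh2.le hh2.le)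
      rw [hu, h1]
      field_simp at this ⊢
      linarith [mul_le_mul_of_nonneg_left this hh2.le]
    exact boxXM_poly hN hu0 hub

/-- `extS2 - r/5 ≤ σ₀`. -/
theorem IsOrbitExt.sub_boxXmax_le (o : IsOrbitExt N p q τ₀ τb S κ ε) (hN : 6 ≤ N) (hq : 0 < q)
    (hpq : q < p) (hcrit : N / (p + 1) + N / (q + 1) = N - 2)
    (hcov : 1 < q ∨ N - 1 ≤ (p + 1) * (q * (N - 3) - 2)) :
    extS2 N p q - boxXmax N p q ≤ S τ₀ := by
  have hp : 0 < p := hq.trans hpq
  have hN0 : 0 < N := by linarith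
  have hT1 : 1 < (p + 1) / (q + 1) := by rw [lt_div_iff₀ (by linarith)]; linarith
  have hQ : (q + 1) * ((p + 1) / (q + 1)) = p + 1 := mul_div_cancel₀ _ (by linarith)
  have hTB := lt_lineTB hN hT1 (crit_iff hp hq hcrit) hQ hcov
  have key := upA_lt_boxBe hN hq hpq hcrit hTB
  have hr := boxR_pos (N := N) (by linarith) hq hpq
  obtain ⟨hr2, hs2⟩ := boxR_lt hN0 hq hpq
  have hsi := o.upSi_lt (N := N) (by linarith) hp hq hcrit (le_refl τ₀)
  have hU := o.oW_le_upU' hN hq hpq hcrit (le_refl τ₀)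
  rw [o.W_τ₀ hN0 hp hq] at hU
  by_contra hlt
  push Not at hlt
  obtain ⟨X, hX⟩ : ∃ X, S τ₀ = extS2 N p q - X := ⟨extS2 N p q - S τ₀, by ring⟩
  rw [hX] at hlt hsi hU
  unfold boxXmax at hlt
  have hXr : X < boxR N p q := by
    simp only [boxR]; simp only [upSi] at hsi; linarith
  obtain ⟨hb0, -⟩ := upBe_box (p := p) (q := q) hN
  have hA := upA_nonneg (p := p) (q := q) hN
  have hB : 0 ≤ upB N p q := upB_nonneg (by linarith) (by rw [upR_eq_boxR]; exact hr.le)
  -- the linear majorant of `U`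
  have hlin : upU N p q (extS2 N p q - X)
      ≤ upA N p q * (boxR N p q - X) + upB N p q := by
    have e : extS2 N p q - X - upSi N p q = boxR N p q - X := by simp only [boxR, upSi]; ring
    simp only [upU, upR_eq_boxR, e]
    have : 0 ≤ upBe N p q * (boxR N p q - X) / boxR N p q :=
      div_nonneg (mul_nonneg hb0 (by linarith)) hr.le
    have := mul_le_mul_of_nonneg_left
      (mul_le_of_le_one_right (show 0 ≤ boxR N p q - X by linarith)
        (show 1 - upBe N p q * (boxR N p q - X) / boxR N p q ≤ 1 by linarith)) hA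
    linarith
  have hwm := wm_sub_mono hN0 hp hq (show boxR N p q / 5 ≤ X by linarith)
  set a := boxBe N p q / 5 * (1 - boxR N p q / 5 / extS2 N p q) with ha
  have ea : wm N p q (extS2 N p q - boxR N p q / 5) = a * boxR N p q := by
    rw [wm_sub hN0 hp hq, ha]; ring
  have eB : upB N p q = upA N p q * boxR N p q * (11 / 100 *
      ((N - 2) * (upSi N p q - 1) / ((N - 2) * (upSi N p q - 1) + 6))) := by
    rw [upB, upR_eq_boxR]; ring
  set f := 11 / 100 * ((N - 2) * (upSi N p q - 1) / ((N - 2) * (upSi N p q - 1) + 6)) with hf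
  have h5 : upU N p q (extS2 N p q - X) < a * boxR N p q := by
    refine hlin.trans_lt ?_
    rw [eB]
    nlinarith [mul_lt_mul_of_pos_right key hr]
  have hm : boxR N p q / 5 + X ≤ extS2 N p q := by
    have h1 : (N - 2) / N * extS2 N p q ≤ max 1 (sEq N p q) := by
      refine le_trans ?_ (le_max_right _ _)
      rw [sEq]
      exact mul_le_mul_of_nonneg_left (extS2_lt_tb hN0 hq hpq).le (by
        have : 0 ≤ N - 2 := by linarith
        positivity)
    have h2 : (N - 2) / N ≥ 2 / 3 := by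
      rw [ge_iff_le, div_le_div_iff₀ (by norm_num) hN0]; linarith
    have h3 := mul_le_mul_of_nonneg_right h2 hs2.le
    simp only [boxR] at hXr ⊢
    linarith
  linarith [hwm hm]

end Vale.Agent.P100T
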