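import Vale.Agent.P100T.BoxUreg
import Vale.Agent.P100T.BoxXM
import Vale.Agent.P100T.BoxLlt
import Vale.Agent.P100T.LowerExtLine
import Vale.Agent.P100T.BoxUd
import Vale.Agent.P100T.BoxExit

/-!
The box of the orbit on `(τ₀, log t_b]` in the variables of the certificates:
`s₂ - r/5 ≤ σ < s₃`, `max (wm σ) L < W < boxTopU`, and `W < U σ` while `σ ≤ s₂`.
-/

open Set

noncomputable section

namespace Vale.Agent.P100T

variable {N p q τ₀ τb : ℝ} {S κ ε : ℝ → ℝ}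

namespace IsOrbitExt

/-- The box, from the two exit certificates. -/
theorem box_final_of (o : IsOrbitExt N p q τ₀ τb S κ ε) {C : CPar} (hA : C.Adm) (hCN : C.N = N)
    (hCp : C.p = p) (hCq : C.q = q) (hN : 6 ≤ N) (hpq : q < p)
    (hcrit : N / (p + 1) + N / (q + 1) = N - 2)
    (hcov : 1 < q ∨ N - 1 ≤ (p + 1) * (q * (N - 3) - 2))
    (he1 : 0 < exitF N p q (boxXmin N p q) (51 / 50 * extC0 N p q)
      (max 0 (extK N p q (extS3 N p q) (51 / 50 * extC0 N p q))))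
    (he2 : ∀ X ∈ Icc (boxXmin N p q) (boxXmax N p q),
      0 < exitF N p q X (boxTop N p q X) (max 0 (extK N p q (extS3 N p q) (boxTop N p q X))))
    {x : ℝ} (hx : x ∈ Ioc τ₀ (Real.log ((p + 1) / (q + 1)))) :
    extS2 N p q - boxXmax N p q ≤ S x ∧ upSi N p q < S x ∧ S x < extS3 N p q ∧
      wm N p q (S x) < oW p q S x ∧ extL N p q < oW p q S x ∧
      oW p q S x < boxTopU N p q ∧ (S x ≤ extS2 N p q → oW p q S x < upU N p q (S x)) ∧
      κ x < 0 ∧ (S x - (p + 1) / (q + 1)) / oV p q S x ≤ κ x := by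
  have hp : 0 < p := hCp ▸ hA.hp
  have hq : 0 < q := hCq ▸ hA.hq
  have hN0 : 0 < N := by linarith
  have hN2 : 2 < N := by linarith
  set T := (p + 1) / (q + 1) with hTd
  have hT : 1 < T := by rw [hTd, lt_div_iff₀ (by linarith)]; linarith
  have hQ : (q + 1) * T = p + 1 := by rw [hTd, mul_div_cancel₀ _ (by linarith)]
  have hP : (N - 2) * (p + 1) = N * (1 + T) := crit_iff hp hq hcrit
  have hTB := lt_lineTB hN hT hP hQ hcov
  have hline := fun t (ht : t < τ₀) => o.extLine_le hA hCN hCp hCq hN hpq hcrit hcov ht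
  have hXM := o.sub_boxXmax_le hN hq hpq hcrit hcov
  have hl := extL_lt_wm_Xmin hN hq hpq hcrit hTB
  have hb := box_low hN hq hpq hcrit hTB hl
  have hc : BoxCerts N p q :=
    ⟨boxXmin_lt_boxXmax hN hq hpq hcrit hTB, hl, fun s hs => (hb s hs).1,
      fun s hs => (hb s hs).2, he1, he2⟩
  have hU : ∀ s ∈ Icc (S τ₀) (extS3 N p q), C.Wd s (extCc N p q (S τ₀)) ≤ 0 := fun s hs =>
    o.hUd_box hCN hCp hCq hN hq hpq hcrit hcov hXM hs
  have hbox := fun y hy => o.box_of_certs hA hCN hCp hCq hN hpq hcrit hc hline hXM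
    (o.box_hUreg hN hq hpq hcrit hXM) hU (x := y) hy
  have h1 := hbox x hx
  have h2 := o.lt_top_of_box hA hCN hCp hCq hN hpq hcrit hXM hx
    fun y hy => ⟨(hbox y hy).2.2.2.1, (hbox y hy).2.2.2.2.1⟩
  exact ⟨hXM.trans h1.1.le, (o.upSi_lt hN2 hp hq hcrit le_rfl).trans h1.1, h1.2.1, h1.2.2.1,
    h1.2.2.2.1, h2.1, h2.2, h1.2.2.2.2.2⟩

/-- **The box of the orbit**, for `N ≥ 6` outside the corner. -/
theorem box_final (o : IsOrbitExt N p q τ₀ τb S κ ε) {C : CPar} (hA : C.Adm) (hCN : C.N = N)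
    (hCp : C.p = p) (hCq : C.q = q) (hN : 6 ≤ N) (hpq : q < p)
    (hcrit : N / (p + 1) + N / (q + 1) = N - 2)
    (hcov : 1 < q ∨ N - 1 ≤ (p + 1) * (q * (N - 3) - 2))
    {x : ℝ} (hx : x ∈ Ioc τ₀ (Real.log ((p + 1) / (q + 1)))) :
    extS2 N p q - boxXmax N p q ≤ S x ∧ upSi N p q < S x ∧ S x < extS3 N p q ∧
      wm N p q (S x) < oW p q S x ∧ extL N p q < oW p q S x ∧
      oW p q S x < boxTopU N p q ∧ (S x ≤ extS2 N p q → oW p q S x < upU N p q (S x)) ∧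
      κ x < 0 ∧ (S x - (p + 1) / (q + 1)) / oV p q S x ≤ κ x :=
  have hq : 0 < q := hCq ▸ hA.hq
  o.box_final_of hA hCN hCp hCq hN hpq hcrit hcov (box_exit1 hN hq hpq hcrit hcov)
    (box_exit2 hN hq hpq hcrit hcov) hx

end IsOrbitExt

end Vale.Agent.P100T
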