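import Vale.Agent.P100T.BoxPre

/-!
Elementary bounds on the constants of the box: `extS3 ≤ tb`, the size of `extCc`, and the bound
`extK ≤ extKm`.
-/

open Set

noncomputable section

namespace Vale.Agent.P100T

variable {N p q : ℝ}

lemma extC0_le (hN : 6 ≤ N) (hq : 0 < q) (hpq : q < p) :
    extC0 N p q ≤ 2 * ((p + 1) / (q + 1) - 1) * (p + 1) / (N * (q + 1) + 2) := by
  have hp : 0 < p := hq.trans hpq
  have hN0 : 0 < N := by linarith
  have h1 := one_lt_extS2 hN0 hq hpq
  have h2 := extS2_lt_tb hN0 hq hpq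
  set T := (p + 1) / (q + 1) with hT
  have hk : k0 N p q (extS2 N p q) ≤ p + 1 := by
    rw [k0, ← hT, div_le_iff₀ (by positivity)]
    refine mul_le_mul (by linarith) ?_ ?_ (by linarith)
    · nlinarith
    · nlinarith
  have hk0 := (k0_pos (p := p) (show (2:ℝ) < N by linarith) hp hq
    (show 0 ≤ extS2 N p q by linarith) h2.le).le
  rw [extC0]
  gcongr
  · linarith

lemma extS3_le_tb (hN : 6 ≤ N) (hq : 0 < q) (hpq : q < p) :
    extS3 N p q ≤ (p + 1) / (q + 1) := by
  have hp : 0 < p := hq.trans hpq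
  have hh : 0 < N * (q + 1) + 2 := by positivity
  have h := extC0_le hN hq hpq
  rw [le_div_iff₀ hh] at h
  have hd : extC0 N p q / (5 * (p + 1)) * (5 * (p + 1)) = extC0 N p q :=
    div_mul_cancel₀ _ (by positivity)
  have e : extS2 N p q * (N * (q + 1) + 2) = N * (p + 1) + 2 := by
    rw [extS2, div_mul_cancel₀ _ hh.ne']
  have eT : (p + 1) / (q + 1) * (q + 1) = p + 1 := div_mul_cancel₀ _ (by linarith)
  set T := (p + 1) / (q + 1)
  have hT : 1 ≤ T := by
    simp only [T]; rw [le_div_iff₀ (by linarith)]; linarith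
  have h3 : extC0 N p q / (5 * (p + 1)) * (N * (q + 1) + 2) ≤ 2 * (T - 1) := by
    refine le_of_mul_le_mul_right (a := 5 * (p + 1)) ?_ (by positivity)
    rw [mul_right_comm, hd]
    nlinarith [mul_nonneg (sub_nonneg.2 hT) (show 0 ≤ p + 1 by linarith)]
  refine le_of_mul_le_mul_right (a := N * (q + 1) + 2) ?_ hh
  have e2 : T * (N * (q + 1) + 2) = N * (p + 1) + 2 * T := by linear_combination N * eT
  rw [e2, extS3, add_mul, e]
  linarith

lemma extCc_le (hN : 6 ≤ N) (hq : 0 < q) (hpq : q < p)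
    (hcrit : N / (p + 1) + N / (q + 1) = N - 2) {s0 : ℝ}
    (hX : extS2 N p q - s0 ∈ Icc 0 (boxXmax N p q)) :
    extCc N p q s0 ≤ 17 / 50 * ((p + 1) / (q + 1)) ^ 2 := by
  have hp : 0 < p := hq.trans hpq
  have hN0 : 0 < N := by linarith
  have hk := crit_iff hp hq hcrit
  have h1 := one_lt_extS2 hN0 hq hpq
  have h2 := extS2_lt_tb hN0 hq hpq
  have hC := extC0_le hN hq hpq
  have eT : (p + 1) / (q + 1) * (q + 1) = p + 1 := div_mul_cancel₀ _ (by linarith)
  rw [extCc_eq hN0 hp hq]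
  set T := (p + 1) / (q + 1) with hT
  have hT1 : 1 < T := h1.trans h2
  have hC2 : extC0 N p q ≤ T ^ 2 / 3 := by
    refine hC.trans ?_
    rw [div_le_iff₀ (by positivity), ← eT]
    nlinarith [mul_le_mul_of_nonneg_left hN (show 0 ≤ T ^ 2 * (q + 1) by positivity),
      mul_pos (show 0 < T by linarith) (show 0 < q + 1 by linarith)]
  refine max_le ?_ (by linarith [sq_nonneg T])
  obtain ⟨hX0, hXM⟩ := hX
  set X := extS2 N p q - s0
  have hq3 : q + 1 ≤ 3 := by
    have e : (N - 2) * ((q + 1) * T) = N * (1 + T) := by rw [mul_comm (q + 1), eT]; exact hk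
    by_contra hlt
    push Not at hlt
    nlinarith [mul_lt_mul_of_pos_left hlt (show 0 < (N - 2) * T by nlinarith)]
  have hbe : boxBe N p q ≤ 3 * T := by
    have : boxBe N p q ≤ extS2 N p q * (q + 1) := by
      rw [boxBe, div_le_iff₀ (by linarith)]; nlinarith
    nlinarith
  have hr : boxR N p q ≤ 2 * T / N := by
    have h3 := le_max_right (1 : ℝ) (sEq N p q)
    have e : T - (N - 2) / N * T = 2 * T / N := by field_simp; ring
    simp only [boxR, sEq, ← hT] at *
    linarith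
  have hXb : X ≤ T / 15 := by
    have : 2 * T / N ≤ T / 3 := by
      rw [div_le_div_iff₀ hN0 (by norm_num)]; nlinarith
    simp only [boxXmax] at hXM
    linarith
  have hm : boxBe N p q * X * (1 - X / extS2 N p q) ≤ boxBe N p q * X :=
    mul_le_of_le_one_right (mul_nonneg (boxBe_pos hN0 hp hq).le hX0)
      (by linarith [div_nonneg hX0 (show (0:ℝ) ≤ extS2 N p q by linarith)])
  simp only [boxTop]
  nlinarith [mul_le_mul hbe hXb hX0 (show 0 ≤ 3 * T by linarith), sq_nonneg T]

/-- `extK ≤ extKm` on the box. -/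
theorem extK_le_extKm (hN : 6 ≤ N) (hq : 0 < q) (hpq : q < p)
    (hcrit : N / (p + 1) + N / (q + 1) = N - 2) {s0 : ℝ} (hs0 : max 1 (sEq N p q) ≤ s0)
    (hX : extS2 N p q - s0 ∈ Icc 0 (boxXmax N p q)) {s W : ℝ} (hs : s0 ≤ s)
    (hs3 : s ≤ extS3 N p q) (hW : W ≤ extCc N p q s0) :
    extK N p q s W ≤ extKm N p q s0 :=
  ((extK_mono_W (by linarith) (hq.trans hpq) hq
      (zero_le_one.trans ((le_max_left _ _).trans (hs0.trans hs))) hW).trans
    (extK_mono_s hN hq hpq hcrit (hs0.trans hs) hs3 (extCc_le hN hq hpq hcrit hX))).trans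
    (le_max_right _ _)

end Vale.Agent.P100T
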