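import Vale.Agent.P100T.BoxTop

/-!
The hypothesis `hUreg` of `box_of_certs`.
-/

open Set

noncomputable section

namespace Vale.Agent.P100T

variable {N p q τ₀ τb : ℝ} {S κ ε : ℝ → ℝ}

/-- The width of the strip against `qT`. -/
lemma boxR_mul_le (hN : 6 ≤ N) (hq : 0 < q) (hpq : q < p)
    (hcrit : N / (p + 1) + N / (q + 1) = N - 2) :
    (N + 2) * boxR N p q
      ≤ 8 / 3 * (q * ((p + 1) / (q + 1))) * (2 * (N - 1) / N) := by
  have hp : 0 < p := hq.trans hpq
  have hN0 : 0 < N := by linarith
  have hk := crit_iff hp hq hcrit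
  have eT : (p + 1) / (q + 1) * (q + 1) = p + 1 := div_mul_cancel₀ _ (by linarith)
  set T := (p + 1) / (q + 1) with hTd
  set h := N * (q + 1) + 2 with hh
  have hh0 : 0 < h := by positivity
  have hT1 : 1 < T := by rw [hTd, lt_div_iff₀ (by linarith)]; linarith
  have hqT : (N - 2) * (q * T) = N + 2 * T := by linear_combination hk + (N - 2) * eT
  have hle : boxR N p q ≤ extS2 N p q - (N - 2) / N * T := by
    have := le_max_right (1 : ℝ) (sEq N p q)
    simp only [boxR]
    rw [show (N - 2) / N * T = sEq N p q by rw [sEq, hTd]]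
    linarith
  have e : (extS2 N p q - (N - 2) / N * T) * (N * h) = 2 * (T * (N * q + 2) + N) := by
    have e1 : extS2 N p q * h = N * (p + 1) + 2 := by
      rw [extS2, ← hh, div_mul_cancel₀ _ hh0.ne']
    rw [hh] at e1 ⊢
    field_simp
    linear_combination N * e1 - N ^ 2 * eT
  have e2 : 2 * (T * (N * q + 2) + N) = 2 * (q * T) * (2 * (N - 1)) := by
    linear_combination (-2) * hqT
  rw [e2] at e
  have h0 : 0 ≤ extS2 N p q - (N - 2) / N * T := by
    refine le_trans ?_ hle
    exact (boxR_pos (N := N) (by linarith) hq hpq).le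
  have hhN : N + 2 ≤ h := by rw [hh]; nlinarith
  have k : (extS2 N p q - (N - 2) / N * T) * (N * N) ≤ 2 * (q * T) * (2 * (N - 1)) :=
    le_trans (mul_le_mul_of_nonneg_left (mul_le_mul_of_nonneg_left (by linarith) hN0.le) h0) e.le
  refine (mul_le_mul_of_nonneg_left hle (by linarith)).trans ?_
  rw [show 8 / 3 * (q * T) * (2 * (N - 1) / N) = 8 / 3 * (q * T) * (2 * (N - 1)) / N by ring,
    le_div_iff₀ hN0]
  refine le_of_mul_le_mul_right (a := N) ?_ hN0
  have h8 : (N + 2) * 6 ≤ 8 * N := by linarith
  nlinarith [mul_le_mul_of_nonneg_right h8 (show 0 ≤ q * T * (N - 1) by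
      have : 0 ≤ N - 1 := by linarith
      positivity),
    mul_le_mul_of_nonneg_left k (show 0 ≤ N + 2 by linarith)]

namespace IsOrbitExt

/-- `hUreg` of `box_of_certs`. -/
theorem box_hUreg (o : IsOrbitExt N p q τ₀ τb S κ ε) (hN : 6 ≤ N) (hq : 0 < q) (hpq : q < p)
    (hcrit : N / (p + 1) + N / (q + 1) = N - 2)
    (hXM : extS2 N p q - boxXmax N p q ≤ S τ₀) :
    ∀ s ∈ Icc (S τ₀) (extS3 N p q), (N + 2) * (extCc N p q (S τ₀) - wm N p q s)
      ≤ 2 * q * s * (s + (p + 1) / (q + 1)) := by
  intro s hs
  have hp : 0 < p := hq.trans hpq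
  have hN0 : 0 < N := by linarith
  have hN2 : (2:ℝ) < N := by linarith
  have hC := extC0_pos hN2 hq hpq
  have htop := extC0_le_topU hN hq hpq hcrit
  have hCc := o.extCc_le_topU hN hq hpq hcrit hXM
  have hr := boxR_mul_le hN hq hpq hcrit
  have hr0 := boxR_pos hN2 hq hpq
  have hsi := o.upSi_lt hN2 hp hq hcrit (le_refl τ₀)
  obtain ⟨hb0, -⟩ := upBe_box (p := p) (q := q) hN
  have hA := upA_nonneg (p := p) (q := q) hN
  set T := (p + 1) / (q + 1) with hTd
  set si := upSi N p q with hsid
  have hsi1 : 1 ≤ si := le_max_left _ _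
  have hs0 : si ≤ s := hsi.le.trans hs.1
  -- `-wm` beyond `s₂`
  have hw : -(N + 2) * wm N p q s ≤ (N + 2) * (extC0 N p q / 5) := by
    have e : (N + 2) * wm N p q s = s * ((extS2 N p q - s) * (N * (q + 1) + 2)) := by
      rw [wm, extS2, mul_div_cancel₀ _ (by linarith : N + 2 ≠ 0)]
      field_simp
      ring
    rw [neg_mul, e]
    rcases le_total s (extS2 N p q) with h | h
    · have : 0 ≤ (N + 2) * (extC0 N p q / 5) := by positivity
      have : 0 ≤ s * ((extS2 N p q - s) * (N * (q + 1) + 2)) :=
        mul_nonneg (by linarith) (mul_nonneg (by linarith) (by positivity))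
      linarith
    · have hsT : s ≤ T := hs.2.trans (extS3_le_tb hN hq hpq)
      have hd : s - extS2 N p q ≤ extC0 N p q / (5 * (p + 1)) := by
        have := hs.2; simp only [extS3] at this; linarith
      have hh : N * (q + 1) + 2 ≤ (N + 2) * (q + 1) := by nlinarith
      calc -(s * ((extS2 N p q - s) * (N * (q + 1) + 2)))
          = s * (s - extS2 N p q) * (N * (q + 1) + 2) := by ring
        _ ≤ T * (extC0 N p q / (5 * (p + 1))) * ((N + 2) * (q + 1)) := by
            refine mul_le_mul (mul_le_mul hsT hd (by linarith) (by linarith)) hh (by positivity) ?_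
            have : 0 ≤ T := by linarith
            positivity
        _ = (N + 2) * (extC0 N p q / 5) := by
            rw [hTd]; field_simp
  -- the top
  have hU : upU N p q (extS2 N p q) + upA N p q * boxR N p q / 10
      ≤ 121 / 100 * (upA N p q * boxR N p q) := by
    have hu : 0 ≤ (N - 2) * (si - 1) := mul_nonneg (by linarith) (by linarith)
    have hf : (N - 2) * (si - 1) / ((N - 2) * (si - 1) + 6) ≤ 1 :=
      (div_le_one (by linarith)).2 (by linarith)
    have hAr : 0 ≤ upA N p q * boxR N p q := mul_nonneg hA hr0.le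
    have e : upU N p q (extS2 N p q) = upA N p q * boxR N p q * (1 - upBe N p q
        + 11 / 100 * ((N - 2) * (si - 1) / ((N - 2) * (si - 1) + 6))) := by
      simp only [upU, upB, upR_eq_boxR, hsid,
        show extS2 N p q - upSi N p q = boxR N p q from rfl]
      field_simp
    rw [e]
    linarith [mul_le_mul_of_nonneg_left
      (show 1 - upBe N p q + 11 / 100 * ((N - 2) * (si - 1) / ((N - 2) * (si - 1) + 6))
        ≤ 111 / 100 by linarith) hAr]
  have hA2 : upA N p q * (8 / 3) * (121 / 100) * (1209 / 1000) ≤ 2 * si := by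
    have e1 : upA N p q ≤ 1 / 2 + 19 / 50 * (si - 1) := by
      rw [upA, ← hsid]
      refine add_le_add ?_ ?_
      · rw [div_le_div_iff₀ (by linarith) (by norm_num)]; linarith
      · rw [div_le_iff₀ (by linarith)]; nlinarith
    linarith
  have hsT : 2 * (N - 1) / N * T ≤ s + T := by
    have h1 : (N - 2) / N * T ≤ si := by
      rw [hTd]; exact le_max_right _ _
    have e : (N - 2) / N * T + T = 2 * (N - 1) / N * T := by field_simp; ring
    linarith
  have hX : (N + 2) * (extCc N p q (S τ₀) + extC0 N p q / 5)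
      ≤ 1209 / 1000 * (121 / 100) * (upA N p q * ((N + 2) * boxR N p q)) := by
    have : extCc N p q (S τ₀) + extC0 N p q / 5
        ≤ 1209 / 1000 * (121 / 100 * (upA N p q * boxR N p q)) := by
      simp only [boxTopU] at hCc htop
      linarith
    refine (mul_le_mul_of_nonneg_left this (by linarith)).trans_eq ?_
    ring
  have hq2 : 0 ≤ 2 * q := by linarith
  calc (N + 2) * (extCc N p q (S τ₀) - wm N p q s)
      ≤ (N + 2) * (extCc N p q (S τ₀) + extC0 N p q / 5) := by linarith
    _ ≤ 1209 / 1000 * (121 / 100) * (upA N p q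
          * (8 / 3 * (q * T) * (2 * (N - 1) / N))) := by
        refine hX.trans ?_
        gcongr
    _ = upA N p q * (8 / 3) * (121 / 100) * (1209 / 1000) * (q * (2 * (N - 1) / N * T)) := by
        ring
    _ ≤ 2 * si * (q * (s + T)) := by
        refine mul_le_mul hA2 (mul_le_mul_of_nonneg_left hsT hq.le) ?_ (by linarith)
        have : 0 ≤ T := by rw [hTd]; positivity
        have : 0 ≤ N - 1 := by linarith
        positivity
    _ ≤ 2 * q * s * (s + T) := by
        have : 0 ≤ s + T := by
          have : 0 ≤ T := by rw [hTd]; positivity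
          linarith
        nlinarith [mul_le_mul_of_nonneg_right hs0 (mul_nonneg hq.le this)]

end IsOrbitExt

end Vale.Agent.P100T
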