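import Vale.Agent.P100T.Criterion
import Vale.Agent.P100T.Calib

/-!
The calibrated coefficients at one point give `TPar.Calibrated`.
-/

noncomputable section

namespace Vale.Agent.P100T

/-- At `τ` the multipliers and their derivatives are the calibrated coefficients of `P`. -/
structure TPar.At (Φ : TPar) (p q τ : ℝ) (P : Pt) : Prop where
  hp : P.p = p
  hq : P.q = q
  ht : P.t = Real.exp τ
  ha : (Φ.froz p q τ).a = P.a
  hb : (Φ.froz p q τ).b = P.b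
  hc : Φ.cc τ = P.c
  hd : Φ.dd τ = P.d
  hkX : Φ.kX τ = P.kX
  hkY : Φ.kY τ = P.kY
  hc' : Φ.cc' τ = P.c'
  hd' : Φ.dd' τ = P.dd
  hkX' : Φ.kX' τ = P.dkX
  hkY' : Φ.kY' τ = P.dkY

variable {Φ : TPar} {p q τ : ℝ} {P : Pt}

lemma TPar.At.scalF_eq (h : Φ.At p q τ P) (N A C B Q : ℝ) :
    Φ.scalF p q τ N A C B Q = P.scal (1 / N) A C B Q := by
  have hc := h.hc
  have hd := h.hd
  obtain ⟨rfl, rfl, ht, ha, hb, -, -, hkX, hkY, hc', hd', hkX', hkY'⟩ := h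
  have hc2 : (Φ.froz P.p P.q τ).c = P.c := hc
  have hd2 : (Φ.froz P.p P.q τ).d = P.d := hd
  simp only [TPar.scalF, TPar.rest, TPar.extra, P100.Par.m1, P100.Par.m2, ha, hb, hc2, hd2,
    hc, hd, hkX, hkY, hc', hd', hkX', hkY', ← ht,
    Pt.scal, Coef.e2, Coef.e1, Coef.e0, Coef.rho, Coef.mm, Coef.nu, Coef.zeta, Coef.alpha,
    Coef.m1, Coef.m2, Pt.coef]
  ring

/-- The four strict inequalities, in the form with weights `R/(R+1)` and `1/(R+1)`. -/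
theorem TPar.At.calibrated (h : Φ.At p q τ P) (hG : P.Good) (hN : 2 ≤ P.N) (hR1 : P.R + 1 ≠ 0)
    {a K : ℝ} (ha : 0 < a) (hK : a ≤ K) (hσ : |P.σ| ≤ K) (hcB : |P.R / (P.R + 1)| ≤ K)
    (hcQ : |1 / (P.R + 1)| ≤ K) (hm1 : |P.a + 2 * P.c| ≤ K) (hl : |P.N * P.e - P.R| ≤ K)
    (hdet : a ≤ P.N * P.e / (P.R + 1)) (h2 : a ≤ P.P2) (h2K : P.P2 ≤ K)
    (h0K : P.P0 * ((P.R + 1) / P.R) ^ 2 ≤ K)
    (hd : (P.P0' * ((P.R + 1) / P.R)) ^ 2 + a ≤ 4 * P.P2 * (P.P0 * ((P.R + 1) / P.R) ^ 2))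
    (hρ : a ≤ P.rhoR / P.R) :
    Φ.Calibrated p q P.N (min (a / (8 * K)) a) K τ := by
  have hm1' : (Φ.froz p q τ).m1 = P.coef.m1 := by
    simp only [P100.Par.m1, h.ha, show (Φ.froz p q τ).c = P.c from h.hc, Coef.m1, Pt.coef]
  have hm2' : (Φ.froz p q τ).m2 = P.coef.m2 := by
    simp only [P100.Par.m2, h.hb, show (Φ.froz p q τ).d = P.d from h.hd, Coef.m2, Pt.coef]
  have hline : 1 - ((Φ.froz p q τ).m1 * P.σ + (Φ.froz p q τ).m2) / 2 = P.N * P.e - P.R := by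
    rw [hm1', hm2', Pt.m_line]; ring
  refine ⟨P.σ, P.R / (P.R + 1), 1 / (P.R + 1), hσ, hcB, hcQ,
    by rw [hm1']; simpa [Coef.m1, Pt.coef] using hm1, by rwa [hline], ?_,
    fun A C B Q hA hB hC hQ => ?_⟩
  · rw [hline]
    refine ((min_le_right _ _).trans hdet).trans_eq ?_
    field_simp
    ring
  · refine gap_of_form ha hK h2K h0K h2 hd (h2.trans (Pt.P2_le_alpha hN)) hρ hA hB hC hQ ?_
    rw [h.scalF_eq, Pt.scal_eq hG, sub_self, zero_mul, add_zero]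
    have hR := hG.hR
    field_simp
    ring

end Vale.Agent.P100T
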