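import Vale.Agent.P100T.AssemblyTail
import Vale.Agent.P100C.Main
import Vale.Agent.P100.Region

/-!
The case split: a certificate for every critical triple above `n` that the corner theorem leaves,
the diagonal and the range `pq ≤ 1` give the whole subcritical range in dimension `n`.
-/

open Filter Topology

noncomputable section

namespace Vale.Agent.P100T

open Vale.Agent.P100

/-- The data required by `CPar.no_solution_of_curve`. -/
def CPar.IsCurveCert (C : CPar) (τ₀ b : ℝ) (S W z : ℝ → ℝ) : Prop :=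
  IsCurve C τ₀ b S W z ∧ Real.log ((C.p + 1) / (C.q + 1)) < b ∧
    (∀ τ ≤ Real.log ((C.p + 1) / (C.q + 1)), CPar.Strict C (S τ) (W τ) (z τ)) ∧
    (∃ m0 K0, 0 < m0 ∧ ∀ᶠ τ in atBot, CPar.At C (S τ) (W τ) (z τ) m0 K0) ∧
    ∀ᶠ τ in atBot, C.a (S τ) (W τ) ≤ C.wexp * C.q

/-- A certificate along an orbit at the critical triple `(N, p, q)`. -/
def HasCertificate (N p q : ℝ) : Prop :=
  ∃ C : CPar, C.N = N ∧ C.p = p ∧ C.q = q ∧ (N - 4) / N ≤ C.M ∧
    ∃ (τ₀ b : ℝ) (S W z : ℝ → ℝ), C.IsCurveCert τ₀ b S W z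

lemma HasCertificate.no_solution {n : ℕ} (hn : 5 ≤ n) {N p q : ℝ} (hnN : (n : ℝ) < N)
    (hp : 0 < p) (hq : 0 < q) (hqp : q ≤ p)
    (hcrit : N * ((p + 1) * (q + 1) - (p + 1) - (q + 1)) = 2 * (p + 1) * (q + 1))
    (h : HasCertificate N p q) : ¬ ∃ u v : Euc n → ℝ, IsPositiveEntireSolution p q u v := by
  obtain ⟨C, rfl, rfl, rfl, hM, τ₀, b, S, W, z, hc, hb, hs, ⟨m0, K0, hm0, ht⟩, hlam⟩ := h
  have : (5 : ℝ) ≤ n := by exact_mod_cast hn
  exact CPar.no_solution_of_curve hn hnN ⟨by linarith, hp, hq, hcrit⟩ hqp hM hc hb hs hm0 ht hlam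

/-- The critical dimension of `(p, q)`. -/
def critN (p q : ℝ) : ℝ := 2 * (p + 1) * (q + 1) / (p * q - 1)

lemma critN_spec {p q : ℝ} (hpq : 1 < p * q) :
    critN p q * ((p + 1) * (q + 1) - (p + 1) - (q + 1)) = 2 * (p + 1) * (q + 1) := by
  rw [critN, show (p + 1) * (q + 1) - (p + 1) - (q + 1) = p * q - 1 by ring,
    div_mul_cancel₀ _ (by linarith)]

lemma lt_critN {n p q : ℝ} (hp : 0 < p) (hq : 0 < q) (hpq : 1 < p * q)
    (hsub : n - 2 < n / (p + 1) + n / (q + 1)) : n < critN p q := by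
  rw [critN, lt_div_iff₀ (by linarith)]
  rw [div_add_div _ _ (by linarith) (by linarith), lt_div_iff₀ (by positivity)] at hsub
  linarith

/-- Outside the corner in dimension `n` means outside it in every higher dimension. -/
lemma cov_mono {n N p q : ℝ} (hp : 0 < p) (hq : 0 < q) (hpq : 1 < p * q) (hnN : n ≤ N)
    (h : n - 1 ≤ (p + 1) * (q * (n - 3) - 2)) : N - 1 ≤ (p + 1) * (q * (N - 3) - 2) := by
  linarith [mul_nonneg (sub_nonneg.2 hnN) (show (0:ℝ) ≤ p * q - 1 + q by linarith)]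

/-- The ordered case `q ≤ p`. -/
theorem no_solution_ordered {n : ℕ} (hn : 5 ≤ n) {p q : ℝ} (hp : 0 < p) (hq : 0 < q) (hqp : q ≤ p)
    (hsub : (n : ℝ) - 2 < n / (p + 1) + n / (q + 1))
    (hcert : ∀ N p q : ℝ, (n : ℝ) < N → 0 < q → q < p → 1 < p * q →
      N * ((p + 1) * (q + 1) - (p + 1) - (q + 1)) = 2 * (p + 1) * (q + 1) →
      (1 < q ∨ N - 1 ≤ (p + 1) * (q * (N - 3) - 2)) → HasCertificate N p q)
    (hdiag : ∀ p : ℝ, 1 < p → ((n : ℝ) - 2) * (p + 1) < 2 * n →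
      ¬ ∃ u v : Euc n → ℝ, IsPositiveEntireSolution p p u v)
    (hsubl : ∀ p q : ℝ, 0 < p → 0 < q → p * q ≤ 1 →
      ¬ ∃ u v : Euc n → ℝ, IsPositiveEntireSolution p q u v) :
    ¬ ∃ u v : Euc n → ℝ, IsPositiveEntireSolution p q u v := by
  rcases le_or_gt (p * q) 1 with hpq | hpq
  · exact hsubl p q hp hq hpq
  rcases hqp.eq_or_lt with heq | hlt
  · subst heq
    refine hdiag q (by nlinarith) ?_
    rw [← add_div, lt_div_iff₀ (by linarith)] at hsub
    linarith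
  have hnN := lt_critN hp hq hpq hsub
  have key : (1 < q ∨ critN p q - 1 ≤ (p + 1) * (q * (critN p q - 3) - 2)) →
      ¬ ∃ u v : Euc n → ℝ, IsPositiveEntireSolution p q u v := fun h =>
    (hcert _ p q hnN hq hlt hpq (critN_spec hpq) h).no_solution hn hnN hp hq hqp (critN_spec hpq)
  rcases lt_or_ge 1 q with h1 | h1
  · exact key (Or.inl h1)
  rcases lt_or_ge ((p + 1) * (q * ((n : ℝ) - 3) - 2)) ((n : ℝ) - 1) with h2 | h2
  · exact P100C.no_solution_corner hn hq h1 hqp hpq hsub h2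
  · exact key (Or.inr (cov_mono hp hq hpq hnN.le h2))

/-- **Both orientations.** -/
theorem no_solution_of_certificates {n : ℕ} (hn : 5 ≤ n)
    (hcert : ∀ N p q : ℝ, (n : ℝ) < N → 0 < q → q < p → 1 < p * q →
      N * ((p + 1) * (q + 1) - (p + 1) - (q + 1)) = 2 * (p + 1) * (q + 1) →
      (1 < q ∨ N - 1 ≤ (p + 1) * (q * (N - 3) - 2)) → HasCertificate N p q)
    (hdiag : ∀ p : ℝ, 1 < p → ((n : ℝ) - 2) * (p + 1) < 2 * n →
      ¬ ∃ u v : Euc n → ℝ, IsPositiveEntireSolution p p u v)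
    (hsubl : ∀ p q : ℝ, 0 < p → 0 < q → p * q ≤ 1 →
      ¬ ∃ u v : Euc n → ℝ, IsPositiveEntireSolution p q u v)
    {p q : ℝ} (hp : 0 < p) (hq : 0 < q)
    (hsub : (n : ℝ) - 2 < n / (p + 1) + n / (q + 1)) :
    ¬ ∃ u v : Euc n → ℝ, IsPositiveEntireSolution p q u v := by
  rcases le_total q p with h | h
  · exact no_solution_ordered hn hp hq h hsub hcert hdiag hsubl
  · rintro ⟨u, v, hs⟩
    exact no_solution_ordered hn hq hp h (by linarith) hcert hdiag hsubl ⟨v, u, hs.swap⟩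

end Vale.Agent.P100T
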