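import Vale.Agent.P100T.PosCheck

/-!
The polynomials behind inequality (iv) when `σ∞ > 1`, written once for real arguments and for the
expressions of `PosCheck`, and their kernel checks.
-/

namespace Vale.Agent.P100T.IV

open PosCheck

instance : Add Ex := ⟨.add⟩
instance : Sub Ex := ⟨.sub⟩
instance : Mul Ex := ⟨.mul⟩

variable {R : Type*} [Add R] [Sub R] [Mul R] (c : ℤ → R) (N h Z T S : R)

/-- Numerator of `ρ₀`. -/
def a0 : R := N * (S + T) - c 2 * (N - c 1) * T
def eC : R := (N - c 1) * (N * (Z + T) * T + h * S * (S - Z))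
def dC : R := N * N * (S + T) * (S + T) - c 2 * eC c N h Z T S
def qC : R := N * (c 2 * S * (S + T) - N * T * (S - Z)) + (N * N - c 6 * N + c 4) * S * (S - Z)
def kC : R :=
  N * T * (N * (Z + T) - h * (c 2 * S - Z)) - N * h * Z * S + h * h * S * (S - Z)
/-- Numerator of the value at `W = 0`. -/
def EC : R := c 2 * N * h * (S - Z) * a0 c N T S * (S + T) * (S + T)
  + dC c N h Z T S * qC c N Z T S + c 2 * (N - c 1) * h * S * (S - Z) * kC c N h Z T S
/-- Numerator of the slope in `W`. -/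
def lC : R := N * a0 c N T S * (S + T) * (S + T)
  + S * ((N - c 1) * (kC c N h Z T S - qC c N Z T S)
    + c 2 * (N - c 1) * (N - c 1) * h * S * (S - Z) - c 2 * N * eC c N h Z T S - dC c N h Z T S)
def gC : R := c 2 * h * (S + T) * (S - Z) + qC c N Z T S

/-- The bound `W ≤ U`. -/
def coreU (Y G H Wn Wd : R) : R :=
  H * (Z * S * EC c N h Z T S * Wd + c 2 * Z * Z * Wn * lC c N h Z T S)
  + c 2 * N * (S + T) * (S + T) * G
    * (h * Y * S * gC c N h Z T S * Wd + h * Z * Wn * (c 2 * T * Y - N * S * (S + T)))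

/-- The bound `W ≤ wm`. -/
def coreM (Y G H Wn Wd : R) : R :=
  H * (Z * EC c N h Z T S * Wd + c 2 * Z * Wn * lC c N h Z T S)
  + c 2 * N * (S + T) * (S + T) * G
    * (h * Y * gC c N h Z T S * Wd + h * Wn * (c 2 * T * Y - N * S * (S + T)))

/-! The substitution `d = ss - 1 = dN/dD`, `(σ - ss)/(s₂ - ss) = At/Bt`. -/

variable (dN dD At Bt : R)

def rN : R := c 2 * (N - c 1) * (h * dD + c 2 * (dD + dN))
def rD : R := N * h * dD + (N * N + c 2 * N - c 4) * (dD + dN)
def zS : R := h * (rD c N h dN dD * Bt) * dD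
def tS : R := N * (dD + dN) * (rD c N h dN dD * Bt)
def sS : R := (dD + dN) * (h * (rD c N h dN dD * Bt) + c 2 * (rN c N h dN dD * At))
def yS : R := c 2 * (dD + dN) * (rN c N h dN dD * At)
def gN : R := c 21 * (c 8 * N * N + c 375) * (N * dN + c 2 * dD) * h * h * dD * dD
  * (c 5 * N * N + c 9)
def gD : R := c 5 * ((N * dN + c 2 * dD) * c 84 * N + h * (c 19 * N - c 60) * dD)
  * (c 5 * N * h * dD + c 6 * N * (dD + dN)) * (dD + dN) * (c 5 * (N * N - c 12))

/-- `U = uN/(h Z uD)`. -/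
def uN : R := (c 20 * (N - c 1) * dD + c 19 * h * dN)
  * (c 100 * yS c N h dN dD At * (dN * h + c 6 * dD)
      * (c 4 * (dD + c 2 * h * dN) * Bt - c 3 * At * dD)
    + c 22 * rN c N h dN dD * Bt * (dD + dN) * h * dN * (c 4 * (dD + c 2 * h * dN)) * Bt)
def uD : R := c 10 * (N - c 1) * dD * c 100 * (dN * h + c 6 * dD)
  * (c 4 * (dD + c 2 * h * dN)) * Bt

def polyU : R :=
  coreU c N h (zS c N h dN dD Bt) (tS c N h dN dD Bt) (sS c N h dN dD At Bt)
    (yS c N h dN dD At) (gN c N h dN dD) (gD c N h dN dD) (uN c N h dN dD At Bt) (uD c N h dN dD Bt)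

/-- `wm = σ · wN/(h Z² wD)`. -/
def wN (Z T S : R) : R := N * N * (Z + T) * (T - S) - c 2 * h * T * (S - Z)

def polyM : R :=
  coreM c N h (zS c N h dN dD Bt) (tS c N h dN dD Bt) (sS c N h dN dD At Bt)
    (yS c N h dN dD At) (gN c N h dN dD) (gD c N h dN dD)
    (wN c N h (zS c N h dN dD Bt) (tS c N h dN dD Bt) (sS c N h dN dD At Bt))
    ((N + c 2) * tS c N h dN dD Bt)

/-! The three parameter boxes: `N = n + 6`, `d ∈ [0, dmax]`, split at `dmax/2` and at `θ*`. -/

variable (n w z : R)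

def dmN : R := (c 82 * (n + c 6) * (n + c 6) - c 288 * (n + c 6) + c 150) * (n + c 4)
  - c 60 * (n + c 6) * (n + c 6)
def dmD : R := c 60 * (n + c 6) * (n + c 6)
def thN : R := c 907 * n + c 8472
def thD : R := c 907 * n + c 10472

def box1 : R := polyU c (n + c 6) (n + c 4) (dmN c n * w) (dmD c n * c 2 * (c 1 + w)) z (c 1 + z)
def box2 : R := polyU c (n + c 6) (n + c 4) (dmN c n * (c 1 + c 2 * w))
  (dmD c n * c 2 * (c 1 + w)) (thN c n * z) (thD c n * (c 1 + z))
def box3 : R := polyM c (n + c 6) (n + c 4) (dmN c n * (c 1 + c 2 * w))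
  (dmD c n * c 2 * (c 1 + w)) (thN c n + thD c n * z) (thD c n * (c 1 + z))

theorem check_box1 : check (box1 Ex.num Ex.x Ex.y Ex.z) = true := by decide +kernel

theorem check_box2 : check (box2 Ex.num Ex.x Ex.y Ex.z) = true := by decide +kernel

theorem check_box3 : check (box3 Ex.num Ex.x Ex.y Ex.z) = true := by decide +kernel

/-- Minus the slope numerator, in the variables `(n, d, f)`. -/
theorem check_lC : check (.sub (.num 0) (lC Ex.num (Ex.num 6 + Ex.x) (Ex.num 4 + Ex.x)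
    (Ex.num 4 + Ex.x) ((Ex.num 6 + Ex.x) * (Ex.num 1 + Ex.y))
    ((Ex.num 1 + Ex.y) * (Ex.num 4 + Ex.x + Ex.num 2 * Ex.z)))) = true := by decide +kernel

variable {n w z : ℝ}

theorem box1_nonneg (hn : 0 ≤ n) (hw : 0 ≤ w) (hz : 0 ≤ z) :
    0 ≤ box1 (fun k : ℤ => (k : ℝ)) n w z := nonneg_of_check check_box1 hn hw hz

theorem box2_nonneg (hn : 0 ≤ n) (hw : 0 ≤ w) (hz : 0 ≤ z) :
    0 ≤ box2 (fun k : ℤ => (k : ℝ)) n w z := nonneg_of_check check_box2 hn hw hz

theorem box3_nonneg (hn : 0 ≤ n) (hw : 0 ≤ w) (hz : 0 ≤ z) :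
    0 ≤ box3 (fun k : ℤ => (k : ℝ)) n w z := nonneg_of_check check_box3 hn hw hz

end Vale.Agent.P100T.IV
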