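import Vale.Agent.P100T.IneqIV
import Vale.Agent.P100T.IneqIVPoly
import Vale.Agent.P100T.Extension
import Vale.Agent.P100T.Barrier

/-!
Inequality (iv) when `σ∞ = tb (N-2)/N > 1`, at the end `z = σ/V`.
-/

noncomputable section

namespace Vale.Agent.P100T

namespace IV

variable {N Z T S : ℝ}

lemma EC_eq (hN : 2 < N) (hZ : 0 < Z) (hX : 0 < S + T) :
    (S / Z - 1) * rho0 N (T / Z) (S / Z) (-(N / (2 * (N - 2))))
        + r10 N (T / Z) (S / Z) (-(N / (2 * (N - 2)))) =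
      EC (fun k : ℤ => (k : ℝ)) N (N - 2) Z T S / (2 * N ^ 2 * (N - 2) ^ 2 * Z * (S + T) ^ 3) := by
  have : N - 2 ≠ 0 := by linarith
  have : N ≠ 0 := by linarith
  simp only [rho0, r10, ce0, Q0, K0, nuF, ← add_div]
  field_simp
  simp only [EC, a0, dC, eC, qC, kC]
  push_cast
  ring

lemma lC_eq (hN : 2 < N) (hZ : 0 < Z) (hX : 0 < S + T) :
    rho0 N (T / Z) (S / Z) (-(N / (2 * (N - 2))))
        + S / Z * r11 N (T / Z) (S / Z) (-(N / (2 * (N - 2)))) 0 =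
      lC (fun k : ℤ => (k : ℝ)) N (N - 2) Z T S / (N ^ 2 * (N - 2) * (S + T) ^ 3) := by
  have : N - 2 ≠ 0 := by linarith
  have : N ≠ 0 := by linarith
  simp only [rho0, r11, ce0, Q0, K0, nuF, ← add_div]
  field_simp
  simp only [lC, a0, dC, eC, qC, kC]
  push_cast
  ring

lemma gC_eq (hN : 2 < N) (hZ : 0 < Z) (hX : 0 < S + T) :
    2 / N * (S / Z - 1) + Q0 N (T / Z) (S / Z) =
      gC (fun k : ℤ => (k : ℝ)) N (N - 2) Z T S / (N * (N - 2) * Z * (S + T)) := by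
  have : N - 2 ≠ 0 := by linarith
  have : N ≠ 0 := by linarith
  simp only [Q0, ← add_div]
  field_simp
  simp only [gC, qC]
  push_cast
  ring

/-- The coefficient of `δ` is positive. -/
lemma gC_pos (hN : 2 < N) (hS : 0 < S) (hZ : 0 < Z) (hZS : Z < S) (hST : S ≤ T)
    (hss : (N - 2) * T ≤ N * S) : 0 < gC (fun k : ℤ => (k : ℝ)) N (N - 2) Z T S := by
  have e : gC (fun k : ℤ => (k : ℝ)) N (N - 2) Z T S = (S - Z) * ((N ^ 2 - 4 * N) * S - (N ^ 2 - 2 * N + 4) * T)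
      + 2 * N * (S * (S + T)) := by
    simp only [gC, qC]; push_cast; ring
  have hB : (N ^ 2 - 4 * N) * S - (N ^ 2 - 2 * N + 4) * T < 0 := by nlinarith
  rw [e]
  nlinarith [mul_pos hZ (neg_pos.2 hB), mul_nonneg (mul_nonneg hS.le (by linarith : 0 ≤ N - 2))
    (sub_nonneg.2 hss)]

/-- `V ρ₀ + σ (r₁₀ + r₁₁ W)`, the numerator of the endpoint `z = σ/V`. -/
def endv (N tb s c G W : ℝ) : ℝ :=
  (s * (s - 1) + W) * rho0 N tb s c + s * (r10 N tb s c + r11 N tb s c G * W)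

/-- The endpoint for `c = -N/(2(N-2)) - G y`. -/
def endP (N Z T S Y G W : ℝ) : ℝ :=
  S / Z * (EC (fun k : ℤ => (k : ℝ)) N (N - 2) Z T S / (2 * N ^ 2 * (N - 2) ^ 2 * Z * (S + T) ^ 3)
      + G * (Y / Z) * (gC (fun k : ℤ => (k : ℝ)) N (N - 2) Z T S / (N * (N - 2) * Z * (S + T))))
    + W * (lC (fun k : ℤ => (k : ℝ)) N (N - 2) Z T S / (N ^ 2 * (N - 2) * (S + T) ^ 3)
      + (2 * G * Y * T / (N * Z * (S + T)) - S / Z * G))

lemma endv_eq {Y G W ε : ℝ} (hN : 2 < N) (hZ : 0 < Z) (hX : 0 < S + T) :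
    endv N (T / Z) (S / Z) (-(N / (2 * (N - 2))) - (G * (Y / Z) + ε)) G W =
      endP N Z T S Y G W + ε * (S / Z * (gC (fun k : ℤ => (k : ℝ)) N (N - 2) Z T S / (N * (N - 2) * Z * (S + T)))
        + W * (2 * T / (N * (S + T)))) := by
  have hX' : S / Z + T / Z ≠ 0 := by rw [← add_div]; positivity
  obtain ⟨i0, i1, i2⟩ := affine (N := N) (tb := T / Z) (s := S / Z) (G := G)
    (δ := G * (Y / Z) + ε) (c := -(N / (2 * (N - 2)))) (by linarith) hX'
  have e0 := EC_eq (T := T) (S := S) hN hZ hX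
  have e1 := lC_eq (T := T) (S := S) hN hZ hX
  have e2 := gC_eq (T := T) (S := S) hN hZ hX
  have e3 : 2 * (G * (Y / Z) + ε) * (T / Z) / (N * (S / Z + T / Z)) =
      2 * G * Y * T / (N * Z * (S + T)) + ε * (2 * T / (N * (S + T))) := by
    have : N ≠ 0 := by linarith
    rw [← add_div]; field_simp
  simp only [endv, endP]
  linear_combination W * i2 + (S / Z) * (S / Z - 1) * i0 + (S / Z) * i1 + (S / Z) * e0
    + W * e1 + W * e3 + (S / Z) * (G * (Y / Z) + ε) * e2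

lemma endP_U {Y Gn H Wn Wd : ℝ} (hN : 2 < N) (hZ : 0 < Z) (hX : 0 < S + T) (hH : 0 < H)
    (hWd : 0 < Wd) :
    endP N Z T S Y (Gn / H) (Wn / ((N - 2) * Z * Wd)) =
      coreU (fun k : ℤ => (k : ℝ)) N (N - 2) Z T S Y Gn H Wn Wd
        / (2 * N ^ 2 * (N - 2) ^ 2 * Z ^ 3 * (S + T) ^ 3 * Wd * H) := by
  have : N - 2 ≠ 0 := by linarith
  have : N ≠ 0 := by linarith
  simp only [endP, coreU]
  generalize EC (fun k : ℤ => (k : ℝ)) N (N - 2) Z T S = e
  generalize lC (fun k : ℤ => (k : ℝ)) N (N - 2) Z T S = l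
  generalize gC (fun k : ℤ => (k : ℝ)) N (N - 2) Z T S = g
  push_cast
  field_simp
  ring

lemma endP_M {Y Gn H Wn Wd : ℝ} (hN : 2 < N) (hZ : 0 < Z) (hX : 0 < S + T) (hH : 0 < H)
    (hWd : 0 < Wd) :
    endP N Z T S Y (Gn / H) (S * Wn / ((N - 2) * Z ^ 2 * Wd)) =
      S * coreM (fun k : ℤ => (k : ℝ)) N (N - 2) Z T S Y Gn H Wn Wd
        / (2 * N ^ 2 * (N - 2) ^ 2 * Z ^ 3 * (S + T) ^ 3 * Wd * H) := by
  have : N - 2 ≠ 0 := by linarith
  have : N ≠ 0 := by linarith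
  simp only [endP, coreM]
  generalize EC (fun k : ℤ => (k : ℝ)) N (N - 2) Z T S = e
  generalize lC (fun k : ℤ => (k : ℝ)) N (N - 2) Z T S = l
  generalize gC (fun k : ℤ => (k : ℝ)) N (N - 2) Z T S = g
  push_cast
  field_simp
  ring

/-- `G` of the certificate when `σ∞ = si`. -/
def g69 (N tb si : ℝ) : ℝ :=
  (4 / 25 + 15 / (2 * N ^ 2)) * (1 + 69 / (5 * (N ^ 2 - 12))) * (tb - 1)
    / ((tb - 1 + 19 / 84 - 5 / (7 * N)) * (1 + 6 * tb / (5 * N)) * (tb - si))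

/-- `upA`, as a function of `d = σ∞ - 1`. -/
def lineA (N d : ℝ) : ℝ := 2 / (N - 2) + 19 / 10 * d / (N - 1)

/-- `upU`, in `d = σ∞ - 1`, `r = s₂ - σ∞` and `y = σ - σ∞`. -/
def lineU (N d r y : ℝ) : ℝ :=
  lineA N d * (y * (1 - 3 / 4 / (1 + 2 * (N - 2) * d) * y / r))
    + 11 / 100 * lineA N d * r * ((N - 2) * d / ((N - 2) * d + 6))

lemma upU_eq {p q si s : ℝ} (hsi : upSi N p q = si) :
    upU N p q s = lineU N (si - 1) (sTwo N p q - si) (s - si) := by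
  simp only [upU, upA, upB, upBe, upR, hsi, lineU, lineA, sTwo]

variable {dN dD At Bt : ℝ}

lemma rD_pos (hN : 6 ≤ N) (hdD : 0 < dD) (hdN : 0 ≤ dN) : 0 < rD (fun k : ℤ => (k : ℝ)) N (N - 2) dN dD := by
  simp only [rD]; push_cast
  nlinarith [mul_nonneg (by nlinarith : 0 ≤ N * N + 2 * N - 4) (by linarith : 0 ≤ dD + dN),
    mul_pos (mul_pos (by linarith : 0 < N) (by linarith : 0 < N - 2)) hdD]

lemma rN_pos (hN : 6 ≤ N) (hdD : 0 < dD) (hdN : 0 ≤ dN) : 0 < rN (fun k : ℤ => (k : ℝ)) N (N - 2) dN dD := by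
  simp only [rN]; push_cast
  exact mul_pos (mul_pos two_pos (by linarith))
    (by nlinarith [mul_pos (by linarith : 0 < N - 2) hdD])

lemma zS_pos (hN : 6 ≤ N) (hdD : 0 < dD) (hdN : 0 ≤ dN) (hBt : 0 < Bt) :
    0 < zS (fun k : ℤ => (k : ℝ)) N (N - 2) dN dD Bt := by
  have := rD_pos hN hdD hdN
  have : 0 < N - 2 := by linarith
  simp only [zS]; positivity

lemma gD_pos (hN : 6 ≤ N) (hdD : 0 < dD) (hdN : 0 ≤ dN) : 0 < gD (fun k : ℤ => (k : ℝ)) N (N - 2) dN dD := by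
  have : 0 < N - 2 := by linarith
  have : 0 < 19 * N - 60 := by linarith
  have : 0 < N := by linarith
  have : 0 < N * N - 12 := by nlinarith
  simp only [gD]; push_cast; positivity

lemma tS_div (hN : 6 ≤ N) (hdD : 0 < dD) (hdN : 0 ≤ dN) (hBt : 0 < Bt) :
    tS (fun k : ℤ => (k : ℝ)) N (N - 2) dN dD Bt / zS (fun k : ℤ => (k : ℝ)) N (N - 2) dN dD Bt = N * (1 + dN / dD) / (N - 2) := by
  have := rD_pos hN hdD hdN
  have : 0 < N - 2 := by linarith
  simp only [tS, zS]; field_simp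

lemma yS_div (hN : 6 ≤ N) (hdD : 0 < dD) (hdN : 0 ≤ dN) (hBt : 0 < Bt) :
    yS (fun k : ℤ => (k : ℝ)) N (N - 2) dN dD At / zS (fun k : ℤ => (k : ℝ)) N (N - 2) dN dD Bt = At / Bt *
      (2 * (1 + dN / dD) / (N - 2) * (rN (fun k : ℤ => (k : ℝ)) N (N - 2) dN dD / rD (fun k : ℤ => (k : ℝ)) N (N - 2) dN dD)) := by
  have := rD_pos hN hdD hdN
  have : 0 < N - 2 := by linarith
  simp only [yS, zS]; push_cast
  generalize rN (fun k : ℤ => (k : ℝ)) N (N - 2) dN dD = a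
  generalize rD (fun k : ℤ => (k : ℝ)) N (N - 2) dN dD = b at *
  field_simp

lemma sS_div (hN : 6 ≤ N) (hdD : 0 < dD) (hdN : 0 ≤ dN) (hBt : 0 < Bt) :
    sS (fun k : ℤ => (k : ℝ)) N (N - 2) dN dD At Bt / zS (fun k : ℤ => (k : ℝ)) N (N - 2) dN dD Bt = 1 + dN / dD
      + yS (fun k : ℤ => (k : ℝ)) N (N - 2) dN dD At / zS (fun k : ℤ => (k : ℝ)) N (N - 2) dN dD Bt := by
  have := rD_pos hN hdD hdN
  have : 0 < N - 2 := by linarith
  simp only [sS, yS, zS]; push_cast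
  field_simp

lemma g69_eq (hN : 6 ≤ N) (hdD : 0 < dD) (hdN : 0 ≤ dN) :
    g69 N (N * (1 + dN / dD) / (N - 2)) (1 + dN / dD) =
      gN (fun k : ℤ => (k : ℝ)) N (N - 2) dN dD / gD (fun k : ℤ => (k : ℝ)) N (N - 2) dN dD := by
  have : 0 < N - 2 := by linarith
  have : 0 < 19 * N - 60 := by linarith
  have hN0 : 0 < N := by linarith
  have e1 : N * (1 + dN / dD) / (N - 2) - 1 = (N * dN + 2 * dD) / ((N - 2) * dD) := by
    field_simp; ring
  have e2 : N * (1 + dN / dD) / (N - 2) - (1 + dN / dD) = 2 * (dD + dN) / ((N - 2) * dD) := by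
    field_simp; ring
  have e3 : N * (1 + dN / dD) / (N - 2) - 1 + 19 / 84 - 5 / (7 * N) =
      ((N * dN + 2 * dD) * 84 * N + (N - 2) * (19 * N - 60) * dD) / (84 * N * (N - 2) * dD) := by
    field_simp; ring
  have e4 : 1 + 6 * (N * (1 + dN / dD) / (N - 2)) / (5 * N) =
      (5 * N * (N - 2) * dD + 6 * N * (dD + dN)) / (5 * N * (N - 2) * dD) := by
    field_simp
  have h12 : 0 < N ^ 2 - 12 := by nlinarith
  have e5 : 1 + 69 / (5 * (N ^ 2 - 12)) = (5 * N * N + 9) / (5 * (N * N - 12)) := by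
    rw [← pow_two, mul_assoc, ← pow_two]; field_simp; ring
  have : 0 < N * N - 12 := by nlinarith
  rw [g69, e5, e3, e1, e2, e4]
  simp only [gN, gD]; push_cast
  field_simp
  ring

lemma lineU_eq (hN : 6 ≤ N) (hdD : 0 < dD) (hdN : 0 ≤ dN) (hBt : 0 < Bt) :
    lineU N (dN / dD)
      (2 * (1 + dN / dD) / (N - 2) * (rN (fun k : ℤ => (k : ℝ)) N (N - 2) dN dD / rD (fun k : ℤ => (k : ℝ)) N (N - 2) dN dD))
      (yS (fun k : ℤ => (k : ℝ)) N (N - 2) dN dD At / zS (fun k : ℤ => (k : ℝ)) N (N - 2) dN dD Bt) =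
      uN (fun k : ℤ => (k : ℝ)) N (N - 2) dN dD At Bt
        / ((N - 2) * zS (fun k : ℤ => (k : ℝ)) N (N - 2) dN dD Bt * uD (fun k : ℤ => (k : ℝ)) N (N - 2) dN dD Bt) := by
  have := rD_pos hN hdD hdN
  have := rN_pos hN hdD hdN
  have : 0 < N - 2 := by linarith
  have : 0 < N - 1 := by linarith
  have : 0 < dN * (N - 2) + 6 * dD := by positivity
  have hq : 0 < dD + 2 * (N - 2) * dN := by positivity
  have hDn : 0 < dD + dN := by linarith
  have e1 : lineA N (dN / dD) =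
      (20 * (N - 1) * dD + 19 * (N - 2) * dN) / (10 * (N - 2) * (N - 1) * dD) := by
    simp only [lineA]; field_simp; ring
  have e2 : (N - 2) * (dN / dD) / ((N - 2) * (dN / dD) + 6) =
      (N - 2) * dN / (dN * (N - 2) + 6 * dD) := by field_simp
  have e3 : 3 / 4 / (1 + 2 * (N - 2) * (dN / dD)) = 3 * dD / (4 * (dD + 2 * (N - 2) * dN)) := by
    field_simp
  simp only [lineU, e1, e2, e3, mul_div_assoc, uN, uD, yS, zS]; push_cast
  generalize rN (fun k : ℤ => (k : ℝ)) N (N - 2) dN dD = a at *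
  generalize rD (fun k : ℤ => (k : ℝ)) N (N - 2) dN dD = b at *
  field_simp
  ring

lemma wm_eq {p q Z T S : ℝ} (hN : 2 < N) (hZ : 0 < Z) (hT : 0 < T)
    (hp : p = N * (1 + T / Z) / (N - 2) - 1) (hq : q = N * (1 + T / Z) / ((N - 2) * (T / Z)) - 1) :
    wm N p q (S / Z) =
      S * wN (fun k : ℤ => (k : ℝ)) N (N - 2) Z T S / ((N - 2) * Z ^ 2 * ((N + 2) * T)) := by
  have : N - 2 ≠ 0 := by linarith
  simp only [wm, hp, hq, wN]; push_cast
  field_simp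
  ring

lemma lC_nonpos {n d f : ℝ} (hn : 0 ≤ n) (hd : 0 ≤ d) (hf : 0 ≤ f) :
    lC (fun k : ℤ => (k : ℝ)) (6 + n) (4 + n) (4 + n) ((6 + n) * (1 + d)) ((1 + d) * (4 + n + 2 * f)) ≤ 0 := by
  have h : (0 : ℝ) ≤ ((0 : ℤ) : ℝ) - lC (fun k : ℤ => (k : ℝ)) (((6 : ℤ) : ℝ) + n) (((4 : ℤ) : ℝ) + n)
      (((4 : ℤ) : ℝ) + n) ((((6 : ℤ) : ℝ) + n) * (((1 : ℤ) : ℝ) + d))
      ((((1 : ℤ) : ℝ) + d) * (((4 : ℤ) : ℝ) + n + ((2 : ℤ) : ℝ) * f)) :=
    PosCheck.nonneg_of_check check_lC hn hd hf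
  push_cast at h
  linarith

lemma lC_scale (k : ℝ) : lC (fun k : ℤ => (k : ℝ)) N (N - 2) (k * Z) (k * T) (k * S) =
    k ^ 3 * lC (fun k : ℤ => (k : ℝ)) N (N - 2) Z T S := by
  simp only [lC, a0, dC, eC, qC, kC]
  ring

/-- The slope in `W` is nonpositive. -/
lemma slope_nonpos (hN : 6 ≤ N) (hZ : 0 < Z) (hZS : Z ≤ (N - 2) / N * T)
    (hS : (N - 2) / N * T ≤ S) : lC (fun k : ℤ => (k : ℝ)) N (N - 2) Z T S ≤ 0 := by
  have hh : 0 < N - 2 := by linarith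
  have hN0 : 0 < N := by linarith
  have hT : 0 < T := (mul_pos_iff_of_pos_left (div_pos hh hN0)).1 (hZ.trans_le hZS)
  obtain ⟨d, hd, hdd⟩ : ∃ d, 0 ≤ d ∧ (N - 2) / N * T = Z * (1 + d) :=
    ⟨(N - 2) / N * T / Z - 1, by rw [sub_nonneg, one_le_div hZ]; exact hZS, by field_simp; ring⟩
  obtain ⟨f, hf, hff⟩ : ∃ f, 0 ≤ f ∧ S = Z * (1 + d) * (1 + 2 * f / (N - 2)) := by
    refine ⟨(S - Z * (1 + d)) * (N - 2) / (2 * (Z * (1 + d))), ?_, ?_⟩
    · exact div_nonneg (mul_nonneg (by linarith) hh.le) (by positivity)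
    · field_simp; ring
  have h := lC_nonpos (n := N - 6) (by linarith) hd hf
  rw [show 6 + (N - 6) = N by ring, show 4 + (N - 6) = N - 2 by ring] at h
  have e := lC_scale (N := N) (Z := N - 2) (T := N * (1 + d))
    (S := (1 + d) * (N - 2 + 2 * f)) (Z / (N - 2))
  have e1 : Z / (N - 2) * (N - 2) = Z := div_mul_cancel₀ _ hh.ne'
  have e2 : Z / (N - 2) * (N * (1 + d)) = T := by
    field_simp at hdd ⊢; linarith
  have e3 : Z / (N - 2) * ((1 + d) * (N - 2 + 2 * f)) = S := by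
    rw [hff]; field_simp
  rw [e1, e2, e3] at e
  rw [e]
  exact mul_nonpos_of_nonneg_of_nonpos (by positivity) h

lemma sTwo_eq {p q : ℝ} (hN : 6 ≤ N) (hdD : 0 < dD) (hdN : 0 ≤ dN)
    (hp : p = N * (1 + N * (1 + dN / dD) / (N - 2)) / (N - 2) - 1)
    (hq : q = N * (1 + N * (1 + dN / dD) / (N - 2)) / ((N - 2) * (N * (1 + dN / dD) / (N - 2))) - 1) :
    sTwo N p q - (1 + dN / dD) =
      2 * (1 + dN / dD) / (N - 2) * (rN (fun k : ℤ => (k : ℝ)) N (N - 2) dN dD / rD (fun k : ℤ => (k : ℝ)) N (N - 2) dN dD) := by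
  have hh : 0 < N - 2 := by linarith
  have hN0 : 0 < N := by linarith
  have hr := rD_pos hN hdD hdN
  have e : N * (q + 1) + 2 = rD (fun k : ℤ => (k : ℝ)) N (N - 2) dN dD / ((N - 2) * (dD + dN)) := by
    simp only [hq, rD]; push_cast
    field_simp; ring
  have e2 : N * (p + 1) + 2 =
      (N ^ 2 * ((N - 2) * dD + N * (dD + dN)) + 2 * (N - 2) ^ 2 * dD) / ((N - 2) ^ 2 * dD) := by
    rw [hp]; field_simp; ring
  have e3 : N ^ 2 * ((N - 2) * dD + N * (dD + dN)) + 2 * (N - 2) ^ 2 * dD =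
      (N - 2) * rD (fun k : ℤ => (k : ℝ)) N (N - 2) dN dD + 2 * rN (fun k : ℤ => (k : ℝ)) N (N - 2) dN dD := by
    simp only [rD, rN]; push_cast; ring
  rw [sTwo, e, e2, e3]
  generalize rD (fun k : ℤ => (k : ℝ)) N (N - 2) dN dD = b at hr ⊢
  generalize rN (fun k : ℤ => (k : ℝ)) N (N - 2) dN dD = a
  field_simp
  ring

lemma frac_below {θ a : ℝ} (hθ : 0 < θ) (h : θ < a) : ∃ z, 0 ≤ z ∧ θ = a * (z / (1 + z)) := by
  refine ⟨θ / (a - θ), (div_pos hθ (sub_pos.2 h)).le, ?_⟩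
  have h1 : a - θ ≠ 0 := (sub_pos.2 h).ne'
  have h2 : a ≠ 0 := by linarith
  have e : 1 + θ / (a - θ) = a / (a - θ) := by field_simp; ring
  rw [e]; field_simp

lemma frac_above {θ a : ℝ} (h : a ≤ θ) (h1 : θ < 1) :
    ∃ z, 0 ≤ z ∧ θ = (a + z) / (1 + z) := by
  refine ⟨(θ - a) / (1 - θ), div_nonneg (sub_nonneg.2 h) (sub_nonneg.2 h1.le), ?_⟩
  have h2 : 1 - θ ≠ 0 := (sub_pos.2 h1).ne'
  have h3 : 1 - a ≠ 0 := by linarith
  have e : 1 + (θ - a) / (1 - θ) = (1 - a) / (1 - θ) := by field_simp; ring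
  rw [e]; field_simp; ring

/-- In the parameters: the value at `z = σ/V` is nonnegative at `U` or at `wm`. -/
lemma endP_params {d θ : ℝ} (hN : 6 ≤ N) (hd : 0 < d)
    (hdm : d < ((82 * N ^ 2 - 288 * N + 150) * (N - 2) - 60 * N ^ 2) / (60 * N ^ 2)) (hθ : 0 < θ) (hθ1 : θ < 1) :
    ∃ dN dD At Bt, 0 < dD ∧ 0 ≤ dN ∧ 0 < Bt ∧ 0 ≤ At ∧ dN / dD = d ∧ At / Bt = θ ∧
      (0 ≤ polyU (fun k : ℤ => (k : ℝ)) N (N - 2) dN dD At Bt ∨ 0 ≤ polyM (fun k : ℤ => (k : ℝ)) N (N - 2) dN dD At Bt) := by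
  obtain ⟨n, hn, rfl⟩ : ∃ n, 0 ≤ n ∧ N = n + 6 := ⟨N - 6, by linarith, by ring⟩
  set dm := ((82 * (n + 6) ^ 2 - 288 * (n + 6) + 150) * (n + 6 - 2) - 60 * (n + 6) ^ 2)
    / (60 * (n + 6) ^ 2) with hdef
  have edm : dm = ((82 * (n + 6) * (n + 6) - 288 * (n + 6) + 150) * (n + 4)
      - 60 * (n + 6) * (n + 6)) / (60 * (n + 6) * (n + 6)) := by
    rw [hdef]; congr 1 <;> ring
  have hh : n + 6 - 2 = n + 4 := by ring
  have hb : 0 < 60 * (n + 6) * (n + 6) := by positivity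
  have hM : 0 < (82 * (n + 6) * (n + 6) - 288 * (n + 6) + 150) * (n + 4)
      - 60 * (n + 6) * (n + 6) := by
    nlinarith [mul_nonneg hn hn, mul_nonneg (mul_nonneg hn hn) hn]
  rw [hh]
  have hdm0 : 0 < dm := hd.trans hdm
  rcases lt_or_ge d (dm / 2) with hcase | hcase
  · obtain ⟨w, hw, hdw⟩ := frac_below hd hcase
    obtain ⟨z, hz, hθz⟩ := frac_below hθ hθ1
    refine ⟨dmN (fun k : ℤ => (k : ℝ)) n * w, dmD (fun k : ℤ => (k : ℝ)) n * 2 * (1 + w), z, 1 + z, ?_, ?_, by linarith, hz, ?_,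
      by rw [hθz, one_mul], Or.inl ?_⟩
    · simp only [dmD]; push_cast; positivity
    · simp only [dmN]; push_cast; positivity
    · rw [hdw, edm]; simp only [dmN, dmD]; push_cast; field_simp
    · have := box1_nonneg hn hw hz
      simp only [box1] at this; push_cast at this; exact this
  · obtain ⟨w, hw, hdw⟩ : ∃ w, 0 ≤ w ∧ d = dm * (1 + 2 * w) / (2 * (1 + w)) := by
      obtain ⟨w, hw, e⟩ := frac_above (θ := d / dm) (a := 1 / 2)
        (by rw [le_div_iff₀ hdm0]; linarith) (by rw [div_lt_one hdm0]; exact hdm)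
      refine ⟨w, hw, ?_⟩
      rw [div_eq_iff hdm0.ne'] at e
      rw [e]; field_simp
    have hdD : 0 < dmD (fun k : ℤ => (k : ℝ)) n * 2 * (1 + w) := by simp only [dmD]; push_cast; positivity
    have hdN : 0 ≤ dmN (fun k : ℤ => (k : ℝ)) n * (1 + 2 * w) := by simp only [dmN]; push_cast; positivity
    have hdd : dmN (fun k : ℤ => (k : ℝ)) n * (1 + 2 * w) / (dmD (fun k : ℤ => (k : ℝ)) n * 2 * (1 + w)) = d := by
      rw [hdw, edm]; simp only [dmN, dmD]; push_cast; field_simp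
    have htd : 0 < thD (fun k : ℤ => (k : ℝ)) n := by simp only [thD]; push_cast; positivity
    have htn : 0 < thN (fun k : ℤ => (k : ℝ)) n := by simp only [thN]; push_cast; linarith
    rcases lt_or_ge θ (thN (fun k : ℤ => (k : ℝ)) n / thD (fun k : ℤ => (k : ℝ)) n) with h | h
    · obtain ⟨z, hz, hθz⟩ : ∃ z, 0 ≤ z ∧ θ = thN (fun k : ℤ => (k : ℝ)) n * z / (thD (fun k : ℤ => (k : ℝ)) n * (1 + z)) := by
        obtain ⟨z, hz, e⟩ := frac_below hθ h
        exact ⟨z, hz, by rw [e, div_mul_div_comm]⟩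
      refine ⟨_, _, thN (fun k : ℤ => (k : ℝ)) n * z, thD (fun k : ℤ => (k : ℝ)) n * (1 + z), hdD, hdN, by positivity, by positivity,
        hdd, hθz.symm, Or.inl ?_⟩
      have := box2_nonneg hn hw hz
      simp only [box2] at this; push_cast at this; exact this
    · obtain ⟨z, hz, hθz⟩ : ∃ z, 0 ≤ z ∧
          θ = (thN (fun k : ℤ => (k : ℝ)) n + thD (fun k : ℤ => (k : ℝ)) n * z) / (thD (fun k : ℤ => (k : ℝ)) n * (1 + z)) := by
        obtain ⟨z, hz, e⟩ := frac_above h hθ1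
        exact ⟨z, hz, by rw [e]; field_simp⟩
      refine ⟨_, _, thN (fun k : ℤ => (k : ℝ)) n + thD (fun k : ℤ => (k : ℝ)) n * z, thD (fun k : ℤ => (k : ℝ)) n * (1 + z), hdD, hdN, by positivity,
        by positivity, hdd, hθz.symm, Or.inr ?_⟩
      have := box3_nonneg hn hw hz
      simp only [box3] at this; push_cast at this; exact this

end IV

namespace IV

variable {N Z T S : ℝ}

/-- The upper bound `W₁` may replace `W` in `endP`. -/
lemma endP_mono {Y G W W1 : ℝ} (hN : 6 ≤ N) (hZ : 0 < Z) (hZS : Z ≤ (N - 2) / N * T)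
    (hTS : (N - 2) / N * T ≤ S) (hYS : Y ≤ S) (hG0 : 0 ≤ G) (hW : W ≤ W1) :
    endP N Z T S Y G W1 ≤ endP N Z T S Y G W := by
  have hh : 0 < N - 2 := by linarith
  have hN0 : 0 < N := by linarith
  have hT0 : 0 < T := (mul_pos_iff_of_pos_left (div_pos hh hN0)).1 (hZ.trans_le hZS)
  have hS0 : 0 < S := hZ.trans_le (hZS.trans hTS)
  have hsl := slope_nonpos hN hZ hZS hTS
  have hslG : 2 * G * Y * T / (N * Z * (S + T)) - S / Z * G ≤ 0 := by
    have e : 2 * G * Y * T / (N * Z * (S + T)) - S / Z * G =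
        G * (2 * Y * T - N * S * (S + T)) / (N * Z * (S + T)) := by field_simp
    rw [e]
    refine div_nonpos_of_nonpos_of_nonneg (mul_nonpos_of_nonneg_of_nonpos hG0 ?_) (by positivity)
    nlinarith [mul_le_mul_of_nonneg_right hYS hT0.le, mul_pos hS0 hT0, mul_pos hS0 hS0]
  simp only [endP]
  refine add_le_add le_rfl (mul_le_mul_of_nonpos_right hW (add_nonpos ?_ hslG))
  exact div_nonpos_of_nonpos_of_nonneg hsl (by positivity)

/-- The endpoint from one of the two box bounds. -/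
lemma endv_pos {Y G W c1 si tb s Gn H Wn Wd Un Ud : ℝ} (hN : 6 ≤ N) (hZ : 0 < Z)
    (hT : tb = T / Z) (hS : s = S / Z) (hy : s - si = Y / Z) (hsi : si = (N - 2) * tb / N)
    (hsi1 : 1 < si) (hs : si < s) (hst : s < tb) (hc1 : c1 < -(N / (2 * (N - 2))))
    (hG : G = Gn / H) (hH : 0 < H) (hGn : 0 ≤ Gn) (hW : 0 ≤ W) (hUd : 0 < Ud) (hWd : 0 < Wd)
    (hWm : W ≤ S * Wn / ((N - 2) * Z ^ 2 * Wd)) (hWU : W ≤ Un / ((N - 2) * Z * Ud))
    (hbox : 0 ≤ coreU (fun k : ℤ => (k : ℝ)) N (N - 2) Z T S Y Gn H Un Ud ∨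
      0 ≤ coreM (fun k : ℤ => (k : ℝ)) N (N - 2) Z T S Y Gn H Wn Wd) :
    0 < endv N tb s (c1 - G * (s - si)) G W := by
  have hh : 0 < N - 2 := by linarith
  have hN0 : 0 < N := by linarith
  have hG0 : 0 ≤ G := hG ▸ div_nonneg hGn hH.le
  have hhT : (N - 2) / N * T / Z = si := by rw [hsi, hT]; ring
  have hZS : Z ≤ (N - 2) / N * T := by rw [← one_le_div hZ, hhT]; exact hsi1.le
  have hTS : (N - 2) / N * T ≤ S := by
    rw [← div_le_div_iff_of_pos_right hZ, hhT, ← hS]; exact hs.le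
  have hS0 : 0 < S := hZ.trans_le (hZS.trans hTS)
  have hT0 : 0 < T := (mul_pos_iff_of_pos_left (div_pos hh hN0)).1 (hZ.trans_le hZS)
  have hX : 0 < S + T := by linarith
  have hYS : Y ≤ S := by rw [← div_le_div_iff_of_pos_right hZ, ← hy, ← hS]; linarith
  have hg : 0 < gC (fun k : ℤ => (k : ℝ)) N (N - 2) Z T S := by
    refine gC_pos (by linarith) hS0 hZ ?_ ?_ ?_
    · rw [← one_lt_div hZ, ← hS]; linarith
    · rw [← div_le_div_iff_of_pos_right hZ, ← hS, ← hT]; exact hst.le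
    · rw [div_mul_eq_mul_div, div_le_iff₀ hN0] at hTS; linarith
  have hP : 0 ≤ endP N Z T S Y G W := by
    rcases hbox with hb | hb
    · refine le_trans ?_ (endP_mono hN hZ hZS hTS hYS hG0 hWU)
      rw [hG, endP_U (by linarith) hZ hX hH hUd]
      exact div_nonneg hb (by positivity)
    · refine le_trans ?_ (endP_mono hN hZ hZS hTS hYS hG0 hWm)
      rw [hG, endP_M (by linarith) hZ hX hH hWd]
      exact div_nonneg (mul_nonneg hS0.le hb) (by positivity)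
  have hε : 0 < -(N / (2 * (N - 2))) - c1 := by linarith
  rw [hy, show c1 - G * (Y / Z) = -(N / (2 * (N - 2)))
      - (G * (Y / Z) + (-(N / (2 * (N - 2))) - c1)) by ring, hT, hS,
    endv_eq (by linarith) hZ hX]
  refine add_pos_of_nonneg_of_pos hP (mul_pos hε (add_pos_of_pos_of_nonneg ?_ ?_))
  · exact mul_pos (div_pos hS0 hZ) (div_pos hg (by positivity))
  · positivity

end IV

open IV in
/-- **(iv) when `σ∞ = tb (N-2)/N > 1`**: below both `wm` and the line `U`, for `0 ≤ z ≤ σ/V`. -/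
theorem CPar.IsCrit.rho_pos_gt {C : CPar} {tb s W z : ℝ} (h : C.IsCrit tb) (hN : 6 ≤ C.N)
    (hss : C.N < (C.N - 2) * tb) (hsi : C.si = (C.N - 2) * tb / C.N)
    (hcov : 60 * C.N * tb < 82 * C.N ^ 2 - 288 * C.N + 150) (hc1 : C.c1 < -(C.N / (2 * (C.N - 2))))
    (hG : C.G = g69 C.N tb C.si) (hs : C.si < s) (hs2 : s < sTwo C.N C.p C.q) (hW : 0 ≤ W)
    (hWm : W ≤ wm C.N C.p C.q s)
    (hWU : W ≤ upU C.N C.p C.q s)
    (hz : 0 ≤ z) (hzV : z * (s * (s - 1) + W) ≤ s) : 0 < C.rho s W z := by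
  obtain ⟨N, p, q, M, c1, G, si⟩ := C
  obtain ⟨-, htb, hp, hq, -⟩ := id h
  simp only at hN hss hsi hcov hc1 hG hs hs2 hWm hWU hp hq ⊢
  have hh : 0 < N - 2 := by linarith
  have hN0 : 0 < N := by linarith
  have hsi1 : 1 < si := by rw [hsi, one_lt_div hN0]; linarith
  have htb' : tb = N * (1 + (si - 1)) / (N - 2) := by rw [hsi]; field_simp; ring
  have hdm : si - 1 < ((82 * N ^ 2 - 288 * N + 150) * (N - 2) - 60 * N ^ 2) / (60 * N ^ 2) := by
    rw [hsi, lt_div_iff₀ (by positivity)]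
    field_simp
    nlinarith [mul_lt_mul_of_pos_left hcov hh]
  have hr : 0 < sTwo N p q - si := by linarith
  obtain ⟨dN, dD, At, Bt, hdD, hdN, hBt, hAt, hd, hθ, hbox⟩ :=
    endP_params hN (sub_pos.2 hsi1) hdm (θ := (s - si) / (sTwo N p q - si))
      (div_pos (by linarith) hr) (by rw [div_lt_one hr]; linarith)
  have hsi' : si = 1 + dN / dD := by rw [hd]; ring
  have htbd : tb = N * (1 + dN / dD) / (N - 2) := by rw [htb', hd]
  have hr' := sTwo_eq (p := p) (q := q) hN hdD hdN (by rw [hp, htbd]) (by rw [hq, htbd])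
  rw [← hsi'] at hr'
  have hy : s - si = IV.yS (fun k : ℤ => (k : ℝ)) N (N - 2) dN dD At
      / IV.zS (fun k : ℤ => (k : ℝ)) N (N - 2) dN dD Bt := by
    rw [yS_div hN hdD hdN hBt, hθ, ← hsi', ← hr', div_mul_cancel₀ _ hr.ne']
  have hst : s < tb := by
    refine hs2.trans ?_
    rw [sTwo, div_lt_iff₀ (by rw [hq, sub_add_cancel]; positivity)]
    have e : N * (p + 1) = tb * (N * (q + 1)) := by rw [hp, hq]; field_simp; ring
    nlinarith
  have hZ := zS_pos hN hdD hdN hBt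
  have hT : tb = IV.tS (fun k : ℤ => (k : ℝ)) N (N - 2) dN dD Bt
      / IV.zS (fun k : ℤ => (k : ℝ)) N (N - 2) dN dD Bt := by
    rw [tS_div hN hdD hdN hBt, htbd]
  have hS : s = IV.sS (fun k : ℤ => (k : ℝ)) N (N - 2) dN dD At Bt
      / IV.zS (fun k : ℤ => (k : ℝ)) N (N - 2) dN dD Bt := by
    rw [sS_div hN hdD hdN hBt, ← hsi', ← hy]; ring
  have hT0 : 0 < IV.tS (fun k : ℤ => (k : ℝ)) N (N - 2) dN dD Bt :=
    (div_pos_iff_of_pos_right hZ).1 (hT ▸ htb)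
  rw [hS, wm_eq (by linarith) hZ hT0 (by rw [hp, hT]) (by rw [hq, hT])] at hWm
  have hpq : (p + 1) / (q + 1) = tb := by
    rw [hp, hq, sub_add_cancel, sub_add_cancel]; field_simp
  have hsu : upSi N p q = si := by
    rw [upSi, sEq, hpq, div_mul_eq_mul_div, ← hsi]; exact max_eq_right hsi1.le
  rw [upU_eq (si := si) hsu,
    hd.symm, hr', hy] at hWU
  rw [hsi'] at hWU
  rw [lineU_eq hN hdD hdN hBt] at hWU
  have huD : 0 < IV.uD (fun k : ℤ => (k : ℝ)) N (N - 2) dN dD Bt := by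
    have : 0 < N - 1 := by linarith
    simp only [uD]; push_cast; positivity
  have hGn : 0 ≤ IV.gN (fun k : ℤ => (k : ℝ)) N (N - 2) dN dD := by
    simp only [gN]; push_cast; positivity
  have hbox' := hbox
  simp only [polyU, polyM, Int.cast_ofNat] at hbox'
  have hG' : G = IV.gN (fun k : ℤ => (k : ℝ)) N (N - 2) dN dD
      / IV.gD (fun k : ℤ => (k : ℝ)) N (N - 2) dN dD := by
    rw [hG, htbd, hsi']; exact g69_eq hN hdD hdN
  have hend := endv_pos hN hZ hT hS hy hsi hsi1 hs hst hc1 hG' (gD_pos hN hdD hdN) hGn hW huD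
    (by positivity) hWm hWU hbox'
  have hG0 : 0 ≤ G := hG' ▸ div_nonneg hGn (gD_pos hN hdD hdN).le
  refine (mul_pos_iff_of_pos_left (sub_pos.2 hst)).1 ?_
  rw [h.rho_eq (by linarith) hst]
  refine pos_of_endpoints (by linarith) ?_ hend hz hzV
  refine mul_pos (div_pos two_pos hN0) (sub_pos.2 ?_)
  refine CPar.c_bound (C := ⟨N, p, q, M, c1, G, si⟩) (by linarith) htb (by linarith) hs hG0 ?_
  have e : (N - 1) * tb / ((N - 2) * (si + tb)) = N / (2 * (N - 2)) := by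
    rw [hsi]; field_simp; ring
  simp only at hc1 ⊢
  linarith

/-- What the corner theorem leaves has `tb < (82 N² - 288 N + 150)/(60 N)`. -/
theorem CPar.IsCrit.tb_lt {C : CPar} {tb : ℝ} (h : C.IsCrit tb) (hN : 6 ≤ C.N)
    (hcov : 1 < C.q ∨ C.N - 1 ≤ (C.p + 1) * (C.q * (C.N - 3) - 2)) :
    60 * C.N * tb < 82 * C.N ^ 2 - 288 * C.N + 150 := by
  obtain ⟨-, htb, hp, hq, -⟩ := h
  obtain ⟨N, p, q, M, c1, G, si⟩ := C
  simp only at hN hcov hp hq ⊢
  have hh : 0 < N - 2 := by linarith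
  rcases hcov with hc | hc
  · rw [hq, lt_sub_iff_add_lt, lt_div_iff₀ (by positivity)] at hc
    have h4 : (N - 4) * tb < N := by linarith
    by_contra hne
    nlinarith [mul_le_mul_of_nonneg_left (not_lt.1 hne) (by linarith : 0 ≤ N - 4)]
  · have e : (p + 1) * (q * (N - 3) - 2) = N * (1 + tb) *
        ((N + 2 * tb) * (N - 3) - 2 * (N - 2) * tb) / ((N - 2) ^ 2 * tb) := by
      rw [hp, hq]; field_simp; ring
    rw [e, le_div_iff₀ (by positivity)] at hc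
    by_contra hne
    obtain ⟨n, hn, rfl⟩ : ∃ n, 0 ≤ n ∧ N = n + 6 := ⟨N - 6, by linarith, by ring⟩
    obtain ⟨u, hu, rfl⟩ : ∃ u, 0 ≤ u ∧
        tb = (82 * (n + 6) ^ 2 - 288 * (n + 6) + 150) / (60 * (n + 6)) + u :=
      ⟨tb - (82 * (n + 6) ^ 2 - 288 * (n + 6) + 150) / (60 * (n + 6)), by
        rw [sub_nonneg, div_le_iff₀ (by positivity)]; linarith [not_lt.1 hne], by ring⟩
    field_simp at hc
    nlinarith [mul_nonneg hn hu, mul_nonneg (mul_nonneg hn hn) hu, mul_nonneg hn (mul_nonneg hu hu),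
      mul_nonneg hn hn, mul_nonneg (mul_nonneg hn hn) hn, mul_nonneg hu hu,
      mul_nonneg (mul_nonneg hn hn) (mul_nonneg hn hn), mul_nonneg (mul_nonneg hn hn) (mul_nonneg hn hu),
      mul_nonneg (mul_nonneg hn hn) (mul_nonneg hu hu)]

end Vale.Agent.P100T
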