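import Vale.Agent.P100T.TailCert
import Vale.Agent.P100T.Barrier
import Vale.Agent.P100T.IneqIVGt

/-!
The certificate parameters for `N ≥ 6`.
-/

noncomputable section

namespace Vale.Agent.P100T

variable (N p q : ℝ)

/-- The constant `c₁`: `ce` at `σ = 1` when `σ_s ≤ 1`, slightly below `-N/(2(N-2))` otherwise. -/
def certC1 : ℝ :=
  if sEq N p q ≤ 1 then -((N - 1) * ((p + 1) / (q + 1)) / ((N - 2) * (1 + (p + 1) / (q + 1))))
  else -(N / (2 * (N - 2))) - (upSi N p q - 1) / (20 * N * ((p + 1) / (q + 1)) ^ 2)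

/-- The slope `G`. -/
def certSlope : ℝ := IV.g69 N ((p + 1) / (q + 1)) (upSi N p q)

/-- The certificate. -/
def certPar : CPar := tailPar N p q (certC1 N p q) (certSlope N p q)

variable {N p q}

lemma sInf'_eq_upSi : sInf' N p q = upSi N p q := by
  rw [sInf', upSi, sEq, div_mul_div_comm]

lemma certPar_si : (certPar N p q).si = upSi N p q := sInf'_eq_upSi

lemma certT_gt_one (hq : 0 < q) (hpq : q < p) : 1 < (p + 1) / (q + 1) := by
  rw [one_lt_div (by linarith)]; linarith

lemma crit_of_prod (hp : 0 < p) (hq : 0 < q)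
    (h : N * ((p + 1) * (q + 1) - (p + 1) - (q + 1)) = 2 * (p + 1) * (q + 1)) :
    N / (p + 1) + N / (q + 1) = N - 2 := by
  field_simp
  linear_combination -h

lemma certPar_crit (hN : 2 < N) (hq : 0 < q) (hpq : q < p)
    (hcrit : N / (p + 1) + N / (q + 1) = N - 2) :
    (certPar N p q).IsCrit ((p + 1) / (q + 1)) := by
  have hp : 0 < p := hq.trans hpq
  have hk := crit_iff hp hq hcrit
  have hT : 0 < (p + 1) / (q + 1) := by positivity
  have hQ : (p + 1) / (q + 1) * (q + 1) = p + 1 := div_mul_cancel₀ _ (by linarith)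
  have hh : N - 2 ≠ 0 := by linarith
  refine ⟨hN, hT, ?_, ?_, rfl⟩
  · show p = N * (1 + (p + 1) / (q + 1)) / (N - 2) - 1
    rw [← hk, mul_div_cancel_left₀ _ hh]; ring
  · show q = N * (1 + (p + 1) / (q + 1)) / ((N - 2) * ((p + 1) / (q + 1))) - 1
    rw [← hk, mul_div_mul_left _ _ hh, div_div_cancel₀ (by linarith : p + 1 ≠ 0)]; ring

lemma upSi_lt_T (hN : 2 < N) (hq : 0 < q) (hpq : q < p) : upSi N p q < (p + 1) / (q + 1) := by
  have h := certT_gt_one hq hpq
  refine max_lt h ?_
  rw [sEq]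
  refine mul_lt_of_lt_one_left (by linarith) ?_
  rw [div_lt_one (by linarith)]; linarith

lemma certSlope_pos (hN : 6 ≤ N) (hq : 0 < q) (hpq : q < p) : 0 < certSlope N p q := by
  have hT := certT_gt_one hq hpq
  have hs := upSi_lt_T (N := N) (by linarith) hq hpq
  rw [certSlope, IV.g69]
  set T := (p + 1) / (q + 1)
  have hN0 : 0 < N := by linarith
  have : 0 < N ^ 2 - 12 := by nlinarith
  have : 0 < T - 1 := by linarith
  have : 0 < T - upSi N p q := by linarith
  have h5 : 5 / (7 * N) ≤ 5 / 42 := div_le_div_of_nonneg_left (by norm_num) (by norm_num)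
    (by linarith)
  have : 0 < T - 1 + 19 / 84 - 5 / (7 * N) := by linarith
  positivity

end Vale.Agent.P100T
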