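import Vale.Agent.P100T.IneqIIIBoxes

/-!
Kernel checks of inequality (iii), lower line.
-/

namespace Vale.Agent.P100T.Ineq3.Box

set_option maxRecDepth 100000

theorem certL_C : (above rC (gS rC)).okL = true := by decide +kernel

end Vale.Agent.P100T.Ineq3.Box
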