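import Vale.Agent.P100T.IneqIIIExtBox
import Vale.Agent.P100T.IneqIIIExtCertD

/-!
Kernel check of inequality (iii) on the lower edge of the extension box.
-/

namespace Vale.Agent.P100T.Ineq3.Box

set_option maxRecDepth 100000

theorem certF : okF rF = true := by decide +kernel

theorem certE_C : okE (extHi5 rF) = true := by decide +kernel

end Vale.Agent.P100T.Ineq3.Box
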