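import Vale.Agent.P100T.IneqIII
import Vale.Agent.P100T.IneqIIIExtCertA
import Vale.Agent.P100T.IneqIIIExtCertB
import Vale.Agent.P100T.IneqIIIExtCertC
import Vale.Agent.P100T.IneqIIIExtCertD

/-!
Inequality (iii) on the lower edge `W = extL` of the extension box, `σ∞ > 1`, in scale-free
variables.
-/

noncomputable section

namespace Vale.Agent.P100T.Ineq3

open PosCheck Box

/-- `D = (N + L)/(N - 2) · N (N - 2) + 2 (N - 2)`. -/
def DR (N L : ℝ) : ℝ := N ^ 2 + N * L + 2 * (N - 2)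
/-- `H = (N - 2 - L) D + 4 (N - 1)(2 + L)`. -/
def HR (N L : ℝ) : ℝ := (N - 2 - L) * DR N L + 4 * (N - 1) * (2 + L)
/-- The excess of `θ/θ₂` at `extS3`. -/
def eR (N L : ℝ) : ℝ :=
  2 * (N - 2) * (N ^ 2 + 2 * L) * HR N L / (5 * N * (N + 2) * (N + L) * DR N L ^ 2)
/-- `extL / T²`. -/
def wER (N L : ℝ) : ℝ :=
  2 * (67 * N - 3 * L) * (N - 1) * (2 + L) * (N ^ 2 + 2 * L) * HR N L
    / (25 * N ^ 3 * (N + 2) * DR N L ^ 3)

variable {N L s : ℝ}

lemma cov_curve (hN : 6 ≤ N) (hL0 : 0 < L) (hc : Cov N L) :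
    (73 * N + 39) / (100 * (N - 3)) ≤ L := by
  have h3 : 0 < 100 * (N - 3) := by linarith
  rw [div_le_iff₀ h3]
  rcases hc with h | h
  · nlinarith [mul_lt_mul_of_pos_left h h3]
  by_contra hl
  push Not at hl
  -- `L ↦ RHS - LHS` is convex and negative at `0` and at the curve
  have hK : (0:ℝ) < 273 / 100 * N ^ 2 - 961 / 100 * N + 4 := by nlinarith
  have h1 : L * (273 / 100 * N ^ 2 - 961 / 100 * N + 4) * (100 * (N - 3))
      < (73 * N + 39) * (273 / 100 * N ^ 2 - 961 / 100 * N + 4) := by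
    nlinarith [mul_lt_mul_of_pos_right hl hK]
  have h2 : (73 * N + 39) * (273 / 100 * N ^ 2 - 961 / 100 * N + 4) ≤ 200 * N ^ 2 * (N - 3) := by
    obtain ⟨u, hu, rfl⟩ : ∃ u, 0 ≤ u ∧ N = 6 + u := ⟨N - 6, by linarith, by ring⟩
    nlinarith [pow_nonneg hu 2, pow_nonneg hu 3]
  have h4 : (N - 3) * (N * L * L) * 100 ≤ L * (N * (73 * N + 39)) := by
    nlinarith [mul_le_mul_of_nonneg_left hl.le (by positivity : 0 ≤ L * N)]
  have h5 : (L * (273 / 100 * N ^ 2 - 961 / 100 * N + 4) - 2 * N ^ 2) < 0 := by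
    by_contra h6
    push Not at h6
    nlinarith [mul_nonneg h6 h3.le]
  nlinarith

lemma th2_eR_lt (hN : 6 ≤ N) (hL0 : 0 < L) (hL : L < N - 2) :
    0 < eR N L ∧ th2 N L * (1 + eR N L) < 1 := by
  have hh : 0 < N - 2 := by linarith
  have hn : 0 < N := by linarith
  have hD : 0 < DR N L := by unfold DR; positivity
  have h1 : 0 < N - 2 - L := by linarith
  have hH : 0 < HR N L := by
    have : 0 < N - 1 := by linarith
    unfold HR; positivity
  refine ⟨by unfold eR; positivity, ?_⟩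
  have key : DR N L * (N - 2) * (N - L) * (5 * N * (N + 2) * (N + L) * DR N L ^ 2)
      - DR N L * (2 * (N - 1) * (2 + L)) * (2 * (N - 2) * (N ^ 2 + 2 * L) * HR N L) > 0 := by
    have hHle : HR N L < (N - L) * DR N L := by
      have : 0 < (N - 2) * (N - L) := mul_pos hh (by linarith)
      simp only [HR, DR] at *
      nlinarith
    have h2 : 2 * (N - 1) * (2 + L) < DR N L := by
      have : 0 < (N - 2) * (N - L) := mul_pos hh (by linarith)
      simp only [DR]; nlinarith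
    have h3 : 2 * (N ^ 2 + 2 * L) ≤ 5 * N * (N + 2) * (N + L) := by
      nlinarith [mul_nonneg (mul_nonneg hn.le hn.le) (add_nonneg hn.le hL0.le),
        mul_le_mul_of_nonneg_right hN (mul_nonneg hn.le hn.le)]
    have h4 : 2 * (N - 1) * (2 + L) * HR N L * (2 * (N ^ 2 + 2 * L))
        < DR N L * ((N - L) * DR N L) * (5 * N * (N + 2) * (N + L)) := by
      have a1 : 0 < 2 * (N - 1) * (2 + L) := by
        have : 0 < N - 1 := by linarith
        positivity
      refine lt_of_lt_of_le (mul_lt_mul_of_pos_right (mul_lt_mul'' h2 hHle a1.le hH.le) ?_) ?_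
      · positivity
      · exact mul_le_mul_of_nonneg_left h3 (mul_nonneg hD.le (mul_nonneg (by linarith) hD.le))
    nlinarith [mul_lt_mul_of_pos_left h4 (mul_pos hD hh)]
  have e : 1 - th2 N L * (1 + eR N L)
      = (DR N L * (N - 2) * (N - L) * (5 * N * (N + 2) * (N + L) * DR N L ^ 2)
          - DR N L * (2 * (N - 1) * (2 + L)) * (2 * (N - 2) * (N ^ 2 + 2 * L) * HR N L))
        / (DR N L * DR N L * (5 * N * (N + 2) * (N + L) * DR N L ^ 2)) := by
    rw [th2, eR, show N ^ 2 + N * L + 2 * (N - 2) = DR N L from rfl]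
    generalize HR N L = H
    have : (N - 2) * (N - L) = DR N L - 2 * (N - 1) * (2 + L) := by rw [DR]; ring
    rw [show DR N L * (N - 2) * (N - L) = DR N L * ((N - 2) * (N - L)) by ring, this]
    field_simp
    ring
  have : 0 < 1 - th2 N L * (1 + eR N L) := by rw [e]; exact div_pos key (by positivity)
  linarith

variable {B : Box} {X Y Z g : ℝ}

lemma xH_eval {n ln ld : Ex} (eN : n.eval X Y Z = N)
    (eL : ln.eval X Y Z = L * ld.eval X Y Z) :
    (xH n ln ld).eval X Y Z = HR N L * ld.eval X Y Z ^ 2 := by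
  simp only [xH, ni, Ex.eval, eN, eL, HR, DR]; push_cast; ring

lemma At.wE_eval (h : At B X Y Z N L s g) (hgd : B.gd.eval X Y Z = N + 2) :
    (vwE B).val X Y Z = wER N L := by
  have hN := h.hN
  have hLd := h.hLd.ne'
  have hD : (N ^ 2 + N * L + 2 * (N - 2)) ≠ 0 := by nlinarith [h.hL0]
  have hN0 : N ≠ 0 := by linarith
  have hN2 : N + 2 ≠ 0 := by linarith
  simp only [vwE, RQ.val_div, RQ.val_of]
  simp only [Box.fs, List.map_cons, List.map_nil, dprod, pow_zero, pow_one, one_mul, mul_one,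
    Ex.eval, ni, h.eN, xH_eval h.eN h.eL]
  push_cast
  simp only [h.eL, h.T2_eval, hgd, wER, DR]
  generalize HR N L = H
  generalize N ^ 2 + N * L + 2 * (N - 2) = D at hD ⊢
  field_simp
  ring

lemma xe_eval {r : Ex × Ex × Ex} (eN : r.1.eval X Y Z = N)
    (eL : r.2.1.eval X Y Z = L * r.2.2.eval X Y Z) (hN : 0 < N) (hL : 0 < L)
    (hD : 0 < DR N L) :
    (xeD r).eval X Y Z = 5 * N * (N + 2) * (N + L) * DR N L ^ 2 * r.2.2.eval X Y Z ^ 3 ∧
      (xeN r).eval X Y Z = eR N L * (xeD r).eval X Y Z := by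
  have hxd : (xeD r).eval X Y Z
      = 5 * N * (N + 2) * (N + L) * DR N L ^ 2 * r.2.2.eval X Y Z ^ 3 := by
    simp only [xeD, ni, Ex.eval, eN, eL, DR]; push_cast; ring
  refine ⟨hxd, ?_⟩
  rw [hxd, eR]
  simp only [xeN, ni, Ex.eval, xH_eval eN eL]
  simp only [eN, eL]
  push_cast
  have : N + L ≠ 0 := by linarith
  have : N + 2 ≠ 0 := by linarith
  generalize HR N L = H
  generalize DR N L = D at hD ⊢
  field_simp

/-- A range with its two certificates: the upper one reaches `θ/θ₂ < 1 + w`, where `e < w`. -/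
structure XRange (r : Ex × Ex × Ex) (fn fd : Ex) (N L w X Y : ℝ) : Prop where
  hX : 0 ≤ X
  hY : 0 ≤ Y
  eN : ∀ Z, r.1.eval X Y Z = N
  hLd : ∀ Z, 0 < r.2.2.eval X Y Z
  eL : ∀ Z, r.2.1.eval X Y Z = L * r.2.2.eval X Y Z
  hw : eR N L < w
  hfd : ∀ Z, 0 < fd.eval X Y Z
  efn : ∀ Z, fn.eval X Y Z = w * fd.eval X Y Z
  cLo : okE (extLo r) = true
  cHi : okE ⟨r.1, r.2.1, r.2.2, .add (.mul fd z1) (.mul fn .z), .mul fd z1, ni 0,
    .add r.1 (ni 2)⟩ = true

lemma exists_xrange (hN : 6 ≤ N) (hL0 : 0 < L) (hL : L < N - 2) (hc : Cov N L) :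
    ∃ r fn fd w X Y, XRange r fn fd N L w X Y := by
  have hlo := cov_curve hN hL0 hc
  have h3 : 0 < 100 * (N - 3) := by linarith
  have hh : 0 < N - 2 := by linarith
  have hD : 0 < DR N L := by unfold DR; positivity
  have hn : 0 < N := by linarith
  obtain ⟨he0, -⟩ := th2_eR_lt hN hL0 hL
  rcases lt_or_ge L 2 with h2 | h2
  · set Y := (L - (73 * N + 39) / (100 * (N - 3))) / (2 - L) with hY'
    have hY : 0 ≤ Y := div_nonneg (by linarith) (by linarith)
    have eN : ∀ Z, rF.1.eval (N - 6) Y Z = N := by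
      intro Z; simp only [rF, lin, ni, Ex.eval]; push_cast; ring
    have hLd : ∀ Z, 0 < rF.2.2.eval (N - 6) Y Z := by
      intro Z; simp only [rF, lin, y1, ni, Ex.eval]; push_cast
      exact mul_pos (by linarith) (by linarith)
    have eL : ∀ Z, rF.2.1.eval (N - 6) Y Z = L * rF.2.2.eval (N - 6) Y Z := by
      intro Z; simp only [rF, lin, y1, ni, Ex.eval]; push_cast
      have : 2 - L ≠ 0 := by linarith
      have : N - 3 ≠ 0 := by linarith
      rw [hY']; field_simp; ring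
    have hfd : ∀ Z, (xfD rF).eval (N - 6) Y Z = 110 * N := by
      intro Z; simp only [xfD, ni, Ex.eval, eN]; push_cast; ring
    have hfd0 : ∀ Z, 0 < (xfD rF).eval (N - 6) Y Z := fun Z => by
      rw [hfd]; positivity
    obtain ⟨w, hw⟩ : ∃ w, w = (2 * N - 3) / (110 * N) := ⟨_, rfl⟩
    have efn : ∀ Z, (xfN rF).eval (N - 6) Y Z = w * (xfD rF).eval (N - 6) Y Z := by
      intro Z; rw [hfd, hw]; simp only [xfN, ni, Ex.eval, eN]; push_cast; field_simp
    refine ⟨rF, xfN rF, xfD rF, w, N - 6, Y, by linarith, hY, eN, hLd, eL, ?_, hfd0, efn,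
      certE_A, certE_C⟩
    obtain ⟨e1, e2⟩ := xe_eval (eN 0) (eL 0) hn hL0 hD
    have := nonneg_of_check certF (by linarith : 0 ≤ N - 6) hY (le_refl (0:ℝ))
    simp only [ni, Ex.eval, efn, e2] at this
    push_cast at this
    have hxd0 : 0 < (xeD rF).eval (N - 6) Y 0 := by rw [e1]; have := hLd 0; positivity
    by_contra hcon
    push Not at hcon
    have hP : (0:ℝ) < (N - 6 + 2) ^ 16 := pow_pos (by linarith) _
    generalize (N - 6 + 2) ^ 16 = P at hP this
    nlinarith [mul_le_mul_of_nonneg_right (mul_le_mul_of_nonneg_right hcon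
      (mul_pos (hfd0 0) hxd0).le) hP.le]
  · set Y := (L - 2) / (N - 2 - L) with hY'
    have hY : 0 ≤ Y := div_nonneg (by linarith) (by linarith)
    have eN : ∀ Z, rE.1.eval (N - 6) Y Z = N := by
      intro Z; simp only [rE, lin, ni, Ex.eval]; push_cast; ring
    have hLd : ∀ Z, 0 < rE.2.2.eval (N - 6) Y Z := by
      intro Z; simp only [rE, y1, ni, Ex.eval]; push_cast; linarith
    have eL : ∀ Z, rE.2.1.eval (N - 6) Y Z = L * rE.2.2.eval (N - 6) Y Z := by
      intro Z; simp only [rE, lin, y1, ni, Ex.eval]; push_cast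
      have : N - 2 - L ≠ 0 := by linarith
      rw [hY']; field_simp; ring
    refine ⟨rE, .mul (ni 11) (xeN rE), .mul (ni 10) (xeD rE), 11 / 10 * eR N L, N - 6, Y,
      by linarith, hY, eN, hLd, eL, by linarith, fun Z => ?_, fun Z => ?_, certE_B, certE_D⟩
    · simp only [ni, Ex.eval, (xe_eval (eN Z) (eL Z) hn hL0 hD).1]
      push_cast; have := hLd Z; positivity
    · simp only [ni, Ex.eval, (xe_eval (eN Z) (eL Z) hn hL0 hD).2]; push_cast; ring

/-- **(iii)** at `W = extL` on the box. -/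
theorem quad_pos_ext (hN : 6 ≤ N) (hL0 : 0 < L) (hL : L < N - 2) (hc : Cov N L)
    (hs0 : 4 / 5 ≤ s) (hs1 : s ≤ 1 + eR N L) :
    0 < (base3 N L (th2 N L * s) (wER N L)).quad := by
  obtain ⟨r, fn, fd, w, X, Y, R⟩ := exists_xrange hN hL0 hL hc
  obtain ⟨-, he⟩ := th2_eR_lt hN hL0 hL
  obtain ⟨ht0, -⟩ := th2_lt_one (N := N) (by linarith) hL0 hL
  have hts : th2 N L * s < 1 := (mul_le_mul_of_nonneg_left hs1 ht0.le).trans_lt he
  have hgd : ∀ Z, (Ex.add r.1 (ni 2)).eval X Y Z = N + 2 := fun Z => by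
    simp only [Ex.eval, ni, R.eN]; push_cast; ring
  rcases lt_or_ge s 1 with h | h
  · have hz : 0 ≤ (5 * s - 4) / (5 * (1 - s)) := div_nonneg (by linarith) (by linarith)
    have H : At (extLo r) X Y ((5 * s - 4) / (5 * (1 - s))) N L s 0 := by
      refine ⟨R.hX, R.hY, hz, hN, hL0, hL, by linarith, hts, R.eN _, R.hLd _, R.eL _, ?_, ?_,
        ?_, ?_⟩
      · simp only [extLo, z1, ni, Ex.eval]; push_cast; linarith
      · simp only [extLo, z1, ni, Ex.eval]; push_cast
        have : 1 - s ≠ 0 := by linarith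
        field_simp; ring
      · show 0 < (Ex.add r.1 (ni 2)).eval X Y _
        rw [hgd]; linarith
      · simp [extLo, ni, Ex.eval]
    have := H.quad_pos _ R.cLo
    rwa [H.wE_eval (hgd _)] at this
  · have hw := R.hw
    obtain ⟨Z, hZ⟩ : ∃ Z, Z = (s - 1) / (w - (s - 1)) := ⟨_, rfl⟩
    have hz : 0 ≤ Z := by rw [hZ]; exact div_nonneg (by linarith) (by linarith)
    have hZ' : Z * (w - (s - 1)) = s - 1 := by
      rw [hZ, div_mul_eq_mul_div, div_eq_iff (by linarith)]
    have H : At ⟨r.1, r.2.1, r.2.2, .add (.mul fd z1) (.mul fn .z), .mul fd z1, ni 0,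
        .add r.1 (ni 2)⟩ X Y Z N L s 0 := by
      refine ⟨R.hX, R.hY, hz, hN, hL0, hL, by linarith, hts, R.eN _, R.hLd _, R.eL _, ?_, ?_,
        ?_, ?_⟩
      · simp only [z1, ni, Ex.eval]; push_cast
        exact mul_pos (R.hfd _) (by linarith)
      · simp only [z1, ni, Ex.eval, R.efn]; push_cast
        linear_combination (fd.eval X Y Z) * hZ'
      · show 0 < (Ex.add r.1 (ni 2)).eval X Y _
        rw [hgd]; linarith
      · simp [ni, Ex.eval]
    have := H.quad_pos _ R.cHi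
    rwa [H.wE_eval (hgd _)] at this

end Vale.Agent.P100T.Ineq3
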