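import Vale.Agent.P100T.IneqIIIOne
import Vale.Agent.P100T.IneqIIIOneExtCertA
import Vale.Agent.P100T.IneqIIIOneExtCertB

/-!
Inequality (iii) on the lower edge `W = extL` of the extension box, `σ∞ = 1`, in the variables
`x = T - 1`, `r = (σ - 1)/(s₂ - 1)`.
-/

noncomputable section

namespace Vale.Agent.P100T.Ineq3One

open PosCheck

/-- `den = N² (1 + T) + 2 (N - 2) T` at `T = 1 + x`. -/
def denO (N x : ℝ) : ℝ := N ^ 2 * (2 + x) + 2 * (N - 2) * (1 + x)
/-- `(N - 2)(p + 2 - s₂)`. -/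
def a1O (N x : ℝ) : ℝ := N * (2 + x) - (N - 2) * x * rho N (1 + x)
/-- `N T - (N - 2) s₂`. -/
def a2O (N x : ℝ) : ℝ := 2 + N * x - (N - 2) * x * rho N (1 + x)
/-- The excess of `r` at `extS3`. -/
def eO (N x : ℝ) : ℝ :=
  2 * (1 + x) * (N - 2) * a1O N x * a2O N x
    / (5 * N ^ 2 * (2 + x) * denO N x * (2 + x + x * rho N (1 + x)))
/-- `extL`. -/
def wEO (N x : ℝ) : ℝ :=
  (67 / 100 - 3 / (100 * (1 + x))) *
    (2 * x * rho N (1 + x) * (1 + x) * a1O N x * a2O N x
      / (N * denO N x * (2 + x + x * rho N (1 + x))))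

variable {N x r : ℝ}

lemma ext_bounds (hN : 6 ≤ N) (hx : 0 < x) :
    0 < a1O N x ∧ 0 < a2O N x ∧ 0 < eO N x ∧ rho N (1 + x) * (1 + eO N x) < 1 := by
  obtain ⟨hr0, hr1⟩ := rho_bounds (T := 1 + x) hN (by linarith)
  have hh : 0 < N - 2 := by linarith
  have hn : 0 < N := by linarith
  have hd : 0 < denO N x := by unfold denO; positivity
  have h1 : (N - 2) * x * rho N (1 + x) ≤ (N - 2) * x :=
    mul_le_of_le_one_right (by positivity) hr1.le
  have h1' : 0 ≤ (N - 2) * x * rho N (1 + x) := by positivity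
  have ha1 : 0 < a1O N x := by unfold a1O; linarith
  have ha2 : 0 < a2O N x := by unfold a2O; linarith
  have hS : 0 < 2 + x + x * rho N (1 + x) := by positivity
  have hA : a1O N x * a2O N x < 5 * denO N x * (2 + x + x * rho N (1 + x)) := by
    have b1 : a1O N x ≤ N * (2 + x) := by unfold a1O; linarith
    have b2 : a2O N x ≤ 2 + N * x := by unfold a2O; linarith
    have b3 : N ^ 2 * (2 + x) ≤ denO N x := by
      have : 0 ≤ 2 * (N - 2) * (1 + x) := by positivity
      unfold denO; linarith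
    have b4 : 0 ≤ x * rho N (1 + x) := by positivity
    have b5 : 2 + N * x < 5 * N * (2 + x) := by nlinarith
    calc a1O N x * a2O N x ≤ N * (2 + x) * (2 + N * x) := by gcongr
      _ < N * (2 + x) * (5 * N * (2 + x)) := mul_lt_mul_of_pos_left b5 (by positivity)
      _ = 5 * (N ^ 2 * (2 + x)) * (2 + x) := by ring
      _ ≤ 5 * denO N x * (2 + x + x * rho N (1 + x)) :=
          mul_le_mul (by linarith) (by linarith) (by positivity) (by positivity)
  refine ⟨ha1, ha2, by unfold eO; positivity, ?_⟩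
  have e : 1 - rho N (1 + x) * (1 + eO N x) = 2 * (N - 2) * (1 + x)
      * (5 * denO N x * (2 + x + x * rho N (1 + x)) - a1O N x * a2O N x)
      / (5 * denO N x ^ 2 * (2 + x + x * rho N (1 + x))) := by
    rw [eO]
    generalize a1O N x = a at *
    generalize a2O N x = b at *
    have er : rho N (1 + x) = N ^ 2 * (2 + x) / denO N x := by
      rw [rho, denO, show 1 + (1 + x) = 2 + x by ring]
    generalize hS' : 2 + x + x * rho N (1 + x) = S at hS ⊢
    rw [er]
    field_simp
    rw [denO]; ring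
  have : 0 < 1 - rho N (1 + x) * (1 + eO N x) := by
    rw [e]
    have : 0 < 5 * denO N x * (2 + x + x * rho N (1 + x)) - a1O N x * a2O N x := by linarith
    positivity
  linarith

variable {B : Box} {X Y Z g : ℝ}

lemma At.xA_eval (h : At B X Y Z N x r g) :
    Box.xA1.eval X Y Z = 2 / x * (denO N x * a1O N x / (N * (2 + x))) ∧
    Box.xA2.eval X Y Z = (2 / x) ^ 2 * (denO N x * a2O N x) ∧
    Box.xS.eval X Y Z = 2 / x * (denO N x * (2 + x + x * rho N (1 + x)) / (2 + x)) := by
  obtain ⟨e1, e2, e3, e4, -, e6⟩ := h.evals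
  have hN := h.N6
  have hx := h.x_pos
  have hd : 0 < N ^ 2 * (2 + x) + 2 * (N - 2) * (1 + x) := by
    have : 0 < N - 2 := by linarith
    positivity
  simp only [Box.xA1, Box.xA2, Box.xS, Box.ni, Ex.eval, e1, e2, e3, e4, e6, a1O, a2O, rho, denO]
  push_cast
  rw [show 1 + (1 + x) = 2 + x by ring]
  generalize hD : N ^ 2 * (2 + x) + 2 * (N - 2) * (1 + x) = D at hd ⊢
  refine ⟨?_, ?_, ?_⟩
  · field_simp
  · field_simp; ring
  · field_simp

lemma At.wE_eval (h : At B X Y Z N x r g) (hgd : B.gd.eval X Y Z = Box.xS.eval X Y Z) :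
    (Box.vwE B).val X Y Z = wEO N x := by
  obtain ⟨e1, -, e3, e4, -, e6⟩ := h.evals
  obtain ⟨f1, f2, f3⟩ := h.xA_eval
  have hN := h.N6
  have hx := h.x_pos
  have hd : 0 < denO N x := by
    have : 0 < N - 2 := by linarith
    unfold denO; positivity
  obtain ⟨hr0, -⟩ := rho_bounds (T := 1 + x) hN (by linarith)
  have hS : 0 < 2 + x + x * rho N (1 + x) := by positivity
  simp only [Box.vwE, RQ.val_div, RQ.val_of]
  simp only [Box.fs, List.map_cons, List.map_nil, dprod, pow_zero, pow_one, one_mul, mul_one,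
    Box.ni, Ex.eval, e1, e3, e4, e6, f1, f2, hgd, f3]
  push_cast
  rw [show N ^ 2 * (2 + x) + 2 * (N - 2) * (1 + x) = denO N x from rfl, wEO]
  generalize a1O N x = a
  generalize a2O N x = b
  generalize hS' : 2 + x + x * rho N (1 + x) = S at hS ⊢
  rw [rho, show 1 + (1 + x) = 2 + x by ring,
    show N ^ 2 * (2 + x) + 2 * (N - 2) * (1 + x) = denO N x from rfl]
  generalize denO N x = D at hd ⊢
  field_simp
  ring

/-- **(iii)** at `W = extL` on the box, `σ∞ = 1`. -/
theorem quad_pos_ext (hN : 6 ≤ N) (hx0 : 0 < x) (hx : (N - 2) * x ≤ 2) (hr0 : 4 / 5 ≤ r)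
    (hr1 : r ≤ 1 + eO N x) :
    0 < (baseR N (1 + x) (1 + x * rho N (1 + x) * r) (wEO N x)).quad := by
  have hh : 0 < N - 2 := by linarith
  set Y := 2 / ((N - 2) * x) - 1 with hY
  have hY0 : 0 ≤ Y := by rw [hY, sub_nonneg, one_le_div (by positivity)]; exact hx
  have ex : x = 2 / ((N - 2) * (1 + Y)) := by rw [hY]; field_simp; ring
  obtain ⟨ha1, ha2, he0, he⟩ := ext_bounds hN hx0
  obtain ⟨hro, -⟩ := rho_bounds (T := 1 + x) hN (by linarith)
  have hts : rho N (1 + x) * r < 1 := (mul_le_mul_of_nonneg_left hr1 hro.le).trans_lt he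
  have hxS : ∀ Z, 0 < Box.xS.eval (N - 6) Y Z := by
    intro Z
    simp only [Box.xS, Box.rod, Box.N, Box.xd, Box.Tn, Box.h, Box.ni, Ex.eval]
    push_cast
    have : (0:ℝ) < 4 + (N - 6) := by linarith
    have : (0:ℝ) < 6 + (N - 6) := by linarith
    positivity
  rcases lt_or_ge r 1 with h | h
  · have hz : 0 ≤ (5 * r - 4) / (5 * (1 - r)) := div_nonneg (by linarith) (by linarith)
    have H : At Box.extLo (N - 6) Y ((5 * r - 4) / (5 * (1 - r))) N x r 0 := by
      refine ⟨by linarith, hY0, hz, by ring, ex, by linarith, hts, ?_, ?_, hxS _, ?_⟩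
      · simp only [Box.extLo, Box.z1, Box.ni, Ex.eval]; push_cast; linarith
      · simp only [Box.extLo, Box.z1, Box.ni, Ex.eval]; push_cast
        have : 1 - r ≠ 0 := by linarith
        field_simp; ring
      · simp [Box.extLo, Box.ni, Ex.eval]
    have := H.quad_pos _ Box.certE_A
    rwa [H.wE_eval rfl] at this
  · obtain ⟨w, hw'⟩ : ∃ w, w = 27 * (2 + x) / (250 * (N + 2) ^ 2) := ⟨_, rfl⟩
    have hd : 0 < denO N x := by unfold denO; positivity
    have hn : 0 < N := by linarith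
    have hu : 0 < 2 / x := by positivity
    have hS : 0 < 2 + x + x * rho N (1 + x) := by positivity
    have H0 : ∀ Z, 0 ≤ Z → At ⟨Box.ni 1, Box.ni 1, Box.ni 0, Box.ni 1⟩ (N - 6) Y Z N x 1 0 := by
      intro Z hz
      refine ⟨by linarith, hY0, hz, by ring, ex, zero_le_one, ?_, ?_, ?_, ?_, ?_⟩
      · linarith [(rho_bounds (T := 1 + x) hN (by linarith)).2]
      all_goals simp [Box.ni, Ex.eval]
    have hfd : ∀ Z, 0 ≤ Z → Box.xfD.eval (N - 6) Y Z = 250 * (2 / x) * (N + 2) ^ 2 ∧
        Box.xfN.eval (N - 6) Y Z = w * Box.xfD.eval (N - 6) Y Z := by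
      intro Z hz
      obtain ⟨e1, -, e3, e4, -, -⟩ := (H0 Z hz).evals
      simp only [Box.xfD, Box.xfN, Box.ni, Ex.eval, e1, e3, e4, hw']
      push_cast
      refine ⟨by ring, ?_⟩
      field_simp
      ring
    have hw : eO N x < w := by
      obtain ⟨e1, e2, e3, e4, -, e6⟩ := (H0 0 le_rfl).evals
      obtain ⟨f1, f2, f3⟩ := (H0 0 le_rfl).xA_eval
      obtain ⟨g1, g2⟩ := hfd 0 le_rfl
      have hxd : Box.xeD.eval (N - 6) Y 0 =
          5 * N * (2 + x) * (2 / x) * ((denO N x * (2 / x)) ^ 2 *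
            (2 / x * (denO N x * (2 + x + x * rho N (1 + x)) / (2 + x)))) := by
        simp only [Box.xeD, Box.ni, Ex.eval, e1, e3, e4, e6, f3, denO]; push_cast; ring
      have hxd0 : 0 < Box.xeD.eval (N - 6) Y 0 := by rw [hxd]; positivity
      have hxn : Box.xeN.eval (N - 6) Y 0 = eO N x * Box.xeD.eval (N - 6) Y 0 := by
        rw [hxd, eO]
        simp only [Box.xeN, Box.ni, Ex.eval, e2, e4, f1, f2]
        push_cast
        generalize a1O N x = a
        generalize a2O N x = b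
        generalize 2 + x + x * rho N (1 + x) = S at hS ⊢
        generalize denO N x = D at hd ⊢
        field_simp
      have := nonneg_of_check Box.certF (by linarith : 0 ≤ N - 6) hY0 (le_refl (0:ℝ))
      simp only [Box.ni, Ex.eval, g2, hxn] at this
      push_cast at this
      by_contra hcon
      push Not at hcon
      have : 0 < Box.xfD.eval (N - 6) Y 0 := by rw [g1]; positivity
      nlinarith [mul_le_mul_of_nonneg_right hcon (mul_pos this hxd0).le]
    obtain ⟨Z, hZ⟩ : ∃ Z, Z = (r - 1) / (w - (r - 1)) := ⟨_, rfl⟩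
    have hz : 0 ≤ Z := by rw [hZ]; exact div_nonneg (by linarith) (by linarith)
    have hZ' : Z * (w - (r - 1)) = r - 1 := by
      rw [hZ, div_mul_eq_mul_div, div_eq_iff (by linarith)]
    obtain ⟨g1, g2⟩ := hfd Z hz
    have H : At Box.extHi (N - 6) Y Z N x r 0 := by
      refine ⟨by linarith, hY0, hz, by ring, ex, by linarith, hts, ?_, ?_, hxS _, ?_⟩
      · simp only [Box.extHi, Box.z1, Box.ni, Ex.eval, g1]; push_cast; positivity
      · simp only [Box.extHi, Box.z1, Box.ni, Ex.eval, g2]; push_cast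
        linear_combination (Box.xfD.eval (N - 6) Y Z) * hZ'
      · simp [Box.extHi, Box.ni, Ex.eval]
    have := H.quad_pos _ Box.certE_B
    rwa [H.wE_eval rfl] at this

end Vale.Agent.P100T.Ineq3One
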