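import Vale.Agent.P100T.IneqIII
import Vale.Agent.P100T.IneqI
import Vale.Agent.P100T.UpperLine

/-!
(ii) and (iii) for the certificate at `σ∞ > 1`, on the region below `τ₀`.
-/

noncomputable section

namespace Vale.Agent.P100T

open Ineq3

/-- The constant `G` of the certificate, `T = (p+1)/(q+1)`. -/
def certG (N T si : ℝ) : ℝ :=
  (4 / 25 + 15 / (2 * N ^ 2)) * (1 + 69 / (5 * (N ^ 2 - 12))) * (T - 1)
    / ((T - 1 + 19 / 84 - 5 / (7 * N)) * (1 + 6 * T / (5 * N)) * (T - si))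

lemma certG_eq {N L : ℝ} (hN : 6 ≤ N) (hL0 : 0 < L) (hL : L < N - 2) :
    certG N (N / L) ((N - 2) * (N / L) / N) = phiR N L * L / 2 := by
  have hK := phi_den hN hL
  have : N ≠ 0 := by linarith
  have : L ≠ 0 := hL0.ne'
  have : N / L - (N - 2) * (N / L) / N = 2 / L := by field_simp; ring
  rw [certG, phiR, this]
  have e1 : N / L - 1 + 19 / 84 - 5 / (7 * N) = (84 * (N * N) - (65 * N + 60) * L) / (84 * N * L) := by
    field_simp; ring
  have e2 : N - L + (19 / 84 - 5 / (7 * N)) * L = (84 * (N * N) - (65 * N + 60) * L) / (84 * N) := by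
    field_simp; ring
  have e3 : 1 + 6 * (N / L) / (5 * N) = (5 * L + 6) / (5 * L) := by field_simp
  rw [e1, e2, e3]
  generalize (4 / 25 + 15 / (2 * N ^ 2)) * (1 + 69 / (5 * (N ^ 2 - 12))) = a
  have : (5 * L + 6) ≠ 0 := by linarith
  have := hK.ne'
  field_simp

/-- The crossover offset of the lower line is below `gUp`. -/
lemma gUp_ge {N L : ℝ} (hN : 6 ≤ N) (hL0 : 0 < L) (hL : L < N - 2) :
    1 / lineM N (N / L) ≤ gUp N L := by
  have hN0 : 0 < N := by linarith
  have hT : 0 < N / L := by positivity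
  have hsq : 0 ≤ N * (N / L - 1) ^ 2 / (4 * (N / L) ^ 2) := by positivity
  rw [gUp, lineM]
  split_ifs with h
  · have e : 16 * L ^ 2 / (48 * N ^ 2 + N * L ^ 2) = 1 / (3 * (N / L) ^ 2 + N / 16) := by
      field_simp; ring
    rw [e]
    refine one_div_le_one_div_of_le (by positivity) ?_
    have : N / 16 ≤ N * (N / L - 1) ^ 2 / (4 * (N / L) ^ 2) := by
      rw [div_le_div_iff₀ (by norm_num) (by positivity)]
      have h2 : 2 ≤ N / L := by rw [le_div_iff₀ hL0]; linarith [h.1]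
      have : (N / L) ^ 2 ≤ 4 * (N / L - 1) ^ 2 := by nlinarith
      nlinarith [mul_le_mul_of_nonneg_left this hN0.le]
    linarith
  · rw [show L ^ 2 / (3 * N ^ 2) = 1 / (3 * (N / L) ^ 2) by field_simp]
    exact one_div_le_one_div_of_le (by positivity) (by linarith)

section scale

variable {N p q L : ℝ}

lemma pq_scale (hN : 6 ≤ N) (hL0 : 0 < L) (hP : (N - 2) * (p + 1) = N * (1 + N / L))
    (hQ : (q + 1) * (N / L) = p + 1) :
    p + 1 = N * (N + L) / ((N - 2) * L) ∧ q + 1 = (N + L) / (N - 2) ∧ q = (2 + L) / (N - 2) := by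
  have hh : N - 2 ≠ 0 := by linarith
  have hl : L ≠ 0 := hL0.ne'
  have hn : N ≠ 0 := by linarith
  have e1 : p + 1 = N * (N + L) / ((N - 2) * L) := by
    field_simp at hP ⊢; linarith
  have e2 : q + 1 = (N + L) / (N - 2) := by
    rw [e1] at hQ; field_simp at hQ ⊢; linarith
  refine ⟨e1, e2, ?_⟩
  rw [eq_sub_iff_add_eq.2 e2]; field_simp; ring

lemma cov_scale (hN : 6 ≤ N) (hL0 : 0 < L) (hP : (N - 2) * (p + 1) = N * (1 + N / L))
    (hQ : (q + 1) * (N / L) = p + 1) (hcov : 1 < q ∨ N - 1 ≤ (p + 1) * (q * (N - 3) - 2)) :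
    Cov N L := by
  obtain ⟨e1, _, e3⟩ := pq_scale hN hL0 hP hQ
  have hh : 0 < N - 2 := by linarith
  rcases hcov with h | h
  · left; rw [e3, lt_div_iff₀ hh] at h; linarith
  · right
    have e : (p + 1) * (q * (N - 3) - 2)
        = N * (L + N) * ((N - 3) * L - 2) / ((N - 2) ^ 2 * L) := by
      rw [e1, e3]; field_simp; ring
    rw [e, le_div_iff₀ (by positivity)] at h
    linarith

lemma upSi_scale (hN : 6 ≤ N) (hL0 : 0 < L) (hL : L < N - 2)
    (hP : (N - 2) * (p + 1) = N * (1 + N / L)) (hQ : (q + 1) * (N / L) = p + 1) :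
    upSi N p q = (N - 2) / L ∧ upR N p q = 2 * th2 N L / L ∧
      (N * (p + 1) + 2) / (N * (q + 1) + 2) = sOf N L (th2 N L) := by
  obtain ⟨e1, e2, _⟩ := pq_scale hN hL0 hP hQ
  have hh : N - 2 ≠ 0 := by linarith
  have hn : 0 < N := by linarith
  have hNL : N + L ≠ 0 := by linarith
  have hD : 0 < N ^ 2 + N * L + 2 * (N - 2) := by nlinarith
  have es : (N * (p + 1) + 2) / (N * (q + 1) + 2) = sOf N L (th2 N L) := by
    have hB : 0 < N * ((N + L) / (N - 2)) + 2 := by
      have : 0 < N - 2 := by linarith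
      positivity
    have : N * (N + L) + 2 * (N - 2) ≠ 0 := by nlinarith
    rw [e1, e2, sOf, th2, div_eq_div_iff hB.ne' hL0.ne']; field_simp; ring
  have eq : sEq N p q = (N - 2) / L := by rw [sEq, e1, e2]; field_simp
  have h1 : 1 ≤ (N - 2) / L := by rw [le_div_iff₀ hL0]; linarith
  have em : upSi N p q = (N - 2) / L := by rw [upSi, eq, max_eq_right h1]
  exact ⟨em, by rw [upR, es, em, sOf]; ring, es⟩

lemma upU_scale (hN : 6 ≤ N) (hL0 : 0 < L) (hL : L < N - 2)
    (hP : (N - 2) * (p + 1) = N * (1 + N / L)) (hQ : (q + 1) * (N / L) = p + 1) (r : ℝ) :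
    upU N p q (sOf N L (th2 N L * r)) / (N / L) ^ 2 = wUR N L r := by
  obtain ⟨em, er, _⟩ := upSi_scale hN hL0 hL hP hQ
  obtain ⟨ht0, _⟩ := th2_lt_one (N := N) (by linarith) hL0 hL
  rw [upU, upB, upA, upBe, em, er, wUR, sOf]
  have h6 : 0 < (N - 2 - L) * (N - 2) + 6 * L := by nlinarith
  have hb : 0 < L + 2 * (N - 2) * (N - 2 - L) := by nlinarith
  have : N - 1 ≠ 0 := by linarith
  have : N - 2 ≠ 0 := by linarith
  have : N ≠ 0 := by linarith
  have : (N - 2) * ((N - 2) / L - 1) + 6 ≠ 0 := by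
    have : 0 ≤ (N - 2) * ((N - 2) / L - 1) := mul_nonneg (by linarith)
      (by rw [sub_nonneg, le_div_iff₀ hL0]; linarith)
    linarith
  have : 1 + 2 * (N - 2) * ((N - 2) / L - 1) ≠ 0 := by
    have : 0 ≤ 2 * (N - 2) * ((N - 2) / L - 1) := mul_nonneg (by linarith)
      (by rw [sub_nonneg, le_div_iff₀ hL0]; linarith)
    linarith
  generalize th2 N L = t at ht0 ⊢
  field_simp
  ring

lemma lineSm_scale (hN : 6 ≤ N) (hL0 : 0 < L) (hL : L < N - 2) :
    lineSm N (N / L) = sOf N L (th2 N L * (1 / lineM N (N / L))) := by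
  have hn : N ≠ 0 := by linarith
  have hh : 0 < N - 2 := by linarith
  have hD : 0 < N ^ 2 + N * L + 2 * (N - 2) := by nlinarith
  have eS : lineS2 N (N / L) = sOf N L (th2 N L) := by
    have hT : 0 < N / L := by positivity
    have : 0 < N ^ 2 * (1 + N / L) + 2 * (N - 2) * (N / L) := by positivity
    rw [lineS2, sOf, th2]; field_simp; ring
  have e : (N - 2) * (N / L) / N = (N - 2) / L := by field_simp
  rw [lineSm, eS, e, max_eq_right (by rw [le_div_iff₀ hL0]; linarith), sOf, sOf]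
  ring

lemma wL_scale (hN : 6 ≤ N) (hL0 : 0 < L) (hL : L < N - 2) {r W : ℝ}
    (hW : lineK N (N / L) * (sOf N L (th2 N L * r) - lineSm N (N / L)) ≤ W) :
    wLR N L (gUp N L) r ≤ W / (N / L) ^ 2 := by
  have hn : 0 < N := by linarith
  have hk : 0 ≤ lineK N (N / L) := by
    have : (0:ℝ) < N / L - 1 := by rw [sub_pos, one_lt_div hL0]; linarith
    unfold lineK; positivity
  obtain ⟨ht0, _⟩ := th2_lt_one (N := N) (by linarith) hL0 hL
  rw [le_div_iff₀ (by positivity)]
  refine le_trans ?_ hW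
  rw [lineSm_scale hN hL0 hL, wLR, sOf, sOf, show kR N L = lineK N (N / L) from rfl]
  have hg := mul_le_mul_of_nonneg_left (gUp_ge hN hL0 hL)
    (mul_nonneg hk (by positivity : (0:ℝ) ≤ 2 * th2 N L / L))
  generalize lineK N (N / L) = k at *
  generalize gUp N L = g at *
  generalize 1 / lineM N (N / L) = g' at *
  generalize th2 N L = t at *
  have e1 : k * 2 * L / N ^ 2 * (t * (r - g)) * (N / L) ^ 2 = k * (2 * t / L) * (r - g) := by
    field_simp
  have e2 : k * ((N - 2 + 2 * (t * r)) / L - (N - 2 + 2 * (t * g')) / L)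
      = k * (2 * t / L) * (r - g') := by ring
  rw [e1, e2, mul_sub, mul_sub]
  linarith

end scale

/-- `ce - c > 0` below the upper curve. -/
lemma CPar.P0_pos_gt {C : CPar} {N L s W : ℝ} (hCN : C.N = N) (hN : 6 ≤ N) (hL0 : 0 < L)
    (hL : L < N - 2) (hP : (N - 2) * (C.p + 1) = N * (1 + N / L))
    (hQ : (C.q + 1) * (N / L) = C.p + 1) (hG : 0 ≤ C.G) (hsi : C.si = (N - 2) / L)
    (hc1 : C.c1 = -N / (2 * (N - 2)) - (C.si - 1) / (20 * N * (N / L) ^ 2))
    (hs : C.si < s) (hst : s ≤ N / L) (hW0 : 0 ≤ W) (hWU : W ≤ upU N C.p C.q s) :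
    0 < C.P0 s W := by
  obtain ⟨em, er, _⟩ := upSi_scale hN hL0 hL hP hQ
  obtain ⟨ht0, ht1⟩ := th2_lt_one (N := N) (by linarith) hL0 hL
  have hh : 0 < N - 2 := by linarith
  have hn : 0 < N := by linarith
  have hN1 : 0 < N - 1 := by linarith
  have ee : N / L * (N - 2) / N = (N - 2) / L := by field_simp
  have h1 : 1 < (N - 2) / L := by rw [lt_div_iff₀ hL0]; linarith
  have hd1 : 0 < (N - 2) / L - 1 := by linarith
  have hA0 : 0 ≤ upA N C.p C.q := by rw [upA, em]; positivity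
  have hA : upA N C.p C.q ≤ 2 / (N - 2) + 2 * (N / L * (N - 2) / N - 1) / (N - 1) := by
    rw [upA, em, ee, mul_div_assoc, mul_div_assoc]
    have : 0 ≤ ((N - 2) / L - 1) / (N - 1) := div_nonneg hd1.le hN1.le
    linarith
  have hB : upB N C.p C.q * (N / L * (N - 2) / N - 1 + 3 / (2 * (N - 2))) ≤
      3 / 10 * (N / L / N) * upA N C.p C.q * (N / L * (N - 2) / N - 1) := by
    rw [upB, er, em, ee, show N / L / N = 1 / L by field_simp]
    generalize (N - 2) / L - 1 = d at hd1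
    generalize upA N C.p C.q = a at hA0
    have e : 11 / 100 * a * (2 * th2 N L / L) * ((N - 2) * d / ((N - 2) * d + 6))
        * (d + 3 / (2 * (N - 2)))
        = a * d / L * (22 / 100 * th2 N L * ((2 * (N - 2) * d + 3) / (2 * ((N - 2) * d + 6)))) := by
      field_simp; ring
    rw [e, show 3 / 10 * (1 / L) * a * d = a * d / L * (3 / 10) by ring]
    refine mul_le_mul_of_nonneg_left ?_ (by positivity)
    have : (2 * (N - 2) * d + 3) / (2 * ((N - 2) * d + 6)) ≤ 1 := by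
      rw [div_le_one (by positivity)]; linarith
    nlinarith [mul_le_mul_of_nonneg_left this ht0.le]
  have hy : 0 ≤ s - (N - 2) / L := by linarith
  have hWlin : W ≤ upA N C.p C.q * (s - N / L * (N - 2) / N) + upB N C.p C.q := by
    refine hWU.trans ?_
    rw [upU, em, ee]
    have h2 : 0 ≤ upBe N C.p C.q := by rw [upBe, em]; positivity
    have h3 : 0 ≤ upR N C.p C.q := by rw [er]; positivity
    have : 0 ≤ upA N C.p C.q * ((s - (N - 2) / L) * (upBe N C.p C.q * (s - (N - 2) / L) / upR N C.p C.q)) := by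
      positivity
    linarith
  have hI := Ineq.ineqI_gt (N := N) (tb := N / L) (s := s) (W := W) (G := C.G) (c := C.c s)
    (δ := (C.si - 1) / (20 * N * (N / L) ^ 2)) (by linarith) (by rw [ee]; exact h1)
    (by rw [ee]; linarith) hst hA hB hWlin (div_nonneg (by linarith) (by positivity))
    (by rw [CPar.c, hc1, ee, hsi])
  rw [ee] at hI
  have hpos1 : 0 < ((N - 2) / L - 1) * (2 * (N - 1) * (N / L) / N) ^ 2
      / (2 * (N - 2) * (N / L)) / (s + N / L) ^ 2 := by
    have : 0 < s + N / L := by have : 0 < N / L := by positivity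
                               linarith
    positivity
  have hK : C.K s = (C.q + 1) * (s + N / L) := by rw [CPar.K, ← hQ]; ring
  have hq1 : C.q + 1 ≠ 0 := by rw [(pq_scale hN hL0 hP hQ).2.1]; positivity
  have hP' : C.p + 1 = N * (1 + N / L) / (N - 2) := by
    rw [eq_div_iff hh.ne']; linarith
  have hce : C.ce s W = Ineq.ceF N (N / L) s (s * (s - 1) + W) := by
    have hsT : s + N / L ≠ 0 := by
      have : 0 < N / L := by positivity
      linarith
    have hNs0 : 0 < N + L * s := add_pos hn (mul_pos hL0 (by linarith))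
    have hNs : N + L * s ≠ 0 := hNs0.ne'
    have hNs' : L * s + N ≠ 0 := by linarith
    rw [CPar.ce, CPar.mu, CPar.l, hK, CPar.V, Ineq.ceF, Ineq.pp, hCN, hP']
    field_simp; ring
  have : 0 ≤ C.G * (s - (N - 2) / L) := mul_nonneg hG hy
  rw [CPar.P0, hce, CPar.V]
  exact mul_pos (by nlinarith) (by linarith)

/-- **(ii), (iii) when `σ∞ > 1`**, for every `N ≥ 6` outside the corner. -/
theorem CPar.strict_disc_gt {C : CPar} {T s W : ℝ} (hN : 6 ≤ C.N) (hT0 : 0 < T)
    (hP : (C.N - 2) * (C.p + 1) = C.N * (1 + T)) (hQ : (C.q + 1) * T = C.p + 1)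
    (hss : C.N < (C.N - 2) * T)
    (hM : C.M = (C.N - 4) / C.N + 2 / ((C.N - 2) * (C.p + 1)))
    (hsi : C.si = (C.N - 2) * T / C.N) (hG : C.G = certG C.N T C.si)
    (hc1 : C.c1 = -C.N / (2 * (C.N - 2)) - (C.si - 1) / (20 * C.N * T ^ 2))
    (hcov : 1 < C.q ∨ C.N - 1 ≤ (C.p + 1) * (C.q * (C.N - 3) - 2))
    (hs : C.si < s) (hs2 : s ≤ (C.N * (C.p + 1) + 2) / (C.N * (C.q + 1) + 2))
    (hW0 : 0 ≤ W) (hWL : lineK C.N T * (s - lineSm C.N T) ≤ W)
    (hWU : W ≤ upU C.N C.p C.q s) :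
    0 < C.P2 s W ∧ C.P1 s W ^ 2 < 4 * C.P2 s W * C.P0 s W := by
  obtain ⟨N, hCN⟩ : ∃ N, C.N = N := ⟨_, rfl⟩
  rw [hCN] at hN hP hss hM hsi hG hc1 hcov hs2 hWL hWU
  have hN0 : 0 < N := by linarith
  obtain ⟨L, hL0, rfl⟩ : ∃ L, 0 < L ∧ T = N / L := ⟨N / T, by positivity, by field_simp⟩
  have hL : L < N - 2 := by
    rw [mul_div_assoc', lt_div_iff₀ hL0] at hss; nlinarith
  obtain ⟨_, _, es⟩ := upSi_scale hN hL0 hL hP hQ
  have hsi' : C.si = (N - 2) / L := by rw [hsi]; field_simp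
  obtain ⟨th, rfl⟩ : ∃ th, s = sOf N L th := ⟨(L * s - (N - 2)) / 2, by rw [sOf]; field_simp; ring⟩
  have hth0 : 0 < th := by
    rw [hsi', sOf, div_lt_div_iff_of_pos_right hL0] at hs; linarith
  obtain ⟨ht0, ht1⟩ := th2_lt_one (N := N) (by linarith) hL0 hL
  have hth1 : th ≤ th2 N L := by
    rw [es, sOf, sOf, div_le_div_iff_of_pos_right hL0] at hs2; linarith
  obtain ⟨r, hr0, hr1, rfl⟩ : ∃ r, 0 < r ∧ r ≤ 1 ∧ th = th2 N L * r :=
    ⟨th / th2 N L, div_pos hth0 ht0, (div_le_one ht0).2 hth1, by field_simp⟩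
  have hwU : W / (N / L) ^ 2 ≤ wUR N L r := by
    rw [← upU_scale hN hL0 hL hP hQ]; exact div_le_div_of_nonneg_right hWU (by positivity)
  have hq0 := quad_pos_main hN hL0 hL (cov_scale hN hL0 hP hQ hcov) hr0 hr1 (by positivity)
    (wL_scale hN hL0 hL hWL) hwU
  have hth : th2 N L * r < 1 := (mul_le_mul_of_nonneg_left hr1 ht0.le).trans_lt (by linarith)
  have hG' : C.G = phiR N L * L / 2 := by rw [hG, hsi, certG_eq hN hL0 hL]
  have hcc : -C.c (sOf N L (th2 N L * r)) = cOf N L (th2 N L * r) := by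
    rw [CPar.c, hc1, hG', hsi', cOf, dlR, sOf]
    have : N - 2 ≠ 0 := by linarith
    field_simp; ring
  have hst : sOf N L (th2 N L * r) < N / L := by
    rw [sOf, div_lt_div_iff_of_pos_right hL0]; linarith
  have hsi1 : 0 < (N - 2) / L := div_pos (by linarith) hL0
  have hs0 : 0 < sOf N L (th2 N L * r) := by linarith
  obtain ⟨e1, e2, _⟩ := pq_scale hN hL0 hP hQ
  have hd := disc_eq (C := C) (tb := N / L) (W := W) (by linarith) (by positivity) hs0 hst
    (by rw [hCN, e1]; field_simp; ring) (by rw [← hQ]; field_simp) (by rw [hCN]; exact hM)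
  rw [hCN, hcc, hG', disc_scale (by linarith) hL0 hth0.le hth] at hd
  have h1 : 0 < 4 * (N - 1) ^ 2 / (L ^ 2 * (N - 1 + th2 N L * r) ^ 2) := by
    have : 0 < N - 1 + th2 N L * r := by linarith
    have : 0 < N - 1 := by linarith
    positivity
  have hpos : C.P1 (sOf N L (th2 N L * r)) W ^ 2 <
      4 * C.P2 (sOf N L (th2 N L * r)) W * C.P0 (sOf N L (th2 N L * r)) W := by
    linarith [mul_pos h1 hq0]
  refine ⟨?_, hpos⟩
  have hG0 : 0 ≤ C.G := by
    rw [hG']
    have h4 : 0 ≤ (69:ℝ) / (5 * (N ^ 2 - 12)) := div_nonneg (by norm_num) (by nlinarith)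
    have := phi_den hN hL
    have : 0 < N - L + (19 / 84 - 5 / (7 * N)) * L := by
      have : N - L + (19 / 84 - 5 / (7 * N)) * L
          = (84 * (N * N) - (65 * N + 60) * L) / (84 * N) := by field_simp; ring
      rw [this]; positivity
    have : 0 < N - L := by linarith
    unfold phiR; positivity
  have hP0 := CPar.P0_pos_gt hCN hN hL0 hL hP hQ hG0 hsi' hc1 hs hst.le hW0 hWU
  have h2 : 0 < 4 * C.P2 (sOf N L (th2 N L * r)) W * C.P0 (sOf N L (th2 N L * r)) W :=
    lt_of_le_of_lt (sq_nonneg _) hpos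
  linarith [pos_of_mul_pos_left h2 hP0.le]

end Vale.Agent.P100T
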