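import Vale.Agent.P100T.IneqIIIOne
import Vale.Agent.P100T.IneqIIIMain

/-!
(ii) and (iii) for the certificate at `σ∞ = 1`, on the region below `τ₀`.
-/

noncomputable section

namespace Vale.Agent.P100T

open Ineq3One

lemma certG_one {N T : ℝ} (hN : 6 ≤ N) (hT : 1 < T) : certG N T 1 = gOne N T := by
  have : N ≠ 0 := by linarith
  have h1 : T - 1 ≠ 0 := by linarith
  rw [certG, gOne]
  generalize (4 / 25 + 15 / (2 * N ^ 2)) * (1 + 69 / (5 * (N ^ 2 - 12))) = a
  generalize T - 1 + 19 / 84 - 5 / (7 * N) = b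
  generalize 1 + 6 * T / (5 * N) = c
  field_simp

lemma Ineq3One.gOne_pos {N T : ℝ} (hN : 6 ≤ N) (hT : 1 < T) : 0 < gOne N T := by
  have h12 : 0 < N ^ 2 - 12 := by nlinarith
  have : 5 / (7 * N) ≤ 5 / 42 :=
    div_le_div_of_nonneg_left (by norm_num) (by norm_num) (by linarith)
  have : 0 < T - 1 + 19 / 84 - 5 / (7 * N) := by linarith
  unfold gOne; positivity

lemma Ineq3One.s2_eq {N T : ℝ} (hN : 6 ≤ N) (hT : 0 < T) :
    lineS2 N T = 1 + (T - 1) * rho N T := by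
  have : 0 < N ^ 2 * (1 + T) + 2 * (N - 2) * T := by
    have : 0 < N - 2 := by linarith
    positivity
  rw [lineS2, rho, mul_div_assoc', one_add_div this.ne']
  congr 1
  ring

lemma Ineq3One.orbit_s2_eq {N T p q : ℝ} (hN : 6 ≤ N) (hT : 0 < T)
    (hP : p + 1 = N * (1 + T) / (N - 2)) (hQ : q + 1 = (p + 1) / T) :
    (N * (p + 1) + 2) / (N * (q + 1) + 2) = 1 + (T - 1) * rho N T := by
  have hh : 0 < N - 2 := by linarith
  have : 0 < N ^ 2 * (1 + T) + 2 * (N - 2) * T := by positivity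
  rw [hQ, hP, rho]
  have : 0 < N * (N * (1 + T) / (N - 2) / T) + 2 := by
    have : 0 < N := by linarith
    positivity
  rw [div_eq_iff this.ne']
  field_simp
  ring

/-- `ce` in the variables `N, tb, s, V`. -/
lemma CPar.ce_eq_ceF {C : CPar} {T s W : ℝ} (hN : 6 ≤ C.N) (hT : 0 < T) (hs : 0 < s)
    (hP : C.p + 1 = C.N * (1 + T) / (C.N - 2)) (hQ : C.q + 1 = (C.p + 1) / T) :
    C.ce s W = Ineq.ceF C.N T s (s * (s - 1) + W) := by
  have hh : C.N - 2 ≠ 0 := by linarith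
  have hn : C.N ≠ 0 := by linarith
  have hX : s + T ≠ 0 := by linarith
  have hT1 : 1 + T ≠ 0 := by linarith
  have hK : C.K s = C.N * (1 + T) / (C.N - 2) / T * (s + T) := by
    rw [CPar.K, hQ, hP]; field_simp; ring
  rw [CPar.ce, CPar.mu, CPar.l, hK, CPar.V, Ineq.ceF, Ineq.pp, hQ, hP]
  field_simp
  ring

/-- (iii) in the variables of `C`, at `σ = 1 + x ρ r`. -/
lemma Ineq3One.disc_pos {C : CPar} {N x r s W : ℝ} (hCN : C.N = N) (hN : 6 ≤ N)
    (hx0 : 0 < x) (hx : (N - 2) * x ≤ 2) (hr0 : 0 < r) (hr1 : r ≤ 1)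
    (hs : s = 1 + x * rho N (1 + x) * r) (hW0 : 0 ≤ W)
    (hWL : lineK N (1 + x) * (x * rho N (1 + x) * (r - 1 / (3 * (1 + x) ^ 2))) ≤ W)
    (hWU : W ≤ 2 / (N - 2) * (x * rho N (1 + x) * r * (1 - 3 / 4 * r)))
    (hP : C.p + 1 = N * (1 + (1 + x)) / (N - 2)) (hQ : C.q + 1 = (C.p + 1) / (1 + x))
    (hM : C.M = (N - 4) / N + 2 / ((N - 2) * (C.p + 1))) (hG : C.G = gOne N (1 + x))
    (hc : C.c s = -((N - 1) * (1 + x) / ((N - 2) * (1 + (1 + x)))) - gOne N (1 + x) * (s - 1)) :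
    C.P1 s W ^ 2 < 4 * C.P2 s W * C.P0 s W := by
  have hq0 := quad_pos_main hN hx0 hx hr0 hr1 hW0 hWL hWU
  obtain ⟨hro, hro1⟩ := rho_bounds (T := 1 + x) hN (by linarith)
  have hR : x * rho N (1 + x) * r ≤ x * rho N (1 + x) := mul_le_of_le_one_right (by positivity) hr1
  have hR' : x * rho N (1 + x) < x := mul_lt_of_lt_one_right hx0 hro1
  have hR0 : 0 < x * rho N (1 + x) * r := by positivity
  rw [← hs] at hq0
  rw [quad_baseR (by linarith)] at hq0
  have hd := Ineq3.disc_eq (C := C) (tb := 1 + x) (s := s) (W := W) (by linarith) (by linarith)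
    (by linarith) (by linarith) (by rw [hCN]; exact hP) hQ (by rw [hCN]; exact hM)
  have hC : (baseR N (1 + x) s W).C = -C.c s := by
    rw [hc]; simp only [baseR]; ring
  rw [hCN, hG, ← hC] at hd
  linarith

/-- **(ii), (iii) when `σ∞ = 1`**, for every `N ≥ 6`. -/
theorem CPar.strict_disc_le {C : CPar} {T s W : ℝ} (hN : 6 ≤ C.N) (hT : 1 < T)
    (hP : (C.N - 2) * (C.p + 1) = C.N * (1 + T)) (hQ : (C.q + 1) * T = C.p + 1)
    (hss : (C.N - 2) * T ≤ C.N)
    (hM : C.M = (C.N - 4) / C.N + 2 / ((C.N - 2) * (C.p + 1)))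
    (hsi : C.si = 1) (hG : C.G = certG C.N T 1)
    (hc1 : C.c1 = -((C.N - 1) * T / ((C.N - 2) * (1 + T))))
    (hs : 1 < s) (hs2 : s ≤ (C.N * (C.p + 1) + 2) / (C.N * (C.q + 1) + 2))
    (hW0 : 0 ≤ W) (hWL : lineK C.N T * (s - lineSm C.N T) ≤ W)
    (hWU : W ≤ upU C.N C.p C.q s) :
    0 < C.P2 s W ∧ C.P1 s W ^ 2 < 4 * C.P2 s W * C.P0 s W := by
  obtain ⟨N, hCN⟩ : ∃ N, C.N = N := ⟨_, rfl⟩
  rw [hCN] at hN hP hss hM hG hc1 hs2 hWL hWU
  rw [certG_one hN hT] at hG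
  obtain ⟨x, hx0, rfl⟩ : ∃ x, 0 < x ∧ T = 1 + x := ⟨T - 1, by linarith, by ring⟩
  have hh : 0 < N - 2 := by linarith
  have hn : 0 < N := by linarith
  have hx : (N - 2) * x ≤ 2 := by linarith
  have hT0 : (0:ℝ) < 1 + x := by linarith
  have hP' : C.p + 1 = N * (1 + (1 + x)) / (N - 2) := by rw [eq_div_iff hh.ne']; linarith
  have hQ' : C.q + 1 = (C.p + 1) / (1 + x) := by rw [← hQ]; field_simp
  obtain ⟨hro, hro1⟩ := rho_bounds (T := 1 + x) hN hT0
  have hR0 : 0 < x * Ineq3One.rho N (1 + x) := mul_pos hx0 hro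
  have es := orbit_s2_eq hN hT0 hP' hQ'
  rw [add_sub_cancel_left] at es
  rw [es] at hs2
  obtain ⟨r, hr0, hr1, hr⟩ : ∃ r, 0 < r ∧ r ≤ 1 ∧ s = 1 + x * Ineq3One.rho N (1 + x) * r :=
    ⟨(s - 1) / (x * Ineq3One.rho N (1 + x)), div_pos (by linarith) hR0,
      (div_le_one hR0).2 (by linarith), by field_simp; ring⟩
  have hsE : sEq N C.p C.q = (N - 2) / N * (1 + x) := by
    rw [sEq, ← hQ]
    have : C.q + 1 ≠ 0 := by rw [hQ', hP']; positivity
    field_simp
  have hmax : upSi N C.p C.q = 1 := by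
    rw [upSi, hsE, max_eq_left (by rw [div_mul_eq_mul_div, div_le_one hn]; linarith)]
  have hR : upR N C.p C.q = x * Ineq3One.rho N (1 + x) := by rw [upR, es, hmax]; ring
  have eU : upU N C.p C.q s = 2 / (N - 2) * (x * Ineq3One.rho N (1 + x) * r * (1 - 3 / 4 * r)) := by
    rw [hr, upU, upB, upA, upBe, hmax, hR]
    generalize x * Ineq3One.rho N (1 + x) = R at hR0 ⊢
    simp only [sub_self, mul_zero, zero_div, add_zero, zero_add, add_sub_cancel_left]
    field_simp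
  have eS : lineSm N (1 + x) = 1 + x * Ineq3One.rho N (1 + x) / lineM N (1 + x) := by
    rw [lineSm, s2_eq hN hT0, max_eq_left (by rw [div_le_one hn]; linarith)]
    ring
  have hk : 0 ≤ lineK N (1 + x) := by
    have : (0:ℝ) ≤ 1 + x - 1 := by linarith
    unfold lineK; positivity
  have hM3 : 1 / lineM N (1 + x) ≤ 1 / (3 * (1 + x) ^ 2) := by
    refine one_div_le_one_div_of_le (by positivity) ?_
    have : 0 ≤ N * (1 + x - 1) ^ 2 / (4 * (1 + x) ^ 2) := by positivity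
    unfold lineM; linarith
  have hWL' : lineK N (1 + x) * (x * Ineq3One.rho N (1 + x) * (r - 1 / (3 * (1 + x) ^ 2))) ≤ W := by
    refine le_trans ?_ hWL
    rw [eS]
    refine mul_le_mul_of_nonneg_left ?_ hk
    have := mul_le_mul_of_nonneg_left hM3 hR0.le
    simp only [mul_one_div, mul_sub] at this ⊢
    linarith
  have hcs : C.c s = -((N - 1) * (1 + x) / ((N - 2) * (1 + (1 + x))))
      - gOne N (1 + x) * (s - 1) := by
    rw [CPar.c, hc1, hG, hsi]
  have hpos := disc_pos hCN hN hx0 hx hr0 hr1 hr hW0 hWL' (eU ▸ hWU) hP' hQ' hM hG hcs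
  refine ⟨?_, hpos⟩
  have hG0 : 0 < C.G := by rw [hG]; exact gOne_pos hN (by linarith)
  have hy : 0 ≤ x * Ineq3One.rho N (1 + x) * r := by positivity
  have hsT : s ≤ 1 + x := by
    have : x * Ineq3One.rho N (1 + x) ≤ x := mul_le_of_le_one_right hx0.le hro1.le
    linarith
  have hWlin : W ≤ 2 / (N - 2) * (s - 1) := by
    refine hWU.trans ?_
    rw [eU, hr, add_sub_cancel_left]
    refine mul_le_mul_of_nonneg_left ?_ (by positivity)
    exact mul_le_of_le_one_right hy (by linarith)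
  have hI := Ineq.ineqI_le (N := N) (tb := 1 + x) (s := s) (W := W)
    (G := C.G) (c := C.c s) (by linarith) (by linarith) (by linarith)
    hsT hWlin (by
      rw [hcs, hG, Ineq.ceF, Ineq.pp]
      field_simp
      ring)
  have hce : C.ce s W = Ineq.ceF N (1 + x) s (s * (s - 1) + W) := by
    rw [CPar.ce_eq_ceF (by linarith) hT0 (by linarith) (by rw [hCN]; exact hP') hQ', hCN]
  have hGs : 0 < C.G * (s - 1) := mul_pos hG0 (by linarith)
  have hP0 : 0 < C.P0 s W := by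
    rw [CPar.P0, hce, CPar.V]
    have : 0 < s * (s - 1) := mul_pos (by linarith) (by linarith)
    exact mul_pos (by linarith) (by linarith)
  have h2 : 0 < 4 * C.P2 s W * C.P0 s W := lt_of_le_of_lt (sq_nonneg _) hpos
  linarith [pos_of_mul_pos_left h2 hP0.le]

end Vale.Agent.P100T
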