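import Vale.Agent.P100T.IneqIIIMain
import Vale.Agent.P100T.IneqIIIOneMain
import Vale.Agent.P100T.IneqIIIExt
import Vale.Agent.P100T.IneqIIIOneExt
import Vale.Agent.P100T.BoxPre
import Vale.Agent.P100T.ExtGlue

/-!
(iii) on the box of the extension: the lower endpoint `W = extL` for every `σ` of the box, and
the passage from two endpoints to the segment between them.
-/

noncomputable section

namespace Vale.Agent.P100T

open Ineq3

/-- `4 P₂ P₀ - P₁²` divided by `V` is concave in `W`. -/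
lemma CPar.disc_between {C : CPar} {tb s W Wa Wb : ℝ} (hN : 4 < C.N) (htb : 0 < tb) (hs : 0 < s)
    (hst : s < tb) (hp : C.p + 1 = C.N * (1 + tb) / (C.N - 2)) (hq : C.q + 1 = (C.p + 1) / tb)
    (hM : C.M = (C.N - 4) / C.N + 2 / ((C.N - 2) * (C.p + 1)))
    (hV : 0 < CPar.V s Wa) (ha : C.P1 s Wa ^ 2 < 4 * C.P2 s Wa * C.P0 s Wa)
    (hb : C.P1 s Wb ^ 2 < 4 * C.P2 s Wb * C.P0 s Wb) (h1 : Wa ≤ W) (h2 : W ≤ Wb) :
    C.P1 s W ^ 2 < 4 * C.P2 s W * C.P0 s W := by
  rcases eq_or_lt_of_le h1 with rfl | h1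
  · exact ha
  rcases eq_or_lt_of_le h2 with rfl | h2
  · exact hb
  have e : ∀ w, 4 * C.P2 s w * C.P0 s w - C.P1 s w ^ 2 = _ := fun w =>
    disc_eq (C := C) (W := w) hN htb hs hst hp hq hM
  rw [← sub_pos, e] at ha hb ⊢
  rw [CPar.V] at hV
  generalize A0F C.N tb s (-C.c s) = A at ha hb ⊢
  generalize A1F C.N tb s (-C.c s) C.G = B at ha hb ⊢
  generalize GamF C.N tb s (-C.c s) C.G = Γ at ha hb ⊢
  generalize s * (s - 1) = S at hV ha hb ⊢
  have h0 : 0 < S + W := by linarith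
  have hv2 : 0 < S + Wb := by linarith
  have key : (Wb - Wa) * ((A + B * W) * (S + W) - Γ ^ 2 * W ^ 2) * ((S + Wa) * (S + Wb)) =
      (Wb - W) * ((A + B * Wa) * (S + Wa) - Γ ^ 2 * Wa ^ 2) * ((S + W) * (S + Wb))
      + (W - Wa) * ((A + B * Wb) * (S + Wb) - Γ ^ 2 * Wb ^ 2) * ((S + W) * (S + Wa))
      + (Γ * S) ^ 2 * ((Wb - W) * (W - Wa) * (Wb - Wa)) := by ring
  have h12 : 0 < Wb - Wa := by linarith
  have : 0 < (Wb - Wa) * ((A + B * W) * (S + W) - Γ ^ 2 * W ^ 2) * ((S + Wa) * (S + Wb)) := by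
    rw [key]
    have := mul_pos (mul_pos (sub_pos.2 h2) ha) (mul_pos h0 hv2)
    have := mul_pos (mul_pos (sub_pos.2 h1) hb) (mul_pos h0 hV)
    have := mul_nonneg (sq_nonneg (Γ * S))
      (mul_nonneg (mul_nonneg (sub_pos.2 h2).le (sub_pos.2 h1).le) h12.le)
    linarith
  exact pos_of_mul_pos_right (pos_of_mul_pos_left this (mul_pos hV hv2).le) h12.le

section scale

variable {N p q L x : ℝ}

lemma ext_scale (hN : 6 ≤ N) (hL0 : 0 < L) (hL : L < N - 2)
    (hP : (N - 2) * (p + 1) = N * (1 + N / L)) (hQ : (q + 1) * (N / L) = p + 1) :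
    extS2 N p q = sOf N L (th2 N L) ∧ extL N p q = wER N L * (N / L) ^ 2 ∧
      extS3 N p q = sOf N L (th2 N L * (1 + eR N L)) ∧
      boxXmax N p q = 2 * th2 N L / (5 * L) := by
  obtain ⟨e1, e2, -⟩ := pq_scale hN hL0 hP hQ
  obtain ⟨em, er, es⟩ := upSi_scale hN hL0 hL hP hQ
  have hh : 0 < N - 2 := by linarith
  have hn : 0 < N := by linarith
  have hN1 : N - 1 ≠ 0 := by linarith
  have hD : 0 < DR N L := by unfold DR; positivity
  have hD' : N * ((N + L) / (N - 2)) + 2 = DR N L / (N - 2) := by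
    rw [DR]; field_simp
  have hT : (p + 1) / (q + 1) = N / L := by
    rw [div_eq_iff (by rw [e2]; positivity), ← hQ]; ring
  have hs2 : extS2 N p q = sOf N L (th2 N L) := es
  have ht : th2 N L = 2 * (N - 1) * (2 + L) / DR N L := rfl
  have hA : p + 2 - sOf N L (th2 N L)
      = 2 * (N - 1) * (2 + L) * N * (N + L) / ((N - 2) * L * DR N L) := by
    rw [show p + 2 = p + 1 + 1 by ring, e1, sOf, ht]
    field_simp; rw [DR]; ring
  have hB : N * (N / L) - (N - 2) * sOf N L (th2 N L)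
      = 4 * (N - 1) * (N ^ 2 + 2 * L) / (L * DR N L) := by
    rw [sOf, ht]; field_simp; rw [DR]; ring
  have hC : sOf N L (th2 N L) + N / L = 2 * (N - 1) * (N + L) * (N + 2) / (L * DR N L) := by
    rw [sOf, ht]; field_simp; rw [DR]; ring
  have hk : k0 N p q (sOf N L (th2 N L))
      = 4 * (N - 1) * (2 + L) * (N ^ 2 + 2 * L) / ((N - 2) * (N + 2) * L * DR N L) := by
    rw [k0, hT, hA, hB, hC]; field_simp
  have hS1 : sOf N L (th2 N L) - 1 = HR N L / (L * DR N L) := by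
    rw [HR, sOf, ht]; field_simp; ring
  have hC0 : extC0 N p q
      = 8 * (N - 1) * (2 + L) * (N ^ 2 + 2 * L) * HR N L / ((N + 2) * L ^ 2 * DR N L ^ 3) := by
    rw [extC0, hs2, hk, hS1, e2, hD']
    generalize HR N L = H
    field_simp
    ring
  refine ⟨hs2, ?_, ?_, ?_⟩
  · rw [extL, hC0, hT, wER]
    generalize HR N L = H
    field_simp
    ring
  · rw [extS3, hs2, hC0, e1, eR, sOf, sOf, ht]
    generalize HR N L = H
    generalize DR N L = D at hD ⊢
    field_simp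
    ring
  · rw [boxXmax, boxR, hs2, sOf, show max 1 (sEq N p q) = (N - 2) / L from em]
    field_simp
    ring

lemma ext_scale_one (hN : 6 ≤ N) (hx : 0 < x) (hss : (N - 2) * (1 + x) ≤ N)
    (hP : p + 1 = N * (1 + (1 + x)) / (N - 2)) (hQ : q + 1 = (p + 1) / (1 + x)) :
    extS2 N p q = 1 + x * Ineq3One.rho N (1 + x) ∧ extL N p q = Ineq3One.wEO N x ∧
      extS3 N p q = 1 + x * Ineq3One.rho N (1 + x) * (1 + Ineq3One.eO N x) ∧
      boxXmax N p q = x * Ineq3One.rho N (1 + x) / 5 := by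
  have hh : 0 < N - 2 := by linarith
  have hn : 0 < N := by linarith
  have hT0 : 0 < 1 + x := by linarith
  obtain ⟨hro, -⟩ := Ineq3One.rho_bounds (T := 1 + x) hN hT0
  obtain ⟨ha1, ha2, -, -⟩ := Ineq3One.ext_bounds hN hx
  have es : extS2 N p q = 1 + x * Ineq3One.rho N (1 + x) := by
    rw [extS2, Ineq3One.orbit_s2_eq hN hT0 hP hQ, add_sub_cancel_left]
  have hT : (p + 1) / (q + 1) = 1 + x := by
    have : 0 < p + 1 := by rw [hP]; positivity
    rw [hQ]; field_simp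
  have hd : 0 < Ineq3One.denO N x := by unfold Ineq3One.denO; positivity
  have hS : 0 < 2 + x + x * Ineq3One.rho N (1 + x) := by positivity
  have hk : k0 N p q (1 + x * Ineq3One.rho N (1 + x))
      = Ineq3One.a1O N x * Ineq3One.a2O N x
        / ((N - 2) * N * (2 + x + x * Ineq3One.rho N (1 + x))) := by
    rw [k0, hT, show p + 2 = p + 1 + 1 by ring, hP, Ineq3One.a1O, Ineq3One.a2O]
    generalize Ineq3One.rho N (1 + x) = r at hro hS ⊢
    rw [show 1 + x * r + (1 + x) = 2 + x + x * r by ring]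
    generalize 2 + x + x * r = S at hS ⊢
    field_simp
    ring
  have hD : N * (q + 1) + 2 = Ineq3One.denO N x / ((N - 2) * (1 + x)) := by
    rw [hQ, hP, Ineq3One.denO]; field_simp; ring
  have hC0 : extC0 N p q = 2 * x * Ineq3One.rho N (1 + x) * (1 + x) * Ineq3One.a1O N x
      * Ineq3One.a2O N x / (N * Ineq3One.denO N x * (2 + x + x * Ineq3One.rho N (1 + x))) := by
    rw [extC0, es, hk, hD, add_sub_cancel_left]
    field_simp
  refine ⟨es, ?_, ?_, ?_⟩
  · rw [extL, hC0, hT, Ineq3One.wEO]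
  · rw [extS3, es, hC0, hP, Ineq3One.eO]
    generalize Ineq3One.a1O N x = a
    generalize Ineq3One.a2O N x = b
    generalize Ineq3One.rho N (1 + x) = r at hro hS ⊢
    generalize 2 + x + x * r = S at hS ⊢
    generalize Ineq3One.denO N x = D at hd ⊢
    field_simp
    ring
  · have h1 : max 1 (sEq N p q) = 1 := by
      rw [sEq, hT, max_eq_left]
      rw [div_mul_eq_mul_div, div_le_one hn]; exact hss
    rw [boxXmax, boxR, es, h1]; ring

end scale

/-- (iii) at `W = extL` when `σ∞ > 1`. -/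
theorem CPar.disc_ext_gt {C : CPar} {N T s : ℝ} (hCN : C.N = N) (hN : 6 ≤ N) (hT0 : 0 < T)
    (hP : (N - 2) * (C.p + 1) = N * (1 + T)) (hQ : (C.q + 1) * T = C.p + 1)
    (hss : N < (N - 2) * T) (hM : C.M = (N - 4) / N + 2 / ((N - 2) * (C.p + 1)))
    (hsi : C.si = (N - 2) * T / N) (hG : C.G = certG N T C.si)
    (hc1 : C.c1 = -N / (2 * (N - 2)) - (C.si - 1) / (20 * N * T ^ 2))
    (hcov : 1 < C.q ∨ N - 1 ≤ (C.p + 1) * (C.q * (N - 3) - 2))
    (hs2 : extS2 N C.p C.q - boxXmax N C.p C.q ≤ s) (hs3 : s ≤ extS3 N C.p C.q) :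
    0 < s ∧ s < T ∧ C.P1 s (extL N C.p C.q) ^ 2
      < 4 * C.P2 s (extL N C.p C.q) * C.P0 s (extL N C.p C.q) := by
  have hN0 : 0 < N := by linarith
  obtain ⟨L, hL0, rfl⟩ : ∃ L, 0 < L ∧ T = N / L := ⟨N / T, by positivity, by field_simp⟩
  have hL : L < N - 2 := by
    rw [mul_div_assoc', lt_div_iff₀ hL0] at hss; nlinarith
  obtain ⟨e2, eL, e3, eX⟩ := ext_scale hN hL0 hL hP hQ
  rw [e2, eX] at hs2
  rw [e3] at hs3
  rw [eL]
  have hsi' : C.si = (N - 2) / L := by rw [hsi]; field_simp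
  obtain ⟨ht0, -⟩ := th2_lt_one (N := N) (by linarith) hL0 hL
  obtain ⟨r, rfl⟩ : ∃ r, s = sOf N L (th2 N L * r) :=
    ⟨(L * s - (N - 2)) / (2 * th2 N L), by rw [sOf]; field_simp; ring⟩
  have hr0 : 4 / 5 ≤ r := by
    have : sOf N L (th2 N L * (4 / 5)) ≤ sOf N L (th2 N L * r) := by
      refine le_trans (le_of_eq ?_) hs2
      simp only [sOf]; field_simp; ring
    rw [sOf, sOf, div_le_div_iff_of_pos_right hL0] at this
    exact le_of_mul_le_mul_left (by linarith) ht0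
  have hr1 : r ≤ 1 + eR N L := by
    rw [sOf, sOf, div_le_div_iff_of_pos_right hL0] at hs3
    exact le_of_mul_le_mul_left (by linarith) ht0
  obtain ⟨-, he⟩ := th2_eR_lt hN hL0 hL
  have hth : th2 N L * r < 1 := (mul_le_mul_of_nonneg_left hr1 ht0.le).trans_lt he
  have hth0 : 0 ≤ th2 N L * r := mul_nonneg ht0.le (by linarith)
  have hst : sOf N L (th2 N L * r) < N / L := by
    rw [sOf, div_lt_div_iff_of_pos_right hL0]; linarith
  have hs0 : 0 < sOf N L (th2 N L * r) := by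
    rw [sOf]; exact div_pos (by linarith) hL0
  refine ⟨hs0, hst, ?_⟩
  have hq0 := quad_pos_ext hN hL0 hL (cov_scale hN hL0 hP hQ hcov) hr0 hr1
  have hG' : C.G = phiR N L * L / 2 := by rw [hG, hsi, certG_eq hN hL0 hL]
  have hcc : -C.c (sOf N L (th2 N L * r)) = cOf N L (th2 N L * r) := by
    rw [CPar.c, hc1, hG', hsi', cOf, dlR, sOf]
    have : N - 2 ≠ 0 := by linarith
    field_simp; ring
  obtain ⟨e1, -, -⟩ := pq_scale hN hL0 hP hQ
  have hd := disc_eq (C := C) (tb := N / L) (W := wER N L * (N / L) ^ 2) (by linarith)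
    (by positivity) hs0 hst (by rw [hCN, e1]; field_simp; ring) (by rw [← hQ]; field_simp)
    (by rw [hCN]; exact hM)
  rw [hCN, hcc, hG', disc_scale (by linarith) hL0 hth0 hth,
    mul_div_cancel_right₀ _ (by positivity)] at hd
  have h1 : 0 < 4 * (N - 1) ^ 2 / (L ^ 2 * (N - 1 + th2 N L * r) ^ 2) := by
    have : 0 < N - 1 + th2 N L * r := by linarith
    have : 0 < N - 1 := by linarith
    positivity
  linarith [mul_pos h1 hq0]

/-- (iii) at `W = extL` when `σ∞ = 1`. -/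
theorem CPar.disc_ext_le {C : CPar} {N T s : ℝ} (hCN : C.N = N) (hN : 6 ≤ N) (hT : 1 < T)
    (hP : (N - 2) * (C.p + 1) = N * (1 + T)) (hQ : (C.q + 1) * T = C.p + 1)
    (hss : (N - 2) * T ≤ N) (hM : C.M = (N - 4) / N + 2 / ((N - 2) * (C.p + 1)))
    (hsi : C.si = 1) (hG : C.G = certG N T 1)
    (hc1 : C.c1 = -((N - 1) * T / ((N - 2) * (1 + T))))
    (hs2 : extS2 N C.p C.q - boxXmax N C.p C.q ≤ s) (hs3 : s ≤ extS3 N C.p C.q) :
    0 < s ∧ s < T ∧ C.P1 s (extL N C.p C.q) ^ 2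
      < 4 * C.P2 s (extL N C.p C.q) * C.P0 s (extL N C.p C.q) := by
  rw [certG_one hN hT] at hG
  obtain ⟨x, hx0, rfl⟩ : ∃ x, 0 < x ∧ T = 1 + x := ⟨T - 1, by linarith, by ring⟩
  have hh : 0 < N - 2 := by linarith
  have hx : (N - 2) * x ≤ 2 := by linarith
  have hP' : C.p + 1 = N * (1 + (1 + x)) / (N - 2) := by rw [eq_div_iff hh.ne']; linarith
  have hQ' : C.q + 1 = (C.p + 1) / (1 + x) := by rw [← hQ]; field_simp
  obtain ⟨e2, eL, e3, eX⟩ := ext_scale_one hN hx0 hss hP' hQ'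
  rw [e2, eX] at hs2
  rw [e3] at hs3
  rw [eL]
  obtain ⟨hro, -⟩ := Ineq3One.rho_bounds (T := 1 + x) hN (by linarith)
  have hR : 0 < x * Ineq3One.rho N (1 + x) := mul_pos hx0 hro
  obtain ⟨r, rfl⟩ : ∃ r, s = 1 + x * Ineq3One.rho N (1 + x) * r :=
    ⟨(s - 1) / (x * Ineq3One.rho N (1 + x)), by field_simp; ring⟩
  have hr0 : 4 / 5 ≤ r := le_of_mul_le_mul_left (by linarith) hR
  have hr1 : r ≤ 1 + Ineq3One.eO N x := le_of_mul_le_mul_left (by linarith) hR
  obtain ⟨-, -, -, he⟩ := Ineq3One.ext_bounds hN hx0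
  have hts : Ineq3One.rho N (1 + x) * r < 1 :=
    (mul_le_mul_of_nonneg_left hr1 hro.le).trans_lt he
  have hst : 1 + x * Ineq3One.rho N (1 + x) * r < 1 + x := by
    nlinarith [mul_lt_mul_of_pos_left hts hx0]
  have hs0 : 0 < 1 + x * Ineq3One.rho N (1 + x) * r := by
    nlinarith [mul_nonneg hR.le (by linarith : 0 ≤ r)]
  refine ⟨hs0, hst, ?_⟩
  have hq0 := Ineq3One.quad_pos_ext hN hx0 hx hr0 hr1
  rw [Ineq3One.quad_baseR (by linarith)] at hq0
  have hd := disc_eq (C := C) (tb := 1 + x) (W := Ineq3One.wEO N x) (by linarith) (by linarith)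
    hs0 hst (by rw [hCN]; exact hP') hQ' (by rw [hCN]; exact hM)
  have hC : ∀ w, (Ineq3One.baseR N (1 + x) (1 + x * Ineq3One.rho N (1 + x) * r) w).C
      = -C.c (1 + x * Ineq3One.rho N (1 + x) * r) := by
    intro w
    rw [CPar.c, hc1, hG, hsi]; simp only [Ineq3One.baseR]; ring
  rw [hC] at hq0
  rw [hCN, hG] at hd
  linarith

/-- **(iii) at the bottom of the box**: `W = extL`, `σ` from `s₂ - r/5` to `extS3`. -/
theorem CPar.disc_box_bottom {C : CPar} {N p q s : ℝ} (hCN : C.N = N) (hCp : C.p = p)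
    (hCq : C.q = q) (hN : 6 ≤ N) (hq : 0 < q) (hpq : q < p)
    (hcrit : N / (p + 1) + N / (q + 1) = N - 2)
    (hM : C.M = (N - 4) / N + 2 / ((N - 2) * (p + 1)))
    (hsi : C.si = upSi N p q) (hG : C.G = certG N ((p + 1) / (q + 1)) (upSi N p q))
    (hle : sEq N p q ≤ 1 → C.c1
      = -((N - 1) * ((p + 1) / (q + 1)) / ((N - 2) * (1 + (p + 1) / (q + 1)))))
    (hgt : 1 < sEq N p q → C.c1
      = -N / (2 * (N - 2)) - (C.si - 1) / (20 * N * ((p + 1) / (q + 1)) ^ 2))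
    (hcov : 1 < q ∨ N - 1 ≤ (p + 1) * (q * (N - 3) - 2))
    (hs2 : extS2 N p q - boxXmax N p q ≤ s) (hs3 : s ≤ extS3 N p q) :
    0 < s ∧ s < (p + 1) / (q + 1) ∧
      C.P1 s (extL N p q) ^ 2 < 4 * C.P2 s (extL N p q) * C.P0 s (extL N p q) := by
  subst hCp hCq
  have hh : 0 < N - 2 := by linarith
  have hn : 0 < N := by linarith
  have hp1 : 0 < C.p + 1 := by linarith
  have hq1 : 0 < C.q + 1 := by linarith
  obtain ⟨T, hT⟩ : ∃ T, (C.p + 1) / (C.q + 1) = T := ⟨_, rfl⟩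
  have hT1 : 1 < T := by rw [← hT, lt_div_iff₀ hq1]; linarith
  have hQ : (C.q + 1) * T = C.p + 1 := by rw [← hT]; field_simp
  have hP : (N - 2) * (C.p + 1) = N * (1 + T) := by
    rw [← hT, ← hcrit]; field_simp
  have hE : sEq N C.p C.q = (N - 2) * T / N := by rw [sEq, hT]; ring
  rw [hT] at hG hle hgt ⊢
  rcases le_or_gt (sEq N C.p C.q) 1 with h | h
  · have hu : upSi N C.p C.q = 1 := max_eq_left h
    rw [hu] at hsi hG
    exact CPar.disc_ext_le hCN hN hT1 hP hQ (by rwa [hE, div_le_one hn] at h) hM hsi hG (hle h)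
      hs2 hs3
  · have hu : upSi N C.p C.q = (N - 2) * T / N := by rw [upSi, max_eq_right h.le, hE]
    rw [hu] at hsi hG
    exact CPar.disc_ext_gt hCN hN (by linarith) hP hQ (by rwa [hE, one_lt_div hn] at h) hM hsi
      (by rw [hsi]; exact hG) (hgt h) hcov hs2 hs3

/-- (iii) between the bottom of the box and a point where it holds. -/
theorem CPar.disc_box_of_top {C : CPar} {N p q s W Wb : ℝ} (hCN : C.N = N) (hCp : C.p = p)
    (hCq : C.q = q) (hN : 6 ≤ N) (hq : 0 < q) (hpq : q < p)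
    (hcrit : N / (p + 1) + N / (q + 1) = N - 2)
    (hM : C.M = (N - 4) / N + 2 / ((N - 2) * (p + 1)))
    (hsi : C.si = upSi N p q) (hG : C.G = certG N ((p + 1) / (q + 1)) (upSi N p q))
    (hle : sEq N p q ≤ 1 → C.c1
      = -((N - 1) * ((p + 1) / (q + 1)) / ((N - 2) * (1 + (p + 1) / (q + 1)))))
    (hgt : 1 < sEq N p q → C.c1
      = -N / (2 * (N - 2)) - (C.si - 1) / (20 * N * ((p + 1) / (q + 1)) ^ 2))
    (hcov : 1 < q ∨ N - 1 ≤ (p + 1) * (q * (N - 3) - 2))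
    (hs2 : extS2 N p q - boxXmax N p q ≤ s) (hs3 : s ≤ extS3 N p q)
    (hW : extL N p q ≤ W) (hWb : W ≤ Wb)
    (hb : C.P1 s Wb ^ 2 < 4 * C.P2 s Wb * C.P0 s Wb) :
    C.P1 s W ^ 2 < 4 * C.P2 s W * C.P0 s W := by
  obtain ⟨hs0, hst, ha⟩ :=
    CPar.disc_box_bottom hCN hCp hCq hN hq hpq hcrit hM hsi hG hle hgt hcov hs2 hs3
  have hp1 : 0 < p + 1 := by linarith
  have hq1 : 0 < q + 1 := by linarith
  have hh : 0 < N - 2 := by linarith
  have hs1 : 1 ≤ s := by
    have := boxR_pos (N := N) (by linarith) hq hpq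
    have := le_max_left 1 (sEq N p q)
    simp only [boxXmax, boxR] at *
    linarith
  have hV : 0 < CPar.V s (extL N p q) := by
    have := extL_pos (N := N) (by linarith) hq hpq
    have : 0 ≤ s * (s - 1) := mul_nonneg hs0.le (by linarith)
    rw [CPar.V]; linarith
  refine CPar.disc_between (C := C) (by linarith) (div_pos hp1 hq1) hs0 hst ?_ ?_
    (by rw [hCN, hCp]; exact hM) hV ha hb hW hWb
  · rw [hCN, hCp, eq_div_iff hh.ne', ← hcrit]; field_simp
  · rw [hCp, hCq]; field_simp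

end Vale.Agent.P100T
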