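import Vale.Agent.P100T.Certificate
import Vale.Agent.P100T.IneqIIIExtMain

/-!
The discriminant hypotheses of the certificate: the main region, and the box from its top.
-/

open Set

noncomputable section

namespace Vale.Agent.P100T

variable {N p q s W : ℝ}

lemma main_disc (hN : 6 ≤ N) (hq : 0 < q) (hpq : q < p)
    (hcrit : N / (p + 1) + N / (q + 1) = N - 2)
    (hcov : 1 < q ∨ N - 1 ≤ (p + 1) * (q * (N - 3) - 2)) (hs : upSi N p q < s)
    (hs2 : s ≤ extS2 N p q) (hW : 0 ≤ W)
    (hWL : lineK N ((p + 1) / (q + 1)) * (s - lineSm N ((p + 1) / (q + 1))) ≤ W)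
    (hWU : W ≤ upU N p q s) :
    0 < (certPar N p q).P2 s W ∧
      (certPar N p q).P1 s W ^ 2 < 4 * (certPar N p q).P2 s W * (certPar N p q).P0 s W := by
  have hp : 0 < p := hq.trans hpq
  have hN0 : 0 < N := by linarith
  have hT := certT_gt_one hq hpq
  have hQ : (q + 1) * ((p + 1) / (q + 1)) = p + 1 := mul_div_cancel₀ _ (by linarith)
  have hP := crit_iff hp hq hcrit
  have hG : (certPar N p q).G = certG N ((p + 1) / (q + 1)) (certPar N p q).si := by
    rw [certPar_si]; rfl
  rcases le_or_gt (sEq N p q) 1 with h | h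
  · have hsi1 : upSi N p q = 1 := max_eq_left h
    rw [certPar_si, hsi1] at hG
    rw [hsi1] at hs
    refine CPar.strict_disc_le hN hT hP hQ ?_ rfl (certPar_si.trans hsi1) hG ?_ hs hs2 hW hWL hWU
    · rw [sEq, div_mul_eq_mul_div, div_le_one hN0] at h; exact h
    · show certC1 N p q = _
      rw [certC1, if_pos h]; rfl
  · have hsi1 : upSi N p q = (N - 2) * ((p + 1) / (q + 1)) / N := by
      rw [upSi, max_eq_right h.le, sEq]; ring
    refine CPar.strict_disc_gt (T := (p + 1) / (q + 1)) hN (by linarith) hP hQ ?_ rfl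
      (certPar_si.trans hsi1) hG ?_ hcov (certPar_si.trans_lt hs) hs2 hW hWL hWU
    · rw [sEq, div_mul_eq_mul_div, one_lt_div hN0] at h; exact h
    · show certC1 N p q = _
      rw [certC1, if_neg (not_le.2 h), certPar_si, neg_div]
      rfl

lemma certPar_c1_le (h : sEq N p q ≤ 1) : (certPar N p q).c1
    = -((N - 1) * ((p + 1) / (q + 1)) / ((N - 2) * (1 + (p + 1) / (q + 1)))) := by
  show certC1 N p q = _
  rw [certC1, if_pos h]

lemma certPar_c1_gt (h : 1 < sEq N p q) : (certPar N p q).c1 = -N / (2 * (N - 2))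
    - ((certPar N p q).si - 1) / (20 * N * ((p + 1) / (q + 1)) ^ 2) := by
  show certC1 N p q = _
  rw [certC1, if_neg (not_le.2 h), certPar_si, neg_div]

/-- The inputs for the top of the box. -/
structure TopDisc (N p q : ℝ) : Prop where
  line : ∀ s, extS2 N p q - boxXmax N p q ≤ s → s ≤ extS2 N p q →
    lineK N ((p + 1) / (q + 1)) * (s - lineSm N ((p + 1) / (q + 1))) ≤ upU N p q s
  top : ∀ s, extS2 N p q ≤ s → s ≤ extS3 N p q →
    (certPar N p q).P1 s (boxTopU N p q) ^ 2
      < 4 * (certPar N p q).P2 s (boxTopU N p q) * (certPar N p q).P0 s (boxTopU N p q)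

/-- **The hypotheses of the certificate hold**, given the top endpoints. -/
theorem certHyp_of_top (hN : 6 ≤ N) (hq : 0 < q) (hpq : q < p)
    (hcrit : N / (p + 1) + N / (q + 1) = N - 2)
    (hcov : 1 < q ∨ N - 1 ≤ (p + 1) * (q * (N - 3) - 2)) (ht : TopDisc N p q) :
    CertHyp N p q := by
  refine ⟨fun s W hs hs2 hW hWL hWU => main_disc hN hq hpq hcrit hcov hs hs2 hW hWL hWU,
    fun s W hsi hs0 hs3 _ hWl htop htopU => ?_⟩
  have hle := certPar_c1_le (N := N) (p := p) (q := q)
  have hgt := certPar_c1_gt (N := N) (p := p) (q := q)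
  have hG : (certPar N p q).G = certG N ((p + 1) / (q + 1)) (upSi N p q) := rfl
  obtain ⟨Wb, hWb, hb⟩ : ∃ Wb, W ≤ Wb ∧ (certPar N p q).P1 s Wb ^ 2
      < 4 * (certPar N p q).P2 s Wb * (certPar N p q).P0 s Wb := by
    rcases le_or_gt s (extS2 N p q) with h | h
    · refine ⟨_, htopU h, (main_disc hN hq hpq hcrit hcov hsi h ?_ (ht.line s hs0 h) le_rfl).2⟩
      exact ((extL_pos (show (2:ℝ) < N by linarith) hq hpq).le.trans hWl).trans (htopU h)
    · exact ⟨_, htop, ht.top s h.le hs3⟩
  have hdisc := CPar.disc_box_of_top (N := N) (p := p) (q := q) rfl rfl rfl hN hq hpq hcrit rfl certPar_si hG hle hgt hcov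
    hs0 hs3 hWl hWb hb
  refine ⟨?_, hdisc⟩
  have hW0 : 0 < W := (extL_pos (show (2:ℝ) < N by linarith) hq hpq).trans_le hWl
  have hs1 : 1 < s := (le_max_left _ _).trans_lt hsi
  refine CPar.P2_pos_of_disc ?_ ?_ hdisc
  · simp only [CPar.V]
    nlinarith
  · refine CPar.d_pos_box (N := N) (p := p) (q := q) rfl rfl rfl hN hq hpq hcrit certPar_si (certSlope_pos hN hq hpq) hle
      (fun h => ?_) hsi (hs3.trans (extS3_le_tb hN hq hpq)) htop htopU
    rw [hgt h, neg_div]
    have : 0 ≤ ((certPar N p q).si - 1) / (20 * N * ((p + 1) / (q + 1)) ^ 2) := by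
      rw [certPar_si]
      exact div_nonneg (sub_nonneg.2 (le_max_left _ _)) (by positivity)
    linarith

end Vale.Agent.P100T
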