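import Vale.Agent.P100T.IneqIVPoly

/-!
The polynomials behind inequality (iv) on the extension `τ₀ < τ ≤ log t_b`, where `z < 0` and
`W ≥ wm`, with `-c = Cn/(2 (N-2) Cd)` at the lower end, and their kernel checks.
-/

namespace Vale.Agent.P100T.IV

open PosCheck

variable {R : Type*} [Add R] [Sub R] [Mul R] (c : ℤ → R) (N h Z T S Cn Cd : R)

def aX : R := Cn * (S + T) - c 2 * (N - c 1) * T * Cd
def dX : R := N * Cn * (S + T) * (S + T) - c 2 * eC c N h Z T S * Cd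
def rX : R := dX c N h Z T S Cn Cd * qC c N Z T S
  + c 2 * (N - c 1) * h * S * (S - Z) * kC c N h Z T S * Cd
def bX : R := ((N - c 1) * (kC c N h Z T S - qC c N Z T S)
  + c 2 * (N - c 1) * (N - c 1) * h * S * (S - Z) - c 2 * N * eC c N h Z T S) * Cd
    - dX c N h Z T S Cn Cd

/-- The value at `z = (σ - t_b)/V`, `W = wm`. -/
def extA : R :=
  c 2 * N * (S + T) * (S + T) * aX c N T S Cn Cd * S
      * ((S - Z) * h * ((N + c 2) * T) + wN c N h Z T S)
    - (T - S) * (rX c N h Z T S Cn Cd * ((N + c 2) * T)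
      + c 2 * S * wN c N h Z T S * bX c N h Z T S Cn Cd)

/-- Its slope in `W`. -/
def extS : R :=
  N * aX c N T S Cn Cd * (S + T) * (S + T) - (T - S) * bX c N h Z T S Cn Cd

/-- Its coefficient of `δ`. -/
def extB : R :=
  c 2 * S * ((S - Z) * h * ((N + c 2) * T) + wN c N h Z T S) * (S + T)
    - (T - S) * qC c N Z T S * ((N + c 2) * T) + c 2 * (T - S) * S * wN c N h Z T S

/-- The value at `z = (σ - t_b)/V`, `W = 0`. -/
def extA0 : R :=
  c 2 * N * h * (S + T) * (S + T) * aX c N T S Cn Cd * S * (S - Z)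
    - (T - S) * rX c N h Z T S Cn Cd

/-- Its coefficient of `δ`. -/
def extB0 : R := c 2 * h * S * (S - Z) * (S + T) - (T - S) * qC c N Z T S

variable (n w z : R)

/-! The parameters when `σ∞ = 1`: `tb - 1 = 2w/((N-2)(1+w))`, `(σ-1)/(s₂-1) = z/(1+z)`. -/

def zL : R := (n + c 4) * (c 1 + w)
def tL : R := zL c n w + c 2 * w
def rnL : R := (n + c 6) * (n + c 6) * (zL c n w + tL c n w)
def rdL : R := rnL c n w + c 2 * (n + c 4) * tL c n w
def zLS : R := zL c n w * rdL c n w * (c 1 + z)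
def tLS : R := tL c n w * rdL c n w * (c 1 + z)
def sLS : R := zLS c n w z + c 2 * w * rnL c n w * z
def cnL : R := c 2 * (n + c 5) * tLS c n w z
def cdL : R := zLS c n w z + tLS c n w z

/-! The parameters when `σ∞ > 1`: `σ∞ - 1 = w`, `(σ-σ∞)/(s₂-σ∞) = z/(1+z)`. -/

def zGS : R := zS c (n + c 6) (n + c 4) w (c 1) (c 1 + z)
def tGS : R := tS c (n + c 6) (n + c 4) w (c 1) (c 1 + z)
def sGS : R := sS c (n + c 6) (n + c 4) w (c 1) z (c 1 + z)

def leA : R := extA c (n + c 6) (n + c 4) (zLS c n w z) (tLS c n w z) (sLS c n w z) (cnL c n w z)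
  (cdL c n w z)
def leS : R := extS c (n + c 6) (n + c 4) (zLS c n w z) (tLS c n w z) (sLS c n w z) (cnL c n w z)
  (cdL c n w z)
def leB : R := extB c (n + c 6) (n + c 4) (zLS c n w z) (tLS c n w z) (sLS c n w z)
def gtA : R :=
  extA c (n + c 6) (n + c 4) (zGS c n w z) (tGS c n w z) (sGS c n w z) (n + c 6) (c 1)
def gtS : R :=
  extS c (n + c 6) (n + c 4) (zGS c n w z) (tGS c n w z) (sGS c n w z) (n + c 6) (c 1)
def gtB : R := extB c (n + c 6) (n + c 4) (zGS c n w z) (tGS c n w z) (sGS c n w z)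

/-! `σ = s₂ + (t_b - s₂) z/(1+z)`. -/

def sLU : R := zLS c n w z
  + c 2 * w * (rnL c n w * (c 1 + z) + (rdL c n w - rnL c n w) * z)
def sGU : R := (c 1 + w) * ((n + c 4) * (rD c (n + c 6) (n + c 4) w (c 1) * (c 1 + z))
  + c 2 * (rN c (n + c 6) (n + c 4) w (c 1) * (c 1 + z)
    + (rD c (n + c 6) (n + c 4) w (c 1) - rN c (n + c 6) (n + c 4) w (c 1)) * z))
def leUA : R := extA0 c (n + c 6) (n + c 4) (zLS c n w z) (tLS c n w z) (sLU c n w z) (cnL c n w z)
  (cdL c n w z)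
def leUS : R := extS c (n + c 6) (n + c 4) (zLS c n w z) (tLS c n w z) (sLU c n w z) (cnL c n w z)
  (cdL c n w z)
def leUB : R := extB0 c (n + c 6) (n + c 4) (zLS c n w z) (tLS c n w z) (sLU c n w z)
def gtUA : R :=
  extA0 c (n + c 6) (n + c 4) (zGS c n w z) (tGS c n w z) (sGU c n w z) (n + c 6) (c 1)
def gtUS : R :=
  extS c (n + c 6) (n + c 4) (zGS c n w z) (tGS c n w z) (sGU c n w z) (n + c 6) (c 1)
def gtUB : R := extB0 c (n + c 6) (n + c 4) (zGS c n w z) (tGS c n w z) (sGU c n w z)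

theorem check_leUA : check (leUA Ex.num Ex.x Ex.y Ex.z) = true := by decide +kernel
theorem check_leUS : check (leUS Ex.num Ex.x Ex.y Ex.z) = true := by decide +kernel
theorem check_leUB : check (leUB Ex.num Ex.x Ex.y Ex.z) = true := by decide +kernel
theorem check_gtUA : check (gtUA Ex.num Ex.x Ex.y Ex.z) = true := by decide +kernel
theorem check_gtUS : check (gtUS Ex.num Ex.x Ex.y Ex.z) = true := by decide +kernel
theorem check_gtUB : check (gtUB Ex.num Ex.x Ex.y Ex.z) = true := by decide +kernel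

theorem check_leA : check (leA Ex.num Ex.x Ex.y Ex.z) = true := by decide +kernel
theorem check_leS : check (leS Ex.num Ex.x Ex.y Ex.z) = true := by decide +kernel
theorem check_leB : check (leB Ex.num Ex.x Ex.y Ex.z) = true := by decide +kernel
theorem check_gtA : check (gtA Ex.num Ex.x Ex.y Ex.z) = true := by decide +kernel
theorem check_gtS : check (gtS Ex.num Ex.x Ex.y Ex.z) = true := by decide +kernel
theorem check_gtB : check (gtB Ex.num Ex.x Ex.y Ex.z) = true := by decide +kernel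

variable {n w z : ℝ}

theorem le_nonneg (hn : 0 ≤ n) (hw : 0 ≤ w) (hz : 0 ≤ z) :
    0 ≤ leA (fun k : ℤ => (k : ℝ)) n w z ∧ 0 ≤ leS (fun k : ℤ => (k : ℝ)) n w z ∧
      0 ≤ leB (fun k : ℤ => (k : ℝ)) n w z :=
  ⟨nonneg_of_check check_leA hn hw hz, nonneg_of_check check_leS hn hw hz,
    nonneg_of_check check_leB hn hw hz⟩

theorem gt_nonneg (hn : 0 ≤ n) (hw : 0 ≤ w) (hz : 0 ≤ z) :
    0 ≤ gtA (fun k : ℤ => (k : ℝ)) n w z ∧ 0 ≤ gtS (fun k : ℤ => (k : ℝ)) n w z ∧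
      0 ≤ gtB (fun k : ℤ => (k : ℝ)) n w z :=
  ⟨nonneg_of_check check_gtA hn hw hz, nonneg_of_check check_gtS hn hw hz,
    nonneg_of_check check_gtB hn hw hz⟩

theorem leU_nonneg (hn : 0 ≤ n) (hw : 0 ≤ w) (hz : 0 ≤ z) :
    0 ≤ leUA (fun k : ℤ => (k : ℝ)) n w z ∧ 0 ≤ leUS (fun k : ℤ => (k : ℝ)) n w z ∧
      0 ≤ leUB (fun k : ℤ => (k : ℝ)) n w z :=
  ⟨nonneg_of_check check_leUA hn hw hz, nonneg_of_check check_leUS hn hw hz,
    nonneg_of_check check_leUB hn hw hz⟩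

theorem gtU_nonneg (hn : 0 ≤ n) (hw : 0 ≤ w) (hz : 0 ≤ z) :
    0 ≤ gtUA (fun k : ℤ => (k : ℝ)) n w z ∧ 0 ≤ gtUS (fun k : ℤ => (k : ℝ)) n w z ∧
      0 ≤ gtUB (fun k : ℤ => (k : ℝ)) n w z :=
  ⟨nonneg_of_check check_gtUA hn hw hz, nonneg_of_check check_gtUS hn hw hz,
    nonneg_of_check check_gtUB hn hw hz⟩

end Vale.Agent.P100T.IV
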