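import Vale.Agent.P100T.IneqIVGt
import Vale.Agent.P100T.IneqIVExtPoly

/-!
Inequality (iv) on the extension: `W ≥ wm` and `(σ - t_b)/V ≤ z ≤ 0`. No upper bound on `W`,
no cap on `t_b` and no condition on `G` beyond `0 < G` are needed.
-/

noncomputable section

namespace Vale.Agent.P100T

namespace IV

variable {N Z T S Cn Cd : ℝ}

lemma ext_const (hN : 2 < N) (hZ : 0 < Z) (hX : 0 < S + T) (hT : 0 < T) (hCd : 0 < Cd) :
    (S / Z * (S / Z - 1) + S * wN (fun k : ℤ => (k : ℝ)) N (N - 2) Z T S / ((N - 2) * Z ^ 2 * ((N + 2) * T)))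
        * rho0 N (T / Z) (S / Z) (-(Cn / (2 * (N - 2) * Cd)))
      - (T / Z - S / Z) * (r10 N (T / Z) (S / Z) (-(Cn / (2 * (N - 2) * Cd)))
        + r11 N (T / Z) (S / Z) (-(Cn / (2 * (N - 2) * Cd))) 0
          * (S * wN (fun k : ℤ => (k : ℝ)) N (N - 2) Z T S / ((N - 2) * Z ^ 2 * ((N + 2) * T)))) =
      extA (fun k : ℤ => (k : ℝ)) N (N - 2) Z T S Cn Cd
        / (2 * N ^ 2 * (N - 2) ^ 2 * Z ^ 2 * (S + T) ^ 3 * ((N + 2) * T) * Cd) := by
  have : N - 2 ≠ 0 := by linarith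
  have : N ≠ 0 := by linarith
  have : N + 2 ≠ 0 := by linarith
  simp only [rho0, r10, r11, ce0, Q0, K0, nuF, ← add_div]
  generalize hw : wN (fun k : ℤ => (k : ℝ)) N (N - 2) Z T S = m
  field_simp
  simp only [extA, aX, dX, rX, bX, eC, qC, kC, hw]
  push_cast
  ring

lemma ext_slope (hN : 2 < N) (hZ : 0 < Z) (hX : 0 < S + T) (hCd : 0 < Cd) :
    rho0 N (T / Z) (S / Z) (-(Cn / (2 * (N - 2) * Cd)))
      - (T / Z - S / Z) * r11 N (T / Z) (S / Z) (-(Cn / (2 * (N - 2) * Cd))) 0 =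
      extS (fun k : ℤ => (k : ℝ)) N (N - 2) Z T S Cn Cd / (N ^ 2 * (N - 2) * (S + T) ^ 3 * Cd) := by
  have : N - 2 ≠ 0 := by linarith
  have : N ≠ 0 := by linarith
  simp only [rho0, r11, ce0, Q0, K0, nuF, ← add_div]
  field_simp
  simp only [extS, aX, dX, bX, eC, qC, kC]
  push_cast
  ring

lemma ext_delta (hN : 2 < N) (hZ : 0 < Z) (hX : 0 < S + T) (hT : 0 < T) :
    2 / N * (S / Z * (S / Z - 1) + S * wN (fun k : ℤ => (k : ℝ)) N (N - 2) Z T S / ((N - 2) * Z ^ 2 * ((N + 2) * T)))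
      - (T / Z - S / Z) * Q0 N (T / Z) (S / Z)
      + 2 * (T / Z - S / Z) / (N * (S / Z + T / Z))
        * (S * wN (fun k : ℤ => (k : ℝ)) N (N - 2) Z T S / ((N - 2) * Z ^ 2 * ((N + 2) * T))) =
      extB (fun k : ℤ => (k : ℝ)) N (N - 2) Z T S
        / (N * (N - 2) * Z ^ 2 * (S + T) * ((N + 2) * T)) := by
  have : N - 2 ≠ 0 := by linarith
  have : N ≠ 0 := by linarith
  have : N + 2 ≠ 0 := by linarith
  simp only [Q0, ← add_div]
  generalize hw : wN (fun k : ℤ => (k : ℝ)) N (N - 2) Z T S = m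
  field_simp
  simp only [extB, qC, hw]
  push_cast
  ring

/-- The endpoint `z = (σ - t_b)/V`. -/
lemma ext_pos {s tb c δ G W m z : ℝ} (hs : 1 < s) (hst : s < tb) (hN : 0 < N) (hm : 0 ≤ m) (hW0 : 0 < W)
    (hW : m ≤ W) (hδ : 0 ≤ δ) (hG : 0 < G) (h0 : 0 < rho0 N tb s (c - δ))
    (hA : 0 ≤ (s * (s - 1) + m) * rho0 N tb s c - (tb - s) * (r10 N tb s c + r11 N tb s c 0 * m))
    (hS : 0 ≤ rho0 N tb s c - (tb - s) * r11 N tb s c 0)
    (hB : 0 ≤ 2 / N * (s * (s - 1) + m) - (tb - s) * Q0 N tb s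
      + 2 * (tb - s) / (N * (s + tb)) * m)
    (hz : (s - tb) / (W + s * (s - 1)) ≤ z) (hz0 : z ≤ 0) :
    0 < rho0 N tb s (c - δ) + z * (r10 N tb s (c - δ) + r11 N tb s (c - δ) G * W) := by
  set R1 := r10 N tb s (c - δ) + r11 N tb s (c - δ) G * W with hR1
  have hV : 0 < W + s * (s - 1) := by nlinarith
  obtain ⟨i0, i1, i2⟩ := affine (N := N) (tb := tb) (s := s) (G := G) (δ := δ) (c := c) hN.ne'
    (by linarith)
  have i3 : r11 N tb s (c - δ) G = r11 N tb s c 0 - (2 * δ / (N * (s + tb)) + G) := by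
    have : s + tb ≠ 0 := by linarith
    simp only [r11]; field_simp; ring
  have e : (W + s * (s - 1)) * rho0 N tb s (c - δ) + (s - tb) * R1 =
      ((s * (s - 1) + m) * rho0 N tb s c - (tb - s) * (r10 N tb s c + r11 N tb s c 0 * m))
      + δ * (2 / N * (s * (s - 1) + m) - (tb - s) * Q0 N tb s
          + 2 * (tb - s) / (N * (s + tb)) * m)
      + (W - m) * (rho0 N tb s c - (tb - s) * r11 N tb s c 0
          + δ * (2 / N + 2 * (tb - s) / (N * (s + tb))))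
      + G * W * (tb - s) := by
    rw [hR1, i0, i1, i3]; ring
  have h1 : 0 < (W + s * (s - 1)) * rho0 N tb s (c - δ) + (s - tb) * R1 := by
    rw [e]
    have : 0 < G * W * (tb - s) := mul_pos (mul_pos hG hW0) (sub_pos.2 hst)
    have : 0 ≤ (W - m) * (rho0 N tb s c - (tb - s) * r11 N tb s c 0
        + δ * (2 / N + 2 * (tb - s) / (N * (s + tb)))) := by
      refine mul_nonneg (sub_nonneg.2 hW) (add_nonneg hS (mul_nonneg hδ ?_))
      have : 0 < tb - s := sub_pos.2 hst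
      have : 0 < s + tb := by linarith
      positivity
    linarith [mul_nonneg hδ hB]
  rcases le_or_gt R1 0 with hR | hR
  · linarith [mul_nonneg_of_nonpos_of_nonpos hz0 hR]
  · have h2 := mul_le_mul_of_nonneg_right hz hR.le
    have h3 : 0 < rho0 N tb s (c - δ) + (s - tb) / (W + s * (s - 1)) * R1 := by
      rw [div_mul_eq_mul_div, add_div' _ _ _ hV.ne']
      exact div_pos (by linarith) hV
    linarith

/-- The endpoint from the three polynomial signs. -/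
lemma ext_pos_scaled {s tb c δ G W z : ℝ} (hN : 2 < N) (hZ : 0 < Z) (hCd : 0 < Cd)
    (hT : tb = T / Z) (hS : s = S / Z) (hc : c = -(Cn / (2 * (N - 2) * Cd)))
    (hs : 1 < s) (hst : s < tb) (hm : 0 < wN (fun k : ℤ => (k : ℝ)) N (N - 2) Z T S)
    (hW : S * wN (fun k : ℤ => (k : ℝ)) N (N - 2) Z T S / ((N - 2) * Z ^ 2 * ((N + 2) * T)) ≤ W)
    (hδ : 0 ≤ δ) (hG : 0 < G) (h0 : 0 < rho0 N tb s (c - δ))
    (hA : 0 ≤ extA (fun k : ℤ => (k : ℝ)) N (N - 2) Z T S Cn Cd) (hSl : 0 ≤ extS (fun k : ℤ => (k : ℝ)) N (N - 2) Z T S Cn Cd)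
    (hB : 0 ≤ extB (fun k : ℤ => (k : ℝ)) N (N - 2) Z T S)
    (hz : (s - tb) / (W + s * (s - 1)) ≤ z) (hz0 : z ≤ 0) :
    0 < rho0 N tb s (c - δ) + z * (r10 N tb s (c - δ) + r11 N tb s (c - δ) G * W) := by
  have hS0 : 0 < S := (div_pos_iff_of_pos_right hZ).1 (hS ▸ by linarith)
  have hT0 : 0 < T := (div_pos_iff_of_pos_right hZ).1 (hT ▸ by linarith)
  have hh : 0 < N - 2 := by linarith
  have hN0 : 0 < N := by linarith
  subst hT hS hc
  have hm' := div_pos (mul_pos hS0 hm)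
    (by positivity : (0:ℝ) < (N - 2) * Z ^ 2 * ((N + 2) * T))
  refine ext_pos hs hst hN0 hm'.le (hm'.trans_le hW) hW hδ hG h0 ?_ ?_ ?_ hz hz0
  · rw [ext_const hN hZ (by linarith) hT0 hCd]
    exact div_nonneg hA (by positivity)
  · rw [ext_slope hN hZ (by linarith) hCd]
    exact div_nonneg hSl (by positivity)
  · rw [ext_delta hN hZ (by linarith) hT0]
    exact div_nonneg hB (by positivity)

/-- The endpoint from the three polynomial signs, at `W = 0`. -/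
lemma ext0_pos_scaled {s tb c δ G W z : ℝ} (hN : 2 < N) (hZ : 0 < Z) (hCd : 0 < Cd)
    (hT : tb = T / Z) (hS : s = S / Z) (hc : c = -(Cn / (2 * (N - 2) * Cd)))
    (hs : 1 < s) (hst : s < tb) (hW : 0 < W) (hδ : 0 ≤ δ) (hG : 0 < G)
    (h0 : 0 < rho0 N tb s (c - δ)) (hA : 0 ≤ extA0 (fun k : ℤ => (k : ℝ)) N (N - 2) Z T S Cn Cd)
    (hSl : 0 ≤ extS (fun k : ℤ => (k : ℝ)) N (N - 2) Z T S Cn Cd) (hB : 0 ≤ extB0 (fun k : ℤ => (k : ℝ)) N (N - 2) Z T S)
    (hz : (s - tb) / (W + s * (s - 1)) ≤ z) (hz0 : z ≤ 0) :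
    0 < rho0 N tb s (c - δ) + z * (r10 N tb s (c - δ) + r11 N tb s (c - δ) G * W) := by
  have hS0 : 0 < S := (div_pos_iff_of_pos_right hZ).1 (hS ▸ by linarith)
  have hT0 : 0 < T := (div_pos_iff_of_pos_right hZ).1 (hT ▸ by linarith)
  have hh : 0 < N - 2 := by linarith
  have hN0 : 0 < N := by linarith
  subst hT hS hc
  refine ext_pos hs hst hN0 le_rfl hW hW.le hδ hG h0 ?_ ?_ ?_ hz hz0
  · have e : (S / Z * (S / Z - 1) + 0) * rho0 N (T / Z) (S / Z) (-(Cn / (2 * (N - 2) * Cd)))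
        - (T / Z - S / Z) * (r10 N (T / Z) (S / Z) (-(Cn / (2 * (N - 2) * Cd)))
          + r11 N (T / Z) (S / Z) (-(Cn / (2 * (N - 2) * Cd))) 0 * 0) =
        extA0 (fun k : ℤ => (k : ℝ)) N (N - 2) Z T S Cn Cd
          / (2 * N ^ 2 * (N - 2) ^ 2 * Z ^ 2 * (S + T) ^ 3 * Cd) := by
      simp only [rho0, r10, ce0, Q0, K0, nuF, ← add_div, mul_zero, add_zero]
      field_simp
      simp only [extA0, aX, dX, rX, eC, qC, kC]
      push_cast
      ring
    rw [e]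
    exact div_nonneg hA (by positivity)
  · rw [ext_slope hN hZ (by linarith) hCd]
    exact div_nonneg hSl (by positivity)
  · have e : 2 / N * (S / Z * (S / Z - 1) + 0) - (T / Z - S / Z) * Q0 N (T / Z) (S / Z)
        + 2 * (T / Z - S / Z) / (N * (S / Z + T / Z)) * 0 =
        extB0 (fun k : ℤ => (k : ℝ)) N (N - 2) Z T S / (N * (N - 2) * Z ^ 2 * (S + T)) := by
      simp only [Q0, ← add_div, mul_zero, add_zero]
      field_simp
      simp only [extB0, qC]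
      push_cast
      ring
    rw [e]
    exact div_nonneg hB (by positivity)

variable {n w z : ℝ}

lemma tL_div (hn : 0 ≤ n) (hw : 0 ≤ w) (hz : 0 ≤ z) :
    tLS (fun k : ℤ => (k : ℝ)) n w z / zLS (fun k : ℤ => (k : ℝ)) n w z = 1 + 2 / (n + 4) * (w / (1 + w)) := by
  simp only [tLS, zLS, tL, zL, rnL, rdL]; push_cast
  field_simp

lemma sL_div (hn : 0 ≤ n) (hw : 0 ≤ w) (hz : 0 ≤ z) :
    sLS (fun k : ℤ => (k : ℝ)) n w z / zLS (fun k : ℤ => (k : ℝ)) n w z =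
      1 + 2 / (n + 4) * (w / (1 + w)) * (rnL (fun k : ℤ => (k : ℝ)) n w / rdL (fun k : ℤ => (k : ℝ)) n w) * (z / (1 + z)) := by
  have : 0 < rdL (fun k : ℤ => (k : ℝ)) n w := by simp only [rdL, rnL, tL, zL]; push_cast; positivity
  simp only [sLS, zLS, zL]; push_cast
  generalize rdL (fun k : ℤ => (k : ℝ)) n w = b at *
  generalize rnL (fun k : ℤ => (k : ℝ)) n w = a
  field_simp

lemma sTwo_le_eq {N p q tb : ℝ} (hn : 0 ≤ n) (hw : 0 ≤ w) (hN : N = n + 6)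
    (htb : tb = 1 + 2 / (n + 4) * (w / (1 + w)))
    (hp : p = N * (1 + tb) / (N - 2) - 1) (hq : q = N * (1 + tb) / ((N - 2) * tb) - 1) :
    sTwo N p q - 1 = 2 / (n + 4) * (w / (1 + w)) * (rnL (fun k : ℤ => (k : ℝ)) n w / rdL (fun k : ℤ => (k : ℝ)) n w) := by
  have e : N - 2 = n + 4 := by rw [hN]; ring
  have h4 : (0:ℝ) < n + 4 := by linarith
  obtain ⟨Z0, hZ0⟩ : ∃ Z0, Z0 = zL (fun k : ℤ => (k : ℝ)) n w := ⟨_, rfl⟩
  obtain ⟨T0, hT0⟩ : ∃ T0, T0 = tL (fun k : ℤ => (k : ℝ)) n w := ⟨_, rfl⟩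
  have z0 : Z0 = (n + 4) * (1 + w) := by rw [hZ0, zL]; push_cast; ring
  have t0 : T0 = (n + 4) * (1 + w) + 2 * w := by rw [hT0, tL, zL]; push_cast; ring
  have : 0 < Z0 := by rw [z0]; positivity
  have : 0 < T0 := by rw [t0]; positivity
  have e1 : tb = T0 / Z0 := by rw [htb, t0, z0]; field_simp
  have e2 : 2 / (n + 4) * (w / (1 + w)) = (T0 - Z0) / Z0 := by rw [t0, z0]; field_simp; ring
  have hp' : N * (p + 1) + 2 = ((n + 6) ^ 2 * (Z0 + T0) + 2 * (n + 4) * Z0) / ((n + 4) * Z0) := by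
    rw [hp, sub_add_cancel, e, e1, hN]; field_simp
  have hq' : N * (q + 1) + 2 = ((n + 6) ^ 2 * (Z0 + T0) + 2 * (n + 4) * T0) / ((n + 4) * T0) := by
    rw [hq, sub_add_cancel, e, e1, hN]; field_simp
  rw [sTwo, hp', hq', e2]
  simp only [rdL, rnL, ← hZ0, ← hT0]; push_cast
  field_simp
  ring

end IV

open IV in
/-- `wm > 0` below `s₂`. -/
lemma wm_pos' {N p q s : ℝ} (hN : 0 < N) (hq : 0 < q + 1) (hs : 0 < s) (h : s < sTwo N p q) :
    0 < wm N p q s := by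
  rw [sTwo, lt_div_iff₀ (by positivity)] at h
  exact div_pos (mul_pos hs (by linarith)) (by linarith)

open IV in
/-- **(iv) on the extension when `σ∞ = tb (N-2)/N ≥ 1`.** -/
theorem CPar.IsCrit.rho_pos_ext_ge {C : CPar} {tb s W z : ℝ} (h : C.IsCrit tb) (hN : 6 ≤ C.N)
    (hss : C.N ≤ (C.N - 2) * tb) (hsi : C.si = (C.N - 2) * tb / C.N)
    (hc1 : C.c1 ≤ -(C.N / (2 * (C.N - 2)))) (hG : 0 < C.G) (hs : C.si < s)
    (hs2 : s < sTwo C.N C.p C.q) (hW : wm C.N C.p C.q s ≤ W)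
    (hz : (s - tb) / (W + s * (s - 1)) ≤ z) (hz0 : z ≤ 0) : 0 < C.rho s W z := by
  obtain ⟨N, p, q, M, c1, G, si⟩ := C
  obtain ⟨-, htb, hp, hq, -⟩ := id h
  simp only at hN hss hsi hc1 hG hs hs2 hW hp hq ⊢
  obtain ⟨n, hn, rfl⟩ : ∃ n, 0 ≤ n ∧ N = n + 6 := ⟨N - 6, by linarith, by ring⟩
  have hh : (0:ℝ) < n + 4 := by linarith
  have hn2 : n + 6 - 2 = n + 4 := by ring
  have hsi1 : 1 ≤ si := by rw [hsi, one_le_div (by linarith)]; linarith
  obtain ⟨w, hw, rfl⟩ : ∃ w, 0 ≤ w ∧ si = 1 + w := ⟨si - 1, by linarith, by ring⟩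
  have htb' : tb = (n + 6) * (1 + w / 1) / (n + 6 - 2) := by
    rw [div_one, hsi, hn2]; field_simp
  have hr : 0 < sTwo (n + 6) p q - (1 + w) := by linarith
  have hr' := sTwo_eq (N := n + 6) (p := p) (q := q) hN one_pos hw (by rw [hp, htb'])
    (by rw [hq, htb'])
  obtain ⟨θ, hθ0⟩ : ∃ θ, θ = (s - (1 + w)) / (sTwo (n + 6) p q - (1 + w)) := ⟨_, rfl⟩
  obtain ⟨z', hz', hθ⟩ := frac_below (θ := θ) (a := 1) (hθ0 ▸ div_pos (by linarith) hr)
    (by rw [hθ0, div_lt_one hr]; linarith)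
  have hdd : w / (1:ℝ) = w := div_one w
  have hZ : 0 < IV.zS (fun k : ℤ => (k : ℝ)) (n + 6) (n + 6 - 2) w 1 (1 + z') :=
    zS_pos (by linarith) one_pos hw (by linarith)
  have hT : tb = IV.tS (fun k : ℤ => (k : ℝ)) (n + 6) (n + 6 - 2) w 1 (1 + z')
      / IV.zS (fun k : ℤ => (k : ℝ)) (n + 6) (n + 6 - 2) w 1 (1 + z') := by
    rw [tS_div (by linarith) one_pos hw (by linarith), htb']
  have hS : s = IV.sS (fun k : ℤ => (k : ℝ)) (n + 6) (n + 6 - 2) w 1 z' (1 + z')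
      / IV.zS (fun k : ℤ => (k : ℝ)) (n + 6) (n + 6 - 2) w 1 (1 + z') := by
    rw [sS_div (by linarith) one_pos hw (by linarith),
      yS_div (by linarith) one_pos hw (by linarith), ← hr', hdd]
    rw [one_mul] at hθ
    rw [← hθ, hθ0, div_mul_cancel₀ _ hr.ne']
    ring
  have hst : s < tb := by
    refine hs2.trans ?_
    rw [sTwo, div_lt_iff₀ (by rw [hq, sub_add_cancel, hn2]; positivity)]
    have e : (n + 6) * (p + 1) = tb * ((n + 6) * (q + 1)) := by rw [hp, hq]; field_simp; ring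
    nlinarith
  have hm : 0 < wm (n + 6) p q s :=
    wm_pos' (by linarith) (by rw [hq, sub_add_cancel, hn2]; positivity) (by linarith) hs2
  have hT0 := (div_pos_iff_of_pos_right hZ).1 (hT ▸ htb)
  have hS0 := (div_pos_iff_of_pos_right hZ).1 (hS ▸ (by linarith : (0:ℝ) < s))
  rw [hS, wm_eq (by linarith) hZ hT0 (by rw [hp, hT]) (by rw [hq, hT])] at hW hm
  have hwN := (mul_pos_iff_of_pos_left hS0).1 ((div_pos_iff_of_pos_right
    (mul_pos (mul_pos (by linarith) (pow_pos hZ 2)) (mul_pos (by linarith) hT0))).1 hm)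
  have hδ : 0 ≤ -((n + 6) / (2 * (n + 6 - 2))) - c1 + G * (s - (1 + w)) :=
    add_nonneg (by linarith) (mul_nonneg hG.le (by linarith))
  refine (mul_pos_iff_of_pos_left (sub_pos.2 hst)).1 ?_
  rw [h.rho_eq (by linarith) hst]
  simp only [CPar.c]
  rw [show c1 - G * (s - (1 + w)) = -((n + 6) / (2 * (n + 6 - 2)))
    - (-((n + 6) / (2 * (n + 6 - 2))) - c1 + G * (s - (1 + w))) by ring]
  obtain ⟨hA, hSl, hB⟩ := gt_nonneg hn hw hz'
  simp only [gtA, gtS, gtB, zGS, tGS, sGS, Int.cast_one, Int.cast_ofNat] at hA hSl hB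
  refine ext_pos_scaled (Cn := n + 6) (Cd := 1) (by linarith) hZ one_pos hT hS (by rw [mul_one])
    (by linarith) hst hwN hW hδ hG ?_ (by rw [hn2]; exact hA) (by rw [hn2]; exact hSl)
    (by rw [hn2]; exact hB) hz hz0
  refine mul_pos (div_pos two_pos (by linarith)) (sub_pos.2 ?_)
  have hb := CPar.c_bound (C := ⟨n + 6, p, q, M, c1, G, 1 + w⟩) (s := s) (by linarith) htb
    (by linarith) hs hG.le (by
      have e : (n + 6 - 1) * tb / ((n + 6 - 2) * (1 + w + tb)) = (n + 6) / (2 * (n + 6 - 2)) := by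
        rw [hsi, hn2]; field_simp; ring
      simp only; linarith)
  simp only [CPar.c] at hb
  linarith

open IV in
/-- **(iv) on the extension when `σ∞ = 1`.** -/
theorem CPar.IsCrit.rho_pos_ext_le {C : CPar} {tb s W z : ℝ} (h : C.IsCrit tb) (hN : 6 ≤ C.N)
    (hss : (C.N - 2) * tb ≤ C.N) (hsi : C.si = 1) (hG : 0 < C.G)
    (hc1 : C.c1 = -((C.N - 1) * tb / ((C.N - 2) * (1 + tb)))) (hs : 1 < s)
    (hs2 : s < sTwo C.N C.p C.q) (hW : wm C.N C.p C.q s ≤ W)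
    (hz : (s - tb) / (W + s * (s - 1)) ≤ z) (hz0 : z ≤ 0) : 0 < C.rho s W z := by
  obtain ⟨N, p, q, M, c1, G, si⟩ := C
  obtain ⟨-, htb, hp, hq, -⟩ := id h
  simp only at hN hss hsi hc1 hG hs hs2 hW hp hq ⊢
  have hh' : (0:ℝ) < N - 2 := by linarith
  rcases hss.eq_or_lt with heq | hlt
  · refine h.rho_pos_ext_ge hN heq.ge ?_ ?_ hG ?_ hs2 hW hz hz0
    · simp only; rw [hsi, eq_comm, div_eq_one_iff_eq (by linarith)]; exact heq
    · have e : (N - 1) * tb / ((N - 2) * (1 + tb)) = N / (2 * (N - 2)) := by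
        rw [show tb = N / (N - 2) by rw [eq_div_iff hh'.ne']; linarith]; field_simp; ring
      simp only; linarith
    · simp only; linarith
  obtain ⟨n, hn, rfl⟩ : ∃ n, 0 ≤ n ∧ N = n + 6 := ⟨N - 6, by linarith, by ring⟩
  have hn2 : n + 6 - 2 = n + 4 := by ring
  have hh : (0:ℝ) < n + 4 := by linarith
  rw [hn2] at hlt
  have hst : s < tb := by
    by_contra hne
    rw [sTwo, lt_div_iff₀ (by rw [hq, sub_add_cancel, hn2]; positivity)] at hs2
    have e : (n + 6) * (p + 1) = tb * ((n + 6) * (q + 1)) := by rw [hp, hq]; field_simp; ring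
    have hq1 : 0 < q + 1 := by rw [hq, sub_add_cancel, hn2]; positivity
    rcases le_or_gt tb 1 with h1 | h1
    · nlinarith [mul_nonneg (mul_nonneg (by linarith : (0:ℝ) ≤ n + 6) hq1.le)
        (by linarith : 0 ≤ s - tb)]
    · nlinarith [mul_nonneg (mul_nonneg (by linarith : (0:ℝ) ≤ n + 6) hq1.le)
        (not_lt.1 hne |> sub_nonneg.2)]
  obtain ⟨w, hw, hw'⟩ := frac_below (θ := (tb - 1) * (n + 4) / 2) (a := 1)
    (div_pos (mul_pos (by linarith) hh) two_pos) (by linarith)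
  have htb' : tb = 1 + 2 / (n + 4) * (w / (1 + w)) := by
    rw [one_mul] at hw'; rw [← hw']; field_simp; ring
  have hr' := sTwo_le_eq (N := n + 6) (p := p) (q := q) hn hw rfl htb' hp hq
  obtain ⟨θ, hθ0⟩ : ∃ θ, θ = (s - 1) / (sTwo (n + 6) p q - 1) := ⟨_, rfl⟩
  have hr : 0 < sTwo (n + 6) p q - 1 := by linarith
  obtain ⟨z', hz', hθ⟩ := frac_below (θ := θ) (a := 1) (hθ0 ▸ div_pos (by linarith) hr)
    (by rw [hθ0, div_lt_one hr]; linarith)
  have hZ : 0 < IV.zLS (fun k : ℤ => (k : ℝ)) n w z' := by simp only [zLS, zL, rdL, rnL, tL]; push_cast; positivity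
  have hT : tb = IV.tLS (fun k : ℤ => (k : ℝ)) n w z' / IV.zLS (fun k : ℤ => (k : ℝ)) n w z' := by rw [tL_div hn hw hz', htb']
  have hS : s = IV.sLS (fun k : ℤ => (k : ℝ)) n w z' / IV.zLS (fun k : ℤ => (k : ℝ)) n w z' := by
    rw [one_mul] at hθ
    rw [sL_div hn hw hz', ← hr', ← hθ, hθ0, mul_div_cancel₀ _ hr.ne']
    ring
  have hm : 0 < wm (n + 6) p q s :=
    wm_pos' (by linarith) (by rw [hq, sub_add_cancel, hn2]; positivity) (by linarith) hs2
  have hT0 := (div_pos_iff_of_pos_right hZ).1 (hT ▸ htb)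
  have hS0 := (div_pos_iff_of_pos_right hZ).1 (hS ▸ (by linarith : (0:ℝ) < s))
  rw [hS, wm_eq (by linarith) hZ hT0 (by rw [hp, hT]) (by rw [hq, hT])] at hW hm
  have hwN := (mul_pos_iff_of_pos_left hS0).1 ((div_pos_iff_of_pos_right (by positivity)).1 hm)
  refine (mul_pos_iff_of_pos_left (sub_pos.2 hst)).1 ?_
  rw [h.rho_eq (by linarith) hst]
  simp only [CPar.c, hsi]
  rw [hc1]
  obtain ⟨hA, hSl, hB⟩ := le_nonneg hn hw hz'
  simp only [leA, leS, leB, Int.cast_ofNat] at hA hSl hB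
  refine ext_pos_scaled (Cn := IV.cnL (fun k : ℤ => (k : ℝ)) n w z') (Cd := IV.cdL (fun k : ℤ => (k : ℝ)) n w z') (by linarith) hZ
    (by simp only [cdL]; exact add_pos hZ hT0) hT hS ?_ hs hst hwN hW
    (mul_nonneg hG.le (by linarith)) hG ?_ (by rw [hn2]; exact hA) (by rw [hn2]; exact hSl)
    (by rw [hn2]; exact hB) hz hz0
  · simp only [cnL, cdL]; push_cast
    rw [hn2, hT]; field_simp; ring
  · refine mul_pos (div_pos two_pos (by linarith)) (sub_pos.2 ?_)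
    have hb := CPar.c_bound (C := ⟨n + 6, p, q, M, c1, G, si⟩) (s := s) (by linarith) htb
      (by simp only; linarith) (by simp only; linarith) hG.le (by simp only; rw [hc1, hsi, neg_neg])
    simp only [CPar.c, hsi, hc1] at hb
    exact hb

open IV in
/-- **(iv) on the extension when `σ∞ = tb (N-2)/N ≥ 1`, beyond `s₂`.** -/
theorem CPar.IsCrit.rho_pos_ext2_ge {C : CPar} {tb s W z : ℝ} (h : C.IsCrit tb) (hN : 6 ≤ C.N)
    (hss : C.N ≤ (C.N - 2) * tb) (hsi : C.si = (C.N - 2) * tb / C.N)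
    (hc1 : C.c1 ≤ -(C.N / (2 * (C.N - 2)))) (hG : 0 < C.G) (hs : C.si < s)
    (hs2 : sTwo C.N C.p C.q ≤ s) (hst : s < tb) (hs02 : C.si < sTwo C.N C.p C.q) (hW : 0 < W)
    (hz : (s - tb) / (W + s * (s - 1)) ≤ z) (hz0 : z ≤ 0) : 0 < C.rho s W z := by
  obtain ⟨N, p, q, M, c1, G, si⟩ := C
  obtain ⟨-, htb, hp, hq, -⟩ := id h
  simp only at hN hss hsi hc1 hG hs hs2 hst hs02 hp hq ⊢
  obtain ⟨n, hn, rfl⟩ : ∃ n, 0 ≤ n ∧ N = n + 6 := ⟨N - 6, by linarith, by ring⟩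
  have hh : (0:ℝ) < n + 4 := by linarith
  have hn2 : n + 6 - 2 = n + 4 := by ring
  have hsi1 : 1 ≤ si := by rw [hsi, one_le_div (by linarith)]; linarith
  obtain ⟨w, hw, rfl⟩ : ∃ w, 0 ≤ w ∧ si = 1 + w := ⟨si - 1, by linarith, by ring⟩
  have htb' : tb = (n + 6) * (1 + w / 1) / (n + 6 - 2) := by
    rw [div_one, hsi, hn2]; field_simp
  have hr : 0 < sTwo (n + 6) p q - (1 + w) := by linarith
  have hr2 : 0 < tb - sTwo (n + 6) p q := by linarith
  have hr' := sTwo_eq (N := n + 6) (p := p) (q := q) hN one_pos hw (by rw [hp, htb'])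
    (by rw [hq, htb'])
  obtain ⟨θ, hθ0⟩ : ∃ θ, θ = (s - sTwo (n + 6) p q) / (tb - sTwo (n + 6) p q) := ⟨_, rfl⟩
  obtain ⟨z', hz', hθ⟩ := frac_above (θ := θ) (a := 0) (hθ0 ▸ div_nonneg (by linarith) hr2.le)
    (by rw [hθ0, div_lt_one hr2]; linarith)
  have hdd : w / (1:ℝ) = w := div_one w
  have hZ : 0 < IV.zS (fun k : ℤ => (k : ℝ)) (n + 6) (n + 6 - 2) w 1 (1 + z') :=
    zS_pos (by linarith) one_pos hw (by linarith)
  have hT : tb = IV.tS (fun k : ℤ => (k : ℝ)) (n + 6) (n + 6 - 2) w 1 (1 + z')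
      / IV.zS (fun k : ℤ => (k : ℝ)) (n + 6) (n + 6 - 2) w 1 (1 + z') := by
    rw [tS_div (by linarith) one_pos hw (by linarith), htb']
  have hS : s = IV.sGU (fun k : ℤ => (k : ℝ)) n w z' / IV.zS (fun k : ℤ => (k : ℝ)) (n + 6) (n + 6 - 2) w 1 (1 + z') := by
    have hd0 := rD_pos (N := n + 6) (dN := w) (dD := 1) (by linarith) one_pos hw
    rw [zero_add, hθ0, div_eq_iff hr2.ne'] at hθ
    have e : IV.sGU (fun k : ℤ => (k : ℝ)) n w z' / IV.zS (fun k : ℤ => (k : ℝ)) (n + 6) (n + 6 - 2) w 1 (1 + z') =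
        1 + w + (sTwo (n + 6) p q - (1 + w))
          + z' / (1 + z') * (tb - sTwo (n + 6) p q) := by
      have e1 : sTwo (n + 6) p q = 1 + w / 1 + 2 * (1 + w / 1) / (n + 6 - 2)
          * (rN (fun k : ℤ => (k : ℝ)) (n + 6) (n + 6 - 2) w 1 / rD (fun k : ℤ => (k : ℝ)) (n + 6) (n + 6 - 2) w 1) := by linarith [hr']
      rw [e1, htb', hn2] at *
      simp only [sGU, IV.zS, Int.cast_ofNat, Int.cast_one] at *
      generalize rN (fun k : ℤ => (k : ℝ)) (n + 6) (n + 4) w 1 = a at *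
      generalize rD (fun k : ℤ => (k : ℝ)) (n + 6) (n + 4) w 1 = b at *
      field_simp
      ring
    rw [e, ← hθ]; ring
  have hT0 := (div_pos_iff_of_pos_right hZ).1 (hT ▸ htb)
  have hS0 := (div_pos_iff_of_pos_right hZ).1 (hS ▸ (by linarith : (0:ℝ) < s))
  have hδ : 0 ≤ -((n + 6) / (2 * (n + 6 - 2))) - c1 + G * (s - (1 + w)) :=
    add_nonneg (by linarith) (mul_nonneg hG.le (by linarith))
  refine (mul_pos_iff_of_pos_left (sub_pos.2 hst)).1 ?_
  rw [h.rho_eq (by linarith) hst]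
  simp only [CPar.c]
  rw [show c1 - G * (s - (1 + w)) = -((n + 6) / (2 * (n + 6 - 2)))
    - (-((n + 6) / (2 * (n + 6 - 2))) - c1 + G * (s - (1 + w))) by ring]
  obtain ⟨hA, hSl, hB⟩ := gtU_nonneg hn hw hz'
  simp only [gtUA, gtUS, gtUB, zGS, tGS, Int.cast_one, Int.cast_ofNat] at hA hSl hB
  refine ext0_pos_scaled (Cn := n + 6) (Cd := 1) (by linarith) hZ one_pos hT hS (by rw [mul_one])
    (by linarith) hst hW hδ hG ?_ (by rw [hn2]; exact hA) (by rw [hn2]; exact hSl)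
    (by rw [hn2]; exact hB) hz hz0
  refine mul_pos (div_pos two_pos (by linarith)) (sub_pos.2 ?_)
  have hb := CPar.c_bound (C := ⟨n + 6, p, q, M, c1, G, 1 + w⟩) (s := s) (by linarith) htb
    (by linarith) hs hG.le (by
      have e : (n + 6 - 1) * tb / ((n + 6 - 2) * (1 + w + tb)) = (n + 6) / (2 * (n + 6 - 2)) := by
        rw [hsi, hn2]; field_simp; ring
      simp only; linarith)
  simp only [CPar.c] at hb
  linarith

open IV in
/-- **(iv) on the extension when `σ∞ = 1`, beyond `s₂`.** -/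
theorem CPar.IsCrit.rho_pos_ext2_le {C : CPar} {tb s W z : ℝ} (h : C.IsCrit tb) (hN : 6 ≤ C.N)
    (hss : (C.N - 2) * tb ≤ C.N) (hsi : C.si = 1) (hG : 0 < C.G)
    (hc1 : C.c1 = -((C.N - 1) * tb / ((C.N - 2) * (1 + tb)))) (hs : 1 < s)
    (hs2 : sTwo C.N C.p C.q ≤ s) (hst : s < tb) (hs02 : 1 < sTwo C.N C.p C.q) (hW : 0 < W)
    (hz : (s - tb) / (W + s * (s - 1)) ≤ z) (hz0 : z ≤ 0) : 0 < C.rho s W z := by
  obtain ⟨N, p, q, M, c1, G, si⟩ := C
  obtain ⟨-, htb, hp, hq, -⟩ := id h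
  simp only at hN hss hsi hc1 hG hs hs2 hW hp hq ⊢
  have hh' : (0:ℝ) < N - 2 := by linarith
  rcases hss.eq_or_lt with heq | hlt
  · refine h.rho_pos_ext2_ge hN heq.ge ?_ ?_ hG ?_ hs2 hst ?_ hW hz hz0
    · simp only; rw [hsi, eq_comm, div_eq_one_iff_eq (by linarith)]; exact heq
    · have e : (N - 1) * tb / ((N - 2) * (1 + tb)) = N / (2 * (N - 2)) := by
        rw [show tb = N / (N - 2) by rw [eq_div_iff hh'.ne']; linarith]; field_simp; ring
      simp only; linarith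
    · simp only; linarith
    · simp only; linarith
  obtain ⟨n, hn, rfl⟩ : ∃ n, 0 ≤ n ∧ N = n + 6 := ⟨N - 6, by linarith, by ring⟩
  have hn2 : n + 6 - 2 = n + 4 := by ring
  have hh : (0:ℝ) < n + 4 := by linarith
  rw [hn2] at hlt
  obtain ⟨w, hw, hw'⟩ := frac_below (θ := (tb - 1) * (n + 4) / 2) (a := 1)
    (div_pos (mul_pos (by linarith) hh) two_pos) (by linarith)
  have htb' : tb = 1 + 2 / (n + 4) * (w / (1 + w)) := by
    rw [one_mul] at hw'; rw [← hw']; field_simp; ring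
  have hr' := sTwo_le_eq (N := n + 6) (p := p) (q := q) hn hw rfl htb' hp hq
  obtain ⟨θ, hθ0⟩ : ∃ θ, θ = (s - sTwo (n + 6) p q) / (tb - sTwo (n + 6) p q) := ⟨_, rfl⟩
  have hr2 : 0 < tb - sTwo (n + 6) p q := by linarith
  obtain ⟨z', hz', hθ⟩ := frac_above (θ := θ) (a := 0) (hθ0 ▸ div_nonneg (by linarith) hr2.le)
    (by rw [hθ0, div_lt_one hr2]; linarith)
  have hZ : 0 < IV.zLS (fun k : ℤ => (k : ℝ)) n w z' := by simp only [zLS, zL, rdL, rnL, tL]; push_cast; positivity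
  have hT : tb = IV.tLS (fun k : ℤ => (k : ℝ)) n w z' / IV.zLS (fun k : ℤ => (k : ℝ)) n w z' := by rw [tL_div hn hw hz', htb']
  have hS : s = IV.sLU (fun k : ℤ => (k : ℝ)) n w z' / IV.zLS (fun k : ℤ => (k : ℝ)) n w z' := by
    rw [zero_add, hθ0, div_eq_iff hr2.ne'] at hθ
    have hd0 : 0 < rdL (fun k : ℤ => (k : ℝ)) n w := by simp only [rdL, rnL, tL, zL]; push_cast; positivity
    have e : IV.sLU (fun k : ℤ => (k : ℝ)) n w z' / IV.zLS (fun k : ℤ => (k : ℝ)) n w z' =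
        1 + (sTwo (n + 6) p q - 1) + z' / (1 + z') * (tb - sTwo (n + 6) p q) := by
      have e1 : sTwo (n + 6) p q = 1 + 2 / (n + 4) * (w / (1 + w))
          * (rnL (fun k : ℤ => (k : ℝ)) n w / rdL (fun k : ℤ => (k : ℝ)) n w) := by linarith [hr']
      rw [e1, htb']
      simp only [sLU, zLS, zL, Int.cast_ofNat, Int.cast_one]
      generalize rnL (fun k : ℤ => (k : ℝ)) n w = a
      generalize rdL (fun k : ℤ => (k : ℝ)) n w = b at *
      field_simp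
      ring
    rw [e, ← hθ]; ring
  have hT0 := (div_pos_iff_of_pos_right hZ).1 (hT ▸ htb)
  have hS0 := (div_pos_iff_of_pos_right hZ).1 (hS ▸ (by linarith : (0:ℝ) < s))
  refine (mul_pos_iff_of_pos_left (sub_pos.2 hst)).1 ?_
  rw [h.rho_eq (by linarith) hst]
  simp only [CPar.c, hsi]
  rw [hc1]
  obtain ⟨hA, hSl, hB⟩ := leU_nonneg hn hw hz'
  simp only [leUA, leUS, leUB, Int.cast_ofNat] at hA hSl hB
  refine ext0_pos_scaled (Cn := IV.cnL (fun k : ℤ => (k : ℝ)) n w z') (Cd := IV.cdL (fun k : ℤ => (k : ℝ)) n w z') (by linarith) hZ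
    (by simp only [cdL]; exact add_pos hZ hT0) hT hS ?_ hs hst hW
    (mul_nonneg hG.le (by linarith)) hG ?_ (by rw [hn2]; exact hA) (by rw [hn2]; exact hSl)
    (by rw [hn2]; exact hB) hz hz0
  · simp only [cnL, cdL]; push_cast
    rw [hn2, hT]; field_simp; ring
  · refine mul_pos (div_pos two_pos (by linarith)) (sub_pos.2 ?_)
    have hb := CPar.c_bound (C := ⟨n + 6, p, q, M, c1, G, si⟩) (s := s) (by linarith) htb
      (by simp only; linarith) (by simp only; linarith) hG.le (by simp only; rw [hc1, hsi, neg_neg])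
    simp only [CPar.c, hsi, hc1] at hb
    exact hb

end Vale.Agent.P100T
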