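import Vale.Agent.P100T.CertDef
import Vale.Agent.P100T.IneqIVExt
import Vale.Agent.P100T.BoxFinal
import Vale.Agent.P100T.BoxIneqI
import Vale.Agent.P100T.LowerExtLine
import Vale.Agent.P100T.OrbitCurve
import Vale.Agent.P100T.Cases


/-!
The certificate along the orbit for `N ≥ 6`.
-/

open Set Filter Topology

noncomputable section

namespace Vale.Agent.P100T

open Vale.Agent.P100

variable {N p q s W τ₀ τb τ : ℝ} {S κ ε : ℝ → ℝ}

/-- The inequalities in the variables `(σ, W)` on the two regions swept by the orbit. -/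
structure CertHyp (N p q : ℝ) : Prop where
  main : ∀ s W, upSi N p q < s → s ≤ extS2 N p q → 0 ≤ W →
    lineK N ((p + 1) / (q + 1)) * (s - lineSm N ((p + 1) / (q + 1))) ≤ W → W ≤ upU N p q s →
    0 < (certPar N p q).P2 s W ∧
      (certPar N p q).P1 s W ^ 2 < 4 * (certPar N p q).P2 s W * (certPar N p q).P0 s W
  box : ∀ s W, upSi N p q < s → extS2 N p q - boxXmax N p q ≤ s → s ≤ extS3 N p q →
    wm N p q s ≤ W → extL N p q ≤ W → W ≤ boxTopU N p q →
    (s ≤ extS2 N p q → W ≤ upU N p q s) →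
    0 < (certPar N p q).P2 s W ∧
      (certPar N p q).P1 s W ^ 2 < 4 * (certPar N p q).P2 s W * (certPar N p q).P0 s W

lemma CPar.l_eq_T {C : CPar} {T : ℝ} (hq : 0 < C.q) (hT : 0 < T) (hQ : (C.q + 1) * T = C.p + 1)
    (hs : 0 < s) : C.l s W = ((C.p + 1) * s - (s * (s - 1) + W)) / (s + T) := by
  simp only [CPar.l, CPar.K, CPar.V, ← hQ]
  field_simp
  ring

/-- `1 + l z > 0` before `τ₀`. -/
lemma one_add_lz_pos {C : CPar} {T z : ℝ} (hq : 0 < C.q) (hT : 0 < T)
    (hQ : (C.q + 1) * T = C.p + 1) (hs : 0 < s) (hW : s * (s - 1) + W ≤ (C.p + 1) * s)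
    (hz : 0 ≤ z) : 0 < 1 + C.l s W * z := by
  rw [CPar.l_eq_T hq hT hQ hs]
  have : 0 ≤ ((C.p + 1) * s - (s * (s - 1) + W)) / (s + T) * z :=
    mul_nonneg (div_nonneg (by linarith) (by linarith)) hz
  linarith

/-- `1 + l z > 0` beyond `τ₀`. -/
lemma one_add_lz_pos_ext {C : CPar} {T z : ℝ} (hq : 0 < C.q) (hT : 0 < T)
    (hQ : (C.q + 1) * T = C.p + 1) (hs : 1 < s) (hsT : s < T) (hW : 0 < W)
    (h2 : s * ((C.p + 1) - (C.q + 1) * s) < 2 * (s * (s - 1) + W))
    (hz : (s - T) / (W + s * (s - 1)) ≤ z) (hz0 : z ≤ 0) : 0 < 1 + C.l s W * z := by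
  rw [CPar.l_eq_T hq hT hQ (by linarith)]
  have hV : 0 < W + s * (s - 1) := by nlinarith
  rw [div_le_iff₀ hV] at hz
  set V := W + s * (s - 1) with hVd
  rw [show s * (s - 1) + W = V by ring] at h2 ⊢
  have hsp : 0 < s + T := by linarith
  rcases le_or_gt ((C.p + 1) * s - V) 0 with hl | hl
  · have := mul_nonneg_of_nonpos_of_nonpos (div_nonpos_of_nonpos_of_nonneg hl hsp.le) hz0
    linarith
  · have key : 0 < (s + T) * V + ((C.p + 1) * s - V) * (s - T) := by
      have := mul_lt_mul_of_pos_left h2 hT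
      rw [← hQ] at this ⊢
      linarith
    have h3 := mul_le_mul_of_nonneg_left hz hl.le
    rw [div_mul_eq_mul_div, ← sub_neg_eq_add, sub_pos, ← neg_div, div_lt_iff₀ hsp]
    nlinarith

/-- Where `wm < W`, `V` exceeds half of `σ L`. -/
lemma sL_lt_of_wm_lt (hN : 2 < N) (hs : 1 < s) (hL : 0 < (p + 1) - (q + 1) * s)
    (h : wm N p q s < W) : s * ((p + 1) - (q + 1) * s) < 2 * (s * (s - 1) + W) := by
  rw [wm, div_lt_iff₀ (by linarith)] at h
  nlinarith [mul_pos (mul_pos (show 0 < s by linarith) hL) (show 0 < N - 2 by linarith),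
    mul_pos (show 0 < s by linarith) (show 0 < s - 1 by linarith)]

namespace IsOrbitExt

/-- Up to `τ₀`. -/
theorem strict_below (o : IsOrbitExt N p q τ₀ τb S κ ε) (hN : 6 ≤ N) (hq : 0 < q) (hpq : q < p)
    (hcrit : N / (p + 1) + N / (q + 1) = N - 2)
    (hcov : 1 < q ∨ N - 1 ≤ (p + 1) * (q * (N - 3) - 2)) (H : CertHyp N p q) (hτ : τ ≤ τ₀) :
    CPar.Strict (certPar N p q) (S τ) (oW p q S τ) (κ τ) := by
  have hp : 0 < p := hq.trans hpq
  have hN2 : 2 < N := by linarith
  have hN0 : 0 < N := by linarith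
  have hT := certT_gt_one hq hpq
  have hQ : (q + 1) * ((p + 1) / (q + 1)) = p + 1 := mul_div_cancel₀ _ (by linarith)
  have hA : (certPar N p q).Adm := tailPar_adm (by linarith) hp hq hcrit
  have hC := certPar_crit hN2 hq hpq hcrit
  set T := (p + 1) / (q + 1) with hTd
  have hτb : τ < τb := hτ.trans_lt o.τ₀_lt_τb
  have hs1 := o.one_lt τ hτb
  have hsT := o.lt_tb τ hτb
  have hL := o.L_pos hq hτb
  have hsi := o.upSi_lt hN2 hp hq hcrit hτ
  have hs2 := o.S_lt_s2 hN2 hp hq hpq hcrit hτ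
  have hW : 0 < oW p q S τ ∧ oW p q S τ ≤ wm N p q (S τ) ∧
      lineK N T * (S τ - lineSm N T) ≤ oW p q S τ := by
    rcases hτ.eq_or_lt with rfl | h
    · refine ⟨o.W_τ₀_pos hN2 hp hq hpq hcrit, (o.W_τ₀ hN0 hp hq).le, ?_⟩
      refine le_of_tendsto_of_tendsto (b := 𝓝[<] τ) ?_
        ((o.continuousAt_W hτb).tendsto.mono_left nhdsWithin_le_nhds)
        (eventually_nhdsWithin_of_forall fun x hx =>
          o.lineK_mul_le hA rfl rfl rfl hN hpq hcrit hcov hx)
      have hS := (o.hasDerivAt_S hq hτb).continuousAt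
      exact (ContinuousAt.tendsto (by fun_prop)).mono_left nhdsWithin_le_nhds
    · exact ⟨o.W_pos hN2 hp hq hcrit h, (o.W_lt_wm hN2 hp hq hpq hcrit h).le,
        o.lineK_mul_le hA rfl rfl rfl hN hpq hcrit hcov h⟩
  obtain ⟨hW0, hWm, hWl⟩ := hW
  have hU := o.oW_le_upU' hN hq hpq hcrit hτ
  have hk : 0 ≤ κ τ := by
    rcases hτ.eq_or_lt with rfl | h
    · exact o.κ_zero.ge
    · exact (o.κ_pos τ h).le
  have heq := o.eqV hτb
  simp only [oV] at heq
  have hk1 : κ τ * (S τ * (S τ - 1) + oW p q S τ) ≤ S τ := by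
    rw [add_comm, heq]; linarith [Real.exp_pos τ]
  obtain ⟨h2, h3⟩ := H.main (S τ) (oW p q S τ) hsi hs2.le hW0.le hWl hU
  refine ⟨h2, h3, ?_, ?_⟩
  · rcases le_or_gt (sEq N p q) 1 with h | h
    · have hsi1 : upSi N p q = 1 := max_eq_left h
      have hle : (N - 2) * T ≤ N := by
        rw [sEq, ← hTd, div_mul_eq_mul_div, div_le_one hN0] at h; exact h
      refine hC.rho_pos_le (show 5 ≤ N by linarith) hle (certPar_si.trans hsi1)
        (certSlope_pos hN hq hpq).le ?_ hs1 hsT hW0.le ?_ hk hk1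
      · show certC1 N p q = _
        rw [certC1, if_pos h]; rfl
      · refine (hU.trans (upU_le_lin hN hq hpq _)).trans (le_of_eq ?_)
        show _ = 2 / (N - 2) * _
        simp [upA, upB, hsi1]
    · have hsi1 : upSi N p q = (N - 2) * T / N := by
        rw [upSi, max_eq_right h.le, sEq, ← hTd]; ring
      have hgt : N < (N - 2) * T := by
        rw [sEq, ← hTd, div_mul_eq_mul_div, one_lt_div hN0] at h; exact h
      refine hC.rho_pos_gt hN hgt (certPar_si.trans hsi1) (hC.tb_lt hN hcov) ?_ ?_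
        (certPar_si.trans_lt hsi) hs2 hW0.le hWm hU hk hk1
      · show certC1 N p q < -(N / (2 * (N - 2)))
        rw [certC1, if_neg (not_le.2 h)]
        have h1 : 1 < upSi N p q := h.trans_le (le_max_right _ _)
        have : 0 < (upSi N p q - 1) / (20 * N * T ^ 2) := div_pos (by linarith) (by positivity)
        linarith
      · show certSlope N p q = IV.g69 N T (certPar N p q).si
        rw [certPar_si]; rfl
  · refine one_add_lz_pos (T := T) hq (by linarith) hQ (by linarith) ?_ hk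
    have hwle : wm N p q (S τ) ≤ S τ * ((p + 1) - (q + 1) * S τ) := by
      rw [wm, div_le_iff₀ (by linarith)]
      nlinarith [mul_pos (show 0 < S τ by linarith) (sub_pos.2 hs1),
        mul_pos (show 0 < S τ by linarith) hL]
    show _ ≤ (p + 1) * S τ
    nlinarith [mul_pos (mul_pos hq (one_pos.trans hs1)) (one_pos.trans hs1)]

/-- From `τ₀` to `log T`. -/
theorem strict_above (o : IsOrbitExt N p q τ₀ τb S κ ε) (hN : 6 ≤ N) (hq : 0 < q) (hpq : q < p)
    (hcrit : N / (p + 1) + N / (q + 1) = N - 2)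
    (hcov : 1 < q ∨ N - 1 ≤ (p + 1) * (q * (N - 3) - 2)) (H : CertHyp N p q)
    (hτ : τ ∈ Ioc τ₀ (Real.log ((p + 1) / (q + 1)))) :
    CPar.Strict (certPar N p q) (S τ) (oW p q S τ) (κ τ) := by
  have hp : 0 < p := hq.trans hpq
  have hN2 : 2 < N := by linarith
  have hN0 : 0 < N := by linarith
  have hT := certT_gt_one hq hpq
  have hQ : (q + 1) * ((p + 1) / (q + 1)) = p + 1 := mul_div_cancel₀ _ (by linarith)
  have hA : (certPar N p q).Adm := tailPar_adm (by linarith) hp hq hcrit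
  have hC := certPar_crit hN2 hq hpq hcrit
  have hsi0 := o.upSi_lt hN2 hp hq hcrit (le_refl τ₀)
  have hs02 := hsi0.trans (o.S_lt_s2 hN2 hp hq hpq hcrit le_rfl)
  obtain ⟨hXM, hsi, hS3, hwm, hWl, htop, htopU, hk, hk1⟩ :=
    o.box_final hA rfl rfl rfl hN hpq hcrit hcov hτ
  have hτb : τ < τb := hτ.2.trans_lt o.lt_τb
  have hs1 := o.one_lt τ hτb
  have hsT := o.lt_tb τ hτb
  have hW : 0 < oW p q S τ := (extL_pos hN2 hq hpq).trans hWl
  obtain ⟨h2, h3⟩ := H.box (S τ) (oW p q S τ) hsi hXM hS3.le hwm.le hWl.le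
    htop.le (fun h => (htopU h).le)
  simp only [oV] at hk1
  set T := (p + 1) / (q + 1) with hTd
  refine ⟨h2, h3, ?_, one_add_lz_pos_ext (T := T) hq (by linarith) hQ hs1 hsT hW
    (sL_lt_of_wm_lt hN2 hs1 (o.L_pos hq hτb) hwm) hk1 hk.le⟩
  have hG := certSlope_pos hN hq hpq
  rcases le_or_gt (sEq N p q) 1 with h | h
  · have hsi1 : upSi N p q = 1 := max_eq_left h
    have hle : (N - 2) * T ≤ N := by
      rw [sEq, ← hTd, div_mul_eq_mul_div, div_le_one hN0] at h; exact h
    have hc : (certPar N p q).c1 = -((N - 1) * T / ((N - 2) * (1 + T))) := by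
      show certC1 N p q = _
      rw [certC1, if_pos h]
    rw [hsi1] at hs02
    rcases lt_or_ge (S τ) (sTwo N p q) with h2' | h2'
    · exact hC.rho_pos_ext_le hN hle (certPar_si.trans hsi1) hG hc hs1 h2' hwm.le hk1 hk.le
    · exact hC.rho_pos_ext2_le hN hle (certPar_si.trans hsi1) hG hc hs1 h2' hsT hs02 hW hk1 hk.le
  · have hsi1 : upSi N p q = (N - 2) * T / N := by
      rw [upSi, max_eq_right h.le, sEq, ← hTd]; ring
    have hgt : N ≤ (N - 2) * T := by
      rw [sEq, ← hTd, div_mul_eq_mul_div, one_lt_div hN0] at h; exact h.le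
    have hc : (certPar N p q).c1 ≤ -(N / (2 * (N - 2))) := by
      show certC1 N p q ≤ _
      rw [certC1, if_neg (not_le.2 h)]
      have : 0 ≤ (upSi N p q - 1) / (20 * N * T ^ 2) :=
        div_nonneg (sub_nonneg.2 (le_max_left _ _)) (by positivity)
      linarith
    rcases lt_or_ge (S τ) (sTwo N p q) with h2' | h2'
    · exact hC.rho_pos_ext_ge hN hgt (certPar_si.trans hsi1) hc hG (certPar_si.trans_lt hsi) h2'
        hwm.le hk1 hk.le
    · exact hC.rho_pos_ext2_ge hN hgt (certPar_si.trans hsi1) hc hG (certPar_si.trans_lt hsi) h2'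
        hsT (certPar_si.trans_lt hs02) hW hk1 hk.le

end IsOrbitExt

/-- **A certificate at every critical triple with `N ≥ 6` outside the corner.** -/
theorem hasCertificate_of_hyp (hN : 6 ≤ N) (hq : 0 < q) (hpq : q < p)
    (hcrit : N / (p + 1) + N / (q + 1) = N - 2)
    (hcov : 1 < q ∨ N - 1 ≤ (p + 1) * (q * (N - 3) - 2)) (H : CertHyp N p q) :
    HasCertificate N p q := by
  have hp : 0 < p := hq.trans hpq
  have hN2 : 2 < N := by linarith
  have hN0 : 0 < N := by linarith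
  obtain ⟨τ₀, τb, S, κ, ε, o⟩ := exists_orbit_ext hN2 hp hq hpq hcrit
  have hT := certT_gt_one hq hpq
  have hM : (N - 4) / N ≤ (certPar N p q).M := by
    have : 0 < N - 2 := by linarith
    have : (0:ℝ) ≤ 2 / ((N - 2) * (p + 1)) := by positivity
    show _ ≤ (N - 4) / N + 2 / ((N - 2) * (p + 1))
    linarith
  have hs : ∀ᶠ τ in atBot, S τ = S τ ∧ oW p q S τ = orbW S (fun y => (κ y)⁻¹) τ
      ∧ κ τ = 1 / (κ τ)⁻¹ := by
    filter_upwards [eventually_lt_atBot τ₀] with x hx
    refine ⟨rfl, ?_, by rw [one_div, inv_inv]⟩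
    have h := o.eqV (hx.trans o.τ₀_lt_τb)
    rw [orbW, ← h, inv_mul_cancel_left₀ (o.κ_pos x hx).ne', oV]
    ring
  have hW : ∀ τ ≤ τ₀ - 1, 0 ≤ orbW S (fun y => (κ y)⁻¹) τ := fun x hx => by
    have hx0 : x < τ₀ := by linarith
    have h := o.eqV (hx0.trans o.τ₀_lt_τb)
    rw [orbW, ← h, inv_mul_cancel_left₀ (o.κ_pos x hx0).ne', oV, add_sub_cancel_right]
    exact o.W_nonneg hN2 hp hq hcrit hx0
  set T := (p + 1) / (q + 1) with hTd
  have hQ : (q + 1) * T = p + 1 := mul_div_cancel₀ _ (by linarith)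
  have ht : TailCert (certPar N p q) S (oW p q S) κ := by
    rcases le_or_gt (sEq N p q) 1 with h | h
    · have hle : (N - 2) * T ≤ N := by
        rw [sEq, ← hTd, div_mul_eq_mul_div, div_le_one hN0] at h; exact h
      have hsi1 : upSi N p q = 1 := max_eq_left h
      have hg : certSlope N p q = (4 / 25 + 15 / (2 * N ^ 2)) * (1 + 69 / (5 * (N ^ 2 - 12)))
          / ((T - 1 + 19 / 84 - 5 / (7 * N)) * (1 + 6 * T / (5 * N))) := by
        rw [certSlope, IV.g69, hsi1, mul_div_mul_right _ _ (by linarith : T - 1 ≠ 0)]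
      obtain ⟨hG0, hG1⟩ := tail_G67_le hN hT.le hle
      refine tailCert_le o.below (by linarith) hp hq hcrit (sub_one_lt τ₀) hW hs ?_ ?_
        (hg ▸ hG0) (hg ▸ hG1)
      · rwa [← hQ, ← mul_assoc, mul_comm _ T, ← mul_assoc, mul_comm T, mul_le_mul_iff_left₀
          (by linarith : (0:ℝ) < q + 1)]
      · rw [certC1, if_pos h, ← hTd]
        have : p + q + 2 = (q + 1) * (1 + T) := by rw [mul_add, hQ]; ring
        rw [this, ← hQ]
        field_simp
    · have hgt : N < (N - 2) * T := by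
        rw [sEq, ← hTd, div_mul_eq_mul_div, one_lt_div hN0] at h; exact h
      have h1 : 1 < upSi N p q := h.trans_le (le_max_right _ _)
      have hk := crit_iff hp hq hcrit
      have hq2 : 2 < (N - 2) * q := by
        have e : (N - 2) * q * T = 2 * T + N := by linear_combination hk + (N - 2) * hQ
        nlinarith
      refine tailCert_gt o.below (by linarith) hp hq hcrit hq2 (sub_one_lt τ₀) hW hs ?_
        (δ := (upSi N p q - 1) / (20 * N * T ^ 2)) ?_ (div_pos (by linarith) (by positivity)) ?_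
      · rw [← hQ]
        nlinarith
      · rw [certC1, if_neg (not_le.2 h), neg_div]
      · rw [← hTd]
        have := upSi_lt_T hN2 hq hpq
        rw [show 20 * N * ((upSi N p q - 1) / (20 * N * T ^ 2)) * T = (upSi N p q - 1) / T by
          field_simp, div_le_one (by linarith)]
        linarith
  refine ⟨certPar N p q, rfl, rfl, rfl, hM, τ₀, τb, S, oW p q S, κ,
    o.isCurve hN0 hp hq rfl rfl rfl, o.lt_τb, fun τ hτ => ?_, ht.1, ht.2⟩
  rcases le_or_gt τ τ₀ with h | h
  · exact o.strict_below hN hq hpq hcrit hcov H h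
  · exact o.strict_above hN hq hpq hcrit hcov H ⟨h, hτ⟩

end Vale.Agent.P100T
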