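import Vale.Agent.P100T.Extension

/-!
The orbit between `τ₀` and `log t_b` in a box `σ₀ ≤ σ ≤ s3`, `l < W < Cc` with `s₂ ≤ s3`: the lower
bound `c (σ - σ₀) ≤ -κ` gives both the lower barrier for `W` and `σ < s3`. It follows from
`Kp0 ≤ Km` on the box and `c (Cc + Km (s3 - σ₀)) ≤ 2 / N`.
-/

open Set Filter Topology

noncomputable section

namespace Vale.Agent.P100T

namespace IsOrbitExt

variable {N p q τ₀ τb a : ℝ} {S κ ε : ℝ → ℝ}

lemma wm_neg_of_lt {s : ℝ} (hN : 2 < N) (hq : 0 < q) (hs : 0 < s) (h : sTwo N p q < s) :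
    wm N p q s < 0 := by
  rw [sTwo, div_lt_iff₀ (by positivity)] at h
  refine div_neg_of_neg_of_pos (mul_neg_of_pos_of_neg hs ?_) (by linarith)
  linarith

/-- Above `τ₀` the orbit is above `wm` as long as `W` stays positive. -/
lemma wm_lt_W_of_pos (o : IsOrbitExt N p q τ₀ τb S κ ε) (hN : 2 < N) (hp : 0 < p) (hq : 0 < q)
    (hpq : q < p) (hcrit : N / (p + 1) + N / (q + 1) = N - 2) (ha : a < τb)
    (hW : ∀ x ∈ Icc τ₀ a, 0 < oW p q S x) {x : ℝ} (hx : x ∈ Ioc τ₀ a) :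
    wm N p q (S x) < oW p q S x := by
  rcases lt_or_ge (sTwo N p q) (S x) with h | h
  · exact (wm_neg_of_lt hN hq (one_pos.trans (o.one_lt x (hx.2.trans_lt ha))) h).trans
      (hW x (Ioc_subset_Icc_self hx))
  · have hmono : MonotoneOn S (Icc τ₀ a) := by
      refine monotoneOn_of_deriv_nonneg (convex_Icc _ _)
        (fun y hy => (o.hasDerivAt_S hq (hy.2.trans_lt ha)).continuousAt.continuousWithinAt)
        (fun y hy => ?_) (fun y hy => ?_)
      · rw [interior_Icc] at hy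
        exact (o.hasDerivAt_S hq (hy.2.trans ha)).differentiableAt.differentiableWithinAt
      · rw [interior_Icc] at hy
        rw [(o.hasDerivAt_S hq (hy.2.trans ha)).deriv]
        exact (div_pos (hW y (Ioo_subset_Icc_self hy)) (o.L_pos hq (hy.2.trans ha))).le
    exact o.wm_lt_W hN hp hq hpq hcrit (hx.2.trans_lt ha) (fun y hy =>
      (hmono ⟨hy.1, hy.2.trans hx.2⟩ (Ioc_subset_Icc_self hx) hy.2).trans h) ⟨hx.1, le_rfl⟩

/-- The non-strict box on `[τ₀, b]`. -/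
def InBox (p q τ₀ b : ℝ) (S : ℝ → ℝ) (s3 Cc l : ℝ) : Prop :=
  ∀ y ∈ Icc τ₀ b, l ≤ oW p q S y ∧ oW p q S y ≤ Cc ∧ S y ≤ s3

variable {b s3 Cc l c : ℝ}

lemma box_S_mem (o : IsOrbitExt N p q τ₀ τb S κ ε) (hq : 0 < q) (hb : b < τb) (hl : 0 < l)
    (hbox : InBox p q τ₀ b S s3 Cc l) {y : ℝ} (hy : y ∈ Icc τ₀ b) :
    S y ∈ Icc (S τ₀) s3 ∧ (τ₀ < y → S τ₀ < S y) := by
  have hmono : StrictMonoOn S (Icc τ₀ b) := by
    refine strictMonoOn_of_deriv_pos (convex_Icc _ _) (fun w hw =>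
      (o.hasDerivAt_S hq (hw.2.trans_lt hb)).continuousAt.continuousWithinAt) (fun w hw => ?_)
    rw [interior_Icc] at hw
    have hwb := hw.2.trans hb
    rw [(o.hasDerivAt_S hq hwb).deriv]
    exact div_pos (hl.trans_le (hbox w (Ioo_subset_Icc_self hw)).1) (o.L_pos hq hwb)
  exact ⟨⟨hmono.monotoneOn ⟨le_rfl, hy.1.trans hy.2⟩ hy hy.1, (hbox y hy).2.2⟩,
    fun h => hmono ⟨le_rfl, hy.1.trans hy.2⟩ hy h⟩

lemma box_wm_lt (o : IsOrbitExt N p q τ₀ τb S κ ε) (hN : 2 < N) (hp : 0 < p) (hq : 0 < q)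
    (hpq : q < p) (hcrit : N / (p + 1) + N / (q + 1) = N - 2) (hb : b < τb) (hl : 0 < l)
    (hbox : InBox p q τ₀ b S s3 Cc l) {y : ℝ} (hy : y ∈ Ioc τ₀ b) :
    wm N p q (S y) < oW p q S y :=
  o.wm_lt_W_of_pos hN hp hq hpq hcrit hb (fun w hw => hl.trans_le (hbox w hw).1) hy

/-- In the box `c (σ - σ₀) ≤ -κ`. -/
lemma box_neg_κ (o : IsOrbitExt N p q τ₀ τb S κ ε) {C : CPar} (hA : C.Adm) (hCN : C.N = N)
    (hCp : C.p = p) (hCq : C.q = q) (hN : 5 ≤ N) (hpq : q < p)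
    (hcrit : N / (p + 1) + N / (q + 1) = N - 2) (hl : 0 < l) (hc : 0 < c)
    (hbT : b ≤ Real.log ((p + 1) / (q + 1))) (hbox : InBox p q τ₀ b S s3 Cc l)
    {Km : ℝ} (hKm : 0 ≤ Km)
    (hK : ∀ s W, S τ₀ ≤ s → s ≤ s3 → wm N p q s ≤ W → l ≤ W → W ≤ Cc → C.Kp0 s W ≤ Km)
    (hcK : c * (Cc + Km * (s3 - S τ₀)) ≤ 2 / N)
    {y : ℝ} (hy : y ∈ Icc τ₀ b) : c * (S y - S τ₀) ≤ -κ y := by
  have hp : 0 < p := hCp ▸ hA.hp
  have hq : 0 < q := hCq ▸ hA.hq
  have hN2 : 2 < N := by linarith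
  have hb : b < τb := hbT.trans_lt o.lt_τb
  have hS0 : S τ₀ ≤ s3 := (hbox τ₀ ⟨le_rfl, hy.1.trans hy.2⟩).2.2
  have hcont : ContinuousOn (fun w => -κ w - c * (S w - S τ₀)) (Icc τ₀ y) := fun w hw => by
    have hwb := (hw.2.trans hy.2).trans_lt hb
    have hd := (o.isCurve (C := C) (by linarith) hp hq hCN hCp hCq).derivz w hwb
    exact (hd.neg.sub (((o.hasDerivAt_S hq hwb).sub_const _).const_mul c)).continuousAt
      |>.continuousWithinAt
  -- the last zero before a negative value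
  by_contra hlt
  push Not at hlt
  set h := fun w => -κ w - c * (S w - S τ₀) with hh
  have hcl : IsCompact (Icc τ₀ y ∩ h ⁻¹' Ici 0) :=
    isCompact_Icc.of_isClosed_subset (hcont.preimage_isClosed_of_isClosed isClosed_Icc isClosed_Ici)
      inter_subset_left
  have h0 : h τ₀ = 0 := by simp only [h, o.κ_zero]; ring
  obtain ⟨a, ⟨ha, hha⟩, hmax⟩ := hcl.exists_isGreatest ⟨τ₀, ⟨le_rfl, hy.1⟩, h0.ge⟩
  have hmono := mono_of_deriv (f := h)
    (f' := fun w => (κ w * C.Kp0 (S w) (oW p q S w) + 2 / N) / ((p + 1) - (q + 1) * S w)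
      - c * (oW p q S w / ((p + 1) - (q + 1) * S w)))
    (a := a) (b := y) (fun w hw => by
      have hwb := (hw.2.trans hy.2).trans_lt hb
      have hd := (o.isCurve (C := C) (by linarith) hp hq hCN hCp hCq).derivz w hwb
      exact (hd.neg.sub (((o.hasDerivAt_S hq hwb).sub_const _).const_mul c)).congr_deriv
        (by simp only [CPar.dz, CPar.L, hCN, hCp, hCq]; ring))
    (fun w hw => by
      have hwI : w ∈ Ioc τ₀ b := ⟨ha.1.trans_lt hw.1, hw.2.le.trans hy.2⟩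
      have hwC := Ioc_subset_Icc_self hwI
      have hwb := hwI.2.trans_lt hb
      have hneg : h w < 0 := by
        by_contra hge
        exact absurd (hmax ⟨⟨hwI.1.le, hw.2.le⟩, not_lt.1 hge⟩) (not_le.2 hw.1)
      simp only [h] at hneg
      obtain ⟨h1, h2, h3⟩ := hbox w hwC
      have hS := (o.box_S_mem hq hb hl hbox hwC).1
      have hKw := hK _ _ hS.1 h3 (o.box_wm_lt hN2 hp hq hpq hcrit hb hl hbox hwI).le h1 h2
      rw [← mul_div_assoc, ← sub_div]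
      refine div_nonneg (sub_nonneg.2 ?_) (o.L_pos hq hwb).le
      nlinarith [mul_le_mul_of_nonpos_left hKw (o.κ_neg w hwI.1 hwb).le,
        mul_le_mul_of_nonneg_right (show -κ w ≤ c * (s3 - S τ₀) by
          linarith [mul_le_mul_of_nonneg_left (sub_le_sub_right h3 (S τ₀)) hc.le]) hKm,
        mul_le_mul_of_nonneg_left h2 hc.le]) ha.2
  simp only [mem_preimage, mem_Ici] at hha
  simp only [h] at hmono hha
  linarith

/-- In the box the lower barrier is strict. -/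
lemma box_l_lt (o : IsOrbitExt N p q τ₀ τb S κ ε) (hN : 2 < N) (hp : 0 < p) (hq : 0 < q)
    (hpq : q < p) (hcrit : N / (p + 1) + N / (q + 1) = N - 2) (hb : b < τb) (hτb : τ₀ ≤ b)
    (hl : 0 < l) (hl0 : l < oW p q S τ₀) (hc : 0 < c) (hbox : InBox p q τ₀ b S s3 Cc l)
    (hκ : ∀ y ∈ Icc τ₀ b, c * (S y - S τ₀) ≤ -κ y)
    (hlr : ∀ s, S τ₀ < s → s ≤ s3 → wm N p q s < l →
      (N + 2) / N * (l - wm N p q s) < frc N p q s l * (c * (s - S τ₀))) :
    l < oW p q S b := by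
  suffices 0 < (fun y => oW p q S y - l) b by linarith [this]
  refine pos_of_first_zero (f := fun y => oW p q S y - l) (f' := deriv (oW p q S))
    (fun y hy => (o.hasDerivAt_W (hy.2.trans_lt hb)).sub_const l) (fun y hy _ h0 => ?_)
    (by linarith) b ⟨hτb, le_rfl⟩
  have hyI := Ioc_subset_Icc_self hy
  have hyb := hy.2.trans_lt hb
  obtain ⟨hS, hS'⟩ := o.box_S_mem hq hb hl hbox hyI
  have b2 := o.box_wm_lt hN hp hq hpq hcrit hb hl hbox hy
  have b3 := o.κ_neg y hy.1 hyb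
  have hw : oW p q S y = l := by linarith
  have hr := o.rateW (by linarith) hp hq hyb
  have h := hlr _ (hS' hy.1) hS.2 (hw ▸ b2)
  rw [← hw] at h
  simp only [frc] at h
  simp only [oV] at hr
  set F := (oW p q S y + S y * (S y - 1)) * (k0 N p q (S y) + 2 * nu N p q (S y) * oW p q S y)
    - (2 * S y - 1) * oW p q S y
  have hpos : 0 < (N + 2) / N * (oW p q S y - wm N p q (S y)) := by
    have : 0 < N := by linarith
    have := sub_pos.2 b2
    positivity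
  have hF : 0 < F :=
    pos_of_mul_pos_left (hpos.trans h) (mul_pos hc (sub_pos.2 (hS' hy.1))).le
  refine pos_of_mul_pos_right (a := (p + 1) - (q + 1) * S y) ?_ (o.L_pos hq hyb).le
  by_contra hle
  push Not at hle
  nlinarith [mul_le_mul_of_nonpos_left hle b3.le, mul_le_mul_of_nonneg_left (hκ y hyI) hF.le]

/-- In the box the upper barrier is strict. -/
lemma box_lt_Cc (o : IsOrbitExt N p q τ₀ τb S κ ε) {C : CPar} (hA : C.Adm) (hCN : C.N = N)
    (hCp : C.p = p) (hCq : C.q = q) (hN : 5 ≤ N) (hpq : q < p)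
    (hcrit : N / (p + 1) + N / (q + 1) = N - 2) (hb : b < τb) (hτb : τ₀ ≤ b) (hl : 0 < l)
    (hC0 : oW p q S τ₀ < Cc) (hbox : InBox p q τ₀ b S s3 Cc l)
    (hUreg : ∀ s ∈ Icc (S τ₀) s3,
      (N + 2) * (Cc - wm N p q s) ≤ 2 * q * s * (s + (p + 1) / (q + 1)))
    (hUd : ∀ s ∈ Icc (S τ₀) s3, C.Wd s Cc ≤ 0) :
    oW p q S b < Cc := by
  have hp : 0 < p := hCp ▸ hA.hp
  have hq : 0 < q := hCq ▸ hA.hq
  have hN2 : 2 < N := by linarith
  suffices 0 < (fun y => Cc - oW p q S y) b by linarith [this]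
  refine pos_of_first_zero (f := fun y => Cc - oW p q S y)
    (f' := fun y => -deriv (oW p q S) y)
    (fun y hy => (o.hasDerivAt_W (hy.2.trans_lt hb)).const_sub Cc) (fun y hy _ h0 => ?_)
    (by linarith) b ⟨hτb, le_rfl⟩
  have hyb := hy.2.trans_lt hb
  have h := o.lt_Wd hA hCN hCp hCq hN hpq hyb (fun z hz => ?_) (τ := y) ⟨hy.1, le_rfl⟩
  · have hw : oW p q S y = Cc := by linarith
    have hd := hUd _ (o.box_S_mem hq hb hl hbox (Ioc_subset_Icc_self hy)).1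
    rw [← hw] at hd
    rw [CPar.L, hCp, hCq] at h
    refine pos_of_mul_pos_right (a := (p + 1) - (q + 1) * S y) ?_ (o.L_pos hq hyb).le
    linarith
  · have hzI : z ∈ Icc τ₀ b := ⟨hz.1.le, hz.2.trans hy.2⟩
    have hzs := (o.box_S_mem hq hb hl hbox hzI).1
    refine ⟨(o.sEq_lt hN2 hp hq hcrit le_rfl).le.trans hzs.1, hl.trans_le (hbox z hzI).1, ?_⟩
    have hs := one_pos.trans (o.one_lt z (hzI.2.trans_lt hb))
    have e := Av_eq_wm hA hs (oW p q S z)
    rw [hCN, hCp, hCq] at e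
    simp only [CPar.Av, hCN] at e
    have hreg := hUreg _ hzs
    have hP : 0 < q * S z * (S z + (p + 1) / (q + 1)) := by positivity
    refine le_of_mul_le_mul_right (a := q * S z * (S z + (p + 1) / (q + 1))) ?_ hP
    nlinarith [mul_le_mul_of_nonneg_left (hbox z hzI).2.1 (show (0:ℝ) ≤ N + 2 by linarith)]

/-- In the box `σ` cannot reach `s3`. -/
lemma box_S_lt (o : IsOrbitExt N p q τ₀ τb S κ ε) (hp : 0 < p) (hq : 0 < q) (hτb : τ₀ ≤ b)
    (hbT : b ≤ Real.log ((p + 1) / (q + 1))) (hl : 0 < l) (hc : 0 < c) (hS0 : S τ₀ ≤ s3)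
    (hbox : InBox p q τ₀ b S s3 Cc l) (hκ : c * (S b - S τ₀) ≤ -κ b)
    (hexit : (p + 1) / (q + 1) - s3 < c * (s3 - S τ₀) * (s3 * (s3 - 1) + l)) :
    S b < s3 := by
  obtain ⟨h1, -, h3⟩ := hbox b ⟨hτb, le_rfl⟩
  refine h3.lt_of_ne fun hS => ?_
  have hb : b < τb := hbT.trans_lt o.lt_τb
  have e := o.eqV hb
  have hexp := (Real.le_log_iff_exp_le (by positivity)).1 hbT
  have hs1 := o.one_lt b hb
  simp only [oV, hS] at e
  rw [hS] at hκ hs1
  have hV : 0 ≤ oW p q S b + s3 * (s3 - 1) :=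
    add_nonneg (hl.le.trans h1) (mul_nonneg (by linarith) (by linarith))
  have h0 : 0 ≤ c * (s3 - S τ₀) := mul_nonneg hc.le (by linarith)
  nlinarith [mul_le_mul_of_nonneg_right hκ hV, mul_le_mul_of_nonneg_left h1 h0]

/-- The box of the orbit between `τ₀` and `log t_b`, reaching beyond `s₂`. -/
theorem ext_box (o : IsOrbitExt N p q τ₀ τb S κ ε) {C : CPar} (hA : C.Adm) (hCN : C.N = N)
    (hCp : C.p = p) (hCq : C.q = q) (hN : 5 ≤ N) (hpq : q < p)
    (hcrit : N / (p + 1) + N / (q + 1) = N - 2) (hs3 : sTwo N p q ≤ s3)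
    (hl : 0 < l) (hl0 : l < oW p q S τ₀) (hC0 : oW p q S τ₀ < Cc) (hc : 0 < c)
    (hUreg : ∀ s ∈ Icc (S τ₀) s3,
      (N + 2) * (Cc - wm N p q s) ≤ 2 * q * s * (s + (p + 1) / (q + 1)))
    (hUd : ∀ s ∈ Icc (S τ₀) s3, C.Wd s Cc ≤ 0)
    {Km : ℝ} (hKm : 0 ≤ Km)
    (hK : ∀ s W, S τ₀ ≤ s → s ≤ s3 → wm N p q s ≤ W → l ≤ W → W ≤ Cc → C.Kp0 s W ≤ Km)
    (hcK : c * (Cc + Km * (s3 - S τ₀)) ≤ 2 / N)
    (hlr : ∀ s, S τ₀ < s → s ≤ s3 → wm N p q s < l →
      (N + 2) / N * (l - wm N p q s) < frc N p q s l * (c * (s - S τ₀)))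
    (hexit : (p + 1) / (q + 1) - s3 < c * (s3 - S τ₀) * (s3 * (s3 - 1) + l))
    {x : ℝ} (hx : x ∈ Ioc τ₀ (Real.log ((p + 1) / (q + 1)))) :
    S τ₀ < S x ∧ S x < s3 ∧ wm N p q (S x) < oW p q S x ∧ l < oW p q S x ∧ oW p q S x < Cc ∧
      κ x < 0 ∧ (S x - (p + 1) / (q + 1)) / oV p q S x ≤ κ x ∧ c * (S x - S τ₀) ≤ -κ x := by
  have hp : 0 < p := hCp ▸ hA.hp
  have hq : 0 < q := hCq ▸ hA.hq
  have hN2 : 2 < N := by linarith
  set T := Real.log ((p + 1) / (q + 1)) with hT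
  have hb : ∀ y ∈ Icc τ₀ T, y < τb := fun y hy => hy.2.trans_lt o.lt_τb
  have hS0 : S τ₀ < s3 := (o.S_lt_s2 hN2 hp hq hpq hcrit le_rfl).trans_le hs3
  have hcW : ContinuousOn (oW p q S) (Icc τ₀ T) := fun y hy =>
    (o.hasDerivAt_W (hb y hy)).continuousAt.continuousWithinAt
  have hcS : ContinuousOn S (Icc τ₀ T) := fun y hy =>
    (o.hasDerivAt_S hq (hb y hy)).continuousAt.continuousWithinAt
  set g := fun y => min (min (oW p q S y - l) (Cc - oW p q S y)) (s3 - S y) with hg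
  have hgc : ContinuousOn g (Icc τ₀ T) :=
    ContinuousOn.inf (ContinuousOn.inf (hcW.sub continuousOn_const) (continuousOn_const.sub hcW))
      (continuousOn_const.sub hcS)
  have hpos : ∀ y ∈ Icc τ₀ T, 0 < g y := by
    by_contra hne
    push Not at hne
    obtain ⟨w, hw, hgw⟩ := hne
    have hcl : IsCompact (Icc τ₀ T ∩ g ⁻¹' Iic 0) :=
      isCompact_Icc.of_isClosed_subset (hgc.preimage_isClosed_of_isClosed isClosed_Icc isClosed_Iic)
        inter_subset_left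
    obtain ⟨x1, ⟨hx1, hg1⟩, hmin⟩ := hcl.exists_isLeast ⟨w, hw, hgw⟩
    have hg0 : 0 < g τ₀ := lt_min (lt_min (by linarith) (by linarith)) (by linarith)
    have hne : τ₀ < x1 := hx1.1.lt_of_ne fun e => by
      simp only [mem_preimage, mem_Iic, ← e] at hg1
      linarith
    have hnn : ∀ y ∈ Icc τ₀ x1, 0 ≤ g y := by
      intro y hy
      have hcl' : Icc τ₀ x1 ⊆ closure (Ico τ₀ x1) := (closure_Ico hne.ne).symm.subset
      have hbefore : ∀ u ∈ Ico τ₀ x1, g u ∈ Ici (0:ℝ) := fun u hu => by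
        by_contra h
        have hu' : g u ≤ 0 := le_of_lt (not_le.1 h)
        exact absurd (hmin ⟨⟨hu.1, hu.2.le.trans hx1.2⟩, hu'⟩) (not_le.2 hu.2)
      exact isClosed_Ici.closure_subset (((hgc y ⟨hy.1, hy.2.trans hx1.2⟩).mono
        (Ico_subset_Icc_self.trans (Icc_subset_Icc_right hx1.2))).mem_closure (hcl' hy) hbefore)
    have hbox : InBox p q τ₀ x1 S s3 Cc l := fun y hy => by
      have := hnn y hy
      simp only [g, le_min_iff] at this
      exact ⟨by linarith [this.1.1], by linarith [this.1.2], by linarith [this.2]⟩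
    have hκ : ∀ y ∈ Icc τ₀ x1, c * (S y - S τ₀) ≤ -κ y := fun y hy =>
      o.box_neg_κ hA hCN hCp hCq hN hpq hcrit hl hc hx1.2 hbox hKm hK hcK hy
    have hxb := hb x1 hx1
    have h1 := o.box_l_lt hN2 hp hq hpq hcrit hxb hne.le hl hl0 hc hbox hκ hlr
    have h2 := o.box_lt_Cc hA hCN hCp hCq hN hpq hcrit hxb hne.le hl hC0 hbox hUreg hUd
    have h3 := o.box_S_lt hp hq hne.le hx1.2 hl hc hS0.le hbox (hκ x1 ⟨hne.le, le_rfl⟩) hexit
    simp only [mem_preimage, mem_Iic] at hg1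
    linarith [lt_min (lt_min (sub_pos.2 h1) (sub_pos.2 h2)) (sub_pos.2 h3)]
  have hxI := Ioc_subset_Icc_self hx
  have hxb := hb x hxI
  have hbox : InBox p q τ₀ x S s3 Cc l := fun y hy => by
    have := hpos y ⟨hy.1, hy.2.trans hxI.2⟩
    simp only [g, lt_min_iff] at this
    exact ⟨by linarith [this.1.1], by linarith [this.1.2], by linarith [this.2]⟩
  have hgx := hpos x hxI
  simp only [g, lt_min_iff] at hgx
  have hxx : x ∈ Icc τ₀ x := ⟨hxI.1, le_rfl⟩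
  refine ⟨(o.box_S_mem hq hxb hl hbox hxx).2 hx.1, by linarith [hgx.2],
    o.box_wm_lt hN2 hp hq hpq hcrit hxb hl hbox ⟨hx.1, le_rfl⟩, by linarith [hgx.1.1],
    by linarith [hgx.1.2], o.κ_neg x hx.1 hxb, ?_,
    o.box_neg_κ hA hCN hCp hCq hN hpq hcrit hl hc hx.2 hbox hKm hK hcK hxx⟩
  have hs := o.one_lt x hxb
  have hV : 0 < oV p q S x :=
    add_pos (hl.trans_le (hbox x hxx).1) (mul_pos (one_pos.trans hs) (sub_pos.2 hs))
  rw [div_le_iff₀ hV, o.eqV hxb]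
  have := (Real.le_log_iff_exp_le (by positivity)).1 hx.2
  linarith

end IsOrbitExt

end Vale.Agent.P100T
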