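import Vale.Agent.P100T.LinePos

/-!
Algebra of the second lower line: `linePhi ≥ 0` where `0 < W = k (σ - σm) < K₂ (σ₂ - σ)`, with
`σm = σ₂ - 2r/3` and `k = 27/20 · C₀/r`, for `N ≥ 6` and `1 < T < (7N-17)/5`.
-/

noncomputable section

namespace Vale.Agent.P100T

/-- `C₀` in terms of `T`. -/
def lineC0 (N T : ℝ) : ℝ :=
  4 * (N - 1) * N ^ 2 * T * (T - 1) * (1 + T) * (N + 2 * T)
      * (N ^ 2 * (1 + T) + N * (N - 2) * T - (N - 2) ^ 2)
    / ((N ^ 2 * (1 + T) + 2 * (N - 2) * T) ^ 3 * (N ^ 2 + (N - 2)))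

/-- The slope of the second lower line. -/
def lineKE (N T : ℝ) : ℝ :=
  27 / 20 * lineC0 N T / (lineS2 N T - max 1 ((N - 2) * T / N))

/-- The slope of `wm` below `σ₂`. -/
def lineK2 (N T : ℝ) : ℝ := (N ^ 2 * (1 + T) + 2 * (N - 2)) / ((N - 2) * (N + 2))

namespace ExtLinePos

open PosCheck LinePos

def eK2 (Tn Td : Ex) : Ex := eN * eN * (Td + Tn) + eh * Td * 2
def eX (Tn Td : Ex) : Ex := eN * eN * (Td + Tn) + eN * eh * Tn - eh * eh * Td
def eW (Tn Td : Ex) : Ex := eN * eN * (Td + Tn) + eN * eh * Td - eh * eh * Tn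
def eAll (Tn Td : Ex) : Ex := (eN - 1) * (eN * Td + Tn * 2) * eX Tn Td
def eDd (Tn Td : Ex) : Ex := eD Tn Td * eD Tn Td * (eN * eN + eh) * 20

/-- The cleared polynomial, for `k = kn/(k0 Td)` and `r = R/(d₁ W)`. -/
def eP (Tn Td kn k0 R W : Ex) : Ex :=
  let ud := (eK2 Tn Td * k0 + eh * (eN + 2) * kn) * (.z + 1)
  let un := eK2 Tn Td * k0 * .z
  let d := Td * eD Tn Td * W * 3 * ud
  let sn := eS2 Tn Td * W * 3 * ud - R * 2 * (ud - un)
  let wn := kn * (R * 2 * un)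
  let kd := k0 * Td
  let wd := kd * sn
  let sT := sn * Td + Tn * d
  let A := (eN + 4) * sT * (wn * wn * d * kd - (sn * kd + kn * d) * wn * wd) * eh * Tn
  let B := wn * ((Tn * d * 2 - sn * Td * 4)
      * ((eN * (Td + Tn) + eh * Td) * d * wd - sn * eh * Td * wd - wn * eh * Td * d)
      - eN * sT * eh * Td * d * wd)
  let e := eN * (Td + Tn) * sn * Td - (Td + Tn) * eh * Tn * d
  let g := (sn - d) * (eN * Tn * d - eh * sn * Td) * wd - eh * sn * wn * Td * d
  A * d * Td + B * d * kd * Tn + e * g * wd * kd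

/-- The certificate predicate, kept folded for elaboration. -/
def Cert (e : Ex) : Prop := check e = true

def eKnA : Ex := eAll eTnA eTdA * eTnA * 108
def eK0A : Ex := eDd eTnA eTdA
def eRA : Ex := (eTnA - eTdA) * eN * eN * (eTdA + eTnA)
def eKnB : Ex := eAll eTnB eTdB * eN * eN * eN * (eTnB - eTdB) * (eTnB + eTdB) * 54
def eK0B : Ex := eDd eTnB eTdB * eW eTnB eTdB
def eRB : Ex := eTnB * eW eTnB eTdB * 2

theorem checkA : Cert (eP eTnA eTdA eKnA eK0A eRA 1) := by unfold Cert; decide +kernel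
theorem checkB : Cert (eP eTnB eTdB eKnB eK0B eRB eN) := by unfold Cert; decide +kernel

variable {X Y Z : ℝ}

lemma piece {Tn Td kn k0 R W : Ex} (hc : Cert (eP Tn Td kn k0 R W)) {N T : ℝ} (hN : 6 ≤ N)
    (hY : 0 ≤ Y) (hT1 : 1 < T) {k r w0 td : ℝ}
    (hTd : ∀ Z, Td.eval (N - 6) Y Z = td) (htd : 0 < td)
    (hT : ∀ Z, Tn.eval (N - 6) Y Z = T * td)
    {k0v : ℝ} (hk0 : ∀ Z, k0.eval (N - 6) Y Z = k0v) (hk0' : 0 < k0v)
    (hk : ∀ Z, kn.eval (N - 6) Y Z = k * (k0v * td)) (hk' : 0 < k)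
    (hW : ∀ Z, W.eval (N - 6) Y Z = w0) (hw0 : 0 < w0)
    (hR : ∀ Z, R.eval (N - 6) Y Z
      = r * (td * (N ^ 2 * (1 + T) + 2 * (N - 2) * T) * td * w0))
    (hr : 0 < r) {s : ℝ} (hs : 0 < s) (hlo : lineS2 N T - 2 * r / 3 < s) (hs2 : s < lineS2 N T)
    (hup : k * (s - (lineS2 N T - 2 * r / 3)) < lineK2 N T * (lineS2 N T - s)) :
    0 ≤ linePhi N T k s (k * (s - (lineS2 N T - 2 * r / 3)) / s) := by
  have hh : 0 < N - 2 := by linarith
  have hT0 : 0 < T := by linarith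
  set K := lineK2 N T with hK
  have hK0 : 0 < K := by rw [hK, lineK2]; positivity
  set δ := s - (lineS2 N T - 2 * r / 3) with hδ
  have hden : 0 < K * (lineS2 N T - s) - k * δ := by linarith
  set Z := (k + K) * δ / (K * (lineS2 N T - s) - k * δ) with hZd
  have hZ : 0 ≤ Z := div_nonneg (mul_nonneg (by linarith) (by linarith)) hden.le
  have hzero : (K * (lineS2 N T - s) - k * δ) * Z = (k + K) * δ := by
    rw [hZd, mul_div_cancel₀ _ hden.ne']
  set D := N ^ 2 * (1 + T) + 2 * (N - 2) * T with hD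
  have hD0 : 0 < D := by positivity
  have e6 : (eN).eval (N - 6) Y Z = N := by
    simp only [eN, eval_add, eval_num, Ex.eval]; push_cast; ring
  have e4 : (eh).eval (N - 6) Y Z = N - 2 := by
    simp only [eh, eval_add, eval_num, Ex.eval]; push_cast; ring
  have eDv : (eD Tn Td).eval (N - 6) Y Z = D * td := by
    simp only [eD, eval_add, eval_mul, eval_num, e6, e4, hT, hTd]; push_cast; rw [hD]; ring
  have eS2v : (eS2 Tn Td).eval (N - 6) Y Z = lineS2 N T * (D * td * td) := by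
    simp only [eS2, eval_add, eval_mul, eval_num, e6, e4, hT, hTd]
    simp only [lineS2, ← hD]; push_cast; field_simp
  have eK2v : (eK2 Tn Td).eval (N - 6) Y Z = K * ((N - 2) * (N + 2)) * td := by
    have : K * ((N - 2) * (N + 2)) = N ^ 2 * (1 + T) + 2 * (N - 2) := by
      rw [hK, lineK2, div_mul_cancel₀ _ (by positivity)]
    rw [this]
    simp only [eK2, eval_add, eval_mul, eval_num, e6, e4, hT, hTd]; push_cast; ring
  set ud := (k + K) * ((N - 2) * (N + 2)) * td * k0v * (Z + 1) with hud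
  set d1 := td * (D * td) * w0 * 3 * ud with hd1
  have hkK : 0 < k + K := by linarith
  have hud0 : 0 < ud := by rw [hud]; positivity
  have hd10 : 0 < d1 := by rw [hd1]; positivity
  unfold Cert at hc
  have hP := nonneg_of_check hc (show (0 : ℝ) ≤ N - 6 by linarith) hY hZ
  simp only [eP, eval_add, eval_sub, eval_mul, eval_num, e6, e4, eDv, eS2v, eK2v, hT, hTd, hk0, hk,
    hW, hR, Ex.eval] at hP
  push_cast at hP
  have esn : lineS2 N T * (D * td * td) * w0 * 3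
        * ((K * ((N - 2) * (N + 2)) * td * k0v + (N - 2) * (N + 2) * (k * (k0v * td))) * (Z + 1))
      - r * (td * D * td * w0) * 2
        * ((K * ((N - 2) * (N + 2)) * td * k0v + (N - 2) * (N + 2) * (k * (k0v * td))) * (Z + 1)
          - K * ((N - 2) * (N + 2)) * td * k0v * Z) = s * d1 := by
    rw [hd1, hud]
    have h : (2 * r / 3) * (K * Z) = δ * ((k + K) * (Z + 1)) := by
      linear_combination hzero + Z * K * hδ
    linear_combination (3 * (D * td * td * w0) * ((N - 2) * (N + 2) * td * k0v)) * h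
      - (3 * (D * td * td * w0) * ((N - 2) * (N + 2) * td * k0v) * ((k + K) * (Z + 1))) * hδ.symm
  have eun : r * (td * D * td * w0) * 2 * (K * ((N - 2) * (N + 2)) * td * k0v * Z) = δ * d1 := by
    rw [hd1, hud]
    have h : (2 * r / 3) * (K * Z) = δ * ((k + K) * (Z + 1)) := by
      linear_combination hzero + Z * K * hδ
    linear_combination (3 * (D * td * td * w0) * ((N - 2) * (N + 2) * td * k0v)) * h
  have ed : td * (D * td) * w0 * 3
        * ((K * ((N - 2) * (N + 2)) * td * k0v + (N - 2) * (N + 2) * (k * (k0v * td))) * (Z + 1))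
      = d1 := by rw [hd1, hud]; ring
  rw [esn, eun, ed] at hP
  have key := clear_eq (N := N) (T := T) (k := k) (s := s) (w := k * δ / s)
    (Tn := T * td) (Td := td) (d1 := d1) (sn := s * d1) (wn := k * (k0v * td) * (δ * d1))
    (kn := k * (k0v * td)) (kd := k0v * td) rfl rfl rfl (by field_simp) hh.ne' hT0.ne'
  rw [key] at hP
  exact nonneg_of_mul_nonneg_left hP (by positivity)

lemma eval_parts {Tn Td : Ex} {N T td : ℝ} (hTd : Td.eval (N - 6) Y Z = td)
    (hTn : Tn.eval (N - 6) Y Z = T * td) :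
    (eAll Tn Td).eval (N - 6) Y Z = (N - 1) * (N + 2 * T)
        * (N ^ 2 * (1 + T) + N * (N - 2) * T - (N - 2) ^ 2) * td ^ 2 ∧
    (eDd Tn Td).eval (N - 6) Y Z
      = ((N ^ 2 * (1 + T) + 2 * (N - 2) * T) * td) ^ 2 * (N ^ 2 + (N - 2)) * 20 ∧
    (eW Tn Td).eval (N - 6) Y Z
      = (N ^ 2 * (1 + T) + N * (N - 2) - (N - 2) ^ 2 * T) * td := by
  refine ⟨?_, ?_, ?_⟩
  · simp only [eAll, eX, eN, eh, eval_add, eval_sub, eval_mul, eval_num, hTd, hTn, Ex.eval]
    push_cast; ring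
  · simp only [eDd, eD, eN, eh, eval_add, eval_mul, eval_num, hTd, hTn, Ex.eval]
    push_cast; ring
  · simp only [eW, eN, eh, eval_add, eval_sub, eval_mul, eval_num, hTd, hTn, Ex.eval]
    push_cast; ring

lemma knA_eq {N T td : ℝ} (h : N ^ 2 * (1 + T) + 2 * (N - 2) * T ≠ 0)
    (h' : N ^ 2 + (N - 2) ≠ 0) :
    (N - 1) * (N + 2 * T) * (N ^ 2 * (1 + T) + N * (N - 2) * T - (N - 2) ^ 2) * td ^ 2
        * (T * td) * 108
      = 27 / 20 * (4 * (N - 1) * (N + 2 * T) * T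
        * (N ^ 2 * (1 + T) + N * (N - 2) * T - (N - 2) ^ 2))
        / ((N ^ 2 * (1 + T) + 2 * (N - 2) * T) ^ 2 * (N ^ 2 + (N - 2)))
        * (((N ^ 2 * (1 + T) + 2 * (N - 2) * T) * td) ^ 2 * (N ^ 2 + (N - 2)) * 20 * td) := by
  generalize N ^ 2 * (1 + T) + 2 * (N - 2) * T = D at h ⊢
  field_simp
  ring

lemma knB_eq {N T td V : ℝ} (h : N ^ 2 * (1 + T) + 2 * (N - 2) * T ≠ 0)
    (h' : N ^ 2 + (N - 2) ≠ 0) (hV : V ≠ 0) :
    (N - 1) * (N + 2 * T) * (N ^ 2 * (1 + T) + N * (N - 2) * T - (N - 2) ^ 2) * td ^ 2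
        * N * N * N * (T * td - td) * (T * td + td) * 54
      = 27 / 20 * (2 * (N - 1) * N ^ 3 * (T - 1) * (1 + T) * (N + 2 * T)
        * (N ^ 2 * (1 + T) + N * (N - 2) * T - (N - 2) ^ 2))
        / ((N ^ 2 * (1 + T) + 2 * (N - 2) * T) ^ 2 * (N ^ 2 + (N - 2)) * V)
        * (((N ^ 2 * (1 + T) + 2 * (N - 2) * T) * td) ^ 2 * (N ^ 2 + (N - 2)) * 20 * (V * td)
          * td) := by
  generalize N ^ 2 * (1 + T) + 2 * (N - 2) * T = D at h ⊢
  field_simp
  ring

end ExtLinePos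

lemma lineKE_A {N T : ℝ} (hN : 0 < N) (hT : 1 < T) (hA : (N - 2) * T ≤ N)
    (hD : N ^ 2 * (1 + T) + 2 * (N - 2) * T ≠ 0) (h' : N ^ 2 + (N - 2) ≠ 0) :
    lineKE N T = 27 / 20 * (4 * (N - 1) * (N + 2 * T) * T
      * (N ^ 2 * (1 + T) + N * (N - 2) * T - (N - 2) ^ 2))
      / ((N ^ 2 * (1 + T) + 2 * (N - 2) * T) ^ 2 * (N ^ 2 + (N - 2))) := by
  have hr : lineS2 N T - 1
      = (T - 1) * (N ^ 2 * (1 + T)) / (N ^ 2 * (1 + T) + 2 * (N - 2) * T) := by
    rw [lineS2, eq_div_iff hD, sub_mul, div_mul_cancel₀ _ hD]; ring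
  rw [lineKE, max_eq_left ((div_le_one hN).2 hA), hr, lineC0]
  have : T - 1 ≠ 0 := by linarith
  have : 1 + T ≠ 0 := by linarith
  field_simp

lemma lineKE_B {N T : ℝ} (hN : 0 < N) (hT : 1 < T) (hB : N ≤ (N - 2) * T)
    (hD : N ^ 2 * (1 + T) + 2 * (N - 2) * T ≠ 0) (h' : N ^ 2 + (N - 2) ≠ 0)
    (hV : N ^ 2 * (1 + T) + N * (N - 2) - (N - 2) ^ 2 * T ≠ 0) :
    lineS2 N T - (N - 2) * T / N
        = 2 * T * (N ^ 2 * (1 + T) + N * (N - 2) - (N - 2) ^ 2 * T)
          / (N * (N ^ 2 * (1 + T) + 2 * (N - 2) * T)) ∧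
    lineKE N T = 27 / 20 * (2 * (N - 1) * N ^ 3 * (T - 1) * (1 + T) * (N + 2 * T)
      * (N ^ 2 * (1 + T) + N * (N - 2) * T - (N - 2) ^ 2))
      / ((N ^ 2 * (1 + T) + 2 * (N - 2) * T) ^ 2 * (N ^ 2 + (N - 2))
        * (N ^ 2 * (1 + T) + N * (N - 2) - (N - 2) ^ 2 * T)) := by
  have hr : lineS2 N T - (N - 2) * T / N
      = 2 * T * (N ^ 2 * (1 + T) + N * (N - 2) - (N - 2) ^ 2 * T)
        / (N * (N ^ 2 * (1 + T) + 2 * (N - 2) * T)) := by
    rw [lineS2, div_sub_div _ _ hD hN.ne', mul_comm N (N ^ 2 * (1 + T) + 2 * (N - 2) * T)]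
    congr 1
    ring
  refine ⟨hr, ?_⟩
  rw [lineKE, max_eq_right ((one_le_div hN).2 hB), hr, lineC0]
  have : T ≠ 0 := by linarith
  field_simp
  ring

open ExtLinePos LinePos PosCheck in
lemma extLinePhi_nonneg_A {N T s : ℝ} (hN : 6 ≤ N) (hT : 1 < T) (hTB : T < (7 * N - 17) / 5)
    (hA : (N - 2) * T < N) (hs : 0 < s) {r : ℝ} (hr : r = lineS2 N T - max 1 ((N - 2) * T / N))
    (hlo : lineS2 N T - 2 * r / 3 < s) (hs2 : s < lineS2 N T)
    (hup : lineKE N T * (s - (lineS2 N T - 2 * r / 3)) < lineK2 N T * (lineS2 N T - s)) :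
    0 ≤ linePhi N T (lineKE N T) s
      (lineKE N T * (s - (lineS2 N T - 2 * r / 3)) / s) := by
  have hN2 : (0 : ℝ) < N - 2 := by linarith
  have hN0 : (0 : ℝ) < N := by linarith
  have hD : 0 < N ^ 2 * (1 + T) + 2 * (N - 2) * T := by positivity
  have hT0 : 0 < T := by linarith
  have hX : 0 < N ^ 2 * (1 + T) + N * (N - 2) * T - (N - 2) ^ 2 := by nlinarith
  have hNN : 0 < N ^ 2 + (N - 2) := by positivity
  have e6 : ∀ Y Z, (eN).eval (N - 6) Y Z = N := fun Y Z => by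
    simp only [eN, eval_add, eval_num, Ex.eval]; push_cast; ring
  have e4 : ∀ Y Z, (eh).eval (N - 6) Y Z = N - 2 := fun Y Z => by
    simp only [eh, eval_add, eval_num, Ex.eval]; push_cast; ring
  rw [max_eq_left ((div_le_one hN0).2 hA.le)] at hr
  set Y := (N - 2) * (T - 1) / (N - (N - 2) * T) with hY
  have hne : N - (N - 2) * T ≠ 0 := by linarith
  have hY0 : 0 ≤ Y := div_nonneg (mul_nonneg hN2.le (by linarith)) (by linarith)
  have hTd : ∀ Z, eTdA.eval (N - 6) Y Z = (N - 2) * (Y + 1) := fun Z => by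
    simp only [eTdA, eval_add, eval_mul, eval_num, e4, Ex.eval]; push_cast; ring
  have hTn : ∀ Z, eTnA.eval (N - 6) Y Z = T * ((N - 2) * (Y + 1)) := fun Z => by
    simp only [eTnA, eval_add, eval_mul, eval_num, e4, Ex.eval]; push_cast
    rw [hY]; field_simp; ring
  have hr' : r = (T - 1) * (N ^ 2 * (1 + T)) / (N ^ 2 * (1 + T) + 2 * (N - 2) * T) := by
    rw [hr, lineS2, eq_div_iff hD.ne', sub_mul, div_mul_cancel₀ _ hD.ne']; ring
  have hrp : 0 < r := by rw [hr']; have : 0 < T - 1 := by linarith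
                         positivity
  have hk := lineKE_A hN0 hT hA.le hD.ne' hNN.ne'
  set td := (N - 2) * (Y + 1) with htd
  have htd0 : 0 < td := by positivity
  refine @piece Y eTnA eTdA eKnA eK0A eRA (1 : Ex) checkA N T hN hY0 hT (lineKE N T) r 1 td
    hTd htd0 hTn
    (((N ^ 2 * (1 + T) + 2 * (N - 2) * T) * td) ^ 2 * (N ^ 2 + (N - 2)) * 20)
    (fun Z => ?_) (by positivity) (fun Z => ?_) ?_ (fun Z => ?_) one_pos (fun Z => ?_)
    hrp s hs hlo hs2 hup
  · rw [eK0A, (eval_parts (hTd Z) (hTn Z)).2.1]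
  · rw [hk, ← knA_eq hD.ne' hNN.ne', eKnA]
    simp only [eval_mul, eval_num, (eval_parts (hTd Z) (hTn Z)).1, hTn]
    push_cast; ring
  · rw [hk]; have : 0 < N - 1 := by linarith
    positivity
  · simp [eval_num]
  · simp only [eRA, eval_add, eval_sub, eval_mul, e6, hTd, hTn]
    rw [hr']
    field_simp

open ExtLinePos LinePos PosCheck in
lemma extLinePhi_nonneg_B {N T s : ℝ} (hN : 6 ≤ N) (hT : 1 < T) (hTB : T < (7 * N - 17) / 5)
    (hB : N ≤ (N - 2) * T) (hs : 0 < s) {r : ℝ} (hr : r = lineS2 N T - max 1 ((N - 2) * T / N))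
    (hlo : lineS2 N T - 2 * r / 3 < s) (hs2 : s < lineS2 N T)
    (hup : lineKE N T * (s - (lineS2 N T - 2 * r / 3)) < lineK2 N T * (lineS2 N T - s)) :
    0 ≤ linePhi N T (lineKE N T) s
      (lineKE N T * (s - (lineS2 N T - 2 * r / 3)) / s) := by
  have hN2 : (0 : ℝ) < N - 2 := by linarith
  have hN0 : (0 : ℝ) < N := by linarith
  have hD : 0 < N ^ 2 * (1 + T) + 2 * (N - 2) * T := by positivity
  have hT0 : 0 < T := by linarith
  have hX : 0 < N ^ 2 * (1 + T) + N * (N - 2) * T - (N - 2) ^ 2 := by nlinarith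
  have hNN : 0 < N ^ 2 + (N - 2) := by positivity
  have e6 : ∀ Y Z, (eN).eval (N - 6) Y Z = N := fun Y Z => by
    simp only [eN, eval_add, eval_num, Ex.eval]; push_cast; ring
  have e4 : ∀ Y Z, (eh).eval (N - 6) Y Z = N - 2 := fun Y Z => by
    simp only [eh, eval_add, eval_num, Ex.eval]; push_cast; ring
  rw [max_eq_right ((one_le_div hN0).2 hB)] at hr
  set Y := (T - N / (N - 2)) / ((7 * N - 17) / 5 - T) with hY
  have hne : (7 * N - 17) / 5 - T ≠ 0 := by linarith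
  have hY0 : 0 ≤ Y := div_nonneg (by rw [sub_nonneg, div_le_iff₀ hN2]; linarith) (by linarith)
  have hTd : ∀ Z, eTdB.eval (N - 6) Y Z = (N - 2) * (Y + 1) * 5 := fun Z => by
    simp only [eTdB, eval_add, eval_mul, eval_num, e4, Ex.eval]; push_cast; ring
  have hTn : ∀ Z, eTnB.eval (N - 6) Y Z = T * ((N - 2) * (Y + 1) * 5) := fun Z => by
    have hm : Y * ((N - 2) * (7 * N - 17 - 5 * T)) = 5 * ((N - 2) * T - N) := by
      rw [hY, div_mul_eq_mul_div, div_eq_iff hne]; field_simp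
    simp only [eTnB, eval_add, eval_sub, eval_mul, eval_num, e4, e6, Ex.eval]; push_cast
    linear_combination hm
  set V := N ^ 2 * (1 + T) + N * (N - 2) - (N - 2) ^ 2 * T with hVd
  have hV : 0 < V := by rw [hVd]; nlinarith
  obtain ⟨hr', hk⟩ := lineKE_B hN0 hT hB hD.ne' hNN.ne' (hVd ▸ hV.ne')
  rw [← hr, ← hVd] at hr'
  rw [← hVd] at hk
  have hrp : 0 < r := by rw [hr']; positivity
  set td := (N - 2) * (Y + 1) * 5 with htd
  have htd0 : 0 < td := by positivity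
  refine @piece Y eTnB eTdB eKnB eK0B eRB eN checkB N T hN hY0 hT (lineKE N T) r N td
    hTd htd0 hTn
    (((N ^ 2 * (1 + T) + 2 * (N - 2) * T) * td) ^ 2 * (N ^ 2 + (N - 2)) * 20 * (V * td))
    (fun Z => ?_) (by positivity) (fun Z => ?_) ?_ (fun Z => e6 _ _) hN0 (fun Z => ?_)
    hrp s hs hlo hs2 hup
  · rw [eK0B, eval_mul, (eval_parts (hTd Z) (hTn Z)).2.1, (eval_parts (hTd Z) (hTn Z)).2.2, hVd]
  · rw [hk, ← knB_eq hD.ne' hNN.ne' hV.ne', eKnB]
    simp only [eval_add, eval_sub, eval_mul, eval_num, (eval_parts (hTd Z) (hTn Z)).1, hTn, hTd, e6]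
    push_cast; ring
  · rw [hk]; have : 0 < N - 1 := by linarith
    have : 0 < T - 1 := by linarith
    positivity
  · simp only [eRB, eW, eval_add, eval_sub, eval_mul, eval_num, e6, e4, hTd, hTn, Ex.eval]
    push_cast
    rw [hr', hVd]
    field_simp

/-- **`linePhi ≥ 0` on the second lower line.** -/
theorem extLinePhi_nonneg {N T s : ℝ} (hN : 6 ≤ N) (hT : 1 < T) (hTB : T < (7 * N - 17) / 5)
    (hs : 0 < s) {r : ℝ} (hr : r = lineS2 N T - max 1 ((N - 2) * T / N))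
    (hlo : lineS2 N T - 2 * r / 3 < s) (hs2 : s < lineS2 N T)
    (hup : lineKE N T * (s - (lineS2 N T - 2 * r / 3)) < lineK2 N T * (lineS2 N T - s)) :
    0 ≤ linePhi N T (lineKE N T) s
      (lineKE N T * (s - (lineS2 N T - 2 * r / 3)) / s) := by
  rcases lt_or_ge ((N - 2) * T) N with hA | hB
  · exact extLinePhi_nonneg_A hN hT hTB hA hs hr hlo hs2 hup
  · exact extLinePhi_nonneg_B hN hT hTB hB hs hr hlo hs2 hup

end Vale.Agent.P100T
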