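import Vale.Agent.P100.Main
import Vale.Agent.P100T.Comparison

/-!
The diagonal `p = q`: comparison gives `u = v`, and a constant certificate on the diagonal,
exact in the critical real dimension `N > n`, removes the scalar equation.
-/

open MeasureTheory Filter Topology Laplacian
open scoped ContDiff

noncomputable section

namespace Vale.Agent.P100T

open Vale.Agent.P100

variable {n : ℕ}

/-- The pointwise estimate for a cut-off `η ^ k`, on the diagonal. -/
theorem pointwise_cutoff_diag {p e : ℝ} {π : Par} (hpq : 1 < p * p) (he0 : 0 < e)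
    (hJd : ∀ (G : Fin n → Fin n → ℝ), (∀ i j, G i j = G j i) → ∀ (X : Fin n → ℝ) (Q : ℝ),
      0 ≤ Q → ∑ i, G i i = -Q - dot X X → e * Mfun G X X Q Q ≤ Jfun π p p G X X Q Q)
    (h1 : 0 ≤ π.a + π.b * p) (h2 : 0 ≤ π.a * p + π.b) :
    ∃ (k : ℕ) (κ C : ℝ), 1 ≤ k ∧ 0 < κ ∧ 0 ≤ C ∧
      ∀ (v η : Euc n → ℝ), ContDiff ℝ 2 v → (∀ x, 0 < v x) → ContDiff ℝ 1 η → (∀ x, 0 ≤ η x ∧ η x ≤ 1) →
        ∀ x, ((∑ i, pd i (pd i v) x = -(v x ^ p)) ∨ x ∉ tsupport η) →
          κ * (η x ^ k * (wf v v π x * (Pf v v p x + Pf v v p x) ^ 2)) ≤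
              Itot v v π p p (fun y => η y ^ k) x + C * (wf v v π x * grad2 η x ^ 2) ∧
          κ * (η x ^ k * (wf v v π x * (Pf v v p x + Pf v v p x) ^ 2)) ≤
              Itot v v π p p (fun y => η y ^ k) x
              + C * grad2 η x ^ ((π.a + π.b * p + (π.a * p + π.b)) / (p * p - 1) + 2) := by
  set c := (π.a + π.b * p + (π.a * p + π.b)) / (p * p - 1) with hc
  have hc0 : 0 ≤ c := div_nonneg (by linarith) (by linarith)
  set C0 := 2 + |π.c| + |π.d| + |π.k1| + |π.k2| + |π.k3| + |π.k4| with hC0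
  have hC0p : 0 < C0 := by positivity
  set δ := e / (4 * C0) with hδ
  have hδp : 0 < δ := by positivity
  set D := C0 / (64 * δ ^ 3) with hD
  have hDp : 0 < D := by positivity
  set k := ⌈2 * (c + 2)⌉₊ with hk
  have hk1 : 1 ≤ k := Nat.one_le_iff_ne_zero.2 (by
    simp only [hk, ne_eq, Nat.ceil_eq_zero, not_le]; linarith)
  have hkR : 2 * (c + 2) ≤ (k : ℝ) := Nat.le_ceil _
  set κ0 := Real.sqrt (e / (8 * D)) with hκ0
  have hκ0p : 0 < κ0 := Real.sqrt_pos.2 (by positivity)
  set C := D * ((k : ℝ) ^ 2) ^ (2 : ℝ) + D * κ0⁻¹ ^ c * ((k : ℝ) ^ 2) ^ (c + 2) with hC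
  refine ⟨k, e / 8, C, hk1, by positivity, by positivity, ?_⟩
  intro v η hv hvp hη hηb x hx
  have hw : 0 < wf v v π x := Real.exp_pos _
  have hS := grad2_nonneg η x
  rcases hx with e2 | hx
  swap
  · have hz : ∀ᶠ y in 𝓝 x, η y = 0 := notMem_tsupport_iff_eventuallyEq.1 hx
    have hζ0 : (fun y => η y ^ k) =ᶠ[𝓝 x] fun _ => (0 : ℝ) :=
      hz.mono fun y hy => by simp [hy, zero_pow (by omega : k ≠ 0)]
    have hI : Itot v v π p p (fun y => η y ^ k) x = 0 := by
      have hp : ∀ (f : Euc n → ℝ) i, pd i (fun y => η y ^ k * f y) x = 0 := by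
        intro f i
        have : (fun y => η y ^ k * f y) =ᶠ[𝓝 x] fun _ => (0 : ℝ) :=
          hζ0.mono fun y hy => by simp only at hy; simp [hy]
        simp [pd, this.fderiv_eq]
      simp [Itot, Icomm, Idiv, phi, mul_assoc, hp]
    rw [hI, hz.self_of_nhds, zero_pow (by omega : k ≠ 0)]
    constructor <;> simp only [zero_mul, mul_zero, zero_add] <;> positivity
  have hζ : ContDiff ℝ 1 (fun y => η y ^ k) := hη.pow k
  obtain ⟨htr, hI⟩ := Itot_eq (π := π) (p := p) (q := p) hv hv hvp hvp hζ e2 e2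
  have hdζ : ∀ i, pd i (fun y => η y ^ k) x = (k : ℝ) * η x ^ (k - 1) * pd i η x := fun i =>
    pd_comp (hη.differentiable one_ne_zero x) (hasDerivAt_pow k (η x)) i
  simp only [hdζ] at hI
  rw [hI]
  set w := wf v v π x
  set G := fun i j => Gf v i j x
  set X := fun i => Xf v i x
  set Y := fun i => Xf v i x
  set P := Pf v v p x with hPdef
  set Q := Pf v v p x with hQdef
  have hP : 0 < P := div_pos (Real.rpow_pos_of_pos (hvp x) _) (hvp x)
  have hQ : 0 < Q := div_pos (Real.rpow_pos_of_pos (hvp x) _) (hvp x)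
  rcases eq_or_lt_of_le (hηb x).1 with h0 | h0
  · have hk2 : 2 ≤ k := by exact_mod_cast (le_trans (by linarith) hkR : (2 : ℝ) ≤ k)
    rw [← h0, zero_pow (by omega : k ≠ 0), zero_pow (by omega : k - 1 ≠ 0)]
    constructor <;> simp <;> positivity
  have hGsym : ∀ i j, G i j = G j i := fun i j => by
    simp only [G, Gf]; rw [pd_symm hv i j x]; ring
  have hJ := hJd G hGsym Y Q hQ.le htr
  set r : Fin n → ℝ := fun i => (k : ℝ) * pd i η x / η x with hr
  have hb := boundary_bound π G X Y r P Q hP.le hQ.le hδp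
  have hsum : ∑ i, (k : ℝ) * η x ^ (k - 1) * pd i η x * Vfun π G X Y P Q i
      = η x ^ k * ∑ i, r i * Vfun π G X Y P Q i := by
    rw [Finset.mul_sum]
    refine Finset.sum_congr rfl fun i _ => ?_
    rw [show η x ^ k = η x ^ (k - 1) * η x by rw [← pow_succ]; congr 1; omega, hr]
    field_simp
  rw [hsum]
  have hR : dot r r = (k : ℝ) ^ 2 * grad2 η x / η x ^ 2 := by
    simp only [dot, hr, grad2, Finset.mul_sum, Finset.sum_div]
    exact Finset.sum_congr rfl fun i _ => by field_simp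
  rw [hR] at hb
  set S := grad2 η x
  set R := (k : ℝ) ^ 2 * S / η x ^ 2 with hRdef
  have hR0 : 0 ≤ R := by positivity
  have hM : (P + Q) ^ 2 ≤ 2 * Mfun G X Y P Q := Mfun_lower G X Y hP.le hQ.le
  have hkey : e / 4 * (P + Q) ^ 2 ≤ Jfun π p p G X Y P Q
      + (∑ i, r i * Vfun π G X Y P Q i) + D * R ^ 2 := by
    have hb' := (abs_le.1 hb).1
    rw [← hC0] at hb'
    have : C0 * (2 * δ * Mfun G X Y P Q + R ^ 2 / (64 * δ ^ 3))
        = e / 2 * Mfun G X Y P Q + D * R ^ 2 := by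
      simp only [hδ, hD]; field_simp; ring
    rw [this] at hb'
    have := mul_le_mul_of_nonneg_left hM (by linarith : (0 : ℝ) ≤ e / 4)
    linarith
  have hfin := scalar_fin h0 (hηb x).2 hS hw (by linarith : 0 ≤ P + Q) he0 hDp hc0 hk1 hkR
    (wf_le v v π x (hvp x) (hvp x) hpq h1 h2) (hkey)
  have hCeq : C = D * ((k : ℝ) ^ 2) ^ (2 : ℝ)
      + D * (Real.sqrt (e / (8 * D)))⁻¹ ^ c * ((k : ℝ) ^ 2) ^ (c + 2) := rfl
  rw [← hCeq] at hfin
  have hr : η x ^ k * w * Jfun π p p G X Y P Q + w * (η x ^ k * ∑ i, r i * Vfun π G X Y P Q i)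
      = η x ^ k * w * (Jfun π p p G X Y P Q + ∑ i, r i * Vfun π G X Y P Q i) := by ring
  rw [hr]
  exact hfin

/-- One squeeze step, at fixed inner and outer radii. -/
lemma squeeze_step_diag {p : ℝ} {π : Par} {v : Euc n → ℝ} {k : ℕ} {κ C c W0 L : ℝ} (hk : 1 ≤ k)
    (hκ : 0 < κ) (hC : 0 ≤ C) (hc0 : 0 ≤ c) (hL0 : 0 ≤ L)
    (hest : ∀ (V η : Euc n → ℝ), ContDiff ℝ 2 V → (∀ x, 0 < V x) → ContDiff ℝ 1 η → (∀ x, 0 ≤ η x ∧ η x ≤ 1) →
        ∀ x, ((∑ i, pd i (pd i V) x = -(V x ^ p)) ∨ x ∉ tsupport η) →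
          κ * (η x ^ k * (wf V V π x * (Pf V V p x + Pf V V p x) ^ 2)) ≤
              Itot V V π p p (fun y => η y ^ k) x + C * (wf V V π x * grad2 η x ^ 2) ∧
          κ * (η x ^ k * (wf V V π x * (Pf V V p x + Pf V V p x) ^ 2)) ≤
              Itot V V π p p (fun y => η y ^ k) x + C * grad2 η x ^ (c + 2))
    (hL : ∀ y, |deriv Real.smoothTransition y| ≤ L)
    (hLz : ∀ y, deriv Real.smoothTransition y ≠ 0 → 0 ≤ y ∧ y ≤ 1)
    (hv2 : ContDiffOn ℝ 2 v {x | x ≠ 0}) (hvp : ∀ x, 0 < v x)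
    (heq : ∀ x, x ≠ 0 → -(Δ v x) = v x ^ p)
    (hW0 : ∀ x ∈ Metric.closedBall (0 : Euc n) 1, ‖wf v v π x‖ ≤ W0)
    (hAi : IntegrableOn (fun x => wf v v π x * (Pf v v p x + Pf v v p x) ^ 2)
      {x : Euc n | 1 ≤ ‖x‖ ∧ ‖x‖ ≤ 2})
    (hAm : MeasurableSet {x : Euc n | 1 ≤ ‖x‖ ∧ ‖x‖ ≤ 2})
    {ε R : ℝ} (hε : 0 < ε) (hε4 : ε < 1 / 4) (hR : 2 ≤ R) :
    κ * ∫ x in {x : Euc n | 1 ≤ ‖x‖ ∧ ‖x‖ ≤ 2}, wf v v π x * (Pf v v p x + Pf v v p x) ^ 2
      ≤ C * |W0| * ((16 * L ^ 2 / ε ^ 2) ^ 2)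
          * ((2 * ε) ^ n * (volume : Measure (Euc n)).real (Metric.ball 0 1))
        + C * (16 * L ^ 2 / R ^ 2) ^ (c + 2)
          * ((2 * R) ^ n * (volume : Measure (Euc n)).real (Metric.ball 0 1)) := by
  set d : Euc n → ℝ := fun x => wf v v π x * (Pf v v p x + Pf v v p x) ^ 2 with hd
  set A : Set (Euc n) := {x | 1 ≤ ‖x‖ ∧ ‖x‖ ≤ 2} with hA
  set V := (volume : Measure (Euc n)).real (Metric.ball 0 1) with hV
  set χ0 : Euc n → ℝ := radial (1 / ε ^ 2) (-1) with hχ0
  set χ1 : Euc n → ℝ := radial (-(1 / R ^ 2)) 2 with hχ1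
  set η : Euc n → ℝ := fun x => χ0 x * χ1 x with hη
  have hηs : ContDiff ℝ 1 η := (contDiff_radial _ _).mul (contDiff_radial _ _)
  have hηb : ∀ x, 0 ≤ η x ∧ η x ≤ 1 := fun x =>
    ⟨mul_nonneg (radial_mem _ _ x).1 (radial_mem _ _ x).1,
      mul_le_one₀ (radial_mem _ _ x).2 (radial_mem _ _ x).1 (radial_mem _ _ x).2⟩
  have hlow : ∀ x : Euc n, ‖x‖ ≤ ε → χ0 x = 0 := fun x hx => by
    apply Real.smoothTransition.zero_of_nonpos
    have : 1 / ε ^ 2 * ‖x‖ ^ 2 ≤ 1 := by
      rw [div_mul_eq_mul_div, div_le_one (by positivity), one_mul]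
      exact pow_le_pow_left₀ (norm_nonneg x) hx 2
    linarith
  have hout : ∀ x : Euc n, 2 * ε ≤ ‖x‖ → χ0 x = 1 := fun x hx => by
    apply Real.smoothTransition.one_of_one_le
    have : 4 ≤ 1 / ε ^ 2 * ‖x‖ ^ 2 := by
      rw [div_mul_eq_mul_div, le_div_iff₀ (by positivity)]; nlinarith
    linarith
  have hin : ∀ x : Euc n, ‖x‖ ≤ R → χ1 x = 1 := fun x hx => by
    apply Real.smoothTransition.one_of_one_le
    have : 1 / R ^ 2 * ‖x‖ ^ 2 ≤ 1 := by
      rw [div_mul_eq_mul_div, div_le_one (by positivity), one_mul]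
      exact pow_le_pow_left₀ (norm_nonneg x) hx 2
    linarith
  have hfar : ∀ x : Euc n, 2 * R ≤ ‖x‖ → χ1 x = 0 := fun x hx => by
    apply Real.smoothTransition.zero_of_nonpos
    have : 4 ≤ 1 / R ^ 2 * ‖x‖ ^ 2 := by
      rw [div_mul_eq_mul_div, le_div_iff₀ (by positivity)]; nlinarith
    linarith
  have hts : tsupport η ⊆ {x | ε ≤ ‖x‖ ∧ ‖x‖ ≤ 2 * R} := by
    refine closure_minimal (fun x hx => ?_) (isClosed_le continuous_const continuous_norm |>.inter
      (isClosed_le continuous_norm continuous_const))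
    constructor
    · by_contra h; exact hx (by simp [hη, hlow x (le_of_not_ge h)])
    · by_contra h; exact hx (by simp [hη, hfar x (le_of_not_ge h)])
  have hηc : HasCompactSupport η := (isCompact_closedBall (0 : Euc n) (2 * R)).of_isClosed_subset
    (isClosed_tsupport η) fun x hx => by simpa using (hts hx).2
  set Vv := glue ε v with hVv
  have hVs := contDiff_glue hε hv2
  have hwf : ∀ x : Euc n, ε ≤ ‖x‖ → Vv x = v x := fun x hx =>
    glue_eq hε v (by linarith)
  have hcase : ∀ x, (∑ i, pd i (pd i Vv) x = -(Vv x ^ p)) ∨ x ∉ tsupport η := by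
    intro x
    by_cases hx : x ∈ tsupport η
    · refine Or.inl ?_
      have hxn := (hts hx).1
      have hx0 : x ≠ 0 := by rintro rfl; simp at hxn; linarith
      have hnhds : {y : Euc n | 3 / 4 * ε < ‖y‖} ∈ 𝓝 x :=
        (isOpen_lt continuous_const continuous_norm).mem_nhds (by simp; linarith)
      have hEv : Vv =ᶠ[𝓝 x] v := mem_of_superset hnhds fun y (hy : 3 / 4 * ε < ‖y‖) =>
        glue_eq hε v hy.le
      rw [← laplacian_eq_sum hVs.contDiffAt,
        (InnerProductSpace.laplacian_congr_nhds hEv).eq_of_nhds, hEv.eq_of_nhds]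
      linarith [heq x hx0]
    · exact Or.inr hx
  have hzero : ∀ x : Euc n, x ∉ tsupport η → grad2 η x = 0 := fun x hx => by
    have : η =ᶠ[𝓝 x] fun _ => (0 : ℝ) := notMem_tsupport_iff_eventuallyEq.1 hx
    simp [grad2, pd, this.fderiv_eq]
  have hg0 : ∀ x : Euc n, ‖x‖ ≤ 1 → grad2 η x = grad2 χ0 x := fun x hx => by
    have : η =ᶠ[𝓝 x] χ0 := by
      filter_upwards [(isOpen_lt continuous_norm continuous_const).mem_nhds
        (show ‖x‖ < R by linarith)] with y hy
      simp [hη, hin y (le_of_lt hy)]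
    simp [grad2, pd, this.fderiv_eq]
  have hg1 : ∀ x : Euc n, 1 < ‖x‖ → grad2 η x = grad2 χ1 x := fun x hx => by
    have : η =ᶠ[𝓝 x] χ1 := by
      filter_upwards [(isOpen_lt continuous_const continuous_norm).mem_nhds
        (show 2 * ε < ‖x‖ by linarith)] with y hy
      simp [hη, hout y (le_of_lt hy)]
    simp [grad2, pd, this.fderiv_eq]
  have hb0 : ∀ x : Euc n, grad2 χ0 x ≤ 16 * L ^ 2 / ε ^ 2 ∧ (2 * ε < ‖x‖ → grad2 χ0 x = 0) := by
    intro x
    rw [hχ0, grad2_radial]
    by_cases h : deriv Real.smoothTransition (1 / ε ^ 2 * ‖x‖ ^ 2 + -1) = 0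
    · simp only [h]; constructor
      · simp; positivity
      · simp
    · have hy := (hLz _ h).2
      have hx2 : ‖x‖ ^ 2 ≤ 4 * ε ^ 2 := by
        have : 1 / ε ^ 2 * ‖x‖ ^ 2 ≤ 4 := by linarith
        rwa [div_mul_eq_mul_div, div_le_iff₀ (by positivity), one_mul] at this
      refine ⟨?_, fun h' => by nlinarith⟩
      calc _ ≤ L ^ 2 * (4 * (1 / ε ^ 2) ^ 2 * (4 * ε ^ 2)) := by
            refine mul_le_mul (sq_le_sq.2 (by rw [abs_of_nonneg hL0]; exact hL _))
              (mul_le_mul_of_nonneg_left hx2 (by positivity)) (by positivity) (by positivity)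
        _ = _ := by field_simp; ring
  have hb1 : ∀ x : Euc n, grad2 χ1 x ≤ 16 * L ^ 2 / R ^ 2 ∧ (2 * R < ‖x‖ → grad2 χ1 x = 0) := by
    intro x
    rw [hχ1, grad2_radial]
    by_cases h : deriv Real.smoothTransition (-(1 / R ^ 2) * ‖x‖ ^ 2 + 2) = 0
    · simp only [h]; constructor
      · simp; positivity
      · simp
    · have hy := (hLz _ h).1
      have hx2 : ‖x‖ ^ 2 ≤ 4 * R ^ 2 := by
        have : 1 / R ^ 2 * ‖x‖ ^ 2 ≤ 4 := by linarith
        rwa [div_mul_eq_mul_div, div_le_iff₀ (by positivity), one_mul] at this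
      refine ⟨?_, fun h' => by nlinarith⟩
      calc _ ≤ L ^ 2 * (4 * (-(1 / R ^ 2)) ^ 2 * (4 * R ^ 2)) := by
            refine mul_le_mul (sq_le_sq.2 (by rw [abs_of_nonneg hL0]; exact hL _))
              (mul_le_mul_of_nonneg_left hx2 (by positivity)) (by positivity) (by positivity)
        _ = _ := by field_simp; ring
  set E0 := C * |W0| * (16 * L ^ 2 / ε ^ 2) ^ 2 with hE0
  set E1 := C * (16 * L ^ 2 / R ^ 2) ^ (c + 2) with hE1
  set B0 := Metric.closedBall (0 : Euc n) (2 * ε)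
  set B1 := Metric.closedBall (0 : Euc n) (2 * R)
  have hE0n : 0 ≤ E0 := by positivity
  have hE1n : 0 ≤ E1 := by positivity
  have hb : ∀ x, κ * A.indicator d x ≤ Itot Vv Vv π p p (fun y => η y ^ k) x
      + (B0.indicator (fun _ => E0) x + B1.indicator (fun _ => E1) x) := by
    intro x
    have hVp := glue_pos (ε := ε) hvp
    obtain ⟨t1, t2⟩ := hest Vv η hVs hVp hηs hηb x (hcase x)
    have hl : κ * A.indicator d x ≤
        κ * (η x ^ k * (wf Vv Vv π x * (Pf Vv Vv p x + Pf Vv Vv p x) ^ 2)) := by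
      refine mul_le_mul_of_nonneg_left ?_ hκ.le
      by_cases hx : x ∈ A
      · have h1 : η x = 1 := by
          simp [hη, hout x (by linarith [hx.1]), hin x (by linarith [hx.2])]
        have eV := hwf x (by linarith [hx.1])
        simp [Set.indicator_of_mem hx, h1, hd, wf, Pf, eV]
      · rw [Set.indicator_of_notMem hx]
        have := (hηb x).1
        exact mul_nonneg (pow_nonneg this k) (mul_nonneg (Real.exp_pos _).le (sq_nonneg _))
    have i0 : 0 ≤ B0.indicator (fun _ => E0) x := Set.indicator_nonneg (fun _ _ => hE0n) x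
    have i1 : 0 ≤ B1.indicator (fun _ => E1) x := Set.indicator_nonneg (fun _ _ => hE1n) x
    rcases le_or_gt ‖x‖ 1 with hx | hx
    · have hS : C * (wf Vv Vv π x * grad2 η x ^ 2) ≤ B0.indicator (fun _ => E0) x := by
        by_cases hts' : x ∈ tsupport η
        · have eV := hwf x (hts hts').1
          by_cases hxB : x ∈ B0
          · rw [Set.indicator_of_mem hxB, hE0, mul_assoc]
            refine mul_le_mul_of_nonneg_left (mul_le_mul ?_ (pow_le_pow_left₀ (grad2_nonneg η x)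
              (hg0 x hx ▸ (hb0 x).1) 2) (sq_nonneg _) (abs_nonneg _)) hC
            have := hW0 x (by simpa using hx)
            simp only [wf, eV] at this ⊢
            exact le_trans (le_of_eq_of_le rfl (le_abs_self _)) (this.trans (le_abs_self W0))
          · have : 2 * ε < ‖x‖ := by simpa [B0] using hxB
            rw [hg0 x hx, (hb0 x).2 this]; simpa using i0
        · rw [hzero x hts']; simpa using i0
      linarith
    · have hS : C * grad2 η x ^ (c + 2) ≤ B1.indicator (fun _ => E1) x := by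
        rw [hg1 x hx]
        by_cases hxB : x ∈ B1
        · rw [Set.indicator_of_mem hxB, hE1]
          exact mul_le_mul_of_nonneg_left
            (Real.rpow_le_rpow (grad2_nonneg _ _) (hb1 x).1 (by linarith)) hC
        · have : 2 * R < ‖x‖ := by simpa [B1] using hxB
          rw [(hb1 x).2 this, Real.zero_rpow (by linarith)]; simpa using i1
      linarith
  obtain ⟨hI, hI0⟩ := integrable_Itot (π := π) (p := p) (q := p) hVs hVs (glue_pos hvp)
    (glue_pos hvp) (hηs.pow k) (hηc.comp_left (g := fun t => t ^ k) (zero_pow (by omega)))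
  have hi0 : Integrable (B0.indicator fun _ => E0) :=
    (integrableOn_const (isCompact_closedBall _ _).measure_lt_top.ne).integrable_indicator
      measurableSet_closedBall
  have hi1 : Integrable (B1.indicator fun _ => E1) :=
    (integrableOn_const (isCompact_closedBall _ _).measure_lt_top.ne).integrable_indicator
      measurableSet_closedBall
  have hint := integral_mono ((hAi.integrable_indicator hAm).const_mul κ)
    (hI.add (hi0.add hi1)) hb
  simp only [Pi.add_apply] at hint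
  rw [integral_const_mul, integral_indicator hAm] at hint
  have hsum : ∫ x, (Itot Vv Vv π p p (fun y => η y ^ k) x
      + (B0.indicator (fun _ => E0) x + B1.indicator (fun _ => E1) x))
      = E0 * ((2 * ε) ^ n * V) + E1 * ((2 * R) ^ n * V) := by
    rw [integral_add hI, integral_add hi0 hi1, hI0, zero_add,
      integral_indicator_const _ measurableSet_closedBall,
      integral_indicator_const _ measurableSet_closedBall,
      volume_real_closedBall _ (by linarith), volume_real_closedBall _ (by linarith)]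
    · simp only [smul_eq_mul, hV]; ring
    · exact hi0.add hi1
  linarith

/-- No positive solution of the scalar equation from a diagonal certificate. -/
theorem no_solution_scalar (hn : 5 ≤ n) {p e : ℝ} {π : Par} (hpq : 1 < p * p) (he : 0 < e)
    (hJ : ∀ (G : Fin n → Fin n → ℝ), (∀ i j, G i j = G j i) → ∀ (X : Fin n → ℝ) (Q : ℝ),
      0 ≤ Q → ∑ i, G i i = -Q - dot X X → e * Mfun G X X Q Q ≤ Jfun π p p G X X Q Q)
    (h1 : 0 ≤ π.a + π.b * p) (h2 : 0 ≤ π.a * p + π.b)
    (hD : (n : ℝ) - 4 < 2 * (π.a + π.b * p + (π.a * p + π.b)) / (p * p - 1))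
    {v : Euc n → ℝ} (hvc : Continuous v) (hv2 : ContDiffOn ℝ 2 v {x | x ≠ 0})
    (hvp : ∀ x, 0 < v x) (heq : ∀ x, x ≠ 0 → -(Δ v x) = v x ^ p) : False := by
  obtain ⟨k, κ, C, hk, hκ, hC, hest⟩ := pointwise_cutoff_diag hpq he hJ h1 h2
  set c := (π.a + π.b * p + (π.a * p + π.b)) / (p * p - 1) with hc
  have hc0 : 0 ≤ c := div_nonneg (by linarith) (by linarith)
  have hD' : (n : ℝ) < 2 * c + 4 := by
    rw [hc, ← mul_div_assoc] at *; linarith
  obtain ⟨L, hL0, hL, hLz⟩ := exists_deriv_bound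
  -- the density whose integral we squeeze
  set d : Euc n → ℝ := fun x => wf v v π x * (Pf v v p x + Pf v v p x) ^ 2 with hd
  have hdc : Continuous d := by
    have hP : ∀ (f g : Euc n → ℝ) (r : ℝ), Continuous f → Continuous g → (∀ x, 0 < f x) →
        (∀ x, 0 < g x) → Continuous (Pf f g r) := fun f g r hf hg hf0 hg0 =>
      (hg.rpow_const fun x => Or.inl (hg0 x).ne').div hf fun x => (hf0 x).ne'
    exact (Real.continuous_exp.comp ((continuous_const.mul (hvc.log fun x => (hvp x).ne')).add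
      (continuous_const.mul (hvc.log fun x => (hvp x).ne')))).mul
      (((hP v v p hvc hvc hvp hvp).add (hP v v p hvc hvc hvp hvp)).pow 2)
  have hdpos : ∀ x, 0 < d x := fun x => by
    have : 0 < Pf v v p x := div_pos (Real.rpow_pos_of_pos (hvp x) _) (hvp x)
    have : 0 < Pf v v p x := div_pos (Real.rpow_pos_of_pos (hvp x) _) (hvp x)
    exact mul_pos (Real.exp_pos _) (by positivity)
  set A : Set (Euc n) := {x | 1 ≤ ‖x‖ ∧ ‖x‖ ≤ 2} with hA
  have hAc : IsCompact A := (isCompact_closedBall (0 : Euc n) 2).of_isClosed_subset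
    (isClosed_le continuous_const continuous_norm |>.inter
      (isClosed_le continuous_norm continuous_const))
    fun x hx => by simpa using hx.2
  have hAi : IntegrableOn d A := hdc.continuousOn.integrableOn_compact hAc
  have hIpos : 0 < ∫ x in A, d x := by
    rw [setIntegral_pos_iff_support_of_nonneg_ae (Eventually.of_forall fun x => (hdpos x).le) hAi]
    have hs : Function.support d = Set.univ := Set.eq_univ_of_forall fun x => (hdpos x).ne'
    rw [hs, Set.univ_inter]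
    have : NeZero n := ⟨by omega⟩
    set x0 : Euc n := (3 / 2 : ℝ) • ev 0
    have hx0 : ‖x0‖ = 3 / 2 := by simp [x0, norm_smul, norm_ev]
    refine lt_of_lt_of_le (Metric.measure_ball_pos volume x0 (by norm_num : (0 : ℝ) < 1 / 2))
      (measure_mono fun x hx => ?_)
    simp only [Metric.mem_ball, dist_eq_norm] at hx
    have := norm_le_norm_add_norm_sub x0 x
    have := norm_le_norm_add_norm_sub x x0
    rw [norm_sub_rev x x0] at *
    constructor <;> linarith
  -- bound of the weight near the origin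
  obtain ⟨W0, hW0⟩ := (isCompact_closedBall (0 : Euc n) 1).exists_bound_of_continuousOn
    ((Real.continuous_exp.comp ((continuous_const.mul (hvc.log fun x => (hvp x).ne')).add
      (continuous_const.mul (hvc.log fun x => (hvp x).ne')))).continuousOn (f := wf v v π))
  set V := (volume : Measure (Euc n)).real (Metric.ball 0 1) with hV
  have main : ∀ ε R : ℝ, 0 < ε → ε < 1 / 4 → 2 ≤ R →
      κ * ∫ x in A, d x ≤ C * |W0| * ((16 * L ^ 2 / ε ^ 2) ^ 2) * ((2 * ε) ^ n * V)
        + C * (16 * L ^ 2 / R ^ 2) ^ (c + 2) * ((2 * R) ^ n * V) := fun ε R hε hε4 hR =>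
    squeeze_step_diag hk hκ hC hc0 hL0 hest hL hLz hv2 hvp heq hW0 hAi hAc.measurableSet
      hε hε4 hR
  -- the limit
  have l0 : Tendsto (fun ε : ℝ => C * |W0| * ((16 * L ^ 2 / ε ^ 2) ^ 2) * ((2 * ε) ^ n * V))
      (𝓝[>] 0) (𝓝 0) := by
    have h : Tendsto (fun ε : ℝ => C * |W0| * (16 * L ^ 2) ^ 2 * 2 ^ n * V * ε ^ (n - 4))
        (𝓝[>] 0) (𝓝 0) := by
      have := ((continuous_pow (n - 4)).tendsto (0 : ℝ)).const_mul
        (C * |W0| * (16 * L ^ 2) ^ 2 * 2 ^ n * V)
      rw [zero_pow (by omega), mul_zero] at this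
      exact this.mono_left nhdsWithin_le_nhds
    refine h.congr' ?_
    filter_upwards [self_mem_nhdsWithin] with ε (hε : 0 < ε)
    have : ε ^ n = ε ^ (n - 4) * ε ^ 4 := by rw [← pow_add]; congr 1; omega
    rw [mul_pow 2 ε n, this]
    field_simp
  have l1 : Tendsto (fun R : ℝ => C * (16 * L ^ 2 / R ^ 2) ^ (c + 2) * ((2 * R) ^ n * V))
      atTop (𝓝 0) := by
    have h := (tendsto_rpow_neg_atTop (show (0 : ℝ) < 2 * c + 4 - n by linarith)).const_mul
      (C * (16 * L ^ 2) ^ (c + 2) * 2 ^ n * V)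
    rw [mul_zero] at h
    refine h.congr' ?_
    filter_upwards [eventually_gt_atTop (0 : ℝ)] with R hR
    rw [Real.div_rpow (by positivity) (by positivity), ← Real.rpow_natCast R 2,
      ← Real.rpow_mul hR.le, Real.rpow_neg hR.le, mul_pow, ← Real.rpow_natCast R n,
      Real.rpow_sub hR]
    push_cast
    rw [show 2 * (c + 2) = 2 * c + 4 by ring]
    field_simp
  have hsmall : ∀ b, 0 < b → κ * ∫ x in A, d x ≤ b := by
    intro b hb
    obtain ⟨ε, ⟨h0, hε0⟩, hε⟩ := ((l0.eventually (Iio_mem_nhds (by linarith : (0 : ℝ) < b / 2))).and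
      self_mem_nhdsWithin).and (mem_nhdsWithin_of_mem_nhds (Iio_mem_nhds
        (show (0 : ℝ) < 1 / 4 by norm_num))) |>.exists
    obtain ⟨R, h1', hR⟩ := ((l1.eventually (Iio_mem_nhds (by linarith : (0 : ℝ) < b / 2))).and
      (eventually_ge_atTop (2 : ℝ))).exists
    have := main ε R hε0 hε hR
    linarith
  have := hsmall (κ * (∫ x in A, d x) / 2) (by positivity)
  nlinarith [mul_pos hκ hIpos]


/-- The diagonal certificate in the critical dimension `N`. -/
def diagPar (N : ℝ) : Par where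
  a := (N - 3) / (N - 2)
  b := (N - 3) / (N - 2)
  c := -1 / (2 * (N - 2))
  d := -1 / (2 * (N - 2))
  k1 := 0
  k2 := 1 / (2 * N)
  k3 := 0
  k4 := 1 / (2 * N)

lemma diag_coercive (hn : 2 ≤ n) {N p : ℝ} (hN : (n : ℝ) < N) (hp : p = (N + 2) / (N - 2)) :
    ∃ e : ℝ, 0 < e ∧ ∀ (G : Fin n → Fin n → ℝ), (∀ i j, G i j = G j i) →
      ∀ (X : Fin n → ℝ) (Q : ℝ), 0 ≤ Q → ∑ i, G i i = -Q - dot X X →
        e * Mfun G X X Q Q ≤ Jfun (diagPar N) p p G X X Q Q := by
  have hn' : (2 : ℝ) ≤ n := by exact_mod_cast hn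
  set δ := 1 / (n : ℝ) - 1 / N with hδ
  have hδ0 : 0 < δ := by
    rw [hδ, sub_pos]; exact one_div_lt_one_div_of_lt (by linarith) hN
  set m := -4 / (N - 2) with hm
  set e := min (1 / 2) (δ / (3 + m ^ 2)) with he
  have he0 : 0 < e := lt_min (by norm_num) (div_pos hδ0 (by positivity))
  have he2 : e ≤ 1 / 2 := min_le_left _ _
  have he3 : e * (3 + m ^ 2) ≤ δ := by
    rw [← le_div_iff₀ (by positivity)]; exact min_le_right _ _
  refine ⟨e, he0, fun G hG X Q hQ htr => ?_⟩
  have hT := trace_lower (by omega) G hG X X 0 m (1 - e) (by linarith)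
  rw [htr] at hT
  set B := dot X X with hBd
  set T := Q + B with hTd
  have hB : 0 ≤ B := dot_self_nonneg X
  have h1e : 0 < 1 - e := by linarith
  set r := m ^ 2 * B ^ 2 * (1 - 1 / (n : ℝ)) with hr
  have hr0 : 0 ≤ 1 - 1 / (n : ℝ) := by
    rw [sub_nonneg, div_le_one (by linarith)]; linarith
  have hT' : (1 - e) * T ^ 2 / n - m * B * T / n - r / (4 * (1 - e))
      ≤ (1 - e) * P100.sq G + m * quad G X X := by
    refine le_trans (le_of_eq ?_) (hT.trans (le_of_eq (by ring)))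
    rw [hr, hTd]
    field_simp
    ring
  have hr' : r / (4 * (1 - e)) ≤ r / 4 + e * (m ^ 2 * B ^ 2) := by
    rw [div_le_iff₀ (by positivity)]
    have h : r ≤ m ^ 2 * B ^ 2 :=
      mul_le_of_le_one_right (by positivity) (by linarith [show 0 ≤ 1 / (n : ℝ) by positivity])
    have h' : e * r ≤ e * (m ^ 2 * B ^ 2) := mul_le_mul_of_nonneg_left h he0.le
    have h'' : e * e * (m ^ 2 * B ^ 2) ≤ 1 / 2 * e * (m ^ 2 * B ^ 2) :=
      mul_le_mul_of_nonneg_right (mul_le_mul_of_nonneg_right he2 he0.le) (by positivity)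
    have : 0 ≤ e * (m ^ 2 * B ^ 2) := by positivity
    linarith
  set S := Q + N / (N - 2) * B with hS
  have hh : 0 < N - 2 := by linarith
  have hid : Jfun (diagPar N) p p G X X Q Q
      = P100.sq G + m * quad G X X - (T ^ 2 / n - m * B * T / n - r / 4) + δ * S ^ 2 := by
    simp only [Jfun, diagPar, Par.m1, Par.m2, hm, hS, hTd, hδ, hr, hp, ← hBd]
    have : N ≠ 0 := by linarith
    field_simp
    ring
  have h1N : 1 ≤ N / (N - 2) := by rw [le_div_iff₀ hh]; linarith
  have hTS : T ≤ S := by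
    rw [hTd, hS]
    linarith [le_mul_of_one_le_left hB h1N]
  have hT2 : T ^ 2 ≤ S ^ 2 := pow_le_pow_left₀ (by positivity) hTS 2
  have hB2 : B ^ 2 ≤ S ^ 2 := pow_le_pow_left₀ hB (le_trans (by linarith) hTS) 2
  have hM : Mfun G X X Q Q = P100.sq G + 2 * T ^ 2 := by
    simp only [Mfun, hTd, ← hBd]; ring
  rw [hid, hM]
  have hTn : T ^ 2 / n ≤ T ^ 2 := div_le_self (sq_nonneg _) (by linarith)
  have g1 : e * (T ^ 2 / n) ≤ e * T ^ 2 := mul_le_mul_of_nonneg_left hTn he0.le
  have g2 : e * T ^ 2 ≤ e * S ^ 2 := mul_le_mul_of_nonneg_left hT2 he0.le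
  have g3 : e * (m ^ 2 * B ^ 2) ≤ e * (m ^ 2 * S ^ 2) :=
    mul_le_mul_of_nonneg_left (mul_le_mul_of_nonneg_left hB2 (sq_nonneg m)) he0.le
  have g4 := mul_le_mul_of_nonneg_right he3 (sq_nonneg S)
  have g5 : (1 - e) * T ^ 2 / n = T ^ 2 / n - e * (T ^ 2 / n) := by ring
  rw [g5] at hT'
  linarith

/-- Nonexistence on the diagonal `p = q` of the subcritical range. -/
theorem no_solution_diag {n : Nat} (hn : 5 ≤ n) {p : Real} (hp : 1 < p)
    (hsub : ((n : Real) - 2) * (p + 1) < 2 * n) :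
    ¬ ∃ u v : Euc n → Real, P100.IsPositiveEntireSolution p p u v := by
  rintro ⟨u, v, hs⟩
  have hpp : 1 < p * p := by nlinarith
  have hs' : IsPositiveEntireSolution p p v u := by
    obtain ⟨a, b, c, d, e, f, g⟩ := hs
    exact ⟨b, a, d, c, f, e, fun x hx => (g x hx).symm⟩
  obtain ⟨-, hvc, -, hv2, hup, hvp, heq⟩ := id hs
  have huv : ∀ x, x ≠ 0 → u x = v x := by
    intro x hx
    have h1 := tauf_le (by omega) (by linarith) le_rfl hpp hs hx
    have h2 := tauf_le (by omega) (by linarith) le_rfl hpp hs' hx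
    rw [div_self (by linarith), Real.log_one] at h1 h2
    simp only [tauf] at h1 h2
    have e1 : Real.log (u x) = Real.log (v x) :=
      mul_left_cancel₀ (by linarith : p + 1 ≠ 0) (by linarith)
    rw [← Real.exp_log (hup x), e1, Real.exp_log (hvp x)]
  have heq' : ∀ x, x ≠ 0 → -(Δ v x) = v x ^ p := fun x hx => by
    rw [(heq x hx).2, huv x hx]
  set N := 2 * (p + 1) / (p - 1) with hNd
  have hn' : (5 : ℝ) ≤ n := by exact_mod_cast hn
  have hN : (n : ℝ) < N := by rw [hNd, lt_div_iff₀ (by linarith)]; linarith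
  have hN2 : 0 < N - 2 := by linarith
  have hp' : p = (N + 2) / (N - 2) := by
    rw [eq_div_iff hN2.ne']
    have : N * (p - 1) = 2 * (p + 1) := by
      rw [hNd, div_mul_cancel₀ _ (by linarith : p - 1 ≠ 0)]
    linarith
  obtain ⟨e, he, hJ⟩ := diag_coercive (n := n) (by omega) hN hp'
  have hab : 0 < (N - 3) / (N - 2) := div_pos (by linarith) hN2
  refine no_solution_scalar hn hpp he hJ ?_ ?_ ?_ hvc hv2 hvp heq'
  · simp only [diagPar]; positivity
  · simp only [diagPar]; positivity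
  · have : 2 * ((diagPar N).a + (diagPar N).b * p + ((diagPar N).a * p + (diagPar N).b)) /
        (p * p - 1) = N - 3 := by
      simp only [diagPar]
      have hp1 : (p - 1) * (N - 2) = 4 := by
        rw [hp', sub_mul, div_mul_cancel₀ _ hN2.ne']; ring
      rw [div_eq_iff (by linarith)]
      field_simp
      linear_combination (-(N - 3) * (p + 1)) * hp1
    linarith

end Vale.Agent.P100T
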