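import Vale.Agent.P100T.CertMain
import Vale.Agent.P100T.AllDim
import Vale.Agent.P100T.BoxDisc
import Vale.Agent.P100T.BoxDiscLine

/-!
The Lane–Emden conjecture in every dimension `n ≥ 5`.
-/

noncomputable section

namespace Vale.Agent.P100T

open Vale.Agent.P100

variable {N p q : ℝ}

/-- The top of the box. -/
lemma topDisc_holds (hN : 6 ≤ N) (hq : 0 < q) (hpq : q < p)
    (hcrit : N / (p + 1) + N / (q + 1) = N - 2)
    (hcov : 1 < q ∨ N - 1 ≤ (p + 1) * (q * (N - 3) - 2)) : TopDisc N p q := by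
  have hTB := lt_lineTB hN (certT_gt_one hq hpq) (crit_iff (hq.trans hpq) hq hcrit)
    (mul_div_cancel₀ _ (show q + 1 ≠ 0 by linarith)) hcov
  exact ⟨fun s h1 h2 => lineK_le_upU hN hq hpq hcrit hTB h1 h2, fun s h1 h2 =>
    CPar.disc_box_topU (N := N) (p := p) (q := q) rfl rfl rfl hN hq hpq hcrit rfl certPar_si rfl
      certPar_c1_le certPar_c1_gt hTB h1 h2⟩

/-- **A certificate at every critical triple with `N ≥ 6` outside the corner.** -/
theorem hasCertificate_six (hN : 6 ≤ N) (hq : 0 < q) (hpq : q < p)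
    (hcrit : N / (p + 1) + N / (q + 1) = N - 2)
    (hcov : 1 < q ∨ N - 1 ≤ (p + 1) * (q * (N - 3) - 2)) : HasCertificate N p q :=
  hasCertificate_of_hyp hN hq hpq hcrit hcov
    (certHyp_of_top hN hq hpq hcrit hcov (topDisc_holds hN hq hpq hcrit hcov))

/-- **The Lane–Emden conjecture for `n ≥ 5`.** -/
theorem no_solution_full {n : ℕ} (hn : 5 ≤ n) {p q : ℝ} (hp : 0 < p) (hq : 0 < q)
    (hsub : ((n : ℝ) - 2) / n < 1 / (p + 1) + 1 / (q + 1)) :
    ¬ ∃ u v : Euc n → ℝ, IsPositiveEntireSolution p q u v :=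
  no_solution_all_of_certificates (fun _ _ _ hN hq hpq _ hc hcov =>
    hasCertificate_six hN.le hq hpq (crit_of_prod (hq.trans hpq) hq hc) hcov) hn hp hq hsub

end Vale.Agent.P100T
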