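import Vale.Agent.P100T.GroundLocal

/-! # Existence of a ground state on the critical hyperbola, by shooting -/

open Set Filter Topology MeasureTheory

noncomputable section

namespace Vale.Agent.P100T

/-- A positive radial solution on `[0, T]` with initial values `d`, in integral form. -/
def PSol (N p q : ℝ) (d : ℝ × ℝ) (T : ℝ) (U V : ℝ → ℝ) : Prop :=
  0 ≤ T ∧ Continuous U ∧ Continuous V ∧ ∀ r ∈ Icc 0 T, 0 < U r ∧ 0 < V r ∧
    U r = d.1 - dbl N (fun ρ => V ρ ^ p) r ∧ V r = d.2 - dbl N (fun ρ => U ρ ^ q) r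

/-- The radial slope of the component driven by `W ^ a`. -/
def slope' (N a : ℝ) (W : ℝ → ℝ) (r : ℝ) : ℝ := -(r * radAvg N (fun ρ => W ρ ^ a) r)

variable {N p q T : ℝ} {d : ℝ × ℝ} {U V : ℝ → ℝ}

lemma avg_nonneg (hN : 1 ≤ N) {W : ℝ → ℝ} (hW : Continuous W) {a r : ℝ} (ha : 0 ≤ a) (hr : 0 ≤ r)
    (hpos : ∀ ρ ∈ Icc 0 r, 0 < W ρ) : 0 ≤ radAvg N (fun ρ => W ρ ^ a) r := by
  simpa using radAvg_ge hN (hW.rpow_const fun _ => Or.inr ha) hr (m := 0)
    fun ρ hρ => Real.rpow_nonneg (hpos ρ hρ).le _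

namespace PSol

lemma swap (h : PSol N p q d T U V) : PSol N q p d.swap T V U :=
  ⟨h.1, h.2.2.1, h.2.1, fun r hr =>
    let ⟨a, b, c, e⟩ := h.2.2.2 r hr
    ⟨b, a, e, c⟩⟩

lemma mono (h : PSol N p q d T U V) {T' : ℝ} (h0 : 0 ≤ T') (hT : T' ≤ T) :
    PSol N p q d T' U V :=
  ⟨h0, h.2.1, h.2.2.1, fun r hr => h.2.2.2 r ⟨hr.1, hr.2.trans hT⟩⟩

lemma posU (h : PSol N p q d T U V) {r : ℝ} (hr : r ∈ Icc 0 T) : 0 < U r := (h.2.2.2 r hr).1

lemma posV (h : PSol N p q d T U V) {r : ℝ} (hr : r ∈ Icc 0 T) : 0 < V r := (h.2.2.2 r hr).2.1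

lemma init (h : PSol N p q d T U V) : U 0 = d.1 ∧ V 0 = d.2 := by
  obtain ⟨-, -, a, b⟩ := h.2.2.2 0 ⟨le_rfl, h.1⟩
  simpa [dbl_zero] using And.intro a b

lemma diff_le (h : PSol N p q d T U V) (hN : 1 ≤ N) (hp : 0 ≤ p) {s r : ℝ}
    (hs : 0 ≤ s) (hsr : s ≤ r) (hr : r ≤ T) {m M : ℝ}
    (hm : ∀ t ∈ Icc s r, m ≤ t * radAvg N (fun ρ => V ρ ^ p) t)
    (hM : ∀ t ∈ Icc s r, t * radAvg N (fun ρ => V ρ ^ p) t ≤ M) :
    m * (r - s) ≤ U s - U r ∧ U s - U r ≤ M * (r - s) := by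
  have hc := continuous_mul_radAvg hN (h.2.2.1.rpow_const fun _ => Or.inr hp)
  rw [(h.2.2.2 s ⟨hs, hsr.trans hr⟩).2.2.1, (h.2.2.2 r ⟨hs.trans hsr, hr⟩).2.2.1]
  have e : dbl N (fun ρ => V ρ ^ p) r - dbl N (fun ρ => V ρ ^ p) s
      = ∫ t in s..r, t * radAvg N (fun ρ => V ρ ^ p) t :=
    intervalIntegral.integral_interval_sub_left (μ := volume) (hc.intervalIntegrable _ _)
      (hc.intervalIntegrable _ _)
  have h1 := intervalIntegral.integral_mono_on (μ := volume) (f := fun _ => m) hsr intervalIntegrable_const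
    (hc.intervalIntegrable _ _) hm
  have h2 := intervalIntegral.integral_mono_on (μ := volume) (g := fun _ => M) hsr (hc.intervalIntegrable _ _)
    intervalIntegrable_const hM
  rw [intervalIntegral.integral_const, smul_eq_mul] at h1 h2
  constructor <;> nlinarith

lemma antiU (h : PSol N p q d T U V) (hN : 1 ≤ N) (hp : 0 ≤ p) {s r : ℝ} (hs : 0 ≤ s)
    (hsr : s ≤ r) (hr : r ≤ T) : U r ≤ U s := by
  have hc := h.2.2.1.rpow_const (p := p) fun _ => Or.inr hp
  obtain ⟨M, hM⟩ := (isCompact_Icc (a := s) (b := r)).exists_bound_of_continuousOn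
    (continuous_mul_radAvg hN hc).continuousOn
  have h1 := (h.diff_le hN hp hs hsr hr (m := 0) (M := M) (fun t ht => mul_nonneg (hs.trans ht.1)
    (avg_nonneg hN h.2.2.1 hp (hs.trans ht.1) fun ρ hρ =>
      h.posV ⟨hρ.1, hρ.2.trans (ht.2.trans hr)⟩))
    fun t ht => (le_abs_self _).trans (hM t ht)).1
  linarith

lemma antiV (h : PSol N p q d T U V) (hN : 1 ≤ N) (hq : 0 ≤ q) {s r : ℝ} (hs : 0 ≤ s)
    (hsr : s ≤ r) (hr : r ≤ T) : V r ≤ V s :=
  h.swap.antiU hN hq hs hsr hr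

lemma leU (h : PSol N p q d T U V) (hN : 1 ≤ N) (hp : 0 ≤ p) {r : ℝ} (hr : r ∈ Icc 0 T) :
    U r ≤ d.1 :=
  h.init.1 ▸ h.antiU hN hp le_rfl hr.1 hr.2

lemma leV (h : PSol N p q d T U V) (hN : 1 ≤ N) (hq : 0 ≤ q) {r : ℝ} (hr : r ∈ Icc 0 T) :
    V r ≤ d.2 :=
  h.swap.leU hN hq hr

lemma toCSol (h : PSol N p q d T U V) {δ M : ℝ}
    (hb : ∀ r ∈ Icc 0 T, (δ ≤ U r ∧ U r ≤ M) ∧ (δ ≤ V r ∧ V r ≤ M)) :
    CSol N p q δ M d T U V := by
  refine ⟨h.2.1, h.2.2.1, fun r hr => ?_⟩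
  obtain ⟨-, -, a, b⟩ := h.2.2.2 r hr
  have hρ : ∀ ρ ∈ Icc 0 r, ρ ∈ Icc 0 T := fun ρ hρ => ⟨hρ.1, hρ.2.trans hr.2⟩
  rw [dbl_congr hr.1 fun ρ h' => cpow_eq (hb ρ (hρ ρ h')).2.1 (hb ρ (hρ ρ h')).2.2,
    dbl_congr hr.1 fun ρ h' => cpow_eq (hb ρ (hρ ρ h')).1.1 (hb ρ (hρ ρ h')).1.2]
  exact ⟨a, b⟩

lemma bounds (h : PSol N p q d T U V) (hN : 1 ≤ N) (hp : 0 ≤ p) (hq : 0 ≤ q) :
    ∃ δ M, 0 < δ ∧ δ ≤ M ∧
      ∀ r ∈ Icc 0 T, (2 * δ ≤ U r ∧ U r + δ ≤ M) ∧ (2 * δ ≤ V r ∧ V r + δ ≤ M) := by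
  have hu := h.posU ⟨h.1, le_rfl⟩
  have hv := h.posV ⟨h.1, le_rfl⟩
  set δ := min (U T) (V T) / 2 with hδ
  have hδ0 : 0 < δ := by positivity
  refine ⟨δ, max d.1 d.2 + δ, hδ0, ?_, fun r hr => ?_⟩
  · have := (h.posU ⟨le_rfl, h.1⟩).trans_le (h.leU hN hp ⟨le_rfl, h.1⟩)
    linarith [le_max_left d.1 d.2]
  · have h1 := h.antiU hN hp hr.1 hr.2 le_rfl
    have h2 := h.antiV hN hq hr.1 hr.2 le_rfl
    have h3 := h.leU hN hp hr
    have h4 := h.leV hN hq hr
    refine ⟨⟨?_, ?_⟩, ?_, ?_⟩ <;>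
      linarith [min_le_left (U T) (V T), min_le_right (U T) (V T), le_max_left d.1 d.2,
        le_max_right d.1 d.2]

lemma unique (h : PSol N p q d T U V) {U' V' : ℝ → ℝ} (h' : PSol N p q d T U' V') (hN : 1 ≤ N)
    (hp : 0 ≤ p) (hq : 0 ≤ q) {r : ℝ} (hr : r ∈ Icc 0 T) : U r = U' r ∧ V r = V' r := by
  obtain ⟨δ, M, hδ, hδM, hb⟩ := h.bounds hN hp hq
  obtain ⟨δ', M', hδ', hδM', hb'⟩ := h'.bounds hN hp hq
  have hle : min δ δ' ≤ max M M' :=
    (min_le_left _ _).trans (hδM.trans (le_max_left _ _))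
  obtain ⟨lam, -, hdist⟩ := csol_dist hN hp hq (lt_min hδ hδ') hle
  have c : ∀ {x : ℝ}, 2 * δ ≤ x → x + δ ≤ M → min δ δ' ≤ x ∧ x ≤ max M M' := fun a b =>
    ⟨by linarith [min_le_left δ δ'], by linarith [le_max_left M M']⟩
  have c' : ∀ {x : ℝ}, 2 * δ' ≤ x → x + δ' ≤ M' → min δ δ' ≤ x ∧ x ≤ max M M' := fun a b =>
    ⟨by linarith [min_le_right δ δ'], by linarith [le_max_right M M']⟩
  have := hdist d d T U V U' V' h.1
    (h.toCSol fun s hs => ⟨c (hb s hs).1.1 (hb s hs).1.2, c (hb s hs).2.1 (hb s hs).2.2⟩)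
    (h'.toCSol fun s hs => ⟨c' (hb' s hs).1.1 (hb' s hs).1.2, c' (hb' s hs).2.1 (hb' s hs).2.2⟩)
    r hr
  simpa [sub_eq_zero] using this

/-- Continuity in the data, and continuation. -/
lemma persist (h : PSol N p q d T U V) (hN : 1 ≤ N) (hp : 0 ≤ p) (hq : 0 ≤ q) {ε : ℝ}
    (hε : 0 < ε) :
    (∀ᶠ d' in 𝓝 d, ∃ U' V', PSol N p q d' T U' V' ∧
      |U' T - U T| < ε ∧ |V' T - V T| < ε) ∧
    ∃ T' > T, ∃ U' V', PSol N p q d T' U' V' := by
  obtain ⟨δ, M, hδ, hδM, hb⟩ := h.bounds hN hp hq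
  obtain ⟨lam, hlam, hdist⟩ := csol_dist hN hp hq hδ hδM
  have hc := h.toCSol (δ := δ) (M := M) fun r hr => ⟨⟨by linarith [(hb r hr).1.1],
    by linarith [(hb r hr).1.2]⟩, by linarith [(hb r hr).2.1], by linarith [(hb r hr).2.2]⟩
  have back : ∀ {d' : ℝ × ℝ} {T' : ℝ} {U' V' : ℝ → ℝ}, 0 ≤ T' → CSol N p q δ M d' T' U' V' →
      (∀ r ∈ Icc 0 T', (δ ≤ U' r ∧ U' r ≤ M) ∧ (δ ≤ V' r ∧ V' r ≤ M)) →
      PSol N p q d' T' U' V' := by
    intro d' T' U' V' hT' hC hB
    refine ⟨hT', hC.1, hC.2.1, fun r hr => ⟨hδ.trans_le (hB r hr).1.1,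
      hδ.trans_le (hB r hr).2.1, ?_⟩⟩
    obtain ⟨a, b⟩ := hC.2.2 r hr
    have hρ : ∀ ρ ∈ Icc 0 r, ρ ∈ Icc 0 T' := fun ρ hρ => ⟨hρ.1, hρ.2.trans hr.2⟩
    rw [dbl_congr hr.1 fun ρ h' => cpow_eq (hB ρ (hρ ρ h')).2.1 (hB ρ (hρ ρ h')).2.2] at a
    rw [dbl_congr hr.1 fun ρ h' => cpow_eq (hB ρ (hρ ρ h')).1.1 (hB ρ (hρ ρ h')).1.2] at b
    exact ⟨a, b⟩
  constructor
  · set C := 2 * Real.exp (lam * T ^ 2)
    have hC : 0 < C := by positivity
    filter_upwards [Metric.ball_mem_nhds d (div_pos (lt_min hε hδ) hC)] with d' hd'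
    rw [Metric.mem_ball, lt_div_iff₀ hC] at hd'
    obtain ⟨U', V', hU'⟩ := exists_csol hN hp hq hδ hδM d'
    have hclose : ∀ r ∈ Icc 0 T, |U' r - U r| < min ε δ ∧ |V' r - V r| < min ε δ := fun r hr => by
      obtain ⟨a, b⟩ := hdist d' d T U' V' U V h.1 (hU' T) hc r hr
      have : 2 * dist d' d * Real.exp (lam * r ^ 2) < min ε δ := by
        refine lt_of_le_of_lt ?_ hd'
        rw [show dist d' d * C = 2 * dist d' d * Real.exp (lam * T ^ 2) by simp only [C]; ring]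
        exact mul_le_mul_of_nonneg_left (Real.exp_le_exp.2
          (mul_le_mul_of_nonneg_left (pow_le_pow_left₀ hr.1 hr.2 2) hlam.le)) (by positivity)
      exact ⟨a.trans_lt this, b.trans_lt this⟩
    refine ⟨U', V', back h.1 (hU' T) fun r hr => ?_,
      (hclose T ⟨h.1, le_rfl⟩).1.trans_le (min_le_left _ _),
      (hclose T ⟨h.1, le_rfl⟩).2.trans_le (min_le_left _ _)⟩
    obtain ⟨⟨u1, u2⟩, v1, v2⟩ := hb r hr
    obtain ⟨a, b⟩ := hclose r hr
    rw [abs_lt] at a b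
    have := min_le_right ε δ
    exact ⟨⟨by linarith, by linarith⟩, by linarith, by linarith⟩
  · obtain ⟨U', V', hU'⟩ := exists_csol hN hp hq hδ hδM d
    have heq : ∀ r ∈ Icc 0 T, U' r = U r ∧ V' r = V r := fun r hr => by
      simpa [sub_eq_zero] using hdist d d T U' V' U V h.1 (hU' T) hc r hr
    obtain ⟨u1, u2⟩ := (hb T ⟨h.1, le_rfl⟩).1
    obtain ⟨v1, v2⟩ := (hb T ⟨h.1, le_rfl⟩).2
    have hev : ∀ᶠ r in 𝓝 T, (δ ≤ U' r ∧ U' r ≤ M) ∧ (δ ≤ V' r ∧ V' r ≤ M) := by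
      obtain ⟨eU, eV⟩ := heq T ⟨h.1, le_rfl⟩
      have a := (hU' T).1.continuousAt (x := T)
      have b := (hU' T).2.1.continuousAt (x := T)
      exact ((a.eventually (eventually_ge_nhds (by rw [eU]; linarith))).and
        (a.eventually (eventually_le_nhds (by rw [eU]; linarith)))).and
        ((b.eventually (eventually_ge_nhds (by rw [eV]; linarith))).and
        (b.eventually (eventually_le_nhds (by rw [eV]; linarith))))
    obtain ⟨η, hη, hball⟩ := Metric.eventually_nhds_iff.1 hev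
    refine ⟨T + η / 2, by linarith, U', V', back (by linarith [h.1]) (hU' _) fun r hr => ?_⟩
    rcases le_total r T with hrT | hrT
    · obtain ⟨eU, eV⟩ := heq r ⟨hr.1, hrT⟩
      obtain ⟨⟨a1, a2⟩, b1, b2⟩ := hb r ⟨hr.1, hrT⟩
      rw [eU, eV]
      exact ⟨⟨by linarith, by linarith⟩, by linarith, by linarith⟩
    · exact hball (by rw [Real.dist_eq, abs_of_nonneg (by linarith)]; linarith [hr.2])

lemma hasDerivAtU (h : PSol N p q d T U V) (hN : 1 ≤ N) (hp : 0 ≤ p) {r : ℝ}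
    (hr : r ∈ Ioo 0 T) : HasDerivAt U (slope' N p V r) r := by
  have := (hasDerivAt_dbl hN (h.2.2.1.rpow_const (p := p) fun _ => Or.inr hp) r).const_sub d.1
  refine this.congr_of_eventuallyEq ?_
  filter_upwards [Icc_mem_nhds hr.1 hr.2] with s hs
  exact (h.2.2.2 s hs).2.2.1

end PSol

lemma hasDerivAt_slope (hN : 1 ≤ N) {W : ℝ → ℝ} (hW : Continuous W) {a r : ℝ} (ha : 0 ≤ a)
    (hr : 0 < r) :
    HasDerivAt (slope' N a W) (-((N - 1) / r) * slope' N a W r - W r ^ a) r := by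
  refine (hasDerivAt_mul_radAvg hN (hW.rpow_const (p := a) fun _ => Or.inr ha) hr).neg.congr_deriv ?_
  simp only [slope']; ring

lemma continuous_slope (hN : 1 ≤ N) {W : ℝ → ℝ} (hW : Continuous W) {a : ℝ} (ha : 0 ≤ a) :
    Continuous (slope' N a W) :=
  (continuous_mul_radAvg hN (hW.rpow_const (p := a) fun _ => Or.inr ha)).neg

/-- The Pohozaev identity. -/
lemma pohozaev (h : PSol N p q d T U V) (hN : 2 < N) (hp : 0 < p) (hq : 0 < q)
    (hcrit : N / (p + 1) + N / (q + 1) = N - 2) {r : ℝ} (hr : r ∈ Icc 0 T) :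
    r ^ N * (slope' N p V r * slope' N q U r + V r ^ (p + 1) / (p + 1) + U r ^ (q + 1) / (q + 1))
      + r ^ (N - 1) * (N / (p + 1) * (slope' N p V r * V r)
          + N / (q + 1) * (U r * slope' N q U r)) = 0 := by
  set θ₁ := N / (p + 1) with hθ₁
  set θ₂ := N / (q + 1) with hθ₂
  set S := fun r => slope' N p V r * slope' N q U r + V r ^ (p + 1) / (p + 1)
    + U r ^ (q + 1) / (q + 1)
  set K := fun r => θ₁ * (slope' N p V r * V r) + θ₂ * (U r * slope' N q U r)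
  set Φ := fun r : ℝ => r ^ N * S r + r ^ (N - 1) * K r
  have hN1 : 1 ≤ N := by linarith
  have hcU := continuous_slope hN1 h.2.2.1 hp.le
  have hcV := continuous_slope hN1 h.2.1 hq.le
  have hΦc : Continuous Φ := by
    refine ((Real.continuous_rpow_const (by linarith)).mul (((hcU.mul hcV).add ?_).add ?_)).add
      ((Real.continuous_rpow_const (by linarith)).mul
        ((continuous_const.mul (hcU.mul h.2.2.1)).add (continuous_const.mul (h.2.1.mul hcV))))
    · exact (h.2.2.1.rpow_const fun _ => Or.inr (by linarith)).div_const _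
    · exact (h.2.1.rpow_const fun _ => Or.inr (by linarith)).div_const _
  have hd : ∀ s ∈ Ioo 0 r, HasDerivAt Φ 0 s := by
    intro s hs
    have hsT : s ∈ Ioo 0 T := ⟨hs.1, hs.2.trans_le hr.2⟩
    have hU := h.hasDerivAtU hN1 hp.le hsT
    have hV := h.swap.hasDerivAtU hN1 hq.le hsT
    have hU1 := hasDerivAt_slope hN1 h.2.2.1 hp.le hs.1
    have hV1 := hasDerivAt_slope hN1 h.2.1 hq.le hs.1
    have hs0 := h.posU ⟨hs.1.le, hsT.2.le⟩
    have hs1 := h.posV ⟨hs.1.le, hsT.2.le⟩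
    have hVp := (hV.rpow_const (p := p + 1) (Or.inl hs1.ne')).div_const (p + 1)
    have hUq := (hU.rpow_const (p := q + 1) (Or.inl hs0.ne')).div_const (q + 1)
    have hS := ((hU1.mul hV1).add hVp).add hUq
    have hK := ((hU1.mul hV).const_mul θ₁).add ((hU.mul hV1).const_mul θ₂)
    have hr1 := Real.hasDerivAt_rpow_const (x := s) (p := N) (Or.inl hs.1.ne')
    have hr2 := Real.hasDerivAt_rpow_const (x := s) (p := N - 1) (Or.inl hs.1.ne')
    refine ((hr1.mul hS).add (hr2.mul hK)).congr_deriv ?_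
    have e1 : s ^ (N - 1 - 1) = s ^ (N - 1) / s := Real.rpow_sub_one hs.1.ne' _
    have e2 : s ^ N = s ^ (N - 1) * s := by
      rw [Real.rpow_sub_one hs.1.ne', div_mul_cancel₀ _ hs.1.ne']
    have e3 : V s ^ (p + 1) = V s ^ p * V s := Real.rpow_add_one hs1.ne' p
    have e4 : U s ^ (q + 1) = U s ^ q * U s := Real.rpow_add_one hs0.ne' q
    simp only [Pi.add_apply, Pi.mul_apply, add_sub_cancel_right, e1, e2, e3, e4, hθ₁, hθ₂]
    have := hs.1.ne'
    have hp1 : p + 1 ≠ 0 := by linarith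
    have hq1 : q + 1 ≠ 0 := by linarith
    refine Eq.trans (b := s ^ (N - 1) * (slope' N p V s * slope' N q U s)
      * (N / (p + 1) + N / (q + 1) - N + 2)) ?_ (by rw [← hθ₁, ← hθ₂, hcrit]; ring)
    field_simp
    ring
  rcases hr.1.eq_or_lt with h0 | h0
  · subst h0
    rw [Real.zero_rpow (by linarith), Real.zero_rpow (by linarith)]; ring
  · obtain ⟨c, -, hc⟩ := exists_hasDerivAt_eq_slope Φ (fun _ => 0) h0 hΦc.continuousOn hd
    have : Φ r = Φ 0 := by
      rw [eq_comm, div_eq_zero_iff] at hc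
      rcases hc with hc | hc <;> linarith
    rw [show Φ 0 = 0 by
      simp only [Φ, Real.zero_rpow (show N ≠ 0 by linarith),
        Real.zero_rpow (show N - 1 ≠ 0 by linarith)]; ring] at this
    exact this

/-- The length after `T` during which the second component keeps half of its value. -/
def stay (N q : ℝ) (d : ℝ × ℝ) (T v : ℝ) : ℝ :=
  min 1 (N * v / (2 * ((T + 1) * d.1 ^ q) + 1))

/-- The first component is forced to vanish first. -/
def Hit (N p q : ℝ) (d : ℝ × ℝ) : Prop :=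
  ∃ T U V, 0 < T ∧ PSol N p q d T U V ∧
    U T * N < stay N q d T (V T) * (T * (V T / 2) ^ p)

/-- The times up to which a positive solution exists. -/
def Times (N p q : ℝ) (d : ℝ × ℝ) : Set ℝ := {T | ∃ U V, PSol N p q d T U V}

lemma times_swap : Times N q p d.swap = Times N p q d := by
  ext T
  exact ⟨fun ⟨U, V, h⟩ => ⟨V, U, by simpa using h.swap⟩, fun ⟨U, V, h⟩ => ⟨V, U, h.swap⟩⟩

lemma zero_mem_times (h1 : 0 < d.1) (h2 : 0 < d.2) : (0:ℝ) ∈ Times N p q d :=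
  ⟨fun _ => d.1, fun _ => d.2, le_rfl, continuous_const, continuous_const, fun r hr => by
    have : r = 0 := le_antisymm hr.2 hr.1
    subst this
    simp [h1, h2, dbl_zero]⟩

lemma Hit.consequence (hH : Hit N p q d) (hN : 1 ≤ N) (hp : 0 ≤ p) (hq : 0 ≤ q) :
    ∃ B c, 0 < c ∧ ∀ T' U' V', PSol N p q d T' U' V' → T' ≤ B ∧ c ≤ V' T' := by
  obtain ⟨T, U, V, hT, h, hlt⟩ := hH
  set h' := stay N q d T (V T)
  have hv := h.posV ⟨hT.le, le_rfl⟩
  have hu := h.posU ⟨hT.le, le_rfl⟩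
  have hd1 : 0 < d.1 := hu.trans_le (h.leU hN hp ⟨hT.le, le_rfl⟩)
  have hh0 : 0 < h' := lt_min one_pos (by positivity)
  have key : ∀ (r : ℝ) (U' V' : ℝ → ℝ), PSol N p q d r U' V' → T ≤ r → r ≤ T + h' →
      U' T = U T ∧ V T / 2 ≤ V' r := by
    intro r U' V' hs hTr hrh
    obtain ⟨eU, eV⟩ := h.unique (hs.mono hT.le hTr) hN hp hq ⟨hT.le, le_rfl⟩
    refine ⟨eU.symm, ?_⟩
    have hh1 : h' ≤ 1 := min_le_left _ _
    have hb := (hs.swap.diff_le hN hq hT.le hTr le_rfl (m := 0)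
      (M := (T + 1) * (d.1 ^ q / N))
      (fun t ht => mul_nonneg (hT.le.trans ht.1)
        (avg_nonneg hN hs.2.1 hq (hT.le.trans ht.1) fun ρ hρ => hs.posU ⟨hρ.1, hρ.2.trans ht.2⟩))
      fun t ht => mul_le_mul (show t ≤ T + 1 by linarith [ht.2])
        (radAvg_le hN (hs.2.1.rpow_const fun _ => Or.inr hq) (hT.le.trans ht.1) fun ρ hρ =>
          Real.rpow_le_rpow (hs.posU ⟨hρ.1, hρ.2.trans ht.2⟩).le
            (hs.leU hN hp ⟨hρ.1, hρ.2.trans ht.2⟩) hq)
        (avg_nonneg hN hs.2.1 hq (hT.le.trans ht.1) fun ρ hρ => hs.posU ⟨hρ.1, hρ.2.trans ht.2⟩)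
        (by linarith)).2
    have hb2 : h' * ((T + 1) * (d.1 ^ q / N)) ≤ V T / 2 := by
      refine le_trans (mul_le_mul_of_nonneg_right (min_le_right _ _) (by positivity)) ?_
      rw [div_mul_eq_mul_div, div_le_div_iff₀ (by positivity) two_pos]
      field_simp
      nlinarith
    have hb3 : (T + 1) * (d.1 ^ q / N) * (r - T) ≤ h' * ((T + 1) * (d.1 ^ q / N)) := by
      rw [mul_comm]; exact mul_le_mul_of_nonneg_right (by linarith) (by positivity)
    rw [← eV] at hb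
    linarith
  have hno : ∀ T' U' V', PSol N p q d T' U' V' → T' < T + h' := by
    intro T' U' V' hs
    by_contra hle
    push Not at hle
    have hs' := hs.mono (by linarith) hle
    obtain ⟨eU, hV⟩ := key _ U' V' hs' (by linarith) le_rfl
    have hc := hs'.2.2.1.rpow_const (p := p) fun _ => Or.inr hp
    obtain ⟨M, hM⟩ := (isCompact_Icc (a := T) (b := T + h')).exists_bound_of_continuousOn
      (continuous_mul_radAvg hN hc).continuousOn
    have h1 := (hs'.diff_le hN hp hT.le (by linarith) le_rfl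
      (m := T * ((V T / 2) ^ p / N)) (M := M)
      (fun t ht => mul_le_mul ht.1 (radAvg_ge hN hc (hT.le.trans ht.1) fun ρ hρ =>
        Real.rpow_le_rpow (by positivity) (hV.trans
          (hs'.antiV hN hq hρ.1 (hρ.2.trans ht.2) le_rfl)) hp) (by positivity)
        (hT.le.trans ht.1)) fun t ht => (le_abs_self _).trans (hM t ht)).1
    have h2 := hs'.posU ⟨by linarith, le_rfl⟩
    rw [eU, add_sub_cancel_left] at h1
    have h3 : U T < T * ((V T / 2) ^ p / N) * h' := by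
      rw [mul_div_assoc', div_mul_eq_mul_div, lt_div_iff₀ (by linarith)]; linarith
    linarith
  refine ⟨T + h', V T / 2, by positivity, fun T' U' V' hs => ⟨(hno T' U' V' hs).le, ?_⟩⟩
  rcases le_total T' T with hle | hle
  · obtain ⟨-, eV⟩ := hs.unique (h.mono hs.1 hle) hN hp hq ⟨hs.1, le_rfl⟩
    rw [eV]
    linarith [h.antiV hN hq hs.1 hle le_rfl]
  · exact (key T' U' V' hs hle (hno T' U' V' hs).le).2

/-- When the maximal time is finite, one component tends to zero. -/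
lemma times_inf_zero (hN : 1 ≤ N) (hp : 0 ≤ p) (hq : 0 ≤ q) (h1 : 0 < d.1) (h2 : 0 < d.2)
    {B : ℝ} (hB : ∀ T ∈ Times N p q d, T ≤ B) {c : ℝ} (hc : 0 < c) :
    ∃ T U V, PSol N p q d T U V ∧ (U T < c ∨ V T < c) := by
  by_contra hcon
  push Not at hcon
  have hne : (Times N p q d).Nonempty := ⟨0, zero_mem_times h1 h2⟩
  have hbdd : BddAbove (Times N p q d) := ⟨B, hB⟩
  set R := sSup (Times N p q d)
  have hR0 : 0 ≤ R := le_csSup hbdd (zero_mem_times h1 h2)
  set M := max d.1 d.2 + c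
  have hδ : (0:ℝ) < c / 2 := half_pos hc
  have hδM : c / 2 ≤ M := by linarith [le_max_left d.1 d.2]
  obtain ⟨lam, -, hdist⟩ := csol_dist hN hp hq hδ hδM
  obtain ⟨U₀, V₀, h₀⟩ := exists_csol hN hp hq hδ hδM d
  have hgood : ∀ r, 0 ≤ r → r < R → (c ≤ U₀ r ∧ U₀ r ≤ M) ∧ (c ≤ V₀ r ∧ V₀ r ≤ M) := by
    intro r hr0 hrR
    obtain ⟨T, ⟨U, V, hs⟩, hrT⟩ := exists_lt_of_lt_csSup hne hrR
    have hb : ∀ s ∈ Icc 0 T, (c / 2 ≤ U s ∧ U s ≤ M) ∧ (c / 2 ≤ V s ∧ V s ≤ M) := fun s hs' => by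
      obtain ⟨a, b⟩ := hcon s U V (hs.mono hs'.1 hs'.2)
      exact ⟨⟨by linarith, by linarith [hs.leU hN hp hs', le_max_left d.1 d.2]⟩,
        by linarith, by linarith [hs.leV hN hq hs', le_max_right d.1 d.2]⟩
    have := hdist d d T U₀ V₀ U V hs.1 (h₀ T) (hs.toCSol hb) r ⟨hr0, hrT.le⟩
    simp only [dist_self, mul_zero, zero_mul, abs_nonpos_iff, sub_eq_zero] at this
    obtain ⟨a, b⟩ := hcon r U V (hs.mono hr0 hrT.le)
    rw [this.1, this.2]
    exact ⟨⟨a, (hb r ⟨hr0, hrT.le⟩).1.2⟩, b, (hb r ⟨hr0, hrT.le⟩).2.2⟩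
  have hall : ∀ r ∈ Icc 0 R, (c ≤ U₀ r ∧ U₀ r ≤ M) ∧ (c ≤ V₀ r ∧ V₀ r ≤ M) := by
    intro r hr
    rcases eq_or_lt_of_le hR0 with hR | hR
    · have : r = 0 := le_antisymm (hr.2.trans hR.symm.le) hr.1
      subst this
      obtain ⟨a, b⟩ := (h₀ 0).2.2 0 ⟨le_rfl, le_rfl⟩
      simp only [dbl_zero, sub_zero] at a b
      obtain ⟨U, V, hs⟩ := zero_mem_times (N := N) (p := p) (q := q) h1 h2
      obtain ⟨x, y⟩ := hcon 0 U V hs
      rw [hs.init.1] at x
      rw [hs.init.2] at y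
      rw [a, b]
      exact ⟨⟨x, by linarith [le_max_left d.1 d.2]⟩, y, by linarith [le_max_right d.1 d.2]⟩
    · have hcl : Icc 0 R ⊆ closure (Ico 0 R) := by rw [closure_Ico hR.ne]
      have hset : IsClosed {r | (c ≤ U₀ r ∧ U₀ r ≤ M) ∧ (c ≤ V₀ r ∧ V₀ r ≤ M)} :=
        ((isClosed_le continuous_const (h₀ 0).1).inter
          (isClosed_le (h₀ 0).1 continuous_const)).inter
          ((isClosed_le continuous_const (h₀ 0).2.1).inter
          (isClosed_le (h₀ 0).2.1 continuous_const))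
      exact hset.closure_subset_iff.2 (fun s hs => hgood s hs.1 hs.2) (hcl hr)
  have hRmem : PSol N p q d R U₀ V₀ := by
    refine ⟨hR0, (h₀ 0).1, (h₀ 0).2.1, fun r hr => ⟨hc.trans_le (hall r hr).1.1,
      hc.trans_le (hall r hr).2.1, ?_⟩⟩
    obtain ⟨a, b⟩ := (h₀ R).2.2 r hr
    have hρ : ∀ ρ ∈ Icc 0 r, ρ ∈ Icc 0 R := fun ρ hρ => ⟨hρ.1, hρ.2.trans hr.2⟩
    rw [dbl_congr hr.1 fun ρ h' => cpow_eq (by linarith [(hall ρ (hρ ρ h')).2.1])
      (hall ρ (hρ ρ h')).2.2] at a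
    rw [dbl_congr hr.1 fun ρ h' => cpow_eq (by linarith [(hall ρ (hρ ρ h')).1.1])
      (hall ρ (hρ ρ h')).1.2] at b
    exact ⟨a, b⟩
  obtain ⟨T', hT', U', V', h'⟩ := (hRmem.persist hN hp hq one_pos).2
  exact absurd (le_csSup hbdd ⟨U', V', h'⟩) (not_le.2 hT')

lemma pos_time (hN : 1 ≤ N) (hp : 0 ≤ p) (hq : 0 ≤ q) (h1 : 0 < d.1) (h2 : 0 < d.2) :
    ∃ T > 0, T ∈ Times N p q d := by
  obtain ⟨U, V, h⟩ := zero_mem_times (N := N) (p := p) (q := q) h1 h2
  obtain ⟨T, hT, U', V', h'⟩ := (h.persist hN hp hq one_pos).2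
  exact ⟨T, hT, U', V', h'⟩

/-- With a finite maximal time exactly one component vanishes. -/
lemma hit_or_hit (hN : 2 < N) (hp : 0 < p) (hq : 0 < q)
    (hcrit : N / (p + 1) + N / (q + 1) = N - 2) (h1 : 0 < d.1) (h2 : 0 < d.2) {B : ℝ}
    (hB : ∀ T ∈ Times N p q d, T ≤ B) : Hit N p q d ∨ Hit N q p d.swap := by
  have hN1 : 1 ≤ N := by linarith
  obtain ⟨T₀, hT₀, U₀, V₀, h₀⟩ := pos_time (N := N) hN1 hp.le hq.le h1 h2
  have hB0 : T₀ ≤ B := hB T₀ ⟨U₀, V₀, h₀⟩
  set W := Classical.epsilon fun F : ℝ → (ℝ → ℝ) × (ℝ → ℝ) =>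
    ∀ T ∈ Times N p q d, PSol N p q d T (F T).1 (F T).2
  have hW : ∀ T ∈ Times N p q d, PSol N p q d T (W T).1 (W T).2 := by
    refine Classical.epsilon_spec (p := fun F : ℝ → (ℝ → ℝ) × (ℝ → ℝ) =>
      ∀ T ∈ Times N p q d, PSol N p q d T (F T).1 (F T).2) ?_
    have : ∀ T, ∃ X : (ℝ → ℝ) × (ℝ → ℝ), T ∈ Times N p q d → PSol N p q d T X.1 X.2 := fun T => by
      by_cases hT : T ∈ Times N p q d
      · obtain ⟨U, V, h⟩ := hT; exact ⟨(U, V), fun _ => h⟩
      · exact ⟨(0, 0), fun h => absurd h hT⟩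
    choose F hF using this
    exact ⟨F, hF⟩
  set fu := fun T => (W T).1 T
  set fv := fun T => (W T).2 T
  have anti : ∀ {T T'}, T ∈ Times N p q d → T' ∈ Times N p q d → T ≤ T' →
      fu T' ≤ fu T ∧ fv T' ≤ fv T := by
    intro T T' hT hT' hle
    obtain ⟨eU, eV⟩ := (hW T hT).unique ((hW T' hT').mono (hW T hT).1 hle) hN1 hp.le hq.le
      ⟨(hW T hT).1, le_rfl⟩
    simp only [fu, fv]
    rw [eU, eV]
    exact ⟨(hW T' hT').antiU hN1 hp.le (hW T hT).1 hle le_rfl,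
      (hW T' hT').antiV hN1 hq.le (hW T hT).1 hle le_rfl⟩
  have inf : ∀ c > 0, ∃ T ∈ Times N p q d, fu T < c ∨ fv T < c := by
    intro c hc
    obtain ⟨T, U, V, h, hlt⟩ := times_inf_zero hN1 hp.le hq.le h1 h2 hB hc
    refine ⟨T, ⟨U, V, h⟩, ?_⟩
    obtain ⟨eU, eV⟩ := (hW T ⟨U, V, h⟩).unique h hN1 hp.le hq.le ⟨h.1, le_rfl⟩
    simpa only [fu, fv, eU, eV] using hlt
  have hmax : ∀ {T}, T ∈ Times N p q d → max T T₀ ∈ Times N p q d := fun {T} hT => by
    rcases max_choice T T₀ with e | e <;> rw [e]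
    exacts [hT, ⟨U₀, V₀, h₀⟩]
  by_cases hu : ∀ c > 0, ∃ T ∈ Times N p q d, fu T < c
  · by_cases hv : ∀ c > 0, ∃ T ∈ Times N p q d, fv T < c
    · exfalso
      have hc₀ : ∀ {X Y : ℝ → ℝ} {a b : ℝ} {e : ℝ × ℝ} {T : ℝ}, 0 ≤ b → T₀ ≤ T → 0 ≤ T₀ →
          PSol N a b e T X Y → 0 ≤ a →
          T₀ ^ (N - 1) * (T₀ * (Y T₀ ^ a / N)) ≤ T ^ (N - 1) * -slope' N a Y T := by
        intro X Y a b e T hb hT h0 hs ha
        have hc : Continuous fun ρ : ℝ => ρ ^ (N - 1) * Y ρ ^ a :=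
          (Real.continuous_rpow_const (by linarith)).mul (hs.2.2.1.rpow_const fun _ => Or.inr ha)
        have e' : ∀ s, 0 < s → s ^ (N - 1) * -slope' N a Y s
            = ∫ ρ in (0:ℝ)..s, ρ ^ (N - 1) * Y ρ ^ a := fun s hs' => by
          simp only [slope', neg_neg]
          rw [mul_radAvg_eq hs', ← mul_assoc, ← Real.rpow_add hs']; simp
        refine (mul_le_mul_of_nonneg_left (mul_le_mul_of_nonneg_left
          (radAvg_ge hN1 (hs.2.2.1.rpow_const fun _ => Or.inr ha) h0 fun ρ hρ =>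
            Real.rpow_le_rpow (hs.posV ⟨h0, hT⟩).le
              (hs.antiV hN1 hb hρ.1 hρ.2 hT) ha) h0) (Real.rpow_nonneg h0 _)).trans ?_
        rw [show T₀ * radAvg N (fun ρ => Y ρ ^ a) T₀ = -slope' N a Y T₀ by simp [slope'],
          e' T₀ hT₀, e' T (hT₀.trans_le hT),
          ← intervalIntegral.integral_add_adjacent_intervals (hc.intervalIntegrable 0 T₀)
            (hc.intervalIntegrable T₀ T)]
        exact le_add_of_nonneg_right (intervalIntegral.integral_nonneg hT fun ρ hρ =>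
          mul_nonneg (Real.rpow_nonneg (h0.trans hρ.1) _)
            (Real.rpow_nonneg (hs.posV ⟨h0.trans hρ.1, hρ.2⟩).le _))
      set cu := T₀ ^ (N - 1) * (T₀ * (V₀ T₀ ^ p / N)) / B ^ (N - 1)
      set cv := T₀ ^ (N - 1) * (T₀ * (U₀ T₀ ^ q / N)) / B ^ (N - 1)
      have hBpos : 0 < B := hT₀.trans_le hB0
      have hcu : 0 < cu := by
        have := h₀.posV ⟨hT₀.le, le_rfl⟩; positivity
      have hcv : 0 < cv := by
        have := h₀.posU ⟨hT₀.le, le_rfl⟩; positivity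
      set C := N / (p + 1) * (B * (d.2 ^ p / N)) + N / (q + 1) * (B * (d.1 ^ q / N))
      have hC : 0 ≤ C := by positivity
      set η := T₀ * (cu * cv) / (C + 1)
      have hη : 0 < η := by positivity
      obtain ⟨Ta, hTa, hua⟩ := hu η hη
      obtain ⟨Tb, hTb, hvb⟩ := hv η hη
      have hTab : max Ta Tb ∈ Times N p q d := by
        rcases max_choice Ta Tb with e | e <;> rw [e] <;> assumption
      set T := max (max Ta Tb) T₀
      have hTm : T ∈ Times N p q d := hmax hTab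
      set U := (W T).1
      set V := (W T).2
      have hs : PSol N p q d T U V := hW T hTm
      have hTpos : 0 < T := hT₀.trans_le (le_max_right _ _)
      have hUs : U T < η :=
        (anti hTa hTm ((le_max_left _ _).trans (le_max_left _ _))).1.trans_lt hua
      have hVs : V T < η :=
        (anti hTb hTm ((le_max_right _ _).trans (le_max_left _ _))).2.trans_lt hvb
      obtain ⟨eU, eV⟩ := h₀.unique (hs.mono hT₀.le (le_max_right _ _)) hN1 hp.le hq.le
        ⟨hT₀.le, le_rfl⟩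
      have hTB : T ≤ B := hB T hTm
      have hpowle : T ^ (N - 1) ≤ B ^ (N - 1) := Real.rpow_le_rpow hTpos.le hTB (by linarith)
      have hpow0 : 0 < T ^ (N - 1) := by positivity
      have hneg : ∀ {a : ℝ} {Y : ℝ → ℝ}, Continuous Y → 0 ≤ a →
          (∀ ρ ∈ Icc 0 T, 0 < Y ρ) → 0 ≤ -slope' N a Y T := fun {a Y} hY ha hpos => by
        simp only [slope', neg_neg]
        exact mul_nonneg hTpos.le (avg_nonneg hN1 hY ha hTpos.le hpos)
      have lu : cu ≤ -slope' N p V T := by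
        have := hc₀ hq.le (le_max_right _ _) hT₀.le hs hp.le
        rw [← eV] at this
        rw [div_le_iff₀ (by positivity)]
        exact this.trans ((mul_comm _ _).trans_le (mul_le_mul_of_nonneg_left hpowle
          (hneg hs.2.2.1 hp.le fun ρ hρ => hs.posV hρ)))
      have lv : cv ≤ -slope' N q U T := by
        have := hc₀ hp.le (le_max_right _ _) hT₀.le hs.swap hq.le
        rw [← eU] at this
        rw [div_le_iff₀ (by positivity)]
        exact this.trans ((mul_comm _ _).trans_le (mul_le_mul_of_nonneg_left hpowle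
          (hneg hs.2.1 hq.le fun ρ hρ => hs.posU hρ)))
      have ub : ∀ {X Y : ℝ → ℝ} {a b : ℝ} {e : ℝ × ℝ}, PSol N a b e T X Y → 0 ≤ a → 0 ≤ b →
          -slope' N a Y T ≤ B * (e.2 ^ a / N) := by
        intro X Y a b e hs' ha hb
        simp only [slope', neg_neg]
        exact mul_le_mul hTB (radAvg_le hN1 (hs'.2.2.1.rpow_const fun _ => Or.inr ha) hTpos.le
          fun ρ hρ => Real.rpow_le_rpow (hs'.posV hρ).le (hs'.leV hN1 hb hρ) ha)
          (avg_nonneg hN1 hs'.2.2.1 ha hTpos.le fun ρ hρ => hs'.posV hρ) hBpos.le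
      have uu : -slope' N p V T ≤ B * (d.2 ^ p / N) := ub hs hp.le hq.le
      have uv : -slope' N q U T ≤ B * (d.1 ^ q / N) := ub hs.swap hq.le hp.le
      have hpoh := pohozaev hs hN hp hq hcrit (r := T) ⟨hTpos.le, le_rfl⟩
      set a := -slope' N p V T with ha
      set b := -slope' N q U T with hb
      rw [show slope' N p V T = -a by simp [ha], show slope' N q U T = -b by simp [hb],
        show T ^ N = T ^ (N - 1) * T by
          rw [Real.rpow_sub_one hTpos.ne', div_mul_cancel₀ _ hTpos.ne']] at hpoh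
      have e2 : T * (a * b + V T ^ (p + 1) / (p + 1) + U T ^ (q + 1) / (q + 1))
          = N / (p + 1) * (a * V T) + N / (q + 1) * (U T * b) := by
        have h0 : T ^ (N - 1) * (T * (a * b + V T ^ (p + 1) / (p + 1) + U T ^ (q + 1) / (q + 1))
          - (N / (p + 1) * (a * V T) + N / (q + 1) * (U T * b))) = 0 := by
          linear_combination hpoh
        have := (mul_eq_zero.1 h0).resolve_left hpow0.ne'
        linarith
      have hU0 := hs.posU ⟨hTpos.le, le_rfl⟩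
      have hV0 := hs.posV ⟨hTpos.le, le_rfl⟩
      have g1 : T₀ * (cu * cv) ≤ T * (a * b + V T ^ (p + 1) / (p + 1)
          + U T ^ (q + 1) / (q + 1)) := by
        refine mul_le_mul (le_max_right _ _) ?_ (by positivity) hTpos.le
        have := mul_le_mul lu lv hcv.le (hcu.le.trans lu)
        have : 0 ≤ V T ^ (p + 1) / (p + 1) + U T ^ (q + 1) / (q + 1) := by positivity
        linarith
      have g2 : N / (p + 1) * (a * V T) + N / (q + 1) * (U T * b) ≤ C * η := by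
        have a1 := mul_le_mul_of_nonneg_left (mul_le_mul uu hVs.le hV0.le (by positivity))
          (show 0 ≤ N / (p + 1) by positivity)
        have a2 := mul_le_mul_of_nonneg_left (mul_le_mul hUs.le uv (hcv.le.trans lv) hη.le)
          (show 0 ≤ N / (q + 1) by positivity)
        simp only [C]; nlinarith
      have g3 : C * η < T₀ * (cu * cv) := by
        simp only [η]; rw [mul_div_assoc', div_lt_iff₀ (by linarith)]; nlinarith [mul_pos hcu hcv]
      linarith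
    · push Not at hv
      obtain ⟨c, hc, hcv⟩ := hv
      refine Or.inl ?_
      set m := min 1 (N * c / (2 * ((B + 1) * d.1 ^ q) + 1)) * (T₀ * (c / 2) ^ p) / N
      have hB' : 0 < B := hT₀.trans_le hB0
      have hm : 0 < m := by positivity
      obtain ⟨Ta, hTa, hua⟩ := hu m hm
      have hTm := hmax hTa
      have hTpos : 0 < max Ta T₀ := hT₀.trans_le (le_max_right _ _)
      refine ⟨max Ta T₀, _, _, hTpos, hW _ hTm, ?_⟩
      have h3 : fu (max Ta T₀) * N < m * N :=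
        mul_lt_mul_of_pos_right ((anti hTa hTm (le_max_left _ _)).1.trans_lt hua) (by linarith)
      refine h3.trans_le ?_
      simp only [m, stay]
      rw [div_mul_cancel₀ _ (by linarith)]
      have hv' := hcv _ hTm
      refine mul_le_mul (min_le_min le_rfl ?_) (mul_le_mul (le_max_right _ _)
        (Real.rpow_le_rpow (by positivity) (div_le_div_of_nonneg_right hv' two_pos.le) hp.le)
        (by positivity) hTpos.le) (by positivity) ?_
      · exact div_le_div₀ (mul_nonneg (by linarith) (hc.le.trans hv'))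
          (mul_le_mul_of_nonneg_left hv' (by linarith)) (by positivity)
          (by nlinarith [hB _ hTm, Real.rpow_nonneg h1.le q])
      · exact le_min zero_le_one (div_nonneg (mul_nonneg (by linarith) (hc.le.trans hv'))
          (by positivity))
  · push Not at hu
    obtain ⟨c, hc, hcu⟩ := hu
    refine Or.inr ?_
    set m := min 1 (N * c / (2 * ((B + 1) * d.2 ^ p) + 1)) * (T₀ * (c / 2) ^ q) / N
    have hB' : 0 < B := hT₀.trans_le hB0
    have hm : 0 < m := by positivity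
    obtain ⟨Ta, hTa, hva⟩ := inf (min m c) (lt_min hm hc)
    have hva' : fv Ta < m := by
      rcases hva with h | h
      · exact absurd (hcu Ta hTa) (not_le.2 (h.trans_le (min_le_right _ _)))
      · exact h.trans_le (min_le_left _ _)
    have hTm := hmax hTa
    have hTpos : 0 < max Ta T₀ := hT₀.trans_le (le_max_right _ _)
    refine ⟨max Ta T₀, _, _, hTpos, (hW _ hTm).swap, ?_⟩
    have h3 : fv (max Ta T₀) * N < m * N :=
      mul_lt_mul_of_pos_right ((anti hTa hTm (le_max_left _ _)).2.trans_lt hva') (by linarith)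
    refine h3.trans_le ?_
    simp only [m, stay, Prod.fst_swap]
    rw [div_mul_cancel₀ _ (by linarith)]
    have hu' := hcu _ hTm
    refine mul_le_mul (min_le_min le_rfl ?_) (mul_le_mul (le_max_right _ _)
      (Real.rpow_le_rpow (by positivity) (div_le_div_of_nonneg_right hu' two_pos.le) hq.le)
      (by positivity) hTpos.le) (by positivity) ?_
    · exact div_le_div₀ (mul_nonneg (by linarith) (hc.le.trans hu'))
        (mul_le_mul_of_nonneg_left hu' (by linarith)) (by positivity)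
        (by nlinarith [hB _ hTm, Real.rpow_nonneg h2.le p])
    · exact le_min zero_le_one (div_nonneg (mul_nonneg (by linarith) (hc.le.trans hu'))
        (by positivity))

lemma not_hit_both (hN : 1 ≤ N) (hp : 0 ≤ p) (hq : 0 ≤ q) (h1 : 0 < d.1) (h2 : 0 < d.2)
    (hU : Hit N p q d) (hV : Hit N q p d.swap) : False := by
  obtain ⟨B, c, hc, h⟩ := hU.consequence hN hp hq
  obtain ⟨B', c', hc', h'⟩ := hV.consequence hN hq hp
  obtain ⟨T, U, V, hs, hlt⟩ := times_inf_zero hN hp hq h1 h2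
    (fun T hT => by obtain ⟨U, V, hs⟩ := hT; exact (h T U V hs).1) (lt_min hc hc')
  rcases hlt with hlt | hlt
  · exact absurd ((h' T V U hs.swap).2) (not_le.2 (hlt.trans_le (min_le_right _ _)))
  · exact absurd ((h T U V hs).2) (not_le.2 (hlt.trans_le (min_le_left _ _)))

lemma hit_open (hN : 1 ≤ N) (hp : 0 ≤ p) (hq : 0 ≤ q) (hH : Hit N p q d) :
    ∀ᶠ d' in 𝓝 d, Hit N p q d' := by
  obtain ⟨T, U, V, hT, h, hlt⟩ := hH
  have hu := (h.posU ⟨hT.le, le_rfl⟩).trans_le (h.leU hN hp ⟨hT.le, le_rfl⟩)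
  set Φ : (ℝ × ℝ) × (ℝ × ℝ) → ℝ := fun z =>
    stay N q z.1 T z.2.2 * (T * (z.2.2 / 2) ^ p) - z.2.1 * N
  have hΦ : ContinuousAt Φ (d, U T, V T) := by
    refine ContinuousAt.sub (ContinuousAt.mul (continuousAt_const.min (ContinuousAt.div
      (by fun_prop) ?_ (by positivity))) (continuousAt_const.mul (ContinuousAt.rpow_const
        (by fun_prop) (Or.inr hp)))) (by fun_prop)
    exact (continuousAt_const.mul (continuousAt_const.mul (ContinuousAt.rpow_const
      (by fun_prop) (Or.inr hq)))).add continuousAt_const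
  obtain ⟨ε, hε, hball⟩ := Metric.eventually_nhds_iff.1
    (hΦ.eventually (eventually_gt_nhds (show 0 < Φ (d, U T, V T) by simp only [Φ]; linarith)))
  filter_upwards [(h.persist hN hp hq hε).1, Metric.ball_mem_nhds d hε] with d' hd' hdd
  obtain ⟨U', V', h', a, b⟩ := hd'
  refine ⟨T, U', V', hT, h', ?_⟩
  have := hball (y := (d', U' T, V' T)) (by
    simp only [Prod.dist_eq, Real.dist_eq]
    exact max_lt hdd (max_lt a b))
  simp only [Φ] at this
  linarith

lemma hit_of_small (hN : 2 < N) (hp : 0 < p) (hq : 0 < q)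
    (hcrit : N / (p + 1) + N / (q + 1) = N - 2) (h1 : 0 < d.1) (h2 : 0 < d.2)
    (hs : 2 * d.2 ^ (p + 1) ≤ (d.1 / 2) ^ q * (d.1 / 2)) : Hit N q p d.swap := by
  have hN1 : 1 ≤ N := by linarith
  set r := Real.sqrt (4 * N * d.2 / (d.1 / 2) ^ q)
  have hkey : ∀ T U V, PSol N p q d T U V → d.1 / 2 ≤ U (min T r) ∧ T ≤ r := by
    intro T U V h
    have hmem : ∀ s, 0 ≤ s → s ≤ r → s ≤ T → d.1 / 2 ≤ U s := by
      intro s hs0 hsr hsT
      have hb := dbl_le hN1 (h.2.2.1.rpow_const (p := p) fun _ => Or.inr hp.le) hs0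
        (m := d.2 ^ p) fun ρ hρ => Real.rpow_le_rpow (h.posV ⟨hρ.1, hρ.2.trans hsT⟩).le
          (h.leV hN1 hq.le ⟨hρ.1, hρ.2.trans hsT⟩) hp.le
      have hs2 : s ^ 2 ≤ 4 * N * d.2 / (d.1 / 2) ^ q :=
        (pow_le_pow_left₀ hs0 hsr 2).trans_eq (Real.sq_sqrt (by positivity))
      have hb2 : d.2 ^ p / N * (s ^ 2 / 2) ≤ d.1 / 2 := by
        refine (mul_le_mul_of_nonneg_left (div_le_div_of_nonneg_right hs2 two_pos.le)
          (by positivity)).trans ?_
        rw [Real.rpow_add_one h2.ne'] at hs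
        field_simp
        field_simp at hs
        nlinarith
      rw [(h.2.2.2 s ⟨hs0, hsT⟩).2.2.1]
      linarith
    refine ⟨hmem _ (le_min h.1 (Real.sqrt_nonneg _)) (min_le_right _ _) (min_le_left _ _), ?_⟩
    by_contra hlt
    push Not at hlt
    have hr0 : 0 ≤ r := Real.sqrt_nonneg _
    have hUr := hmem r hr0 le_rfl hlt.le
    have hb := dbl_ge hN1 (h.2.1.rpow_const (p := q) fun _ => Or.inr hq.le) hr0
      (m := (d.1 / 2) ^ q) fun ρ hρ => Real.rpow_le_rpow (by positivity)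
        (hUr.trans (h.antiU hN1 hp.le hρ.1 hρ.2 hlt.le)) hq.le
    have hv := h.posV (r := r) ⟨hr0, hlt.le⟩
    rw [(h.2.2.2 r ⟨hr0, hlt.le⟩).2.2.2] at hv
    have e : r ^ 2 = 4 * N * d.2 / (d.1 / 2) ^ q := Real.sq_sqrt (by positivity)
    rw [e] at hb
    have : (d.1 / 2) ^ q / N * (4 * N * d.2 / (d.1 / 2) ^ q / 2) = 2 * d.2 := by
      field_simp; ring
    linarith
  rcases hit_or_hit hN hp hq hcrit h1 h2 (B := r)
    (fun T ⟨U, V, h⟩ => (hkey T U V h).2) with hH | hH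
  · exfalso
    obtain ⟨B, c, hc, hH'⟩ := hH.consequence hN1 hp.le hq.le
    obtain ⟨T, U, V, h, hlt⟩ := times_inf_zero hN1 hp.le hq.le h1 h2
      (B := r) (fun T ⟨U, V, h⟩ => (hkey T U V h).2) (lt_min hc (half_pos h1))
    obtain ⟨k1, k2⟩ := hkey T U V h
    rw [min_eq_left k2] at k1
    rcases hlt with hlt | hlt
    · linarith [min_le_right c (d.1 / 2)]
    · linarith [(hH' T U V h).2, min_le_left c (d.1 / 2)]
  · exact hH

/-- The ground state in real dimension `N` on the critical hyperbola. -/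
theorem exists_ground_state (hN : 2 < N) (hp : 0 < p) (hq : 0 < q)
    (hcrit : N / (p + 1) + N / (q + 1) = N - 2) :
    ∃ a > 0, ∃ U V : ℝ → ℝ, ∀ T, 0 ≤ T → PSol N p q (1, a) T U V := by
  have hN1 : 1 ≤ N := by linarith
  set A : Set ℝ := {a | 0 < a ∧ Hit N p q (1, a)}
  set B : Set ℝ := {a | 0 < a ∧ Hit N q p (a, 1)}
  have hAo : IsOpen A := isOpen_iff_eventually.2 fun a ha =>
    (eventually_gt_nhds ha.1).and
      ((by fun_prop : Continuous fun x : ℝ => ((1:ℝ), x)).continuousAt.eventually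
        (hit_open hN1 hp.le hq.le ha.2))
  have hBo : IsOpen B := isOpen_iff_eventually.2 fun a ha =>
    (eventually_gt_nhds ha.1).and
      ((by fun_prop : Continuous fun x : ℝ => (x, (1:ℝ))).continuousAt.eventually
        (hit_open hN1 hq.le hp.le ha.2))
  have hBne : (Ioi (0:ℝ) ∩ B).Nonempty := by
    set a := ((1 / 2 : ℝ) ^ q * (1 / 2) / 2) ^ (1 / (p + 1))
    have ha : 0 < a := by positivity
    refine ⟨a, ha, ha, hit_of_small (d := (1, a)) hN hp hq hcrit one_pos ha ?_⟩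
    simp only [a, ← Real.rpow_mul (by positivity : (0:ℝ) ≤ (1 / 2 : ℝ) ^ q * (1 / 2) / 2),
      one_div_mul_cancel (by linarith : p + 1 ≠ 0), Real.rpow_one]
    linarith
  have hAne : (Ioi (0:ℝ) ∩ A).Nonempty := by
    set a := max (1:ℝ) (2 * (2 * 2 ^ (1 / p)))
    have ha : 0 < a := lt_max_of_lt_left one_pos
    refine ⟨a, ha, ha, hit_of_small (d := (a, 1)) hN hq hp (by linarith) ha one_pos ?_⟩
    simp only [Real.one_rpow, mul_one]
    have h2 : 2 * 2 ^ (1 / p) ≤ a / 2 := by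
      linarith [le_max_right (1:ℝ) (2 * (2 * 2 ^ (1 / p)))]
    have h3 : (1:ℝ) ≤ 2 ^ (1 / p) := Real.one_le_rpow one_le_two (by positivity)
    have h4 : (2:ℝ) ≤ (a / 2) ^ p := by
      calc (2:ℝ) = ((2:ℝ) ^ (1 / p)) ^ p := by
            rw [← Real.rpow_mul zero_le_two, one_div_mul_cancel hp.ne', Real.rpow_one]
        _ ≤ _ := Real.rpow_le_rpow (by positivity) (by linarith) hp.le
    nlinarith
  by_contra hcon
  push Not at hcon
  have hcov : Ioi (0:ℝ) ⊆ A ∪ B := by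
    intro a (ha : 0 < a)
    by_cases hb : ∃ C, ∀ T ∈ Times N p q ((1:ℝ), a), T ≤ C
    · obtain ⟨C, hC⟩ := hb
      rcases hit_or_hit (d := (1, a)) hN hp hq hcrit one_pos ha hC with h | h
      · exact Or.inl ⟨ha, h⟩
      · exact Or.inr ⟨ha, h⟩
    · exfalso
      push Not at hb
      choose Tk hTk hlt using fun k : ℕ => hb k
      choose Uk Vk hk using hTk
      set idx := fun r : ℝ => ⌈max r 0⌉₊
      have hidx : ∀ {r : ℝ} {k : ℕ}, 0 ≤ r → r ≤ Tk k →
          Uk (idx r) r = Uk k r ∧ Vk (idx r) r = Vk k r := by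
        intro r k h0 hrk
        have h1 : r ≤ Tk (idx r) :=
          (le_max_left r 0).trans ((Nat.le_ceil _).trans (hlt _).le)
        exact ((hk (idx r)).mono h0 h1).unique ((hk k).mono h0 hrk) hN1 hp.le hq.le ⟨h0, le_rfl⟩
      set U := fun r => Uk (idx (max r 0)) (max r 0)
      set V := fun r => Vk (idx (max r 0)) (max r 0)
      have hloc : ∀ x : ℝ, ∃ k, U =ᶠ[𝓝 x] (fun r => Uk k (max r 0)) ∧
          V =ᶠ[𝓝 x] (fun r => Vk k (max r 0)) := by
        intro x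
        refine ⟨⌈|x| + 1⌉₊, ?_, ?_⟩ <;>
          filter_upwards [eventually_lt_nhds (lt_add_one x)] with r hr
        all_goals
          have hle : max r 0 ≤ Tk ⌈|x| + 1⌉₊ := (max_le (by linarith [le_abs_self x])
            (by positivity)).trans ((Nat.le_ceil (|x| + 1)).trans (hlt _).le)
        exacts [(hidx (le_max_right r 0) hle).1, (hidx (le_max_right r 0) hle).2]
      have hUc : Continuous U := continuous_iff_continuousAt.2 fun x => by
        obtain ⟨k, e, -⟩ := hloc x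
        exact (((hk k).2.1.comp (continuous_id.max continuous_const)).continuousAt).congr e.symm
      have hVc : Continuous V := continuous_iff_continuousAt.2 fun x => by
        obtain ⟨k, -, e⟩ := hloc x
        exact (((hk k).2.2.1.comp (continuous_id.max continuous_const)).continuousAt).congr e.symm
      obtain ⟨T, hT0, hno⟩ := hcon a ha U V
      refine hno ⟨hT0, hUc, hVc, fun r hr => ?_⟩
      obtain ⟨k, hk'⟩ := exists_nat_ge T
      have hTk : T ≤ Tk k := hk'.trans (hlt k).le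
      have e : ∀ s ∈ Icc 0 r, U s = Uk k s ∧ V s = Vk k s := fun s hs => by
        simp only [U, V, max_eq_left hs.1]
        exact hidx hs.1 (hs.2.trans (hr.2.trans hTk))
      obtain ⟨a1, a2, a3, a4⟩ := (hk k).2.2.2 r ⟨hr.1, hr.2.trans hTk⟩
      rw [dbl_congr (g := fun ρ => V ρ ^ p) (g' := fun ρ => Vk k ρ ^ p) hr.1
          fun s hs => by simp only [(e s hs).2],
        dbl_congr (g := fun ρ => U ρ ^ q) (g' := fun ρ => Uk k ρ ^ q) hr.1
          fun s hs => by simp only [(e s hs).1],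
        (e r ⟨hr.1, le_rfl⟩).1, (e r ⟨hr.1, le_rfl⟩).2]
      exact ⟨a1, a2, a3, a4⟩
  obtain ⟨a, ha, haA, haB⟩ := isPreconnected_Ioi A B hAo hBo hcov hAne hBne
  exact not_hit_both (d := (1, a)) hN1 hp.le hq.le one_pos ha haA.2 haB.2


/-- The ground state in differential form, with the facts used by the calibration. -/
structure IsGround (N p q : ℝ) (U V U' V' : ℝ → ℝ) : Prop where
  contU : Continuous U
  contV : Continuous V
  init : U 0 = 1
  posU : ∀ r, 0 ≤ r → 0 < U r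
  posV : ∀ r, 0 ≤ r → 0 < V r
  derivU : ∀ r, 0 < r → HasDerivAt U (U' r) r
  derivV : ∀ r, 0 < r → HasDerivAt V (V' r) r
  derivU' : ∀ r, 0 < r → HasDerivAt U' (-((N - 1) / r) * U' r - V r ^ p) r
  derivV' : ∀ r, 0 < r → HasDerivAt V' (-((N - 1) / r) * V' r - U r ^ q) r
  negU : ∀ r, 0 < r → U' r < 0
  negV : ∀ r, 0 < r → V' r < 0
  slopeU : ∀ r, 0 ≤ r → r * V r ^ p / N ≤ -U' r ∧ -U' r ≤ r * V 0 ^ p / N
  slopeV : ∀ r, 0 ≤ r → r * U r ^ q / N ≤ -V' r ∧ -V' r ≤ r * U 0 ^ q / N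
  poho : ∀ r, 0 < r →
    r * (U' r * V' r + V r ^ (p + 1) / (p + 1) + U r ^ (q + 1) / (q + 1))
      + (N / (p + 1) * (U' r * V r) + N / (q + 1) * (U r * V' r)) = 0

lemma slope_bounds (h : PSol N p q d T U V) (hN : 1 ≤ N) (hp : 0 ≤ p) (hq : 0 ≤ q) :
    T * V T ^ p / N ≤ -slope' N p V T ∧ -slope' N p V T ≤ T * V 0 ^ p / N := by
  have hc := h.2.2.1.rpow_const (p := p) fun _ => Or.inr hp
  rw [mul_div_assoc, mul_div_assoc, slope', neg_neg]
  exact ⟨mul_le_mul_of_nonneg_left (radAvg_ge hN hc h.1 fun ρ hρ =>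
      Real.rpow_le_rpow (h.posV ⟨h.1, le_rfl⟩).le (h.antiV hN hq hρ.1 hρ.2 le_rfl) hp) h.1,
    mul_le_mul_of_nonneg_left (radAvg_le hN hc h.1 fun ρ hρ =>
      Real.rpow_le_rpow (h.posV hρ).le (h.antiV hN hq le_rfl hρ.1 hρ.2) hp) h.1⟩

theorem exists_isGround (hN : 2 < N) (hp : 0 < p) (hq : 0 < q)
    (hcrit : N / (p + 1) + N / (q + 1) = N - 2) :
    ∃ U V U' V', IsGround N p q U V U' V' := by
  have hN1 : 1 ≤ N := by linarith
  obtain ⟨a, -, U, V, h⟩ := exists_ground_state hN hp hq hcrit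
  have hneg : ∀ {X Y : ℝ → ℝ} {α β r : ℝ} {e : ℝ × ℝ}, PSol N α β e r X Y → 0 ≤ α → 0 ≤ β →
      0 < r → slope' N α Y r < 0 := by
    intro X Y α β r e hs hα hβ hr
    have h1 := (slope_bounds hs hN1 hα hβ).1
    have : 0 < r * Y r ^ α / N := by
      have := hs.posV ⟨hr.le, le_rfl⟩; positivity
    linarith
  refine ⟨U, V, slope' N p V, slope' N q U, ?_⟩
  exact
    { contU := (h 0 le_rfl).2.1
      contV := (h 0 le_rfl).2.2.1
      init := (h 0 le_rfl).init.1
      posU := fun r hr => (h r hr).posU ⟨hr, le_rfl⟩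
      posV := fun r hr => (h r hr).posV ⟨hr, le_rfl⟩
      derivU := fun r hr => (h (r + 1) (by linarith)).hasDerivAtU hN1 hp.le ⟨hr, by linarith⟩
      derivV := fun r hr =>
        (h (r + 1) (by linarith)).swap.hasDerivAtU hN1 hq.le ⟨hr, by linarith⟩
      derivU' := fun r hr => hasDerivAt_slope hN1 (h 0 le_rfl).2.2.1 hp.le hr
      derivV' := fun r hr => hasDerivAt_slope hN1 (h 0 le_rfl).2.1 hq.le hr
      negU := fun r hr => hneg (h r hr.le) hp.le hq.le hr
      negV := fun r hr => hneg (h r hr.le).swap hq.le hp.le hr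
      slopeU := fun r hr => slope_bounds (h r hr) hN1 hp.le hq.le
      slopeV := fun r hr => slope_bounds (h r hr).swap hN1 hq.le hp.le
      poho := fun r hr => by
        have := pohozaev (h r hr.le) hN hp hq hcrit (r := r) ⟨hr.le, le_rfl⟩
        rw [show r ^ N = r ^ (N - 1) * r by
          rw [Real.rpow_sub_one hr.ne', div_mul_cancel₀ _ hr.ne']] at this
        refine (mul_eq_zero.1 ?_).resolve_left (Real.rpow_pos_of_pos hr (N - 1)).ne'
        linear_combination this }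

end Vale.Agent.P100T
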