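import Mathlib

/-! # The radial Lane-Emden system in real dimension `N`: integral form, clamped global solutions

The equation `(r^(N-1) U')' = -r^(N-1) V^p` is used in the form `U = u₀ - dbl N (V^p)`. -/

open Set Filter Topology MeasureTheory
open scoped BoundedContinuousFunction

noncomputable section

namespace Vale.Agent.P100T

/-- `∫₀¹ θ^(N-1) g(sθ) dθ`. -/
def radAvg (N : ℝ) (g : ℝ → ℝ) (s : ℝ) : ℝ := ∫ θ in (0:ℝ)..1, θ ^ (N - 1) * g (s * θ)

/-- The double radial integral. -/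
def dbl (N : ℝ) (g : ℝ → ℝ) (r : ℝ) : ℝ := ∫ s in (0:ℝ)..r, s * radAvg N g s

variable {N : ℝ} {g g' : ℝ → ℝ}

lemma cont_kernel (hN : 1 ≤ N) (hg : Continuous g) (s : ℝ) :
    Continuous fun θ : ℝ => θ ^ (N - 1) * g (s * θ) :=
  (Real.continuous_rpow_const (by linarith)).mul (hg.comp (continuous_const.mul continuous_id))

lemma continuous_radAvg (hN : 1 ≤ N) (hg : Continuous g) : Continuous (radAvg N g) := by
  refine intervalIntegral.continuous_parametric_intervalIntegral_of_continuous' ?_ 0 1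
  exact ((Real.continuous_rpow_const (by linarith)).comp continuous_snd).mul
    (hg.comp (continuous_fst.mul continuous_snd))

lemma continuous_mul_radAvg (hN : 1 ≤ N) (hg : Continuous g) :
    Continuous fun s => s * radAvg N g s :=
  continuous_id.mul (continuous_radAvg hN hg)

lemma hasDerivAt_dbl (hN : 1 ≤ N) (hg : Continuous g) (r : ℝ) :
    HasDerivAt (dbl N g) (r * radAvg N g r) r :=
  intervalIntegral.integral_hasDerivAt_right
    ((continuous_mul_radAvg hN hg).intervalIntegrable _ _)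
    ((continuous_mul_radAvg hN hg).stronglyMeasurableAtFilter _ _)
    (continuous_mul_radAvg hN hg).continuousAt

lemma continuous_dbl (hN : 1 ≤ N) (hg : Continuous g) : Continuous (dbl N g) :=
  continuous_iff_continuousAt.2 fun r => (hasDerivAt_dbl hN hg r).continuousAt

lemma dbl_zero : dbl N g 0 = 0 := by simp [dbl]

lemma integral_rpow_unit (hN : 1 ≤ N) : (∫ θ in (0:ℝ)..1, θ ^ (N - 1)) = 1 / N := by
  rw [integral_rpow (Or.inl (by linarith)), sub_add_cancel, Real.one_rpow,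
    Real.zero_rpow (by linarith), sub_zero]

lemma radAvg_congr {s : ℝ} (hs : 0 ≤ s) (h : ∀ ρ ∈ Icc 0 s, g ρ = g' ρ) :
    radAvg N g s = radAvg N g' s := by
  refine intervalIntegral.integral_congr fun θ hθ => ?_
  rw [uIcc_of_le zero_le_one] at hθ
  simp only [h (s * θ) ⟨mul_nonneg hs hθ.1, mul_le_of_le_one_right hs hθ.2⟩]

lemma dbl_congr {r : ℝ} (hr : 0 ≤ r) (h : ∀ ρ ∈ Icc 0 r, g ρ = g' ρ) :
    dbl N g r = dbl N g' r := by
  refine intervalIntegral.integral_congr fun s hs => ?_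
  rw [uIcc_of_le hr] at hs
  simp only [radAvg_congr hs.1 fun ρ hρ => h ρ ⟨hρ.1, hρ.2.trans hs.2⟩]

lemma radAvg_mono (hN : 1 ≤ N) (hg : Continuous g) (hg' : Continuous g') {s : ℝ} (hs : 0 ≤ s)
    (h : ∀ ρ ∈ Icc 0 s, g ρ ≤ g' ρ) : radAvg N g s ≤ radAvg N g' s := by
  refine intervalIntegral.integral_mono_on zero_le_one
    ((cont_kernel hN hg s).intervalIntegrable _ _) ((cont_kernel hN hg' s).intervalIntegrable _ _)
    fun θ hθ => ?_
  exact mul_le_mul_of_nonneg_left (h _ ⟨mul_nonneg hs hθ.1, mul_le_of_le_one_right hs hθ.2⟩)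
    (Real.rpow_nonneg hθ.1 _)

lemma radAvg_const (hN : 1 ≤ N) (c s : ℝ) : radAvg N (fun _ => c) s = c / N := by
  rw [radAvg, intervalIntegral.integral_mul_const, integral_rpow_unit hN]; ring

lemma radAvg_ge (hN : 1 ≤ N) (hg : Continuous g) {s m : ℝ} (hs : 0 ≤ s)
    (h : ∀ ρ ∈ Icc 0 s, m ≤ g ρ) : m / N ≤ radAvg N g s := by
  simpa [radAvg_const hN] using radAvg_mono hN continuous_const hg hs h

lemma radAvg_le (hN : 1 ≤ N) (hg : Continuous g) {s m : ℝ} (hs : 0 ≤ s)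
    (h : ∀ ρ ∈ Icc 0 s, g ρ ≤ m) : radAvg N g s ≤ m / N := by
  simpa [radAvg_const hN] using radAvg_mono hN hg continuous_const hs h

lemma dbl_le (hN : 1 ≤ N) (hg : Continuous g) {r m : ℝ} (hr : 0 ≤ r)
    (h : ∀ ρ ∈ Icc 0 r, g ρ ≤ m) : dbl N g r ≤ m / N * (r ^ 2 / 2) := by
  refine (intervalIntegral.integral_mono_on (g := fun s => s * (m / N)) hr
    ((continuous_mul_radAvg hN hg).intervalIntegrable _ _)
    ((continuous_id.mul continuous_const).intervalIntegrable _ _) fun s hs => ?_).trans_eq ?_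
  · exact mul_le_mul_of_nonneg_left
      (radAvg_le hN hg hs.1 fun ρ hρ => h ρ ⟨hρ.1, hρ.2.trans hs.2⟩) hs.1
  · rw [intervalIntegral.integral_mul_const, integral_id]; ring

lemma dbl_ge (hN : 1 ≤ N) (hg : Continuous g) {r m : ℝ} (hr : 0 ≤ r)
    (h : ∀ ρ ∈ Icc 0 r, m ≤ g ρ) : m / N * (r ^ 2 / 2) ≤ dbl N g r := by
  refine le_of_eq_of_le ?_ (intervalIntegral.integral_mono_on (f := fun s => s * (m / N)) hr
    ((continuous_id.mul continuous_const).intervalIntegrable _ _)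
    ((continuous_mul_radAvg hN hg).intervalIntegrable _ _) fun s hs => ?_)
  · rw [intervalIntegral.integral_mul_const, integral_id]; ring
  · exact mul_le_mul_of_nonneg_left
      (radAvg_ge hN hg hs.1 fun ρ hρ => h ρ ⟨hρ.1, hρ.2.trans hs.2⟩) hs.1

lemma dbl_sub (hN : 1 ≤ N) (hg : Continuous g) (hg' : Continuous g') (r : ℝ) :
    dbl N g r - dbl N g' r = dbl N (fun ρ => g ρ - g' ρ) r := by
  have e : ∀ s, radAvg N (fun ρ => g ρ - g' ρ) s = radAvg N g s - radAvg N g' s := fun s => by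
    rw [radAvg, radAvg, radAvg, ← intervalIntegral.integral_sub
      ((cont_kernel hN hg s).intervalIntegrable _ _)
      ((cont_kernel hN hg' s).intervalIntegrable _ _)]
    exact intervalIntegral.integral_congr fun θ _ => mul_sub _ _ _
  rw [dbl, dbl, dbl, ← intervalIntegral.integral_sub
    ((continuous_mul_radAvg hN hg).intervalIntegrable _ _)
    ((continuous_mul_radAvg hN hg').intervalIntegrable _ _)]
  exact intervalIntegral.integral_congr fun s _ => by simp only [e, mul_sub]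

/-- Gaussian weighted bound. -/
lemma abs_dbl_le_exp (hN : 1 ≤ N) (hg : Continuous g) {r D lam : ℝ} (hr : 0 ≤ r) (hl : 0 < lam)
    (hD : 0 ≤ D) (h : ∀ ρ ∈ Icc 0 r, |g ρ| ≤ D * Real.exp (lam * ρ ^ 2)) :
    |dbl N g r| ≤ D * Real.exp (lam * r ^ 2) / (2 * lam * N) := by
  have hN0 : 0 < N := by linarith
  have hc : Continuous fun s : ℝ => s * (D * Real.exp (lam * s ^ 2) / N) := by fun_prop
  have hd : ∀ s : ℝ, HasDerivAt (fun t => D * Real.exp (lam * t ^ 2) / (2 * lam * N))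
      (s * (D * Real.exp (lam * s ^ 2) / N)) s := fun s => by
    refine ((((hasDerivAt_pow 2 s).const_mul lam).exp.const_mul D).div_const
      (2 * lam * N)).congr_deriv ?_
    push_cast
    field_simp
    try ring
  calc |dbl N g r| ≤ ∫ s in (0:ℝ)..r, |s * radAvg N g s| :=
        intervalIntegral.abs_integral_le_integral_abs hr
    _ ≤ ∫ s in (0:ℝ)..r, s * (D * Real.exp (lam * s ^ 2) / N) := by
        refine intervalIntegral.integral_mono_on hr
          ((continuous_mul_radAvg hN hg).abs.intervalIntegrable _ _)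
          (hc.intervalIntegrable _ _) fun s hs => ?_
        rw [abs_mul, abs_of_nonneg hs.1]
        refine mul_le_mul_of_nonneg_left ?_ hs.1
        have hb : ∀ ρ ∈ Icc 0 s, |g ρ| ≤ D * Real.exp (lam * s ^ 2) := fun ρ hρ =>
          (h ρ ⟨hρ.1, hρ.2.trans hs.2⟩).trans (mul_le_mul_of_nonneg_left
            (Real.exp_le_exp.2 (mul_le_mul_of_nonneg_left (pow_le_pow_left₀ hρ.1 hρ.2 2) hl.le)) hD)
        rw [abs_le, ← neg_div]
        exact ⟨radAvg_ge hN hg hs.1 fun ρ hρ => (abs_le.1 (hb ρ hρ)).1,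
          radAvg_le hN hg hs.1 fun ρ hρ => (abs_le.1 (hb ρ hρ)).2⟩
    _ = D * Real.exp (lam * r ^ 2) / (2 * lam * N)
          - D * Real.exp (lam * 0 ^ 2) / (2 * lam * N) :=
        intervalIntegral.integral_eq_sub_of_hasDerivAt (fun s _ => hd s) (hc.intervalIntegrable _ _)
    _ ≤ _ := sub_le_self _ (by positivity)

lemma mul_radAvg_eq {s : ℝ} (hs : 0 < s) :
    s * radAvg N g s = s ^ (1 - N) * ∫ ρ in (0:ℝ)..s, ρ ^ (N - 1) * g ρ := by
  have h := intervalIntegral.smul_integral_comp_mul_left (a := (0:ℝ)) (b := 1)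
    (fun ρ => ρ ^ (N - 1) * g ρ) s
  rw [mul_zero, mul_one, smul_eq_mul] at h
  rw [← h, radAvg]
  have e : (∫ θ in (0:ℝ)..1, (s * θ) ^ (N - 1) * g (s * θ))
      = s ^ (N - 1) * ∫ θ in (0:ℝ)..1, θ ^ (N - 1) * g (s * θ) := by
    rw [← intervalIntegral.integral_const_mul]
    refine intervalIntegral.integral_congr fun θ hθ => ?_
    rw [uIcc_of_le zero_le_one] at hθ
    simp only [Real.mul_rpow hs.le hθ.1, mul_assoc]
  have e2 : s ^ (1 - N) * s ^ (N - 1) = 1 := by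
    rw [← Real.rpow_add hs]; simp
  rw [e]
  linear_combination (-(s * ∫ θ in (0:ℝ)..1, θ ^ (N - 1) * g (s * θ))) * e2

lemma hasDerivAt_mul_radAvg (hN : 1 ≤ N) (hg : Continuous g) {r : ℝ} (hr : 0 < r) :
    HasDerivAt (fun s => s * radAvg N g s)
      ((1 - N) / r * (r * radAvg N g r) + g r) r := by
  have hc : Continuous fun ρ : ℝ => ρ ^ (N - 1) * g ρ :=
    (Real.continuous_rpow_const (by linarith)).mul hg
  have h := (Real.hasDerivAt_rpow_const (p := 1 - N) (Or.inl hr.ne')).mul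
    (intervalIntegral.integral_hasDerivAt_right (hc.intervalIntegrable 0 r)
      (hc.stronglyMeasurableAtFilter _ _) hc.continuousAt)
  refine (h.congr_of_eventuallyEq ?_).congr_deriv ?_
  · filter_upwards [Ioi_mem_nhds hr] with s hs
    exact mul_radAvg_eq hs
  · have e2 : r ^ (1 - N) * r ^ (N - 1) = 1 := by rw [← Real.rpow_add hr]; simp
    rw [mul_radAvg_eq hr, Real.rpow_sub_one hr.ne', ← mul_assoc (r ^ (1 - N)), e2]
    field_simp

/-- A clamped power. -/
def cpow (δ M p x : ℝ) : ℝ := max δ (min x M) ^ p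

variable {δ M p q : ℝ}

lemma continuous_cpow (hp : 0 ≤ p) : Continuous (cpow δ M p) :=
  (continuous_const.max (continuous_id.min continuous_const)).rpow_const fun _ => Or.inr hp

lemma cpow_eq {x : ℝ} (h1 : δ ≤ x) (h2 : x ≤ M) : cpow δ M p x = x ^ p := by
  rw [cpow, min_eq_left h2, max_eq_right h1]

lemma cpow_nonneg (hδ : 0 ≤ δ) (x : ℝ) : 0 ≤ cpow δ M p x :=
  Real.rpow_nonneg (hδ.trans (le_max_left _ _)) _

lemma cpow_le (hδ : 0 ≤ δ) (hδM : δ ≤ M) (hp : 0 ≤ p) (x : ℝ) : cpow δ M p x ≤ M ^ p :=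
  Real.rpow_le_rpow (hδ.trans (le_max_left _ _)) (max_le hδM (min_le_right _ _)) hp

lemma cpow_lip (hδ : 0 < δ) (hδM : δ ≤ M) :
    ∃ L, 0 < L ∧ ∀ x y, |cpow δ M p x - cpow δ M p y| ≤ L * |x - y| := by
  obtain ⟨C, hC⟩ := (isCompact_Icc (a := δ) (b := M)).exists_bound_of_continuousOn
    (f := fun x : ℝ => p * x ^ (p - 1)) (continuousOn_const.mul
      (continuousOn_id.rpow_const fun x hx => Or.inl (hδ.trans_le hx.1).ne'))
  refine ⟨|C| + 1, by positivity, fun x y => ?_⟩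
  have hmem : ∀ z, max δ (min z M) ∈ Icc δ M := fun z =>
    ⟨le_max_left _ _, max_le hδM (min_le_right _ _)⟩
  have h := (convex_Icc δ M).norm_image_sub_le_of_norm_hasDerivWithin_le
    (f := fun z : ℝ => z ^ p) (f' := fun z => p * z ^ (p - 1)) (C := |C| + 1)
    (fun z hz => (Real.hasDerivAt_rpow_const (Or.inl (hδ.trans_le hz.1).ne')).hasDerivWithinAt)
    (fun z hz => (hC z hz).trans ((le_abs_self C).trans (le_add_of_nonneg_right zero_le_one)))
    (hmem y) (hmem x)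
  rw [Real.norm_eq_abs, Real.norm_eq_abs] at h
  refine h.trans (mul_le_mul_of_nonneg_left ?_ (by positivity))
  refine (abs_max_sub_max_le_max _ _ _ _).trans ?_
  rw [sub_self, abs_zero, max_eq_right (abs_nonneg _)]
  exact (abs_min_sub_min_le_max _ _ _ _).trans (by simp)

/-- A solution of the clamped integral system on `[0, T]`. -/
def CSol (N p q δ M : ℝ) (d : ℝ × ℝ) (T : ℝ) (U V : ℝ → ℝ) : Prop :=
  Continuous U ∧ Continuous V ∧ ∀ r ∈ Icc 0 T,
    U r = d.1 - dbl N (fun ρ => cpow δ M p (V ρ)) r ∧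
    V r = d.2 - dbl N (fun ρ => cpow δ M q (U ρ)) r

/-- The weighted distance of two clamped solutions is controlled by that of the data. -/
lemma csol_dist (hN : 1 ≤ N) (hp : 0 ≤ p) (hq : 0 ≤ q) (hδ : 0 < δ) (hδM : δ ≤ M) :
    ∃ lam : ℝ, 0 < lam ∧ ∀ (d d' : ℝ × ℝ) (T : ℝ) (U V U' V' : ℝ → ℝ), 0 ≤ T →
      CSol N p q δ M d T U V → CSol N p q δ M d' T U' V' →
      ∀ r ∈ Icc 0 T, |U r - U' r| ≤ 2 * dist d d' * Real.exp (lam * r ^ 2) ∧
        |V r - V' r| ≤ 2 * dist d d' * Real.exp (lam * r ^ 2) := by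
  obtain ⟨L1, hL1, hf⟩ := cpow_lip (p := p) hδ hδM
  obtain ⟨L2, hL2, hg⟩ := cpow_lip (p := q) hδ hδM
  have hN0 : 0 < N := by linarith
  refine ⟨(L1 + L2) / N, by positivity, fun d d' T U V U' V' hT h h' r hr => ?_⟩
  set lam := (L1 + L2) / N with hlam
  have hlam0 : 0 < lam := by positivity
  have hc : Continuous fun ρ : ℝ =>
      max |U ρ - U' ρ| |V ρ - V' ρ| / Real.exp (lam * ρ ^ 2) :=
    ((h.1.sub h'.1).abs.max (h.2.1.sub h'.2.1).abs).div (by fun_prop) fun x => (Real.exp_pos _).ne'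
  obtain ⟨ρ₀, hρ₀, hmax⟩ := isCompact_Icc.exists_isMaxOn ⟨r, hr⟩ hc.continuousOn
  set D := max |U ρ₀ - U' ρ₀| |V ρ₀ - V' ρ₀| / Real.exp (lam * ρ₀ ^ 2) with hD
  have hD0 : 0 ≤ D := by positivity
  have hb : ∀ ρ ∈ Icc 0 T, |U ρ - U' ρ| ≤ D * Real.exp (lam * ρ ^ 2) ∧
      |V ρ - V' ρ| ≤ D * Real.exp (lam * ρ ^ 2) := fun ρ hρ => by
    have : _ ≤ D := hmax hρ
    simp only at this
    rw [div_le_iff₀ (Real.exp_pos _)] at this
    exact ⟨(le_max_left _ _).trans this, (le_max_right _ _).trans this⟩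
  have h1 : ∀ ρ ∈ Icc 0 T, 1 ≤ Real.exp (lam * ρ ^ 2) := fun ρ _ =>
    Real.one_le_exp (by positivity)
  have est : ∀ (s : ℝ) (L a : ℝ) (W W' : ℝ → ℝ) (e e' : ℝ), 0 < L → L ≤ L1 + L2 →
      Continuous W → Continuous W' → |e - e'| ≤ dist d d' → s ∈ Icc 0 T → 0 ≤ a →
      (∀ x y, |cpow δ M a x - cpow δ M a y| ≤ L * |x - y|) →
      (∀ ρ ∈ Icc 0 T, |W ρ - W' ρ| ≤ D * Real.exp (lam * ρ ^ 2)) →
      |(e - dbl N (fun ρ => cpow δ M a (W ρ)) s) - (e' - dbl N (fun ρ => cpow δ M a (W' ρ)) s)|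
        ≤ (dist d d' + D / 2) * Real.exp (lam * s ^ 2) := by
    intro s L a W W' e e' hL hLL hW hW' he hs ha hl hWW
    have i1 := (continuous_cpow (δ := δ) (M := M) ha).comp hW
    have i2 := (continuous_cpow (δ := δ) (M := M) ha).comp hW'
    have h3 := abs_dbl_le_exp (g := fun ρ => cpow δ M a (W ρ) - cpow δ M a (W' ρ)) hN
      (i1.sub i2) hs.1 hlam0 (mul_nonneg hL.le hD0) fun ρ hρ =>
      (hl (W ρ) (W' ρ)).trans (le_of_le_of_eq
        (mul_le_mul_of_nonneg_left (hWW ρ ⟨hρ.1, hρ.2.trans hs.2⟩) hL.le) (mul_assoc _ _ _).symm)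
    rw [← dbl_sub hN (g := fun ρ => cpow δ M a (W ρ)) (g' := fun ρ => cpow δ M a (W' ρ)) i1 i2]
      at h3
    have h4 : L * D * Real.exp (lam * s ^ 2) / (2 * lam * N)
        ≤ D / 2 * Real.exp (lam * s ^ 2) := by
      rw [show 2 * lam * N = 2 * (L1 + L2) by rw [hlam]; field_simp, div_le_iff₀ (by positivity)]
      nlinarith [mul_le_mul_of_nonneg_right hLL (mul_nonneg hD0 (Real.exp_pos (lam * s ^ 2)).le)]
    calc |(e - dbl N (fun ρ => cpow δ M a (W ρ)) s) - (e' - dbl N (fun ρ => cpow δ M a (W' ρ)) s)|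
        = |(e - e') - (dbl N (fun ρ => cpow δ M a (W ρ)) s
            - dbl N (fun ρ => cpow δ M a (W' ρ)) s)| := by ring_nf
      _ ≤ |e - e'| + _ := abs_sub _ _
      _ ≤ dist d d' * Real.exp (lam * s ^ 2) + D / 2 * Real.exp (lam * s ^ 2) :=
          add_le_add (he.trans (le_mul_of_one_le_right dist_nonneg (h1 s hs))) (h3.trans h4)
      _ = _ := by ring
  have hDle : D ≤ 2 * dist d d' := by
    obtain ⟨eU, eV⟩ := h.2.2 ρ₀ hρ₀
    obtain ⟨eU', eV'⟩ := h'.2.2 ρ₀ hρ₀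
    have k1 := est ρ₀ L1 p V V' d.1 d'.1 hL1 (by linarith) h.2.1 h'.2.1
      (le_max_left _ _) hρ₀ hp hf fun ρ hρ => (hb ρ hρ).2
    have k2 := est ρ₀ L2 q U U' d.2 d'.2 hL2 (by linarith) h.1 h'.1
      (le_max_right _ _) hρ₀ hq hg fun ρ hρ => (hb ρ hρ).1
    rw [← eU, ← eU'] at k1
    rw [← eV, ← eV'] at k2
    have : D ≤ dist d d' + D / 2 := by
      rw [hD, div_le_iff₀ (Real.exp_pos _)]; exact max_le k1 k2
    linarith
  have he := (Real.exp_pos (lam * r ^ 2)).le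
  exact ⟨(hb r hr).1.trans (mul_le_mul_of_nonneg_right hDle he),
    (hb r hr).2.trans (mul_le_mul_of_nonneg_right hDle he)⟩

/-- Global existence for the clamped system. -/
lemma exists_csol (hN : 1 ≤ N) (hp : 0 ≤ p) (hq : 0 ≤ q) (hδ : 0 < δ) (hδM : δ ≤ M)
    (d : ℝ × ℝ) : ∃ U V : ℝ → ℝ, ∀ T, CSol N p q δ M d T U V := by
  obtain ⟨L1, hL1, hf⟩ := cpow_lip (p := p) hδ hδM
  obtain ⟨L2, hL2, hg⟩ := cpow_lip (p := q) hδ hδM
  have hN0 : 0 < N := by linarith
  set lam := (L1 + L2) / N with hlam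
  have hlam0 : 0 < lam := by positivity
  set E : ℝ → ℝ := fun r => Real.exp (lam * r ^ 2) with hE
  have hEc : Continuous E := by simp only [hE]; fun_prop
  have hM0 : 0 ≤ M := hδ.le.trans hδM
  set W1 : (ℝ →ᵇ ℝ × ℝ) → ℝ → ℝ := fun z r => E r * (z r).1
  set W2 : (ℝ →ᵇ ℝ × ℝ) → ℝ → ℝ := fun z r => E r * (z r).2
  have hW1 : ∀ z, Continuous (W1 z) := fun z => hEc.mul z.continuous.fst
  have hW2 : ∀ z, Continuous (W2 z) := fun z => hEc.mul z.continuous.snd
  have c1 : ∀ (a : ℝ), 0 ≤ a → ∀ {W : ℝ → ℝ}, Continuous W →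
      Continuous fun ρ => cpow δ M a (W ρ) :=
    fun a ha W hW => (continuous_cpow ha).comp hW
  have bnd : ∀ (a e : ℝ) (W : ℝ → ℝ), 0 ≤ a → Continuous W → ∀ r, 0 ≤ r →
      |(e - dbl N (fun ρ => cpow δ M a (W ρ)) r) / E r| ≤ |e| + M ^ a / N / (2 * lam) := by
    intro a e W ha hW r hr
    have k1 := dbl_le hN (c1 a ha hW) hr fun ρ _ => cpow_le hδ.le hδM ha (W ρ)
    have k2 := dbl_ge hN (c1 a ha hW) hr (m := 0) fun ρ _ => cpow_nonneg hδ.le _
    have hE1 : 1 ≤ E r := Real.one_le_exp (by positivity)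
    have hE2 : lam * r ^ 2 ≤ E r := (lt_add_one _).le.trans (Real.add_one_le_exp _)
    have hMa : 0 ≤ M ^ a / N := by positivity
    rw [abs_div, abs_of_pos (Real.exp_pos _ : 0 < E r), div_le_iff₀ (Real.exp_pos _)]
    refine (abs_sub _ _).trans ?_
    rw [abs_of_nonneg (show 0 ≤ dbl N (fun ρ => cpow δ M a (W ρ)) r by simpa using k2), add_mul]
    refine add_le_add (le_mul_of_one_le_right (abs_nonneg _) hE1) (k1.trans ?_)
    rw [div_mul_eq_mul_div (M ^ a / N), le_div_iff₀ (by positivity)]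
    nlinarith [mul_le_mul_of_nonneg_left hE2 hMa]
  let F : (ℝ →ᵇ ℝ × ℝ) → (ℝ →ᵇ ℝ × ℝ) := fun z =>
    BoundedContinuousFunction.ofNormedAddCommGroup
      (fun r => ((d.1 - dbl N (fun ρ => cpow δ M p (W2 z ρ)) (max r 0)) / E (max r 0),
        (d.2 - dbl N (fun ρ => cpow δ M q (W1 z ρ)) (max r 0)) / E (max r 0)))
      ((((continuous_const.sub (continuous_dbl hN (c1 p hp (hW2 z)))).div hEc
          fun x => (Real.exp_pos _).ne').comp (continuous_id.max continuous_const)).prodMk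
        (((continuous_const.sub (continuous_dbl hN (c1 q hq (hW1 z)))).div hEc
          fun x => (Real.exp_pos _).ne').comp (continuous_id.max continuous_const)))
      (max (|d.1| + M ^ p / N / (2 * lam)) (|d.2| + M ^ q / N / (2 * lam)))
      (fun r => by
        rw [Prod.norm_def, Real.norm_eq_abs, Real.norm_eq_abs]
        exact max_le_max (bnd p d.1 _ hp (hW2 z) _ (le_max_right _ _))
          (bnd q d.2 _ hq (hW1 z) _ (le_max_right _ _)))
  have hF : ContractingWith (1 / 2) F := by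
    refine ⟨by norm_num, LipschitzWith.of_dist_le_mul fun z z' => ?_⟩
    rw [BoundedContinuousFunction.dist_le (by positivity)]
    intro r
    set s := max r 0
    have hs : 0 ≤ s := le_max_right _ _
    have key : ∀ (L a e : ℝ) (W W' : ℝ → ℝ), 0 < L → L ≤ L1 + L2 → Continuous W → Continuous W' →
        0 ≤ a → (∀ x y, |cpow δ M a x - cpow δ M a y| ≤ L * |x - y|) →
        (∀ ρ, |W ρ - W' ρ| ≤ dist z z' * E ρ) →
        |(e - dbl N (fun ρ => cpow δ M a (W ρ)) s) / E s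
            - (e - dbl N (fun ρ => cpow δ M a (W' ρ)) s) / E s| ≤ 1 / 2 * dist z z' := by
      intro L a e W W' hL hLL hW hW' ha hl hWW
      have h3 := abs_dbl_le_exp (g := fun ρ => cpow δ M a (W ρ) - cpow δ M a (W' ρ)) hN
        ((c1 a ha hW).sub (c1 a ha hW')) hs hlam0
        (mul_nonneg hL.le (dist_nonneg (x := z) (y := z'))) fun ρ _ =>
        (hl (W ρ) (W' ρ)).trans (le_of_le_of_eq (mul_le_mul_of_nonneg_left (hWW ρ) hL.le)
          (mul_assoc _ _ _).symm)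
      rw [← dbl_sub hN (c1 a ha hW) (c1 a ha hW')] at h3
      rw [← sub_div, abs_div, abs_of_pos (Real.exp_pos _ : 0 < E s), div_le_iff₀ (Real.exp_pos _),
        show ∀ x y : ℝ, (e - x) - (e - y) = -(x - y) from fun x y => by ring, abs_neg]
      refine h3.trans ?_
      rw [show 2 * lam * N = 2 * (L1 + L2) by rw [hlam]; field_simp, div_le_iff₀ (by positivity)]
      have := mul_le_mul_of_nonneg_right hLL
        (mul_nonneg (dist_nonneg (x := z) (y := z')) (Real.exp_pos (lam * s ^ 2)).le)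
      nlinarith
    have hz : ∀ ρ, dist (z ρ) (z' ρ) ≤ dist z z' := fun ρ =>
      BoundedContinuousFunction.dist_coe_le_dist ρ
    have hp1 : ∀ ρ, |W1 z ρ - W1 z' ρ| ≤ dist z z' * E ρ := fun ρ => by
      rw [show W1 z ρ - W1 z' ρ = E ρ * ((z ρ).1 - (z' ρ).1) from (mul_sub _ _ _).symm, abs_mul,
        abs_of_pos (Real.exp_pos _ : 0 < E ρ), mul_comm]
      exact mul_le_mul_of_nonneg_right ((le_max_left _ _).trans (hz ρ)) (Real.exp_pos _).le
    have hp2 : ∀ ρ, |W2 z ρ - W2 z' ρ| ≤ dist z z' * E ρ := fun ρ => by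
      rw [show W2 z ρ - W2 z' ρ = E ρ * ((z ρ).2 - (z' ρ).2) from (mul_sub _ _ _).symm, abs_mul,
        abs_of_pos (Real.exp_pos _ : 0 < E ρ), mul_comm]
      exact mul_le_mul_of_nonneg_right ((le_max_right _ _).trans (hz ρ)) (Real.exp_pos _).le
    have hh : ((1 / 2 : NNReal) : ℝ) = 1 / 2 := by norm_num
    rw [hh, Prod.dist_eq]
    exact max_le
      (key L1 p d.1 _ _ hL1 (by linarith) (hW2 z) (hW2 z') hp hf hp2)
      (key L2 q d.2 _ _ hL2 (by linarith) (hW1 z) (hW1 z') hq hg hp1)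
  set z := ContractingWith.fixedPoint F hF
  have hz : F z = z := hF.fixedPoint_isFixedPt
  refine ⟨W1 z, W2 z, fun T => ⟨hW1 z, hW2 z, fun r hr => ?_⟩⟩
  have e := congrArg (fun w : ℝ →ᵇ ℝ × ℝ => w r) hz
  simp only [F, BoundedContinuousFunction.coe_ofNormedAddCommGroup, max_eq_left hr.1] at e
  rw [Prod.ext_iff] at e
  have hpos : E r ≠ 0 := (Real.exp_pos _).ne'
  constructor
  · show E r * (z r).1 = _
    rw [← e.1]; field_simp
  · show E r * (z r).2 = _
    rw [← e.2]; field_simp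

end Vale.Agent.P100T
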