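import Vale.Agent.P100T.Orbit

/-! # The growing radial solution continuing the ground state through `r² = 0`

`U'' + (N-1)/r U' = V^p`, `V'' + (N-1)/r V' = U^q`: here `η = -rV'/V < 0`, and `oR` is the
absolute value of `R = Θ/η²`. While `t ≤ (p+1)/(q+1)`: `1 < σ < t` and `log V` stays bounded. -/

open Set Filter Topology

noncomputable section

namespace Vale.Agent.P100T

/-- A growing radial solution on `[0, T)`. -/
structure IsGrow (N p q T : ℝ) (U V U' V' : ℝ → ℝ) : Prop where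
  T_pos : 0 < T
  contU : Continuous U
  contV : Continuous V
  posU : ∀ r ∈ Ico 0 T, 0 < U r
  posV : ∀ r ∈ Ico 0 T, 0 < V r
  derivU : ∀ r ∈ Ioo 0 T, HasDerivAt U (U' r) r
  derivV : ∀ r ∈ Ioo 0 T, HasDerivAt V (V' r) r
  derivU' : ∀ r ∈ Ioo 0 T, HasDerivAt U' (-((N - 1) / r) * U' r + V r ^ p) r
  derivV' : ∀ r ∈ Ioo 0 T, HasDerivAt V' (-((N - 1) / r) * V' r + U r ^ q) r
  slopeU : ∀ r ∈ Ioo 0 T, r * V 0 ^ p / N ≤ U' r ∧ U' r ≤ r * V r ^ p / N
  slopeV : ∀ r ∈ Ioo 0 T, r * U 0 ^ q / N ≤ V' r ∧ V' r ≤ r * U r ^ q / N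
  poho : ∀ r ∈ Ioo 0 T,
    r * (U' r * V' r - V r ^ (p + 1) / (p + 1) - U r ^ (q + 1) / (q + 1))
      + (N / (p + 1) * (U' r * V r) + N / (q + 1) * (U r * V' r)) = 0

namespace IsGrow

variable {N p q T r : ℝ} {U V U' V' : ℝ → ℝ}

lemma mono (h : IsGrow N p q T U V U' V') {T' : ℝ} (h0 : 0 < T') (hle : T' ≤ T) :
    IsGrow N p q T' U V U' V' where
  T_pos := h0
  contU := h.contU
  contV := h.contV
  posU x hx := h.posU x ⟨hx.1, hx.2.trans_le hle⟩
  posV x hx := h.posV x ⟨hx.1, hx.2.trans_le hle⟩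
  derivU x hx := h.derivU x ⟨hx.1, hx.2.trans_le hle⟩
  derivV x hx := h.derivV x ⟨hx.1, hx.2.trans_le hle⟩
  derivU' x hx := h.derivU' x ⟨hx.1, hx.2.trans_le hle⟩
  derivV' x hx := h.derivV' x ⟨hx.1, hx.2.trans_le hle⟩
  slopeU x hx := h.slopeU x ⟨hx.1, hx.2.trans_le hle⟩
  slopeV x hx := h.slopeV x ⟨hx.1, hx.2.trans_le hle⟩
  poho x hx := h.poho x ⟨hx.1, hx.2.trans_le hle⟩

lemma u0_pos (h : IsGrow N p q T U V U' V') : 0 < U 0 := h.posU 0 ⟨le_rfl, h.T_pos⟩

lemma v0_pos (h : IsGrow N p q T U V U' V') : 0 < V 0 := h.posV 0 ⟨le_rfl, h.T_pos⟩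

lemma u_pos (h : IsGrow N p q T U V U' V') (hr : r ∈ Ioo 0 T) : 0 < U r :=
  h.posU r (Ioo_subset_Ico_self hr)

lemma v_pos (h : IsGrow N p q T U V U' V') (hr : r ∈ Ioo 0 T) : 0 < V r :=
  h.posV r (Ioo_subset_Ico_self hr)

lemma dU_pos (h : IsGrow N p q T U V U' V') (hN : 0 < N) (hr : r ∈ Ioo 0 T) : 0 < U' r :=
  (div_pos (mul_pos hr.1 (Real.rpow_pos_of_pos h.v0_pos p)) hN).trans_le (h.slopeU r hr).1

lemma dV_pos (h : IsGrow N p q T U V U' V') (hN : 0 < N) (hr : r ∈ Ioo 0 T) : 0 < V' r :=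
  (div_pos (mul_pos hr.1 (Real.rpow_pos_of_pos h.u0_pos q)) hN).trans_le (h.slopeV r hr).1

lemma eta_neg (h : IsGrow N p q T U V U' V') (hN : 0 < N) (hr : r ∈ Ioo 0 T) : oEta V V' r < 0 :=
  div_neg_of_neg_of_pos (neg_neg_of_pos (mul_pos hr.1 (h.dV_pos hN hr))) (h.v_pos hr)

lemma sig_pos (h : IsGrow N p q T U V U' V') (hN : 0 < N) (hr : r ∈ Ioo 0 T) :
    0 < oSig U V U' V' r :=
  div_pos_of_neg_of_neg
    (div_neg_of_neg_of_pos (neg_neg_of_pos (mul_pos hr.1 (h.dU_pos hN hr))) (h.u_pos hr))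
    (h.eta_neg hN hr)

lemma R_pos (h : IsGrow N p q T U V U' V') (hN : 0 < N) (hr : r ∈ Ioo 0 T) :
    0 < oR U V V' q r := by
  have := h.u_pos hr; have := h.v_pos hr; have := (h.eta_neg hN hr).ne; have := hr.1
  unfold oR; positivity

lemma T_pos' (h : IsGrow N p q T U V U' V') (hr : r ∈ Ico 0 T) : 0 < oT U V p q r := by
  have := h.posU r hr; have := h.posV r hr
  unfold oT; positivity

lemma R_mul_T (h : IsGrow N p q T U V U' V') (hr : r ∈ Ioo 0 T) :
    oR U V V' q r * oT U V p q r = r ^ 2 * V r ^ p / U r / oEta V V' r ^ 2 := by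
  have hu := h.u_pos hr; have hv := h.v_pos hr
  rw [oR, oT, Real.rpow_add_one hu.ne', Real.rpow_add_one hv.ne']
  field_simp

/-- The Pohozaev identity along the continued orbit. -/
lemma oE_eq (h : IsGrow N p q T U V U' V') (hN : 0 < N) (hp : 0 < p) (hq : 0 < q)
    (hr : r ∈ Ioo 0 T) :
    N * oE V V' r * (oSig U V U' V' r / (p + 1) + 1 / (q + 1))
      = oSig U V U' V' r - oR U V V' q r * (oT U V p q r / (p + 1) + 1 / (q + 1)) := by
  have hu := h.u_pos hr; have hv := h.v_pos hr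
  have hη := (h.eta_neg hN hr).ne
  have hv' := (h.dV_pos hN hr).ne'
  rw [show oR U V V' q r * (oT U V p q r / (p + 1) + 1 / (q + 1))
      = oR U V V' q r * oT U V p q r / (p + 1) + oR U V V' q r * (1 / (q + 1))
    by ring, h.R_mul_T hr]
  have hpo := h.poho r hr
  rw [Real.rpow_add_one hu.ne', Real.rpow_add_one hv.ne'] at hpo
  unfold oE oSig oR oEta at *
  have := hr.1.ne'
  have : p + 1 ≠ 0 := by linarith
  have : q + 1 ≠ 0 := by linarith
  field_simp at hpo ⊢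
  linear_combination (-1:ℝ) * hpo

lemma hasDerivAt_eta (h : IsGrow N p q T U V U' V') (hr : r ∈ Ioo 0 T) :
    HasDerivAt (oEta V V')
      ((oEta V V' r ^ 2 - (N - 2) * oEta V V' r - r ^ 2 * U r ^ q / V r) / r) r := by
  have hv := h.v_pos hr
  have := hr.1.ne'
  refine ((((hasDerivAt_id r).mul (h.derivV' r hr)).neg).div (h.derivV r hr) hv.ne').congr_deriv ?_
  simp only [oEta, Pi.mul_apply, Pi.neg_apply, id]
  field_simp
  ring

lemma hasDerivAt_sig (h : IsGrow N p q T U V U' V') (hN : 0 < N) (hr : r ∈ Ioo 0 T) :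
    HasDerivAt (oSig U V U' V') (oEta V V' r / r * (oSig U V U' V' r * (oSig U V U' V' r - 1)
      - oR U V V' q r * (oT U V p q r - oSig U V U' V' r))) r := by
  have hu := h.u_pos hr; have hv := h.v_pos hr
  have hη := (h.eta_neg hN hr).ne
  have := hr.1.ne'
  have hξ := (((hasDerivAt_id r).mul (h.derivU' r hr)).neg).div (h.derivU r hr) hu.ne'
  refine (hξ.div (h.hasDerivAt_eta hr) hη).congr_deriv ?_
  rw [mul_sub (oR U V V' q r), h.R_mul_T hr]
  simp only [oSig, oR, Pi.mul_apply, Pi.neg_apply, Pi.div_apply, id]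
  set z := oEta V V' r with hz
  field_simp
  ring

lemma hasDerivAt_T (h : IsGrow N p q T U V U' V') (hN : 0 < N) (hr : r ∈ Ioo 0 T) :
    HasDerivAt (oT U V p q) (-(oT U V p q r * oEta V V' r
      * ((p + 1) - (q + 1) * oSig U V U' V' r)) / r) r := by
  have hu := h.u_pos hr; have hv := h.v_pos hr
  have hη := (h.eta_neg hN hr).ne
  have := hr.1.ne'
  refine (((h.derivV r hr).rpow_const (p := p + 1) (Or.inl hv.ne')).div
    ((h.derivU r hr).rpow_const (p := q + 1) (Or.inl hu.ne'))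
    (Real.rpow_pos_of_pos hu _).ne').congr_deriv ?_
  simp only [add_sub_cancel_right, oT, oSig, Real.rpow_add_one hu.ne', Real.rpow_add_one hv.ne']
  set z := oEta V V' r with hz
  rw [show V' r = -(z * V r) / r by rw [hz, oEta]; field_simp]
  field_simp
  ring

lemma hasDerivAt_R (h : IsGrow N p q T U V U' V') (hN : 0 < N) (hr : r ∈ Ioo 0 T) :
    HasDerivAt (oR U V V' q) (oEta V V' r / r * oR U V V' q r
      * (2 * (N - 1) * oE V V' r - q * oSig U V U' V' r - 1 + 2 * oR U V V' q r)) r := by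
  have hu := h.u_pos hr; have hv := h.v_pos hr
  have hη := (h.eta_neg hN hr).ne
  have := hr.1.ne'
  refine ((((hasDerivAt_pow 2 r).mul ((h.derivU r hr).rpow_const (p := q) (Or.inl hu.ne'))).div
    (h.derivV r hr) hv.ne').div ((h.hasDerivAt_eta hr).pow 2) (pow_ne_zero 2 hη)).congr_deriv ?_
  simp only [oR, oE, oSig, Pi.mul_apply, Pi.div_apply, Pi.pow_apply, Real.rpow_sub_one hu.ne']
  set z := oEta V V' r with hz
  rw [show V' r = -(z * V r) / r by rw [hz, oEta]; field_simp]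
  field_simp
  ring

/-- `σ → t(0)` and `t → t(0)` at the origin. -/
lemma sig_tendsto (h : IsGrow N p q T U V U' V') (hN : 0 < N) (hp : 0 < p) (hq : 0 < q) :
    Tendsto (oSig U V U' V') (𝓝[>] 0) (𝓝 (oT U V p q 0)) ∧
      Tendsto (oT U V p q) (𝓝[>] 0) (𝓝 (oT U V p q 0)) := by
  have hu := h.u0_pos
  have hv := h.v0_pos
  have cU := (h.contU.tendsto 0).mono_left (nhdsWithin_le_nhds (s := Ioi 0))
  have cV := (h.contV.tendsto 0).mono_left (nhdsWithin_le_nhds (s := Ioi 0))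
  have hlim : ∀ {W W' : ℝ → ℝ} {k : ℝ}, 0 < k → Tendsto W (𝓝[>] 0) (𝓝 (W 0)) → 0 < W 0 →
      (∀ x ∈ Ioo 0 T, x * W 0 ^ k / N ≤ W' x ∧ W' x ≤ x * W x ^ k / N) →
      Tendsto (fun x => W' x / x) (𝓝[>] 0) (𝓝 (W 0 ^ k / N)) := by
    intro W W' k hk cW hW hb
    refine tendsto_of_tendsto_of_tendsto_of_le_of_le' tendsto_const_nhds
      ((cW.rpow_const (Or.inl hW.ne')).div_const N) ?_ ?_ <;>
      filter_upwards [Ioo_mem_nhdsGT h.T_pos] with x hx
    · rw [le_div_iff₀ hx.1]; exact le_of_eq_of_le (by ring) (hb x hx).1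
    · rw [div_le_iff₀ hx.1]; exact (hb x hx).2.trans_eq (by ring)
  have l1 := hlim hp cV hv h.slopeU
  have l2 := hlim hq cU hu h.slopeV
  refine ⟨?_, ?_⟩
  · have h3 := (l1.div cU hu.ne').div (l2.div cV hv.ne') (by positivity)
    have e : V 0 ^ p / N / U 0 / (U 0 ^ q / N / V 0) = oT U V p q 0 := by
      rw [oT, Real.rpow_add_one hu.ne', Real.rpow_add_one hv.ne']; field_simp
    rw [e] at h3
    refine h3.congr' ?_
    filter_upwards [Ioo_mem_nhdsGT h.T_pos] with x hx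
    have := (h.dV_pos hN hx).ne'
    have := (h.u_pos hx).ne'
    have := (h.v_pos hx).ne'
    have := hx.1.ne'
    simp only [oSig, oEta, Pi.div_apply]
    field_simp
  · exact (cV.rpow_const (Or.inl hv.ne')).div (cU.rpow_const (Or.inl hu.ne'))
      (Real.rpow_pos_of_pos hu _).ne'

/-- `σ < t` as long as `t ≤ (p+1)/(q+1)`. -/
lemma sig_lt_T (h : IsGrow N p q T U V U' V') (hN : 0 < N) (hp : 0 < p) (hq : 0 < q) (hpq : q < p)
    (ht0 : oT U V p q 0 ≤ (p + 1) / (q + 1)) (hr : r ∈ Ioo 0 T)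
    (hT : ∀ x ∈ Ioc 0 r, oT U V p q x ≤ (p + 1) / (q + 1)) :
    oSig U V U' V' r < oT U V p q r := by
  have hb : (p + 1) / (q + 1) < p / q := by
    rw [div_lt_div_iff₀ (by linarith) hq]; linarith
  set f' := fun x => -(oEta V V' x / x) * (oT U V p q x * ((p + 1) - (q + 1) * oSig U V U' V' x)
    + oSig U V U' V' x * (oSig U V U' V' x - 1)
    - oR U V V' q x * (oT U V p q x - oSig U V U' V' x))
  have hI : ∀ x, 0 < x → x ≤ r → x ∈ Ioo 0 T := fun x h0 hxr => ⟨h0, hxr.trans_lt hr.2⟩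
  have hd : ∀ x, 0 < x → x ≤ r →
      HasDerivAt (fun y => oT U V p q y - oSig U V U' V' y) (f' x) x := fun x h0 hxr =>
    ((h.hasDerivAt_T hN (hI x h0 hxr)).sub (h.hasDerivAt_sig hN (hI x h0 hxr))).congr_deriv
      (by simp only [f']; ring)
  have hk : ∀ x, 0 < x → x ≤ r → 0 < -(oEta V V' x / x) := fun x h0 hxr =>
    neg_pos.2 (div_neg_of_neg_of_pos (h.eta_neg hN (hI x h0 hxr)) h0)
  have hz : ∀ x, 0 < x → x ≤ r → oT U V p q x - oSig U V U' V' x = 0 → 0 < f' x := by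
    intro x h0 hxr he
    have e : oSig U V U' V' x = oT U V p q x := by linarith
    have htq : oT U V p q x * q < p := by
      have := (hT x ⟨h0, hxr⟩).trans_lt hb
      rwa [lt_div_iff₀ hq] at this
    refine mul_pos (hk x h0 hxr) ?_
    rw [e, sub_self, mul_zero, sub_zero]
    nlinarith [mul_pos (h.T_pos' (Ioo_subset_Ico_self (hI x h0 hxr))) (sub_pos.2 htq)]
  by_contra hle
  push Not at hle
  have hneg : ∀ x ∈ Ioo 0 r, oT U V p q x - oSig U V U' V' x < 0 := by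
    intro x hx
    by_contra hge
    push Not at hge
    have := upcross hx.2 (fun y hy => hd y (hx.1.trans_le hy.1) hy.2)
      (fun y hy => hz y (hx.1.trans_le hy.1) hy.2) hge
    linarith
  obtain ⟨ls, lt⟩ := h.sig_tendsto hN hp hq
  have h0 : 0 < oT U V p q 0 := h.T_pos' ⟨le_rfl, h.T_pos⟩
  have hsum := ((lt.mul ((ls.const_mul (q + 1)).const_sub (p + 1))).add
    (ls.mul (ls.sub_const 1)))
  have hpos : 0 < oT U V p q 0 * ((p + 1) - (q + 1) * oT U V p q 0)
      + oT U V p q 0 * (oT U V p q 0 - 1) := by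
    have : oT U V p q 0 * q < p := by
      have := ht0.trans_lt hb
      rwa [lt_div_iff₀ hq] at this
    nlinarith [mul_pos h0 (sub_pos.2 this)]
  obtain ⟨u, hu, hsub⟩ := mem_nhdsGT_iff_exists_Ioo_subset.1
    (hsum.eventually (eventually_gt_nhds hpos))
  set a := min u r / 2 with ha
  have hu0 : 0 < min u r := lt_min hu hr.1
  have ha0 : 0 < a := by positivity
  have har : a < r := by linarith [min_le_right u r]
  have hinc : ∀ x ∈ Ioo 0 a, oT U V p q x - oSig U V U' V' x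
      ≤ oT U V p q a - oSig U V U' V' a := fun x hx =>
    mono_of_deriv (fun y hy => hd y (hx.1.trans_le hy.1) (hy.2.trans har.le)) (fun y hy => by
      have hy0 : 0 < y := hx.1.trans hy.1
      have h1 := hneg y ⟨hy0, hy.2.trans har⟩
      have h2 : 0 < oT U V p q y * ((p + 1) - (q + 1) * oSig U V U' V' y)
          + oSig U V U' V' y * (oSig U V U' V' y - 1) :=
        hsub ⟨hy0, by linarith [hy.2, min_le_left u r]⟩
      refine mul_nonneg (hk y hy0 (hy.2.le.trans har.le)).le ?_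
      nlinarith [mul_nonpos_of_nonneg_of_nonpos
        (h.R_pos hN (hI y hy0 (hy.2.le.trans har.le))).le h1.le]) hx.2.le
  have := le_of_tendsto (lt.sub ls) (eventually_of_mem (Ioo_mem_nhdsGT ha0) hinc)
  rw [sub_self] at this
  linarith [hneg a ⟨ha0, har⟩]

/-- `t` increases. -/
lemma T_mono (h : IsGrow N p q T U V U' V') (hN : 0 < N) (hq : 0 < q) {s : ℝ} (hs : 0 < s)
    (hsr : s < r) (hrT : r < T) (hL : ∀ x ∈ Ioo s r, oSig U V U' V' x < (p + 1) / (q + 1)) :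
    oT U V p q s < oT U V p q r := by
  obtain ⟨w, hw, he⟩ := exists_hasDerivAt_eq_slope (oT U V p q)
    (fun x => -(oT U V p q x * oEta V V' x * ((p + 1) - (q + 1) * oSig U V U' V' x)) / x) hsr
    (fun x hx => (h.hasDerivAt_T hN
      ⟨hs.trans_le hx.1, hx.2.trans_lt hrT⟩).continuousAt.continuousWithinAt)
    (fun x hx => h.hasDerivAt_T hN ⟨hs.trans hx.1, hx.2.trans hrT⟩)
  have hwI : w ∈ Ioo 0 T := ⟨hs.trans hw.1, hw.2.trans hrT⟩
  have hL' : 0 < (p + 1) - (q + 1) * oSig U V U' V' w := by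
    have := hL w hw
    rw [lt_div_iff₀ (by linarith)] at this
    linarith
  have : 0 < (oT U V p q r - oT U V p q s) / (r - s) := by
    rw [← he]
    refine div_pos (neg_pos.2 ?_) hwI.1
    exact mul_neg_of_neg_of_pos
      (mul_neg_of_pos_of_neg (h.T_pos' (Ioo_subset_Ico_self hwI)) (h.eta_neg hN hwI)) hL'
  have := (div_pos_iff_of_pos_right (sub_pos.2 hsr)).1 this
  linarith

/-- `t(0) < t`. -/
lemma T_gt (h : IsGrow N p q T U V U' V') (hN : 0 < N) (hp : 0 < p) (hq : 0 < q)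
    (hr : r ∈ Ioo 0 T) (hL : ∀ x ∈ Ioo 0 r, oSig U V U' V' x < (p + 1) / (q + 1)) :
    oT U V p q 0 < oT U V p q r := by
  have hr2 : r / 2 < r := half_lt_self hr.1
  have hle : oT U V p q 0 ≤ oT U V p q (r / 2) :=
    le_of_tendsto (h.sig_tendsto hN hp hq).2 (eventually_of_mem (Ioo_mem_nhdsGT (half_pos hr.1))
      fun x hx => (h.T_mono hN hq hx.1 hx.2 (hr2.trans hr.2) fun y hy =>
        hL y ⟨hx.1.trans hy.1, hy.2.trans hr2⟩).le)
  exact hle.trans_lt (h.T_mono hN hq (half_pos hr.1) hr2 hr.2 fun y hy =>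
    hL y ⟨(half_pos hr.1).trans hy.1, hy.2⟩)

/-- `1 < σ`. -/
lemma one_lt_sig (h : IsGrow N p q T U V U' V') (hN : 0 < N) (hp : 0 < p) (hq : 0 < q)
    (hr : r ∈ Ioo 0 T) (ht0 : 1 ≤ oT U V p q 0)
    (hT : ∀ x ∈ Ioc 0 r, oSig U V U' V' x < oT U V p q x) : 1 < oSig U V U' V' r := by
  set f' := fun x => oEta V V' x / x * (oSig U V U' V' x * (oSig U V U' V' x - 1)
      - oR U V V' q x * (oT U V p q x - oSig U V U' V' x))
  have hI : ∀ x, 0 < x → x ≤ r → x ∈ Ioo 0 T := fun x h0 hxr => ⟨h0, hxr.trans_lt hr.2⟩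
  have hd : ∀ x, 0 < x → x ≤ r → HasDerivAt (fun y => oSig U V U' V' y - 1) (f' x) x :=
    fun x h0 hxr => (h.hasDerivAt_sig hN (hI x h0 hxr)).sub_const 1
  have hneg' : ∀ x, 0 < x → x ≤ r → oSig U V U' V' x ≤ 1 → 0 < f' x := by
    intro x h0 hxr hle
    refine mul_pos_of_neg_of_neg (div_neg_of_neg_of_pos (h.eta_neg hN (hI x h0 hxr)) h0) ?_
    have := mul_pos (h.R_pos hN (hI x h0 hxr)) (sub_pos.2 (hT x ⟨h0, hxr⟩))
    have := mul_nonpos_of_nonneg_of_nonpos (h.sig_pos hN (hI x h0 hxr)).le (sub_nonpos.2 hle)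
    linarith
  by_contra hle
  push Not at hle
  have hlt : ∀ x ∈ Ioo 0 r, oSig U V U' V' x - 1 < 0 := by
    intro x hx
    by_contra hge
    push Not at hge
    have := upcross hx.2 (fun y hy => hd y (hx.1.trans_le hy.1) hy.2)
      (fun y hy h0 => hneg' y (hx.1.trans_le hy.1) hy.2 (by linarith)) hge
    linarith
  have ha0 : 0 < r / 2 := half_pos hr.1
  have har : r / 2 < r := half_lt_self hr.1
  have hinc : ∀ x ∈ Ioo 0 (r / 2), oSig U V U' V' x - 1 ≤ oSig U V U' V' (r / 2) - 1 := fun x hx =>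
    mono_of_deriv (fun y hy => hd y (hx.1.trans_le hy.1) (hy.2.trans har.le)) (fun y hy => by
      have hy0 : 0 < y := hx.1.trans hy.1
      exact (hneg' y hy0 (hy.2.le.trans har.le)
        (by linarith [hlt y ⟨hy0, hy.2.trans har⟩])).le) hx.2.le
  have := le_of_tendsto ((h.sig_tendsto hN hp hq).1.sub_const 1)
    (eventually_of_mem (Ioo_mem_nhdsGT ha0) hinc)
  linarith [hlt (r / 2) ⟨ha0, har⟩]

end IsGrow

end Vale.Agent.P100T
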