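import Vale.Agent.P100T.Grow

/-! # `log V` stays bounded while `t ≤ (p+1)/(q+1)` -/

open Set Filter Topology

noncomputable section

namespace Vale.Agent.P100T.IsGrow

variable {N p q T r : ℝ} {U V U' V' : ℝ → ℝ}

lemma v_mono (h : IsGrow N p q T U V U' V') (hN : 0 < N) {s : ℝ} (hs : 0 ≤ s) (hsr : s ≤ r)
    (hr : r < T) : V s ≤ V r := by
  rcases hsr.eq_or_lt with rfl | hlt
  · exact le_rfl
  obtain ⟨w, hw, he⟩ := exists_hasDerivAt_eq_slope V V' hlt h.contV.continuousOn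
    (fun x hx => h.derivV x ⟨hs.trans_lt hx.1, hx.2.trans hr⟩)
  have := h.dV_pos hN ⟨hs.trans_lt hw.1, hw.2.trans hr⟩
  rw [he] at this
  linarith [(div_pos_iff_of_pos_right (sub_pos.2 hlt)).1 this]

/-- A lower bound for `Θ = r²U^q/V`. -/
lemma theta_ge (h : IsGrow N p q T U V U' V') (hN : 0 < N) (hq : 0 < q)
    (hpq1 : 1 < p * q) {r1 : ℝ} (hr1 : 0 < r1) (hle : r1 ≤ r) (hr : r ∈ Ioo 0 T)
    (ht : oT U V p q r ≤ (p + 1) / (q + 1)) :
    r1 ^ 2 * Real.exp (((p * q - 1) * Real.log (V 0) - q * Real.log ((p + 1) / (q + 1))) / (q + 1))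
      ≤ r ^ 2 * U r ^ q / V r := by
  have hu := h.u_pos hr; have hv := h.v_pos hr
  have h1 : Real.log (oT U V p q r) ≤ Real.log ((p + 1) / (q + 1)) :=
    Real.log_le_log (h.T_pos' (Ioo_subset_Ico_self hr)) ht
  rw [oT, Real.log_div (Real.rpow_pos_of_pos hv _).ne' (Real.rpow_pos_of_pos hu _).ne',
    Real.log_rpow hv, Real.log_rpow hu] at h1
  have h2 : Real.log (V 0) ≤ Real.log (V r) :=
    Real.log_le_log h.v0_pos (h.v_mono hN le_rfl hr.1.le hr.2)
  rw [mul_div_assoc (r ^ 2)]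
  refine mul_le_mul (pow_le_pow_left₀ hr1.le hle 2) ?_ (Real.exp_pos _).le (sq_nonneg r)
  rw [← Real.le_log_iff_exp_le (by positivity), Real.log_div (by positivity) hv.ne',
    Real.log_rpow hu, div_le_iff₀ (by linarith)]
  have h3 := mul_le_mul_of_nonneg_left h1 hq.le
  have h4 := mul_le_mul_of_nonneg_left h2 (sub_nonneg.2 hpq1.le)
  nlinarith

/-- `-η` cannot fall below a small level. -/
lemma eta_ge (h : IsGrow N p q T U V U' V') {r1 a θ : ℝ} (hr1 : 0 < r1)
    (hle : r1 ≤ r) (hr : r < T) (ha : 0 < a) (ha1 : a ≤ 1) (hθ : (N - 1) * a < θ)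
    (hΘ : ∀ x ∈ Icc r1 r, θ ≤ x ^ 2 * U x ^ q / V x) (h0 : a ≤ -oEta V V' r1) :
    a ≤ -oEta V V' r := by
  rcases hle.eq_or_lt with rfl | hlt
  · exact h0
  have hI : ∀ x ∈ Icc r1 r, x ∈ Ioo 0 T := fun x hx => ⟨hr1.trans_le hx.1, hx.2.trans_lt hr⟩
  have := upcross (f := fun x => -oEta V V' x - a) hlt
    (fun x hx => (h.hasDerivAt_eta (hI x hx)).neg.sub_const a) (fun x hx h0 => by
      have e : oEta V V' x = -a := by linarith
      rw [e]
      refine neg_pos.2 (div_neg_of_neg_of_pos ?_ (hI x hx).1)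
      nlinarith [hΘ x hx, mul_le_mul_of_nonneg_left ha1 ha.le]) (by linarith)
  linarith

/-- `|R|` is bounded. -/
lemma R_le (h : IsGrow N p q T U V U' V') (hN : 0 < N) (hp : 0 < p) (hq : 0 < q)
    (hr : r ∈ Ioo 0 T) {a : ℝ} (ha : 0 < a) (hη : a ≤ -oEta V V' r)
    (hσ : oSig U V U' V' r ≤ (p + 1) / (q + 1)) :
    oR U V V' q r ≤ (q + 1) * ((p + 1) / (q + 1) + N * (1 / a) * (2 / (q + 1))) := by
  have he := h.oE_eq hN hp hq hr
  have hR := (h.R_pos hN hr).le
  have hσ0 := (h.sig_pos hN hr).le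
  have hT := (h.T_pos' (p := p) (q := q) (Ioo_subset_Ico_self hr)).le
  have he1 : -oE V V' r ≤ 1 / a := by
    rw [oE, show -(1 / oEta V V' r) = 1 / -oEta V V' r by rw [div_neg]]
    exact one_div_le_one_div_of_le ha hη
  have he0 : 0 ≤ -oE V V' r := by
    rw [oE, neg_nonneg]; exact div_nonpos_of_nonneg_of_nonpos zero_le_one (h.eta_neg hN hr).le
  have hS : oSig U V U' V' r / (p + 1) + 1 / (q + 1) ≤ 2 / (q + 1) := by
    have : oSig U V U' V' r / (p + 1) ≤ 1 / (q + 1) := by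
      rw [div_le_iff₀ (by linarith)]
      exact hσ.trans_eq (by field_simp)
    linarith [show 2 / (q + 1) = 1 / (q + 1) + 1 / (q + 1) by ring]
  have h1 : oR U V V' q r * (1 / (q + 1))
      ≤ oR U V V' q r * (oT U V p q r / (p + 1) + 1 / (q + 1)) :=
    mul_le_mul_of_nonneg_left (by linarith [div_nonneg hT (show (0:ℝ) ≤ p + 1 by linarith)]) hR
  have h2 : N * -oE V V' r * (oSig U V U' V' r / (p + 1) + 1 / (q + 1))
      ≤ N * (1 / a) * (2 / (q + 1)) :=
    mul_le_mul (mul_le_mul_of_nonneg_left he1 hN.le) hS (by positivity) (by positivity)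
  calc oR U V V' q r = (q + 1) * (oR U V V' q r * (1 / (q + 1))) := by field_simp
    _ ≤ _ := mul_le_mul_of_nonneg_left (by linarith) (by linarith)

/-- The bound on `log V`. -/
lemma log_bound (h : IsGrow N p q T U V U' V') (hN : 0 < N) (hp : 0 < p) (hq : 0 < q)
    (hpq : q < p) {r1 a : ℝ} (hr1 : 0 < r1) (hle : r1 ≤ r) (hr : r < T) (ha : 0 < a)
    (ht0 : oT U V p q 0 ≤ (p + 1) / (q + 1))
    (hT : ∀ x ∈ Ioc 0 r, oT U V p q x ≤ (p + 1) / (q + 1))
    (hη : ∀ x ∈ Icc r1 r, a ≤ -oEta V V' x) :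
    (p + 1) / (q + 1) * ((p + 1) / (q + 1) - 1) * Real.log (V r)
      ≤ (p + 1) / (q + 1) * ((p + 1) / (q + 1) - 1) * Real.log (V r1) + (p + 1) / (q + 1)
        + ((q + 1) * ((p + 1) / (q + 1) + N * (1 / a) * (2 / (q + 1))) + 2 * ((p + 1) / (q + 1)))
          / (q + 1) * (Real.log ((p + 1) / (q + 1)) - Real.log (oT U V p q 0)) := by
  set c := (p + 1) / (q + 1) with hc
  set C := (q + 1) * (c + N * (1 / a) * (2 / (q + 1))) + 2 * c with hC
  have hc1 : 1 < c := by rw [hc, lt_div_iff₀ (by linarith)]; linarith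
  have hC0 : 0 ≤ C / (q + 1) := by positivity
  have hI : ∀ x, 0 < x → x ≤ r → x ∈ Ioo 0 T := fun x h0 hxr => ⟨h0, hxr.trans_lt hr⟩
  have hst : ∀ x, 0 < x → x ≤ r → oSig U V U' V' x < oT U V p q x := fun x h0 hxr =>
    h.sig_lt_T hN hp hq hpq ht0 (hI x h0 hxr) fun y hy => hT y ⟨hy.1, hy.2.trans hxr⟩
  have hmon := mono_of_deriv
    (f := fun x => -oSig U V U' V' x + C / (q + 1) * Real.log (oT U V p q x)
      - c * (c - 1) * Real.log (V x))
    (f' := fun x => -(oEta V V' x / x) * (oSig U V U' V' x * (oSig U V U' V' x - 1)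
      - oR U V V' q x * (oT U V p q x - oSig U V U' V' x)
      + C * (c - oSig U V U' V' x) - c * (c - 1)))
    (fun x hx => by
      have hx0 : 0 < x := hr1.trans_le hx.1
      have hxI := hI x hx0 hx.2
      refine ((h.hasDerivAt_sig hN hxI).neg.add
        (((h.hasDerivAt_T hN hxI).log (h.T_pos' (Ioo_subset_Ico_self hxI)).ne').const_mul
          (C / (q + 1))) |>.sub
        (((h.derivV x hxI).log (h.v_pos hxI).ne').const_mul (c * (c - 1)))).congr_deriv ?_
      have := (h.T_pos' (p := p) (q := q) (Ioo_subset_Ico_self hxI)).ne'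
      have := (h.v_pos hxI).ne'
      have hq1 : q + 1 ≠ 0 := by linarith
      rw [show V' x = -(oEta V V' x * V x) / x by rw [oEta]; field_simp,
        show (p + 1 : ℝ) = c * (q + 1) by rw [hc]; field_simp]
      field_simp
      ring)
    (fun x hx => by
      have hx0 : 0 < x := hr1.trans hx.1
      have hxI := hI x hx0 hx.2.le
      refine mul_nonneg (neg_nonneg.2
        (div_nonpos_of_nonpos_of_nonneg (h.eta_neg hN hxI).le hx0.le)) ?_
      have h1 := hst x hx0 hx.2.le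
      have h2 := hT x ⟨hx0, hx.2.le⟩
      have h3 := h.R_le hN hp hq hxI ha (hη x (Ioo_subset_Icc_self hx)) (by linarith)
      have h4 := h.sig_pos hN hxI
      have h5 := mul_le_mul h3 (show oT U V p q x - oSig U V U' V' x ≤ c - oSig U V U' V' x by
        linarith) (by linarith) (le_trans (h.R_pos hN hxI).le h3)
      have h6 : 0 ≤ (c - oSig U V U' V' x) * (c + 1 - oSig U V U' V' x) :=
        mul_nonneg (by linarith) (by linarith)
      simp only [hC]
      linarith) hle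
  have h1 : C / (q + 1) * Real.log (oT U V p q r) ≤ C / (q + 1) * Real.log c :=
    mul_le_mul_of_nonneg_left
      (Real.log_le_log (h.T_pos' ⟨(hr1.trans_le hle).le, hr⟩) (hT r ⟨hr1.trans_le hle, le_rfl⟩)) hC0
  have h2 : C / (q + 1) * Real.log (oT U V p q 0) ≤ C / (q + 1) * Real.log (oT U V p q r1) := by
    refine mul_le_mul_of_nonneg_left (Real.log_le_log (h.T_pos' ⟨le_rfl, h.T_pos⟩) ?_) hC0
    exact (h.T_gt hN hp hq (hI r1 hr1 hle) fun x hx => (hst x hx.1 (hx.2.le.trans hle)).trans_le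
      (hT x ⟨hx.1, hx.2.le.trans hle⟩)).le
  have h3 : oSig U V U' V' r1 ≤ c :=
    (hst r1 hr1 hle).le.trans (hT r1 ⟨hr1, hle⟩)
  have h4 := (h.sig_pos hN (hI r (hr1.trans_le hle) le_rfl)).le
  linarith

end Vale.Agent.P100T.IsGrow
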