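import Vale.Agent.P100T.RadialFix
import Vale.Agent.P100T.GrowBound

/-! # The continued orbit reaches `t = (p+1)/(q+1)` -/

open Set Filter Topology MeasureTheory

noncomputable section

namespace Vale.Agent.P100T

/-- The slope of the growing clamped solution. -/
def gSlope (N δ M a : ℝ) (W : ℝ → ℝ) (r : ℝ) : ℝ := r * radAvg N (fun ρ => cpow δ M a (W ρ)) r

/-- The Pohozaev identity for growing solutions. -/
lemma grow_poho {N p q r : ℝ} {U V X Y : ℝ → ℝ} (hN : 2 < N) (hp : 0 < p) (hq : 0 < q)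
    (hcrit : N / (p + 1) + N / (q + 1) = N - 2) (hr : 0 < r)
    (cU : Continuous U) (cV : Continuous V) (cX : Continuous X) (cY : Continuous Y)
    (hpU : ∀ s ∈ Ioc 0 r, 0 < U s) (hpV : ∀ s ∈ Ioc 0 r, 0 < V s)
    (dU : ∀ s ∈ Ioc 0 r, HasDerivAt U (X s) s) (dV : ∀ s ∈ Ioc 0 r, HasDerivAt V (Y s) s)
    (dX : ∀ s ∈ Ioc 0 r, HasDerivAt X (-((N - 1) / s) * X s + V s ^ p) s)
    (dY : ∀ s ∈ Ioc 0 r, HasDerivAt Y (-((N - 1) / s) * Y s + U s ^ q) s) :
    r * (X r * Y r - V r ^ (p + 1) / (p + 1) - U r ^ (q + 1) / (q + 1))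
      + (N / (p + 1) * (X r * V r) + N / (q + 1) * (U r * Y r)) = 0 := by
  set θ₁ := N / (p + 1) with hθ₁
  set θ₂ := N / (q + 1) with hθ₂
  set S := fun r => X r * Y r - V r ^ (p + 1) / (p + 1) - U r ^ (q + 1) / (q + 1)
  set K := fun r => θ₁ * (X r * V r) + θ₂ * (U r * Y r)
  set Φ := fun r : ℝ => r ^ N * S r + r ^ (N - 1) * K r
  have hΦc : Continuous Φ := by
    refine ((Real.continuous_rpow_const (by linarith)).mul (((cX.mul cY).sub ?_).sub ?_)).add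
      ((Real.continuous_rpow_const (by linarith)).mul
        ((continuous_const.mul (cX.mul cV)).add (continuous_const.mul (cU.mul cY))))
    · exact (cV.rpow_const fun _ => Or.inr (by linarith)).div_const _
    · exact (cU.rpow_const fun _ => Or.inr (by linarith)).div_const _
  have hd : ∀ s ∈ Ioo 0 r, HasDerivAt Φ 0 s := by
    intro s hs
    have hsI := Ioo_subset_Ioc_self hs
    have hs0 := hpU s hsI
    have hs1 := hpV s hsI
    have hVp := ((dV s hsI).rpow_const (p := p + 1) (Or.inl hs1.ne')).div_const (p + 1)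
    have hUq := ((dU s hsI).rpow_const (p := q + 1) (Or.inl hs0.ne')).div_const (q + 1)
    have hS := (((dX s hsI).mul (dY s hsI)).sub hVp).sub hUq
    have hK := (((dX s hsI).mul (dV s hsI)).const_mul θ₁).add
      (((dU s hsI).mul (dY s hsI)).const_mul θ₂)
    have hr1 := Real.hasDerivAt_rpow_const (x := s) (p := N) (Or.inl hs.1.ne')
    have hr2 := Real.hasDerivAt_rpow_const (x := s) (p := N - 1) (Or.inl hs.1.ne')
    refine ((hr1.mul hS).add (hr2.mul hK)).congr_deriv ?_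
    have e1 : s ^ (N - 1 - 1) = s ^ (N - 1) / s := Real.rpow_sub_one hs.1.ne' _
    have e2 : s ^ N = s ^ (N - 1) * s := by
      rw [Real.rpow_sub_one hs.1.ne', div_mul_cancel₀ _ hs.1.ne']
    have e3 : V s ^ (p + 1) = V s ^ p * V s := Real.rpow_add_one hs1.ne' p
    have e4 : U s ^ (q + 1) = U s ^ q * U s := Real.rpow_add_one hs0.ne' q
    simp only [Pi.add_apply, Pi.sub_apply, Pi.mul_apply, add_sub_cancel_right, e1, e2, e3, e4,
      hθ₁, hθ₂]
    have := hs.1.ne'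
    have hp1 : p + 1 ≠ 0 := by linarith
    have hq1 : q + 1 ≠ 0 := by linarith
    refine Eq.trans (b := s ^ (N - 1) * (X s * Y s)
      * (N / (p + 1) + N / (q + 1) - N + 2)) ?_ (by rw [← hθ₁, ← hθ₂, hcrit]; ring)
    field_simp
    ring
  obtain ⟨w, -, hw⟩ := exists_hasDerivAt_eq_slope Φ (fun _ => 0) hr hΦc.continuousOn hd
  have : Φ r = Φ 0 := by
    rw [eq_comm, div_eq_zero_iff] at hw
    rcases hw with hw | hw <;> linarith
  rw [show Φ 0 = 0 by
    simp only [Φ, Real.zero_rpow (show N ≠ 0 by linarith),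
      Real.zero_rpow (show N - 1 ≠ 0 by linarith)]; ring] at this
  refine (mul_eq_zero.1 ?_).resolve_left (Real.rpow_pos_of_pos hr (N - 1)).ne'
  simp only [Φ, S, K] at this
  rw [show r ^ N = r ^ (N - 1) * r by
    rw [Real.rpow_sub_one hr.ne', div_mul_cancel₀ _ hr.ne']] at this
  linear_combination this

/-- A growing clamped solution on the half line. -/
def GSol (N p q δ M : ℝ) (d : ℝ × ℝ) (U V : ℝ → ℝ) : Prop :=
  Continuous U ∧ Continuous V ∧ ∀ r, 0 ≤ r →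
    U r = d.1 + dbl N (fun ρ => cpow δ M p (V ρ)) r ∧
    V r = d.2 + dbl N (fun ρ => cpow δ M q (U ρ)) r

namespace GSol

variable {N p q δ M : ℝ} {d : ℝ × ℝ} {U V : ℝ → ℝ}

lemma swap (h : GSol N p q δ M d U V) : GSol N q p δ M d.swap V U :=
  ⟨h.2.1, h.1, fun r hr => ⟨(h.2.2 r hr).2, (h.2.2 r hr).1⟩⟩

lemma init (h : GSol N p q δ M d U V) : U 0 = d.1 ∧ V 0 = d.2 := by
  simpa [dbl_zero] using h.2.2 0 le_rfl

lemma derivU (h : GSol N p q δ M d U V) (hN : 1 ≤ N) (hp : 0 ≤ p) {r : ℝ} (hr : 0 < r) :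
    HasDerivAt U (gSlope N δ M p V r) r := by
  refine ((hasDerivAt_dbl hN ((continuous_cpow (δ := δ) (M := M) hp).comp h.2.1) r).const_add
    d.1).congr_of_eventuallyEq ?_
  filter_upwards [Ioi_mem_nhds hr] with s hs
  exact (h.2.2 s (le_of_lt hs)).1

lemma monoU (h : GSol N p q δ M d U V) (hN : 1 ≤ N) (hp : 0 ≤ p) (hδ : 0 ≤ δ) {s r : ℝ}
    (hs : 0 ≤ s) (hsr : s ≤ r) : U s ≤ U r := by
  rcases hsr.eq_or_lt with rfl | hlt
  · exact le_rfl
  obtain ⟨w, hw, he⟩ := exists_hasDerivAt_eq_slope U (gSlope N δ M p V) hlt h.1.continuousOn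
    (fun x hx => h.derivU hN hp (hs.trans_lt hx.1))
  have hw0 : 0 ≤ w := hs.trans hw.1.le
  have hcc : Continuous fun ρ => cpow δ M p (V ρ) := (continuous_cpow hp).comp h.2.1
  have h0 := radAvg_ge (g := fun ρ => cpow δ M p (V ρ)) hN hcc hw0 (m := 0)
    fun ρ _ => cpow_nonneg hδ _
  rw [zero_div] at h0
  have h1 : 0 ≤ (U r - U s) / (r - s) := by rw [← he]; exact mul_nonneg hw0 h0
  rw [le_div_iff₀ (sub_pos.2 hlt)] at h1
  linarith

lemma geU (h : GSol N p q δ M d U V) (hN : 1 ≤ N) (hp : 0 ≤ p) (hδ : 0 ≤ δ) {r : ℝ} (hr : 0 ≤ r) :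
    d.1 ≤ U r :=
  h.init.1 ▸ h.monoU hN hp hδ le_rfl hr

lemma leU (h : GSol N p q δ M d U V) (hN : 1 ≤ N) (hp : 0 ≤ p) (hq : 0 ≤ q) (hδ : 0 ≤ δ)
    (hδd : δ ≤ d.2) {r m : ℝ} (hr : 0 ≤ r) (hm : V r ≤ m) (hmM : m ≤ M) :
    U r ≤ d.1 + m ^ p / N * (r ^ 2 / 2) := by
  rw [(h.2.2 r hr).1]
  have hcc : Continuous fun ρ => cpow δ M p (V ρ) := (continuous_cpow hp).comp h.2.1
  refine (add_le_add_iff_left _).2 (dbl_le hN hcc hr fun ρ hρ => ?_)
  have h1 := h.swap.monoU hN hq hδ hρ.1 hρ.2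
  have h2 := h.swap.geU hN hq hδ hρ.1
  simp only [Prod.fst_swap] at h2
  rw [cpow_eq (hδd.trans h2) (by linarith)]
  exact Real.rpow_le_rpow (by linarith) (by linarith) hp

/-- Below the clamping level this is a growing solution. -/
lemma isGrow (h : GSol N p q δ M d U V) (hN : 2 < N) (hp : 0 < p) (hq : 0 < q)
    (hcrit : N / (p + 1) + N / (q + 1) = N - 2) (hδ : 0 < δ) (hd1 : δ ≤ d.1) (hd2 : δ ≤ d.2)
    {T : ℝ} (hT : 0 < T) (hU : ∀ r ∈ Ico 0 T, U r ≤ M) (hV : ∀ r ∈ Ico 0 T, V r ≤ M) :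
    IsGrow N p q T U V (gSlope N δ M p V) (gSlope N δ M q U) := by
  have hN1 : 1 ≤ N := by linarith
  have hUl : ∀ r, 0 ≤ r → δ ≤ U r := fun r hr => hd1.trans (h.geU hN1 hp.le hδ.le hr)
  have hVl : ∀ r, 0 ≤ r → δ ≤ V r := fun r hr => hd2.trans (h.swap.geU hN1 hq.le hδ.le hr)
  have ce : ∀ {a : ℝ} {W : ℝ → ℝ}, (∀ r, 0 ≤ r → δ ≤ W r) → (∀ r ∈ Ico 0 T, W r ≤ M) →
      ∀ r ∈ Ico 0 T, cpow δ M a (W r) = W r ^ a :=
    fun h1 h2 r hr => cpow_eq (h1 r hr.1) (h2 r hr)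
  have cont : ∀ {a : ℝ} {W : ℝ → ℝ}, 0 ≤ a → Continuous W →
      Continuous fun ρ => cpow δ M a (W ρ) := fun ha hW => (continuous_cpow ha).comp hW
  have dslope : ∀ {a : ℝ} {W : ℝ → ℝ}, 0 ≤ a → Continuous W → (∀ r, 0 ≤ r → δ ≤ W r) →
      (∀ r ∈ Ico 0 T, W r ≤ M) → ∀ r ∈ Ioo 0 T, HasDerivAt (gSlope N δ M a W)
        (-((N - 1) / r) * gSlope N δ M a W r + W r ^ a) r := by
    intro a W ha hW h1 h2 r hr
    refine (hasDerivAt_mul_radAvg hN1 (cont ha hW) hr.1).congr_deriv ?_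
    simp only [gSlope, ce h1 h2 r (Ioo_subset_Ico_self hr)]
    ring
  have slope : ∀ {a : ℝ} {W : ℝ → ℝ}, 0 ≤ a → Continuous W → (∀ r, 0 ≤ r → δ ≤ W r) →
      (∀ r ∈ Ico 0 T, W r ≤ M) → (∀ {s r : ℝ}, 0 ≤ s → s ≤ r → W s ≤ W r) → ∀ r ∈ Ioo 0 T,
      r * W 0 ^ a / N ≤ gSlope N δ M a W r ∧ gSlope N δ M a W r ≤ r * W r ^ a / N := by
    intro a W ha hW h1 h2 hm r hr
    rw [mul_div_assoc, mul_div_assoc]
    have e : ∀ ρ ∈ Icc 0 r, cpow δ M a (W ρ) = W ρ ^ a :=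
      fun ρ hρ => ce h1 h2 ρ ⟨hρ.1, hρ.2.trans_lt hr.2⟩
    refine ⟨mul_le_mul_of_nonneg_left (radAvg_ge hN1 (cont ha hW) hr.1.le fun ρ hρ => ?_) hr.1.le,
      mul_le_mul_of_nonneg_left (radAvg_le hN1 (cont ha hW) hr.1.le fun ρ hρ => ?_) hr.1.le⟩
    · rw [e ρ hρ]; exact Real.rpow_le_rpow (hδ.le.trans (h1 0 le_rfl)) (hm le_rfl hρ.1) ha
    · rw [e ρ hρ]; exact Real.rpow_le_rpow (hδ.le.trans (h1 ρ hρ.1)) (hm hρ.1 hρ.2) ha
  exact
    { T_pos := hT
      contU := h.1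
      contV := h.2.1
      posU := fun r hr => hδ.trans_le (hUl r hr.1)
      posV := fun r hr => hδ.trans_le (hVl r hr.1)
      derivU := fun r hr => h.derivU hN1 hp.le hr.1
      derivV := fun r hr => h.swap.derivU hN1 hq.le hr.1
      derivU' := dslope hp.le h.2.1 hVl hV
      derivV' := dslope hq.le h.1 hUl hU
      slopeU := slope hp.le h.2.1 hVl hV (h.swap.monoU hN1 hq.le hδ.le)
      slopeV := slope hq.le h.1 hUl hU (h.monoU hN1 hp.le hδ.le)
      poho := fun r hr => grow_poho hN hp hq hcrit hr.1 h.1 h.2.1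
        (continuous_mul_radAvg hN1 (cont hp.le h.2.1)) (continuous_mul_radAvg hN1 (cont hq.le h.1))
        (fun s hs => hδ.trans_le (hUl s hs.1.le)) (fun s hs => hδ.trans_le (hVl s hs.1.le))
        (fun s hs => h.derivU hN1 hp.le hs.1) (fun s hs => h.swap.derivU hN1 hq.le hs.1)
        (fun s hs => dslope hp.le h.2.1 hVl hV s ⟨hs.1, hs.2.trans_lt hr.2⟩)
        (fun s hs => dslope hq.le h.1 hUl hU s ⟨hs.1, hs.2.trans_lt hr.2⟩) }

end GSol

/-- A continuous function has a first time at a level above its initial value. -/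
lemma exists_first {f : ℝ → ℝ} {x c : ℝ} (hx : 0 ≤ x) (hf : ContinuousOn f (Icc 0 x))
    (h0 : f 0 < c) (hxc : c ≤ f x) :
    ∃ s ∈ Ioc 0 x, f s = c ∧ ∀ y ∈ Ico 0 s, f y < c := by
  set S := Icc 0 x ∩ f ⁻¹' Ici c
  have hS : IsClosed S := hf.preimage_isClosed_of_isClosed isClosed_Icc isClosed_Ici
  have hne : S.Nonempty := ⟨x, ⟨hx, le_rfl⟩, hxc⟩
  have hbdd : BddBelow S := ⟨0, fun y hy => hy.1.1⟩
  obtain ⟨hsI, hsc⟩ := hS.csInf_mem hne hbdd
  set s := sInf S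
  have hs0 : 0 < s := hsI.1.lt_of_ne fun e => absurd (show c ≤ f s from hsc) (by rw [← e]; linarith)
  have hlt : ∀ y ∈ Ico 0 s, f y < c := fun y hy => by
    by_contra hge
    push Not at hge
    exact absurd (csInf_le hbdd ⟨⟨hy.1, hy.2.le.trans hsI.2⟩, hge⟩) (not_le.2 hy.2)
  refine ⟨s, ⟨hs0, hsI.2⟩, le_antisymm ?_ hsc, hlt⟩
  have : (𝓝[Ico 0 s] s).NeBot :=
    mem_closure_iff_nhdsWithin_neBot.1 (by rw [closure_Ico hs0.ne]; exact ⟨hs0.le, le_rfl⟩)
  exact le_of_tendsto ((hf s hsI).mono_left (nhdsWithin_mono s fun y hy =>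
    ⟨hy.1, hy.2.le.trans hsI.2⟩)) (eventually_of_mem self_mem_nhdsWithin fun y hy => (hlt y hy).le)

/-- A level such that, if `V` stays below it, `U, V` stay below `2 max`, on a short interval. -/
lemma first_phase {N p q δ M M0 r1 : ℝ} {d : ℝ × ℝ} {U V : ℝ → ℝ} (h : GSol N p q δ M d U V)
    (hN : 1 ≤ N) (hp : 0 ≤ p) (hq : 0 ≤ q) (hδ : 0 ≤ δ) (hd1 : δ ≤ d.1) (hd2 : δ ≤ d.2)
    (h1 : d.1 < M0) (h2 : d.2 < M0) (hr1 : 0 ≤ r1) (hM : M0 ≤ M)
    (hb1 : d.1 + M0 ^ p / N * (r1 ^ 2 / 2) < M0) (hb2 : d.2 + M0 ^ q / N * (r1 ^ 2 / 2) < M0) :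
    U r1 ≤ M0 ∧ V r1 ≤ M0 := by
  by_contra hcon
  have hge : M0 ≤ max (U r1) (V r1) := by
    by_contra hlt
    push Not at hlt
    exact hcon ⟨(le_max_left _ _).trans hlt.le, (le_max_right _ _).trans hlt.le⟩
  obtain ⟨s, hs, hse, -⟩ := exists_first (f := fun r => max (U r) (V r)) hr1
    (h.1.max h.2.1).continuousOn (by simp only [h.init.1, h.init.2]; exact max_lt h1 h2) hge
  have hM0p : 0 ≤ M0 := by linarith
  have hsq : s ^ 2 / 2 ≤ r1 ^ 2 / 2 :=
    div_le_div_of_nonneg_right (pow_le_pow_left₀ hs.1.le hs.2 2) two_pos.le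
  have a1 := h.leU hN hp hq hδ hd2 hs.1.le (hse ▸ le_max_right (U s) (V s)) hM
  have a2 := h.swap.leU hN hq hp hδ hd1 hs.1.le (hse ▸ le_max_left (U s) (V s)) hM
  have b1 := mul_le_mul_of_nonneg_left hsq (show 0 ≤ M0 ^ p / N by positivity)
  have b2 := mul_le_mul_of_nonneg_left hsq (show 0 ≤ M0 ^ q / N by positivity)
  simp only [Prod.fst_swap] at a2
  exact absurd hse (ne_of_lt (max_lt (by linarith) (by linarith)))

/-- If `t` stays below `(p+1)/(q+1)`, then `U, V` are bounded independently of the clamping. -/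
lemma exists_uniform_bound {N p q : ℝ} (hN : 2 < N) (hp : 0 < p) (hq : 0 < q) (hpq : q < p)
    (hcrit : N / (p + 1) + N / (q + 1) = N - 2) {d : ℝ × ℝ} (h1 : 0 < d.1) (h2 : 0 < d.2)
    (ht0 : d.2 ^ (p + 1) / d.1 ^ (q + 1) ≤ (p + 1) / (q + 1)) :
    ∃ K, max d.1 d.2 < K ∧ ∀ M U V, K ≤ M → GSol N p q (min d.1 d.2 / 2) M d U V → ∀ r, 0 ≤ r →
      U r < M → V r < M → (∀ x ∈ Ioc 0 r, oT U V p q x ≤ (p + 1) / (q + 1)) →
      U r ≤ K ∧ V r ≤ K := by
  have hN0 : 0 < N := by linarith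
  have hN1 : 1 ≤ N := by linarith
  have hpq1 : 1 < p * q := IsGround.pq_gt hN hp hq hcrit
  set c := (p + 1) / (q + 1) with hc
  have hc1 : 1 < c := by rw [hc, lt_div_iff₀ (by linarith)]; linarith
  have hκ : 0 < c * (c - 1) := mul_pos (by linarith) (by linarith)
  set m := min d.1 d.2 with hm
  have hm0 : 0 < m := lt_min h1 h2
  set M0 := 2 * max d.1 d.2 with hM0
  have hM00 : 0 < M0 := by rw [hM0]; positivity
  set r1 := min 1 (N * m / (M0 ^ p + M0 ^ q)) with hr1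
  have hr10 : 0 < r1 := by rw [hr1]; positivity
  have hsq : ∀ {k : ℝ}, 0 ≤ k → k ≤ M0 ^ p + M0 ^ q → k / N * (r1 ^ 2 / 2) ≤ m / 2 := by
    intro k hk0 hk
    have e1 : r1 ^ 2 ≤ N * m / (M0 ^ p + M0 ^ q) := by
      calc r1 ^ 2 = r1 * r1 := sq r1
        _ ≤ 1 * (N * m / (M0 ^ p + M0 ^ q)) :=
            mul_le_mul (min_le_left _ _) (min_le_right _ _) hr10.le zero_le_one
        _ = _ := one_mul _
    rw [le_div_iff₀ (by positivity)] at e1
    rw [div_mul_eq_mul_div, div_le_div_iff₀ hN0 two_pos]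
    linarith [mul_le_mul_of_nonneg_right hk (sq_nonneg r1)]
  set θ := r1 ^ 2 * Real.exp (((p * q - 1) * Real.log d.2 - q * Real.log c) / (q + 1)) with hθ
  have hθ0 : 0 < θ := by positivity
  set a := min (min 1 (r1 ^ 2 * d.1 ^ q / (N * M0))) (θ / (2 * (N - 1))) with ha
  have ha0 : 0 < a :=
    lt_min (lt_min one_pos (by positivity)) (div_pos hθ0 (by linarith))
  have haθ : (N - 1) * a < θ := by
    have := mul_le_mul_of_nonneg_left (min_le_right (min 1 (r1 ^ 2 * d.1 ^ q / (N * M0)))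
      (θ / (2 * (N - 1)))) (show 0 ≤ N - 1 by linarith)
    rw [← ha, mul_div_assoc'] at this
    refine this.trans_lt ?_
    rw [div_lt_iff₀ (by linarith)]
    nlinarith
  set t0 := d.2 ^ (p + 1) / d.1 ^ (q + 1) with ht0'
  have ht00 : 0 < t0 := by positivity
  set Vs := Real.exp ((c * (c - 1) * Real.log M0 + c
    + ((q + 1) * (c + N * (1 / a) * (2 / (q + 1))) + 2 * c) / (q + 1)
      * (Real.log c - Real.log t0)) / (c * (c - 1))) with hVs
  set Us := (Vs ^ (p + 1) / t0) ^ (1 / (q + 1)) with hUs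
  have hUs0 : 0 ≤ Us := by rw [hUs]; positivity
  refine ⟨M0 + Us + Vs, ?_, fun M U V hKM h r hr hUM hVM hT => ?_⟩
  · have : 0 < Vs := Real.exp_pos _
    have : max d.1 d.2 < M0 := by rw [hM0]; linarith [h1, le_max_left d.1 d.2]
    linarith
  have hVs0 : 0 < Vs := Real.exp_pos _
  have hδ : 0 < m / 2 := by linarith
  have hd1 : m / 2 ≤ d.1 := by linarith [min_le_left d.1 d.2]
  have hd2 : m / 2 ≤ d.2 := by linarith [min_le_right d.1 d.2]
  have hmU := fun {s r : ℝ} (hs : 0 ≤ s) => h.monoU hN1 hp.le hδ.le hs (r := r)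
  have hmV := fun {s r : ℝ} (hs : 0 ≤ s) => h.swap.monoU hN1 hq.le hδ.le hs (r := r)
  have hph : U r1 ≤ M0 ∧ V r1 ≤ M0 := first_phase h hN1 hp.le hq.le hδ.le hd1 hd2
    (by linarith [le_max_left d.1 d.2]) (by linarith [le_max_right d.1 d.2]) hr10.le (by linarith)
    (by linarith [hsq (k := M0 ^ p) (by positivity) (by linarith [Real.rpow_nonneg hM00.le q]),
      le_max_left d.1 d.2, min_le_left d.1 d.2])
    (by linarith [hsq (k := M0 ^ q) (by positivity) (by linarith [Real.rpow_nonneg hM00.le p]),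
      le_max_right d.1 d.2, min_le_right d.1 d.2])
  rcases le_or_gt r r1 with hle | hlt
  · have := hmU hr hle; have := hmV hr hle
    constructor <;> linarith [hph.1, hph.2]
  have hr0 : 0 < r := hr10.trans hlt
  obtain ⟨u, hu, hball⟩ := Metric.eventually_nhds_iff.1
    (((h.1.tendsto r).eventually (eventually_le_nhds hUM)).and
      ((h.2.1.tendsto r).eventually (eventually_le_nhds hVM)))
  have hT' : ∀ x ∈ Ico 0 (r + u), U x ≤ M ∧ V x ≤ M := by
    intro x hx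
    rcases le_or_gt x r with hxr | hxr
    · exact ⟨(hmU hx.1 hxr).trans hUM.le, (hmV hx.1 hxr).trans hVM.le⟩
    · exact hball (by rw [Real.dist_eq, abs_of_pos (by linarith)]; linarith [hx.2])
  have hg := h.isGrow hN hp hq hcrit hδ hd1 hd2 (T := r + u) (by linarith)
    (fun x hx => (hT' x hx).1) (fun x hx => (hT' x hx).2)
  have hI : r1 ∈ Ioo 0 (r + u) := ⟨hr10, by linarith⟩
  have hT0 : oT U V p q 0 = t0 := by rw [oT, h.init.1, h.init.2]
  have hη1 : a ≤ -oEta V (gSlope N (m / 2) M q U) r1 := by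
    refine (min_le_left _ _).trans ((min_le_right _ _).trans ?_)
    have e1 := (hg.slopeV r1 hI).1
    rw [h.init.1] at e1
    have e2 := hg.v_pos hI
    rw [oEta, ← neg_div, neg_neg, div_le_div_iff₀ (by positivity) e2]
    have e3 := mul_le_mul_of_nonneg_left hph.2 (show 0 ≤ r1 ^ 2 * d.1 ^ q by positivity)
    rw [div_le_iff₀ hN0] at e1
    have e4 := mul_le_mul_of_nonneg_left e1 (show 0 ≤ r1 * M0 by positivity)
    linarith
  have hη : ∀ x ∈ Icc r1 r, a ≤ -oEta V (gSlope N (m / 2) M q U) x := fun x hx =>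
    hg.eta_ge hr10 hx.1 (hx.2.trans_lt (by linarith)) ha0
      ((min_le_left _ _).trans (min_le_left _ _)) haθ (fun y hy => by
        have := hg.theta_ge hN0 hq hpq1 hr10 hy.1
          ⟨hr10.trans_le hy.1, (hy.2.trans hx.2).trans_lt (by linarith)⟩
          (hT y ⟨hr10.trans_le hy.1, hy.2.trans hx.2⟩)
        rwa [h.init.2] at this) hη1
  have hb := hg.log_bound hN0 hp hq hpq hr10 hlt.le (by linarith) ha0 (by rw [hT0]; exact ht0) hT hη
  rw [hT0] at hb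
  have hV0 := hg.v_pos (r := r) ⟨hr0, by linarith⟩
  have hU0 := hg.u_pos (r := r) ⟨hr0, by linarith⟩
  have hVb : V r ≤ Vs := by
    rw [hVs, ← Real.log_le_iff_le_exp hV0, le_div_iff₀ hκ]
    have := mul_le_mul_of_nonneg_left (Real.log_le_log (hg.v_pos hI) hph.2) hκ.le
    linarith
  refine ⟨?_, by linarith⟩
  have ht : t0 ≤ oT U V p q r := by
    rw [← hT0]
    exact (hg.T_gt hN0 hp hq ⟨hr0, by linarith⟩ fun x hx => (hg.sig_lt_T hN0 hp hq hpq
      (by rw [hT0]; exact ht0) ⟨hx.1, hx.2.trans (by linarith)⟩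
      fun y hy => hT y ⟨hy.1, hy.2.trans hx.2.le⟩).trans_le (hT x ⟨hx.1, hx.2.le⟩)).le
  rw [oT, le_div_iff₀ (by positivity)] at ht
  have e1 : U r ^ (q + 1) ≤ Vs ^ (p + 1) / t0 := by
    rw [le_div_iff₀ ht00]
    linarith [Real.rpow_le_rpow hV0.le hVb (show 0 ≤ p + 1 by linarith)]
  have e2 := Real.rpow_le_rpow (by positivity) e1 (one_div_nonneg.2 (show 0 ≤ q + 1 by linarith))
  rw [← Real.rpow_mul hU0.le, mul_one_div_cancel (by linarith), Real.rpow_one] at e2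
  linarith

/-- The growing solution reaches `t = (p+1)/(q+1)`, with `1 < σ < t` and `t` increasing. -/
theorem exists_grow {N p q u0 v0 : ℝ} (hN : 2 < N) (hp : 0 < p) (hq : 0 < q) (hpq : q < p)
    (hcrit : N / (p + 1) + N / (q + 1) = N - 2) (hu : 0 < u0) (hv : 0 < v0)
    (ht1 : 1 ≤ v0 ^ (p + 1) / u0 ^ (q + 1))
    (ht : v0 ^ (p + 1) / u0 ^ (q + 1) < (p + 1) / (q + 1)) :
    ∃ T U V U' V', IsGrow N p q T U V U' V' ∧ U 0 = u0 ∧ V 0 = v0 ∧
      (∀ x ∈ Ioo 0 T, U' x = x * radAvg N (fun ρ => V ρ ^ p) x ∧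
        V' x = x * radAvg N (fun ρ => U ρ ^ q) x) ∧
      (∀ x ∈ Ioo 0 T, 1 < oSig U V U' V' x ∧ oSig U V U' V' x < oT U V p q x ∧
        oSig U V U' V' x < (p + 1) / (q + 1) ∧ oT U V p q 0 < oT U V p q x) ∧
      ∃ rb ∈ Ioo 0 T, oT U V p q rb = (p + 1) / (q + 1) := by
  set c := (p + 1) / (q + 1) with hc
  have hN0 : 0 < N := by linarith
  have hN1 : 1 ≤ N := by linarith
  set d : ℝ × ℝ := (u0, v0) with hd
  obtain ⟨K, hK, hbound⟩ := exists_uniform_bound (d := d) hN hp hq hpq hcrit hu hv ht.le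
  set δ := min d.1 d.2 / 2 with hδ
  have hδ0 : 0 < δ := half_pos (lt_min hu hv)
  have hd1 : δ ≤ d.1 := by linarith [min_le_left d.1 d.2]
  have hd2 : δ ≤ d.2 := by linarith [min_le_right d.1 d.2]
  set M := K + 1 with hM
  have hδM : δ ≤ M := by linarith [le_max_left d.1 d.2]
  obtain ⟨L1, hL1, hf⟩ := cpow_lip (p := p) hδ0 hδM
  obtain ⟨L2, hL2, hg⟩ := cpow_lip (p := q) hδ0 hδM
  have hM0 : 0 ≤ M := hδ0.le.trans hδM
  obtain ⟨U, V, hUc, hVc, hsol⟩ := exists_radial_fix (L := L1 + L2) (B := M ^ p + M ^ q) hN1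
    (by positivity) (by positivity) (continuous_cpow hp.le) (continuous_cpow hq.le)
    (fun x => by
      rw [abs_of_nonneg (cpow_nonneg hδ0.le x)]
      linarith [cpow_le hδ0.le hδM hp.le x, Real.rpow_nonneg hM0 q])
    (fun x => by
      rw [abs_of_nonneg (cpow_nonneg hδ0.le x)]
      linarith [cpow_le hδ0.le hδM hq.le x, Real.rpow_nonneg hM0 p])
    (fun x y => (hf x y).trans (mul_le_mul_of_nonneg_right (by linarith) (abs_nonneg _)))
    (fun x y => (hg x y).trans (mul_le_mul_of_nonneg_right (by linarith) (abs_nonneg _))) d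
  have h : GSol N p q δ M d U V := ⟨hUc, hVc, hsol⟩
  have hT0 : oT U V p q 0 = v0 ^ (p + 1) / u0 ^ (q + 1) := by rw [oT, h.init.1, h.init.2]
  have hUpos : ∀ r, 0 ≤ r → 0 < U r := fun r hr =>
    hδ0.trans_le (hd1.trans (h.geU hN1 hp.le hδ0.le hr))
  have hVpos : ∀ r, 0 ≤ r → 0 < V r := fun r hr =>
    hδ0.trans_le (hd2.trans (h.swap.geU hN1 hq.le hδ0.le hr))
  have hmU := fun {s r : ℝ} (hs : 0 ≤ s) => h.monoU hN1 hp.le hδ0.le hs (r := r)
  have hmV := fun {s r : ℝ} (hs : 0 ≤ s) => h.swap.monoU hN1 hq.le hδ0.le hs (r := r)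
  obtain ⟨x, hx, hxU, hxV, hxc⟩ : ∃ x, 0 ≤ x ∧ U x < M ∧ V x < M ∧ c ≤ oT U V p q x := by
    by_contra hcon
    push Not at hcon
    have hle : ∀ r, 0 ≤ r → U r < M → V r < M → U r ≤ K ∧ V r ≤ K := fun r hr hU hV =>
      hbound M U V (by linarith) h r hr hU hV fun y hy => (hcon y hy.1.le
        ((hmU hy.1.le hy.2).trans_lt hU) ((hmV hy.1.le hy.2).trans_lt hV)).le
    have hall : ∀ r, 0 ≤ r → V r ≤ K := by
      intro r hr
      have hlt : max (U r) (V r) < K + 1 / 2 := by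
        by_contra hge
        push Not at hge
        obtain ⟨s, hs, hse, -⟩ := exists_first (f := fun r => max (U r) (V r)) hr
          (hUc.max hVc).continuousOn
          (by simp only [h.init.1, h.init.2]; linarith) hge
        have a1 := le_max_left (U s) (V s)
        have a2 := le_max_right (U s) (V s)
        rw [show max (U s) (V s) = K + 1 / 2 from hse] at a1 a2
        obtain ⟨b1, b2⟩ := hle s hs.1.le (by linarith) (by linarith)
        linarith [max_le b1 b2, show max (U s) (V s) = K + 1 / 2 from hse]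
      exact (hle r hr (by linarith [le_max_left (U r) (V r)])
        (by linarith [le_max_right (U r) (V r)])).2
    set r := Real.sqrt (2 * N * (K + 1) / δ ^ q)
    have hr2 : r ^ 2 = 2 * N * (K + 1) / δ ^ q := Real.sq_sqrt (by
      have : 0 < K := lt_trans (lt_max_of_lt_left hu) hK
      positivity)
    have hb := dbl_ge (g := fun ρ => cpow δ M q (U ρ)) hN1 ((continuous_cpow hq.le).comp hUc)
      (Real.sqrt_nonneg (2 * N * (K + 1) / δ ^ q)) (m := δ ^ q)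
      fun ρ _ => Real.rpow_le_rpow hδ0.le (le_max_left _ _) hq.le
    rw [hr2] at hb
    have e : δ ^ q / N * (2 * N * (K + 1) / δ ^ q / 2) = K + 1 := by
      have := (Real.rpow_pos_of_pos hδ0 q).ne'
      field_simp
    linarith [(hsol r (Real.sqrt_nonneg _)).2, hall r (Real.sqrt_nonneg _)]
  have htc : ContinuousOn (oT U V p q) (Icc 0 x) := fun y hy =>
    (((hVc.continuousAt).rpow_const (Or.inl (hVpos y hy.1).ne')).div
      ((hUc.continuousAt).rpow_const (Or.inl (hUpos y hy.1).ne'))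
      (Real.rpow_pos_of_pos (hUpos y hy.1) _).ne').continuousWithinAt
  obtain ⟨s, hs, hse, hsl⟩ := exists_first hx htc (by rw [hT0]; exact ht) hxc
  obtain ⟨u, hu0, hball⟩ := Metric.eventually_nhds_iff.1
    (((hUc.tendsto s).eventually (eventually_le_nhds ((hmU hs.1.le hs.2).trans_lt hxU))).and
      ((hVc.tendsto s).eventually (eventually_le_nhds ((hmV hs.1.le hs.2).trans_lt hxV))))
  have hM' : ∀ y ∈ Ico 0 (s + u), U y ≤ M ∧ V y ≤ M := by
    intro y hy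
    rcases le_or_gt y s with hys | hys
    · exact ⟨(hmU hy.1 (hys.trans hs.2)).trans hxU.le, (hmV hy.1 (hys.trans hs.2)).trans hxV.le⟩
    · exact hball (by rw [Real.dist_eq, abs_of_pos (by linarith)]; linarith [hy.2])
  have hgr := h.isGrow hN hp hq hcrit hδ0 hd1 hd2 (T := s + u) (by linarith [hs.1])
    (fun y hy => (hM' y hy).1) (fun y hy => (hM' y hy).2)
  set U' := gSlope N δ M p V
  set V' := gSlope N δ M q U
  have hsT : ∀ y ∈ Ioc 0 s, oSig U V U' V' y < oT U V p q y ∧ 1 < oSig U V U' V' y := by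
    have hst : ∀ y ∈ Ioc 0 s, oSig U V U' V' y < oT U V p q y := fun y hy =>
      hgr.sig_lt_T hN0 hp hq hpq (by rw [hT0]; exact ht.le) ⟨hy.1, by linarith [hy.2]⟩ fun z hz => by
        rcases (hz.2.trans hy.2).eq_or_lt with e | e
        · rw [e, hse]
        · exact (hsl z ⟨hz.1.le, e⟩).le
    exact fun y hy => ⟨hst y hy, hgr.one_lt_sig hN0 hp hq ⟨hy.1, by linarith [hy.2]⟩
      (by rw [hT0]; exact ht1) fun z hz => hst z ⟨hz.1, hz.2.trans hy.2⟩⟩
  have hcs := hsT s ⟨hs.1, le_rfl⟩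
  have hsI : s ∈ Ioo 0 (s + u) := ⟨hs.1, by linarith⟩
  have c1 := (hgr.hasDerivAt_sig hN0 hsI).continuousAt
  have c2 := (hgr.hasDerivAt_T hN0 hsI).continuousAt
  obtain ⟨w, hw, hball'⟩ := Metric.eventually_nhds_iff.1
    ((((c2.sub c1).eventually (eventually_gt_nhds (sub_pos.2 hcs.1))).and
      (c1.eventually (eventually_gt_nhds hcs.2))).and
      (c1.eventually (eventually_lt_nhds (show oSig U V U' V' s < c by linarith [hcs.1]))))
  set T := s + min u w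
  have hTs : s < T := lt_add_of_pos_right _ (lt_min hu0 hw)
  have hTu : T ≤ s + u := (add_le_add_iff_left s).2 (min_le_left _ _)
  have hall : ∀ y ∈ Ioo 0 T,
      1 < oSig U V U' V' y ∧ oSig U V U' V' y < oT U V p q y ∧ oSig U V U' V' y < c := by
    intro y hy
    rcases le_or_gt y s with hys | hys
    · obtain ⟨a1, a2⟩ := hsT y ⟨hy.1, hys⟩
      refine ⟨a2, a1, ?_⟩
      rcases hys.eq_or_lt with e | e
      · rw [e] at a1 ⊢; linarith
      · linarith [hsl y ⟨hy.1.le, e⟩]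
    · obtain ⟨⟨b1, b2⟩, b3⟩ := hball' (y := y) (by
        rw [Real.dist_eq, abs_of_pos (by linarith)]
        linarith [hy.2, min_le_right u w])
      exact ⟨b2, by simpa [sub_pos] using b1, b3⟩
  have hsub := hgr.mono (hs.1.trans hTs) hTu
  refine ⟨T, U, V, U', V', hsub, h.init.1, h.init.2, fun y hy => ?_, fun y hy => ?_, s, ⟨hs.1, hTs⟩, hse⟩
  · have hM'' : ∀ ρ ∈ Icc 0 y, U ρ ≤ M ∧ V ρ ≤ M := fun ρ hρ =>
      hM' ρ ⟨hρ.1, (hρ.2.trans_lt hy.2).trans_le hTu⟩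
    exact ⟨congrArg (y * ·) (radAvg_congr hy.1.le fun ρ hρ =>
        cpow_eq (hd2.trans (h.swap.geU hN1 hq.le hδ0.le hρ.1)) (hM'' ρ hρ).2),
      congrArg (y * ·) (radAvg_congr hy.1.le fun ρ hρ =>
        cpow_eq (hd1.trans (h.geU hN1 hp.le hδ0.le hρ.1)) (hM'' ρ hρ).1)⟩
  · obtain ⟨a1, a2, a3⟩ := hall y hy
    exact ⟨a1, a2, a3, hsub.T_gt hN0 hp hq hy fun z hz => (hall z ⟨hz.1, hz.2.trans hy.2⟩).2.2⟩

end Vale.Agent.P100T
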