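import Vale.Agent.P100T.IneqIIIScale
import Vale.Agent.P100T.IneqIIICertU
import Vale.Agent.P100T.IneqIIICertZA
import Vale.Agent.P100T.IneqIIICertZB
import Vale.Agent.P100T.IneqIIICertZC
import Vale.Agent.P100T.IneqIIICertZD
import Vale.Agent.P100T.IneqIIICertLA
import Vale.Agent.P100T.IneqIIICertLB
import Vale.Agent.P100T.IneqIIICertLC
import Vale.Agent.P100T.IneqIIICertLD
import Vale.Agent.P100T.LowerLine
import Vale.Agent.P100T.Barrier

/-!
Inequality (iii), `P₁² < 4 P₂ P₀`, when `σ∞ > 1`, for every `N ≥ 6` outside the corner, on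
`σ∞ < σ ≤ s₂`, `max 0 (k (σ - σm)) ≤ W ≤ U`.
-/

noncomputable section

namespace Vale.Agent.P100T.Ineq3

open PosCheck Box

/-- The offset bound used with the four ranges. -/
def gUp (N L : ℝ) : ℝ :=
  if L ≤ (N - 2) / 4 ∧ 2 ≤ L then 16 * L ^ 2 / (48 * N ^ 2 + N * L ^ 2) else L ^ 2 / (3 * N ^ 2)

/-- The condition of lying outside the corner, in scale-free variables. -/
def Cov (N L : ℝ) : Prop :=
  N - 4 < L ∨ (N - 1) * (N - 2) ^ 2 * L ≤ N * (L + N) * ((N - 3) * L - 2)

lemma cov_low {N L : ℝ} (hN : 6 ≤ N) (hL0 : 0 < L) (hc : Cov N L) :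
    73 / 100 ≤ L ∧ (N < 10 → 11 / 10 ≤ L) := by
  rcases hc with h | h
  · exact ⟨by linarith, fun _ => by linarith⟩
  constructor
  · by_contra hl
    push Not at hl
    nlinarith [mul_pos hL0 (sub_pos.2 hl), mul_pos (mul_pos hL0 (sub_pos.2 hl))
      (by linarith : (0:ℝ) < N), sq_nonneg (N - 10), mul_nonneg (sub_nonneg.2 hN) (sub_pos.2 hl).le,
      mul_nonneg (mul_nonneg (sub_nonneg.2 hN) (sub_nonneg.2 hN)) (sub_pos.2 hl).le]
  · intro h10
    by_contra hl
    push Not at hl
    nlinarith [mul_pos hL0 (sub_pos.2 hl), mul_pos (mul_pos hL0 (sub_pos.2 hl))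
      (by linarith : (0:ℝ) < N), mul_pos (sub_pos.2 h10) (sub_pos.2 hl),
      mul_nonneg (sub_nonneg.2 hN) (sub_pos.2 hl).le, mul_nonneg (sub_nonneg.2 hN) (sub_pos.2 h10).le,
      mul_nonneg (mul_nonneg (sub_nonneg.2 hN) (sub_nonneg.2 hN)) (sub_pos.2 hl).le]

/-- A range with its certificates, at the offset `gn/gd`. -/
structure Range (r : Ex × Ex × Ex) (g : Ex × Ex) (N L gv X Y : ℝ) : Prop where
  hX : 0 ≤ X
  hY : 0 ≤ Y
  eN : ∀ Z, r.1.eval X Y Z = N
  hLd : ∀ Z, 0 < r.2.2.eval X Y Z
  eL : ∀ Z, r.2.1.eval X Y Z = L * r.2.2.eval X Y Z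
  hgd : ∀ Z, 0 < g.2.eval X Y Z
  eg : ∀ Z, g.1.eval X Y Z = gv * g.2.eval X Y Z
  cL : (above r g).okL = true
  cZ : (below r g).ok0 = true
  cU : (full r).okU = true

variable {r : Ex × Ex × Ex} {g : Ex × Ex} {N L gv X Y s : ℝ}

/-- The three endpoint inequalities on a range. -/
theorem Range.ends (R : Range r g N L gv X Y) (hN : 6 ≤ N) (hL0 : 0 < L) (hL : L < N - 2)
    (hg0 : 0 ≤ gv) (hs0 : 0 < s) (hs1 : s ≤ 1) :
    (s ≤ gv → 0 < (base3 N L (th2 N L * s) 0).quad) ∧
    (gv < s → 0 < (base3 N L (th2 N L * s) (wLR N L gv s)).quad) ∧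
    0 < (base3 N L (th2 N L * s) (wUR N L s)).quad := by
  have hts : th2 N L * s < 1 := by
    obtain ⟨ht0, ht1⟩ := th2_lt_one (N := N) (by linarith) hL0 hL
    exact (mul_le_mul_of_nonneg_left hs1 ht0.le).trans_lt (by linarith)
  refine ⟨fun h => ?_, fun h => ?_, ?_⟩
  · have H : At (below r g) X Y (gv / s - 1) N L s gv := by
      have hz : 0 ≤ gv / s - 1 := by rw [sub_nonneg, one_le_div hs0]; exact h
      refine ⟨R.hX, R.hY, hz, hN, hL0, hL, hs0.le, hts, R.eN _, R.hLd _, R.eL _, ?_, ?_, R.hgd _,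
        R.eg _⟩
      · simp only [below, z1, ni, Ex.eval]; exact mul_pos (R.hgd _) (by push_cast; linarith)
      · simp only [below, z1, ni, Ex.eval, R.eg]; push_cast; field_simp; ring
    have := H.quad_pos _ R.cZ
    simpa [RQ.val_of, ni, Ex.eval] using this
  · have hz : 0 ≤ (1 - s) / (s - gv) := div_nonneg (by linarith) (by linarith)
    have H : At (above r g) X Y ((1 - s) / (s - gv)) N L s gv := by
      refine ⟨R.hX, R.hY, hz, hN, hL0, hL, hs0.le, hts, R.eN _, R.hLd _, R.eL _, ?_, ?_, R.hgd _,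
        R.eg _⟩
      · simp only [above, z1, ni, Ex.eval]; exact mul_pos (R.hgd _) (by push_cast; linarith)
      · simp only [above, z1, ni, Ex.eval, R.eg]; push_cast
        have : s - gv ≠ 0 := by linarith
        field_simp; ring
    have := H.quad_pos _ R.cL
    rwa [H.wL_eval] at this
  · have H : At (full r) X Y (1 / s - 1) N L s 0 := by
      have hz : 0 ≤ 1 / s - 1 := by rw [sub_nonneg, one_le_div hs0]; exact hs1
      refine ⟨R.hX, R.hY, hz, hN, hL0, hL, hs0.le, hts, R.eN _, R.hLd _, R.eL _, ?_, ?_, ?_, ?_⟩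
      · simp only [full, z1, ni, Ex.eval]; push_cast; linarith [one_div_pos.2 hs0]
      · simp only [full, z1, ni, Ex.eval]; push_cast; field_simp; ring
      · simp [full, ni, Ex.eval]
      · simp [full, ni, Ex.eval]
    have := H.quad_pos _ R.cU
    rwa [H.wU_eval] at this

theorem exists_range (hN : 6 ≤ N) (hL0 : 0 < L) (hL : L < N - 2) (hc : Cov N L) :
    ∃ r g X Y, Range r g N L (gUp N L) X Y := by
  obtain ⟨hlo, hlo'⟩ := cov_low hN hL0 hc
  rcases lt_or_ge L 2 with h2 | h2
  · have eg : gUp N L = L ^ 2 / (3 * N ^ 2) := by rw [gUp, if_neg (by intro h; linarith [h.2])]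
    rcases lt_or_ge L (11 / 10) with h1 | h1
    · have h10 : 10 ≤ N := by by_contra h; linarith [hlo' (by linarith)]
      refine ⟨rA, gH rA, N - 10, (100 * L - 73) / (110 - 100 * L), by linarith,
        div_nonneg (by linarith) (by linarith), ?_, ?_, ?_, ?_, ?_, certL_A, certZ_A, certU_A⟩ <;>
        intro Z <;> simp only [rA, gH, lin, y1, ni, Ex.eval, eg] <;> push_cast
      · ring
      · have : 0 < 110 - 100 * L := by linarith
        have : 0 ≤ (100 * L - 73) / (110 - 100 * L) := div_nonneg (by linarith) (by linarith)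
        linarith
      · have : 110 - 100 * L ≠ 0 := by linarith
        field_simp; ring
      · have : 0 ≤ (100 * L - 73) / (110 - 100 * L) := div_nonneg (by linarith) (by linarith)
        positivity
      · have : 110 - 100 * L ≠ 0 := by linarith
        field_simp; ring
    · refine ⟨rB, gH rB, N - 6, (10 * L - 11) / (20 - 10 * L), by linarith,
        div_nonneg (by linarith) (by linarith), ?_, ?_, ?_, ?_, ?_, certL_B, certZ_B, certU_B⟩ <;>
        intro Z <;> simp only [rB, gH, lin, y1, ni, Ex.eval, eg] <;> push_cast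
      · ring
      · have : 0 ≤ (10 * L - 11) / (20 - 10 * L) := div_nonneg (by linarith) (by linarith)
        linarith
      · have : 20 - 10 * L ≠ 0 := by linarith
        field_simp; ring
      · have : 0 ≤ (10 * L - 11) / (20 - 10 * L) := div_nonneg (by linarith) (by linarith)
        have : 0 < N := by linarith
        positivity
      · have : 20 - 10 * L ≠ 0 := by linarith
        field_simp; ring
  · rcases le_or_gt L ((N - 2) / 4) with h4 | h4
    · have eg : gUp N L = 16 * L ^ 2 / (48 * N ^ 2 + N * L ^ 2) := by rw [gUp, if_pos ⟨h4, h2⟩]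
      refine ⟨rC, gS rC, N - 4 * L - 2, L - 2, by linarith, by linarith, ?_, ?_, ?_, ?_, ?_,
        certL_C, certZ_C, certU_C⟩ <;>
        intro Z <;> simp only [rC, gS, ni, Ex.eval, eg] <;> push_cast
      · ring
      · norm_num
      · ring
      · have : (0:ℝ) < 10 + 4 * (L - 2) + (N - 4 * L - 2) := by linarith
        positivity
      · have : 48 * N ^ 2 + N * L ^ 2 ≠ 0 := by positivity
        field_simp; ring
    · have eg : gUp N L = L ^ 2 / (3 * N ^ 2) := by rw [gUp, if_neg (by intro h; linarith [h.1])]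
      refine ⟨rD, gH rD, (N - 6) / 4, (L - (N - 2) / 4) / (N - 2 - L), by linarith,
        div_nonneg (by linarith) (by linarith), ?_, ?_, ?_, ?_, ?_, certL_D, certZ_D, certU_D⟩ <;>
        intro Z <;> simp only [rD, gH, lin, y1, ni, Ex.eval, eg] <;> push_cast
      · ring
      · have : 0 ≤ (L - (N - 2) / 4) / (N - 2 - L) := div_nonneg (by linarith) (by linarith)
        linarith
      · have : N - 2 - L ≠ 0 := by linarith
        field_simp; ring
      · have : 0 ≤ (L - (N - 2) / 4) / (N - 2 - L) := div_nonneg (by linarith) (by linarith)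
        have : (0:ℝ) < 6 + 4 * ((N - 6) / 4) := by linarith
        positivity
      · have : N - 2 - L ≠ 0 := by linarith
        have : N ≠ 0 := by linarith
        field_simp; ring

/-- `quad / (σ̂ + w)` is concave in `w`. -/
lemma quad_between {N L th w1 w w2 : ℝ} (h1 : w1 ≤ w) (h2 : w ≤ w2)
    (hv : 0 < (base3 N L th w1).sg + w1) (q1 : 0 < (base3 N L th w1).quad)
    (q2 : 0 < (base3 N L th w2).quad) : 0 < (base3 N L th w).quad := by
  rcases eq_or_lt_of_le h1 with rfl | h1
  · exact q1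
  rcases eq_or_lt_of_le h2 with rfl | h2
  · exact q2
  set F := (base3 N L th w).F0
  set A := (base3 N L th w).A
  set G := (base3 N L th w).G2 with hG
  set S := (base3 N L th w).sg with hS
  have e : ∀ x, (base3 N L th x).quad = (F + A * x) * (S + x) - G * (x * x) := fun x => rfl
  have hv1 : 0 < S + w1 := hv
  have hG0 : 0 ≤ G := by
    have : G = ((base3 N L th w).gM * N * (1 / 2) * (1 / (N - 1))) ^ 2 := by
      rw [hG, Base.G2]; simp only [base3]; ring
    rw [this]; positivity
  rw [e] at q1 q2 ⊢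
  have hv0 : 0 < S + w := by linarith
  have hv2 : 0 < S + w2 := by linarith
  have key : (w2 - w1) * ((F + A * w) * (S + w) - G * (w * w)) * ((S + w1) * (S + w2)) =
      (w2 - w) * ((F + A * w1) * (S + w1) - G * (w1 * w1)) * ((S + w) * (S + w2))
      + (w - w1) * ((F + A * w2) * (S + w2) - G * (w2 * w2)) * ((S + w) * (S + w1))
      + G * S ^ 2 * ((w2 - w) * (w - w1) * (w2 - w1)) := by ring
  have : 0 < (w2 - w1) * ((F + A * w) * (S + w) - G * (w * w)) * ((S + w1) * (S + w2)) := by
    rw [key]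
    have := mul_pos (mul_pos (sub_pos.2 h2) q1) (mul_pos hv0 hv2)
    have := mul_pos (mul_pos (sub_pos.2 h1) q2) (mul_pos hv0 hv1)
    have : 0 ≤ G * S ^ 2 * ((w2 - w) * (w - w1) * (w2 - w1)) := by
      have := sub_pos.2 h2; have := sub_pos.2 h1; have : 0 < w2 - w1 := by linarith
      positivity
    linarith
  have h12 : 0 < (w2 - w1) * ((S + w1) * (S + w2)) := mul_pos (by linarith) (mul_pos hv1 hv2)
  by_contra hq
  push Not at hq
  nlinarith [mul_nonpos_iff.2 (Or.inl ⟨h12.le, hq⟩)]

/-- **(iii)** in scale-free variables. -/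
theorem quad_pos_main {w : ℝ} (hN : 6 ≤ N) (hL0 : 0 < L) (hL : L < N - 2) (hc : Cov N L)
    (hs0 : 0 < s) (hs1 : s ≤ 1) (hw0 : 0 ≤ w) (hwL : wLR N L (gUp N L) s ≤ w)
    (hwU : w ≤ wUR N L s) : 0 < (base3 N L (th2 N L * s) w).quad := by
  obtain ⟨r, g, X, Y, R⟩ := exists_range hN hL0 hL hc
  have hg0 : 0 ≤ gUp N L := by
    rw [gUp]; split_ifs <;> have : 0 < N := by linarith
    all_goals positivity
  obtain ⟨h1, h2, h3⟩ := R.ends hN hL0 hL hg0 hs0 hs1
  have ht : 0 < th2 N L * s := mul_pos (th2_lt_one (by linarith) hL0 hL).1 hs0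
  have hsg : ∀ x, 0 ≤ x → 0 < (base3 N L (th2 N L * s) x).sg + x := fun x hx => by
    have : 0 < (base3 N L (th2 N L * s) x).sg := by
      simp only [Base.sg, Base.h, base3]; push_cast
      have : (0:ℝ) < 1 / N := by positivity
      have : 0 < N - 2 + 2 * (th2 N L * s) := by linarith
      have : 0 < N - 2 + 2 * (th2 N L * s) - L := by linarith
      positivity
    linarith
  rcases le_or_gt s (gUp N L) with hsg' | hsg'
  · exact quad_between hw0 hwU (hsg 0 le_rfl) (h1 hsg') h3
  · have hk : 0 ≤ wLR N L (gUp N L) s := by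
      have h0 : (0:ℝ) < N / L - 1 := by rw [sub_pos, one_lt_div hL0]; linarith
      have : 0 ≤ s - gUp N L := by linarith
      have := (th2_lt_one (N := N) (by linarith) hL0 hL).1
      have : 0 < N := by linarith
      unfold wLR kR
      positivity
    exact quad_between hwL hwU (hsg _ hk) (h2 hsg') h3

end Vale.Agent.P100T.Ineq3
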