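import Vale.Agent.P100T.IneqIIIDef

/-!
Boxes for inequality (iii) when `σ∞ > 1`: `N` and `Λ = Ln/Ld` are polynomials in `x`, `y`,
and `θ = θ₂ sn/sd`. For each choice of `w` the numerator of the discriminant is a polynomial
whose coefficients `PosCheck.check` inspects.
-/

namespace Vale.Agent.P100T.Ineq3

open PosCheck

/-- A box. -/
structure Box where
  N : Ex
  Ln : Ex
  Ld : Ex
  sn : Ex
  sd : Ex
  gn : Ex
  gd : Ex

namespace Box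

variable (B : Box)

def ni (k : Int) : Ex := .num k
def h : Ex := .sub B.N (ni 2)
def NL : Ex := .sub (.mul B.N B.Ld) B.Ln
def hL : Ex := .sub (.mul B.h B.Ld) B.Ln
def tn : Ex := .mul (.mul (ni 2) (.sub B.N (ni 1))) (.add (.mul (ni 2) B.Ld) B.Ln)
def T2 : Ex :=
  .add (.mul B.N (.add (.mul B.N B.Ld) B.Ln)) (.mul (.mul (ni 2) B.h) B.Ld)
/-- Numerator and denominator of `θ`. -/
def thn : Ex := .mul B.tn B.sn
def thd : Ex := .mul B.T2 B.sd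

/-- The positive factors. -/
def fs : List Ex :=
  [ni 2, ni 5, B.N, .sub B.N (ni 1), B.h, B.Ld, B.T2, B.sd,
    .sub B.thd B.thn, .add (.mul (.sub B.N (ni 1)) B.thd) B.thn,
    .add (.mul (ni 5) B.Ln) (.mul (ni 6) B.Ld),
    .sub (.mul (.mul (ni 84) (.mul B.N B.N)) B.Ld) (.mul (.add (.mul (ni 65) B.N) (ni 60)) B.Ln),
    .add (.mul B.N B.Ld) (.mul (ni 5) B.Ln), B.Ln, B.gd,
    .add (.mul B.hL B.h) (.mul (ni 6) B.Ln),
    .add (.mul B.Ln B.Ld) (.mul (.mul (ni 2) B.h) (.mul B.Ld B.hL)), .sub (.mul B.N B.N) (ni 12)]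

abbrev Q := RQ B.fs

def one (d : List Nat) : B.Q := (RQ.of (ni 1)).div d
def vN : B.Q := RQ.of B.N
def vL : B.Q := (RQ.of B.Ln).div [0, 0, 0, 0, 0, 1]
def vth : B.Q := (RQ.of B.thn).div [0, 0, 0, 0, 0, 0, 1, 1]
def vphi : B.Q :=
  (RQ.of (.mul (.mul (ni 42)
    (.mul (.add (.mul (ni 8) (.mul B.N B.N)) (ni 375)) (.add (.mul (ni 5) (.mul B.N B.N)) (ni 9))))
    (.mul B.NL B.Ln))).div
    [0, 2, 1, 0, 0, 0, 0, 0, 0, 0, 1, 1, 0, 0, 0, 0, 0, 1]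
def vdl : B.Q := (RQ.of (.mul B.Ln B.hL)).div [2, 1, 3, 0, 0, 2]

/-- `k` of the lower line: `x/N (2/5 + x/(tb + 5)) + 4/N³`, `x = tb - 1`. -/
def vk : B.Q :=
  (RQ.of (.mul B.NL
      (.add (.mul (ni 2) (.add (.mul B.N B.Ld) (.mul (ni 5) B.Ln))) (.mul (ni 5) B.NL)))).div
        [0, 1, 1, 0, 0, 0, 0, 0, 0, 0, 0, 0, 1, 1] + (RQ.of (ni 4)).div [0, 0, 3]
/-- `θ - θm` with `θm = θ₂ gn/gd`. -/
def vdth : B.Q :=
  (RQ.of (.mul B.tn (.sub (.mul B.sn B.gd) (.mul B.gn B.sd)))).div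
    [0, 0, 0, 0, 0, 0, 1, 1, 0, 0, 0, 0, 0, 0, 1]
/-- `w` on the lower line. -/
def vwL : B.Q := B.vk * (RQ.of (ni 2)) * B.vL * B.one [0, 0, 2] * B.vdth

/-- `w` on the upper curve `A y (1 - be y/r) + B`. -/
def vwU : B.Q :=
  (RQ.of (.mul B.tn (.add (.mul (.mul (ni 20) B.Ln) (.sub B.N (ni 1)))
      (.mul (.mul (ni 19) B.h) B.hL)))).div [0, 1, 2, 1, 1, 1, 1] *
    ((RQ.of B.sn).div [0, 0, 0, 0, 0, 0, 0, 1] *
        ((RQ.of (ni 1)) - (RQ.of (.mul (.mul (ni 3) B.Ln) (.mul B.Ld B.sn))).div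
          [2, 0, 0, 0, 0, 0, 0, 1, 0, 0, 0, 0, 0, 0, 0, 0, 1]) +
      (RQ.of (.mul (ni 11) (.mul B.hL B.h))).div [2, 2, 0, 0, 0, 0, 0, 0, 0, 0, 0, 0, 0, 0, 0, 1])

def base (w : B.Q) : Base B.Q where
  N := B.vN
  L := B.vL
  th := B.vth
  ih := B.one [0, 0, 0, 0, 1]
  iN := B.one [0, 0, 1]
  iN1 := B.one [0, 0, 0, 1]
  iM := (RQ.of B.thd).div [0, 0, 0, 0, 0, 0, 0, 0, 0, 1]
  ip := (RQ.of B.thd).div [0, 0, 0, 0, 0, 0, 0, 0, 1]
  i2 := B.one [1]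
  phi := B.vphi
  dl := B.vdl
  w := w

/-- The numerator of the discriminant at `w`, less one. -/
def num (w : B.Q) : Ex := .sub (B.base w).quad.re.n (ni 1)
/-- The test on the lower line. -/
def okL : Bool := check (B.num B.vwL)
/-- The test below the lower line. -/
def ok0 : Bool := check (B.num (RQ.of (ni 0)))
/-- The test on the upper curve. -/
def okU : Bool := check (B.num B.vwU)

end Box

end Vale.Agent.P100T.Ineq3
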