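import Vale.Agent.P100T.IneqIIIBox

/-!
The four ranges of `(N, Λ)`: `N ≥ 10, 73/100 ≤ Λ < 11/10`; `N ≥ 6, 11/10 ≤ Λ < 2`;
`Λ ≥ 2, N ≥ 4Λ + 2`; `N ≥ 6, (N-2)/4 ≤ Λ < N - 2`.
-/

namespace Vale.Agent.P100T.Ineq3

open PosCheck

namespace Box

def y1 : Ex := .add (ni 1) .y
def z1 : Ex := .add (ni 1) .z
def lin (k c : Int) : Ex := .add (ni k) (.mul (ni c) .x)

/-- `N` and `Λ` of the four ranges. -/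
def rA : Ex × Ex × Ex := (lin 10 1, .add (ni 73) (.mul (ni 110) .y), .mul (ni 100) y1)
def rB : Ex × Ex × Ex := (lin 6 1, .add (ni 11) (.mul (ni 20) .y), .mul (ni 10) y1)
def rC : Ex × Ex × Ex := (.add (.add (ni 10) (.mul (ni 4) .y)) .x, .add (ni 2) .y, ni 1)
def rD : Ex × Ex × Ex := (lin 6 4, .add (lin 1 1) (.mul (lin 4 4) .y), y1)

/-- `θm/θ₂ ≤ Λ²/(3N²)`. -/
def gH (r : Ex × Ex × Ex) : Ex × Ex :=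
  (.mul r.2.1 r.2.1, .mul (ni 3) (.mul (.mul r.1 r.2.2) (.mul r.1 r.2.2)))
/-- `θm/θ₂ ≤ 16Λ²/(48N² + NΛ²)`. -/
def gS (r : Ex × Ex × Ex) : Ex × Ex :=
  (.mul (ni 16) (.mul r.2.1 r.2.1),
    .add (.mul (ni 48) (.mul (.mul r.1 r.2.2) (.mul r.1 r.2.2))) (.mul r.1 (.mul r.2.1 r.2.1)))

/-- `0 < θ ≤ θm`. -/
def below (r : Ex × Ex × Ex) (g : Ex × Ex) : Box :=
  ⟨r.1, r.2.1, r.2.2, g.1, .mul g.2 z1, g.1, g.2⟩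
/-- `θm < θ ≤ θ₂`. -/
def above (r : Ex × Ex × Ex) (g : Ex × Ex) : Box :=
  ⟨r.1, r.2.1, r.2.2, .add (.mul g.1 .z) g.2, .mul g.2 z1, g.1, g.2⟩
/-- `0 < θ ≤ θ₂`. -/
def full (r : Ex × Ex × Ex) : Box := ⟨r.1, r.2.1, r.2.2, ni 1, z1, ni 0, ni 1⟩

end Box

end Vale.Agent.P100T.Ineq3
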