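import Vale.Agent.P100T.RatCheck

/-!
Inequality (iii) in the scale-free variables `N`, `Λ = N / tb`, `θ = (σ - ss) / (2 tb / N)`,
written once with generic operations: it is used over `ℝ` and over checkable rational functions.
-/

namespace Vale.Agent.P100T.Ineq3

/-- The variables, the reciprocals that occur, and `φ = G (tb - σ∞)`, `δ`, `w = W / tb²`. -/
structure Base (α : Type*) where
  N : α
  L : α
  th : α
  ih : α
  iN : α
  iN1 : α
  iM : α
  ip : α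
  i2 : α
  phi : α
  dl : α
  w : α

namespace Base

variable {α : Type*} [Add α] [Sub α] [Mul α] [IntCast α] (b : Base α)

def h : α := b.N - (IntCast.intCast (2 : ℤ) : α)
def M1 : α := b.N - (IntCast.intCast (1 : ℤ) : α) + b.th
def u : α := b.dl + b.phi * b.th
def eta : α := b.N * b.th * (b.h + (IntCast.intCast (2 : ℤ) : α) * b.th - b.L) * b.i2 * b.ih *
  b.ip * b.iM
def C : α := b.N * b.i2 * b.ih + b.u
def m : α := (IntCast.intCast (4 : ℤ) : α) * b.ih + (IntCast.intCast (2 : ℤ) : α) * b.u + b.eta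
def m2 : α := b.M1 * b.M1 * b.iN1 * b.iN1
def eps : α := (IntCast.intCast (2 : ℤ) : α) * b.th * b.ih
def kap : α := ((IntCast.intCast (1 : ℤ) : α) + b.eps) * ((IntCast.intCast (1 : ℤ) : α) - b.L *
  b.ih + b.eps)
def r1 : α := b.L * b.ih * ((IntCast.intCast (2 : ℤ) : α) * b.ih + b.h * b.i2 * b.iN1)
def r2 : α := (b.N * b.N - (IntCast.intCast (6 : ℤ) : α) * b.N + (IntCast.intCast (4 : ℤ) : α)) *
  b.i2 * b.ih * b.iN1 * b.iN1 + (IntCast.intCast (4 : ℤ) : α) * b.ih * b.ih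
def v : α := b.u - b.eta * b.i2
def E : α := (IntCast.intCast (1 : ℤ) : α) - (IntCast.intCast (2 : ℤ) : α) * b.u + b.h * b.eta *
  b.i2 - (b.N - (IntCast.intCast (1 : ℤ) : α)) * (b.v * b.v) - b.h * b.u * b.eta
def F0 : α := b.N * b.u * (b.m2 * b.E - b.kap * ((IntCast.intCast (1 : ℤ) : α) + b.h * b.eta *
  b.i2))
  + (b.th * b.r1 - b.th * b.th * b.r2) * b.E - b.kap * b.N * b.N * (b.v * b.v) * (b.i2 * b.i2)
def d0N : α := b.kap + b.N * b.u * b.m2 + b.th * b.r1 - b.th * b.th * b.r2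
def B4 : α := b.N * (b.N - (IntCast.intCast (1 : ℤ) : α)) * (b.N + b.L) * b.i2 * b.ih * b.iM
  - b.C * ((IntCast.intCast (2 : ℤ) : α) * b.N - (IntCast.intCast (6 : ℤ) : α) +
    (IntCast.intCast (6 : ℤ) : α) * b.th)
def A : α := b.N * b.N * b.N * (b.i2 * b.i2) *
  (b.d0N * (b.phi + (b.N * b.ih + (IntCast.intCast (2 : ℤ) : α) * b.u) * b.iM) * b.ip + b.m *
    b.phi * b.M1 * b.i2 * b.iN1
    - b.C * ((IntCast.intCast (2 : ℤ) : α) * b.ih + b.eta) * b.iN1 + b.m * b.B4 * (b.i2 * b.i2) *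
      b.ip * b.iN1)
def gM : α := b.phi * b.N * b.i2 * b.M1 + (b.C * ((IntCast.intCast (3 : ℤ) : α) - (b.h +
  (IntCast.intCast (2 : ℤ) : α) * b.th) * b.iN)
  - (b.N - (IntCast.intCast (1 : ℤ) : α)) * (b.N + b.L) * b.i2 * b.ih * b.iM) * b.N * b.N * (b.i2
    * b.i2) * b.ip
def G2 : α := b.gM * b.gM * b.N * b.N * (b.i2 * b.i2) * b.iN1 * b.iN1
def sg : α := (b.h + (IntCast.intCast (2 : ℤ) : α) * b.th) * (b.h + (IntCast.intCast (2 : ℤ) : α)
  * b.th - b.L) * b.iN * b.iN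

/-- The discriminant of (iii) times `σ̂ + w`, up to a positive factor. -/
def quad : α := (b.F0 + b.A * b.w) * (b.sg + b.w) - b.G2 * (b.w * b.w)

/-- Apply a map to all fields. -/
def map {β : Type*} (f : α → β) : Base β :=
  ⟨f b.N, f b.L, f b.th, f b.ih, f b.iN, f b.iN1, f b.iM, f b.ip, f b.i2, f b.phi, f b.dl, f b.w⟩

open PosCheck in
lemma val_quad {fs : List Ex} {X Y Z : ℝ} (hfs : ∀ f ∈ fs, 0 < f.eval X Y Z) (b : Base (RQ fs)) :
    b.quad.val X Y Z = (b.map (RQ.val X Y Z)).quad := by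
  simp only [quad, F0, A, G2, gM, sg, B4, d0N, E, v, r2, r1, kap, eps, m2, m, C, eta, u, M1, h, map,
    RQ.val_mul, RQ.val_add hfs, RQ.val_sub hfs, RQ.val_cast]

end Base

end Vale.Agent.P100T.Ineq3
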