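import Vale.Agent.P100T.IneqIIIBoxes

/-!
Boxes for inequality (iii) on the lower edge `W = extL` of the extension box, `σ∞ > 1`.
The spare factor `gd` is `N + 2`.
-/

namespace Vale.Agent.P100T.Ineq3

open PosCheck

namespace Box

/-- `H Ld²` with `H = (N - 2 - Λ) D + 4 (N - 1)(2 + Λ)`. -/
def xH (N Ln Ld : Ex) : Ex :=
  .add (.mul (.sub (.mul (.sub N (ni 2)) Ld) Ln)
      (.add (.mul N (.add (.mul N Ld) Ln)) (.mul (.mul (ni 2) (.sub N (ni 2))) Ld)))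
    (.mul (.mul (.mul (ni 4) (.sub N (ni 1))) (.add (.mul (ni 2) Ld) Ln)) Ld)

/-- Numerator and denominator of `e`, the excess of `θ/θ₂` at `extS3`. -/
def xeN (r : Ex × Ex × Ex) : Ex :=
  .mul (.mul (.mul (ni 2) (.sub r.1 (ni 2)))
      (.add (.mul (.mul r.1 r.1) r.2.2) (.mul (ni 2) r.2.1)))
    (xH r.1 r.2.1 r.2.2)
def xeD (r : Ex × Ex × Ex) : Ex :=
  let T2 : Ex := .add (.mul r.1 (.add (.mul r.1 r.2.2) r.2.1))
    (.mul (.mul (ni 2) (.sub r.1 (ni 2))) r.2.2)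
  .mul (.mul (.mul (ni 5) r.1) (.mul (.add r.1 (ni 2)) (.add (.mul r.1 r.2.2) r.2.1)))
    (.mul T2 T2)

/-- `4/5 ≤ θ/θ₂ ≤ 1`. -/
def extLo (r : Ex × Ex × Ex) : Box :=
  ⟨r.1, r.2.1, r.2.2, .add (ni 4) (.mul (ni 5) .z), .mul (ni 5) z1, ni 0, .add r.1 (ni 2)⟩
/-- `1 ≤ θ/θ₂ < 1 + 11 e/10`. -/
def extHi (r : Ex × Ex × Ex) : Box :=
  ⟨r.1, r.2.1, r.2.2, .add (.mul (.mul (ni 10) (xeD r)) z1) (.mul (.mul (ni 11) (xeN r)) .z),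
    .mul (.mul (ni 10) (xeD r)) z1, ni 0, .add r.1 (ni 2)⟩
/-- Numerator and denominator of a bound `(2 N - 3)/(110 N) > e` for `Λ < 2`. -/
def xfN (r : Ex × Ex × Ex) : Ex := .sub (.mul (ni 2) r.1) (ni 3)
def xfD (r : Ex × Ex × Ex) : Ex := .mul (ni 110) r.1
/-- `1 ≤ θ/θ₂ < 1 + (2 N - 3)/(110 N)`. -/
def extHi5 (r : Ex × Ex × Ex) : Box :=
  ⟨r.1, r.2.1, r.2.2, .add (.mul (xfD r) z1) (.mul (xfN r) .z), .mul (xfD r) z1, ni 0,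
    .add r.1 (ni 2)⟩
/-- The test `e < (2 N - 3)/(110 N)`, with a Pólya multiplier. -/
def okF (r : Ex × Ex × Ex) : Bool :=
  check (.sub (.mul (.sub (.mul (xfN r) (xeD r)) (.mul (xeN r) (xfD r))) (.pow (.add .x (ni 2)) 16))
    (ni 1))

/-- `extL / T²`. -/
def vwE (B : Box) : B.Q :=
  (RQ.of (.mul
    (.mul (.mul (ni 2) (.sub (.mul (.mul (ni 67) B.N) B.Ld) (.mul (ni 3) B.Ln)))
      (.mul (.sub B.N (ni 1)) (.add (.mul (ni 2) B.Ld) B.Ln)))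
    (.mul (.add (.mul (.mul B.N B.N) B.Ld) (.mul (ni 2) B.Ln)) (xH B.N B.Ln B.Ld)))).div
    [0, 2, 3, 0, 0, 2, 3, 0, 0, 0, 0, 0, 0, 0, 1]

/-- `N ≥ 6`, `73/100 + 258/(100 (N - 3)) ≤ Λ < 2`. -/
def rF : Ex × Ex × Ex :=
  (lin 6 1, .add (.add (.mul (ni 73) (lin 6 1)) (ni 39)) (.mul (.mul (ni 200) (lin 3 1)) .y),
    .mul (.mul (ni 100) (lin 3 1)) y1)
/-- `N ≥ 6`, `2 ≤ Λ < N - 2`. -/
def rE : Ex × Ex × Ex := (lin 6 1, .add (ni 2) (.mul (lin 4 1) .y), y1)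

/-- The test on the lower edge. -/
def okE (B : Box) : Bool := check (B.num (vwE B))

end Box

end Vale.Agent.P100T.Ineq3
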