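import Vale.Agent.P100T.RatCheck

/-!
Inequality (iii) when `σ∞ = 1`: `N = 6 + x`, `T - 1 = 2/((N-2)(1+y))`, and
`σ - 1 = (s₂ - 1) sn/sd`.
-/

namespace Vale.Agent.P100T.Ineq3One

open PosCheck

/-- The quantities of the closed discriminant, with the reciprocals that occur. -/
structure Base (α : Type*) where
  N : α
  T : α
  s : α
  ih : α
  iN : α
  iX : α
  iD : α
  C : α
  G : α
  W : α

namespace Base

variable {α : Type*} [Add α] [Sub α] [Mul α] [IntCast α] (b : Base α)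

def a0 : α := (b.N - (IntCast.intCast (4 : ℤ) : α)) * b.ih
  - b.N * b.ih * (b.s - (IntCast.intCast (1 : ℤ) : α)) * (b.s - b.T * (b.N -
    (IntCast.intCast (2 : ℤ) : α)) * b.iN) * b.iD
def mu : α := (b.N - (IntCast.intCast (1 : ℤ) : α)) * ((IntCast.intCast (1 : ℤ) : α) + b.T) *
  b.ih * b.T * b.iX
def K : α := (b.N - (IntCast.intCast (1 : ℤ) : α)) * b.iN
def d0 : α := b.C - (b.mu + b.K * b.iX * (b.s * (b.s - (IntCast.intCast (1 : ℤ) : α)))) * b.iX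
def A0 : α := (IntCast.intCast (4 : ℤ) : α) * b.C * ((IntCast.intCast (1 : ℤ) : α) - b.a0) * b.d0
  - b.K * (b.C - b.mu * b.iX) * (((IntCast.intCast (2 : ℤ) : α) * b.C - b.a0) *
    ((IntCast.intCast (2 : ℤ) : α) * b.C - b.a0))
def A1 : α := (IntCast.intCast (4 : ℤ) : α) * b.d0 * (b.G * (b.s + b.T) +
  (IntCast.intCast (2 : ℤ) : α) * b.C) * b.iD
  - (IntCast.intCast (4 : ℤ) : α) * (b.K * b.iX) * b.C * ((IntCast.intCast (1 : ℤ) : α) - b.a0) *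
    b.iX
  + (IntCast.intCast (2 : ℤ) : α) * (b.K * b.iX) * ((IntCast.intCast (2 : ℤ) : α) * b.C - b.a0) *
    (b.G + (b.mu + b.C * (b.T - (IntCast.intCast (3 : ℤ) : α) * b.s)) * b.iD)
def Gam : α := b.G + (b.C * ((IntCast.intCast (3 : ℤ) : α) * b.T - b.s) - b.mu) * b.iD
/-- `4 P₂ P₀ - P₁²`. -/
def quad : α := (b.A0 + b.A1 * b.W) * (b.s * (b.s - (IntCast.intCast (1 : ℤ) : α)) + b.W) - b.Gam
  * b.Gam * (b.W * b.W)

/-- Apply a map to all fields. -/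
def map {β : Type*} (f : α → β) : Base β :=
  ⟨f b.N, f b.T, f b.s, f b.ih, f b.iN, f b.iX, f b.iD, f b.C, f b.G, f b.W⟩

lemma val_quad {fs : List Ex} {X Y Z : ℝ} (hfs : ∀ f ∈ fs, 0 < f.eval X Y Z) (b : Base (RQ fs)) :
    b.quad.val X Y Z = (b.map (RQ.val X Y Z)).quad := by
  simp only [quad, A0, A1, Gam, d0, K, mu, a0, map,
    RQ.val_mul, RQ.val_add hfs, RQ.val_sub hfs, RQ.val_cast]

end Base

/-- A box: `σ - 1 = (s₂ - 1) sn/sd`, offset `gn/gd`. -/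
structure Box where
  sn : Ex
  sd : Ex
  gn : Ex
  gd : Ex

namespace Box

variable (B : Box)

def ni (k : Int) : Ex := .num k
def N : Ex := .add (ni 6) .x
def h : Ex := .add (ni 4) .x
/-- Denominator of `T - 1`, whose numerator is `2`. -/
def xd : Ex := .mul h (.add (ni 1) .y)
def Tn : Ex := .add xd (ni 2)
/-- Numerator and denominator of `(s₂ - 1)/(T - 1)`. -/
def ron : Ex := .mul (.mul N N) (.add xd Tn)
def rod : Ex := .add (.mul (.mul N N) (.add xd Tn)) (.mul (.mul (ni 2) h) Tn)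
/-- `σ - 1` is `yn / (xd rod sd)`. -/
def yn : Ex := .mul (.mul (ni 2) ron) B.sn
def yd : Ex := .mul (.mul xd rod) B.sd

/-- The positive factors. -/
def fs : List Ex :=
  [ni 2, ni 5, N, h, xd, rod, B.sd, B.gd, .add (.mul xd (.mul rod B.sd)) (.add (.mul Tn (.mul rod
    B.sd)) B.yn),
    .sub (.mul rod B.sd) (.mul ron B.sn), .add xd Tn, .sub (.mul N N) (ni 12),
    .add (.mul (.mul (ni 84) N) (ni 2)) (.mul (.sub (.mul (ni 19) N) (ni 60)) xd),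
    .add (.mul (.mul (ni 5) N) xd) (.mul (ni 6) Tn), .add Tn (.mul (ni 5) xd)]

abbrev Q := RQ B.fs

def one (d : List Nat) : B.Q := (RQ.of (ni 1)).div d
def vT : B.Q := (RQ.of Tn).div [0, 0, 0, 0, 1]
def vy : B.Q := (RQ.of B.yn).div [0, 0, 0, 0, 1, 1, 1]
/-- `1/(σ + T)`. -/
def viX : B.Q := (RQ.of (.mul xd (.mul rod B.sd))).div [0, 0, 0, 0, 0, 0, 0, 0, 1]
/-- `1/(T - σ)`. -/
def viY : B.Q := (RQ.of (.mul xd (.mul rod B.sd))).div [1, 0, 0, 0, 0, 0, 0, 0, 0, 1]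
def vG : B.Q :=
  (RQ.of (.mul (.mul (ni 42) (.add (.mul (ni 8) (.mul N N)) (ni 375)))
    (.mul (.add (.mul (ni 5) (.mul N N)) (ni 9)) (.mul xd xd)))).div
    [0, 2, 0, 0, 0, 0, 0, 0, 0, 0, 0, 1, 1, 1]
def vC : B.Q :=
  (RQ.of (.mul (.sub N (ni 1)) Tn)).div [0, 0, 0, 1, 0, 0, 0, 0, 0, 0, 1] + B.vG * B.vy
def vk : B.Q :=
  (RQ.of (ni 2)).div [0, 0, 1, 0, 1] * ((RQ.of (ni 2)).div [0, 1] +
    (RQ.of (ni 2)).div [0, 0, 0, 0, 0, 0, 0, 0, 0, 0, 0, 0, 0, 0, 1])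
  + (RQ.of (ni 4)).div [0, 0, 3]
def vwL : B.Q := B.vk *
  (RQ.of (.mul (.mul (ni 2) ron) (.sub (.mul B.sn B.gd) (.mul B.gn B.sd)))).div
    [0, 0, 0, 0, 1, 1, 1, 1]
def vwU : B.Q :=
  (RQ.of (ni 2)).div [0, 0, 0, 1] * B.vy *
    ((RQ.of (ni 1)) - (RQ.of (.mul (ni 3) B.sn)).div [2, 0, 0, 0, 0, 0, 1])

def base (w : B.Q) : Base B.Q where
  N := RQ.of N
  T := B.vT
  s := (RQ.of (ni 1)) + B.vy
  ih := B.one [0, 0, 0, 1]
  iN := B.one [0, 0, 1]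
  iX := B.viX
  iD := B.viX * B.viY
  C := B.vC
  G := B.vG
  W := w

/-- The numerator at `W = w`, less one. -/
def num (w : B.Q) : Ex := .sub (B.base w).quad.re.n (ni 1)

def z1 : Ex := .add (ni 1) .z
/-- `θm/θ₂ ≤ 1/(3T²)`. -/
def gn0 : Ex := .mul xd xd
def gd0 : Ex := .mul (ni 3) (.mul Tn Tn)
/-- The three boxes. -/
def below : Box := ⟨gn0, .mul gd0 z1, gn0, gd0⟩
def above : Box := ⟨.add (.mul gn0 .z) gd0, .mul gd0 z1, gn0, gd0⟩
def full : Box := ⟨ni 1, z1, ni 0, ni 1⟩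

end Box

end Vale.Agent.P100T.Ineq3One
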