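import Vale.Agent.P100T.IneqIIIOneBox
import Vale.Agent.P100T.IneqIIIOneCertL

/-!
Kernel check of inequality (iii) at `σ∞ = 1`: below the lower line.
-/

namespace Vale.Agent.P100T.Ineq3One.Box

open PosCheck

set_option maxRecDepth 100000

theorem certZ : check (below.num (RQ.of (ni 0))) = true := by decide +kernel

end Vale.Agent.P100T.Ineq3One.Box
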