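import Vale.Agent.P100T.IneqIIIAlg
import Vale.Agent.P100T.IneqIIIOneBox
import Vale.Agent.P100T.IneqIIIOneCertL
import Vale.Agent.P100T.IneqIIIOneCertZ
import Vale.Agent.P100T.IneqIIIOneCertU
import Vale.Agent.P100T.IneqI
import Vale.Agent.P100T.LowerLine
import Vale.Agent.P100T.Barrier

/-!
(ii) and (iii) when `σ∞ = 1`, `N ≥ 6`, on `1 < σ ≤ s₂`, `max 0 (k (σ - σm)) ≤ W ≤ U`.
-/

noncomputable section

namespace Vale.Agent.P100T.Ineq3One

open PosCheck

/-- `G` at `σ∞ = 1`, with `T - 1` cancelled. -/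
def gOne (N T : ℝ) : ℝ :=
  (4 / 25 + 15 / (2 * N ^ 2)) * (1 + 69 / (5 * (N ^ 2 - 12)))
    / ((T - 1 + 19 / 84 - 5 / (7 * N)) * (1 + 6 * T / (5 * N)))

/-- The real point. -/
def baseR (N T s W : ℝ) : Base ℝ where
  N := N
  T := T
  s := s
  ih := 1 / (N - 2)
  iN := 1 / N
  iX := 1 / (s + T)
  iD := 1 / (T ^ 2 - s ^ 2)
  C := (N - 1) * T / ((N - 2) * (1 + T)) + gOne N T * (s - 1)
  G := gOne N T
  W := W

/-- `quad` at the real point is the discriminant in closed form. -/
lemma quad_baseR {N T s W : ℝ} (hN : N ≠ 0) :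
    (baseR N T s W).quad =
      (Ineq3.A0F N T s (baseR N T s W).C + Ineq3.A1F N T s (baseR N T s W).C (gOne N T) * W)
        * (s * (s - 1) + W)
      - Ineq3.GamF N T s (baseR N T s W).C (gOne N T) ^ 2 * W ^ 2 := by
  have em : (baseR N T s W).mu = Ineq3.muF N T s := by
    simp only [Base.mu, baseR, Ineq3.muF]
    push_cast
    generalize N - 2 = h
    generalize s + T = X
    field_simp
  have ea : (baseR N T s W).a0 = Ineq3.a0F N T s := by
    simp only [Base.a0, baseR, Ineq3.a0F]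
    push_cast
    ring
  simp only [Base.quad, Base.A0, Base.A1, Base.Gam, Base.d0, Base.K, em, ea, Ineq3.A0F, Ineq3.A1F,
    Ineq3.GamF, Ineq3.d0F]
  simp only [baseR]
  push_cast
  ring

/-- `(s₂ - 1)/(T - 1)`. -/
def rho (N T : ℝ) : ℝ := N ^ 2 * (1 + T) / (N ^ 2 * (1 + T) + 2 * (N - 2) * T)

/-- A point of a box: `N`, `T = 1 + x`, `σ = 1 + x ρ r`. -/
structure At (B : Box) (X Y Z N x r g : ℝ) : Prop where
  hX : 0 ≤ X
  hY : 0 ≤ Y
  hZ : 0 ≤ Z
  eN : N = 6 + X
  ex : x = 2 / ((N - 2) * (1 + Y))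
  hr0 : 0 ≤ r
  hts : rho N (1 + x) * r < 1
  hsd : 0 < B.sd.eval X Y Z
  es : B.sn.eval X Y Z = r * B.sd.eval X Y Z
  hgd : 0 < B.gd.eval X Y Z
  eg : B.gn.eval X Y Z = g * B.gd.eval X Y Z

variable {B : Box} {X Y Z N x r g : ℝ}

lemma At.N6 (h : At B X Y Z N x r g) : 6 ≤ N := by linarith [h.eN, h.hX]

lemma At.x_pos (h : At B X Y Z N x r g) : 0 < x := by
  have := h.N6; have := h.hY
  rw [h.ex]
  have : 0 < N - 2 := by linarith
  positivity

lemma rho_bounds {N T : ℝ} (hN : 6 ≤ N) (hT : 0 < T) : 0 < rho N T ∧ rho N T < 1 := by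
  have h1 : 0 < N ^ 2 * (1 + T) := by positivity
  have h2 : 0 < 2 * (N - 2) * T := mul_pos (by linarith) hT
  exact ⟨div_pos h1 (by linarith), (div_lt_one (by linarith)).2 (by linarith)⟩

lemma At.evals (h : At B X Y Z N x r g) :
    Box.N.eval X Y Z = N ∧ Box.h.eval X Y Z = N - 2 ∧ Box.xd.eval X Y Z = 2 / x ∧
    Box.Tn.eval X Y Z = (1 + x) * (2 / x) ∧
    Box.ron.eval X Y Z = N ^ 2 * (2 + x) * (2 / x) ∧
    Box.rod.eval X Y Z = (N ^ 2 * (2 + x) + 2 * (N - 2) * (1 + x)) * (2 / x) := by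
  have := h.N6; have := h.hY
  have h2 : N - 2 ≠ 0 := by linarith
  have hY : 1 + Y ≠ 0 := by linarith
  have hx : 2 / x = (N - 2) * (1 + Y) := by rw [h.ex]; field_simp
  have eN : X = N - 6 := by linarith [h.eN]
  have hx0 := h.x_pos.ne'
  have hT : (1 + x) * (2 / x) = (N - 2) * (1 + Y) + 2 := by
    rw [← hx]; field_simp
  have hT' : (2 + x) * (2 / x) = 2 * ((N - 2) * (1 + Y)) + 2 := by
    rw [← hx]; field_simp
  refine ⟨?_, ?_, ?_, ?_, ?_, ?_⟩
  all_goals simp only [Box.N, Box.h, Box.xd, Box.Tn, Box.ron, Box.rod, Box.ni, Ex.eval, eN]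
  all_goals push_cast
  · ring
  · ring
  · rw [hx]; ring
  · rw [hT]; ring
  · rw [mul_assoc (N ^ 2), hT']; ring
  · have key : (N ^ 2 * (2 + x) + 2 * (N - 2) * (1 + x)) * (2 / x)
        = N ^ 2 * ((2 + x) * (2 / x)) + 2 * (N - 2) * ((1 + x) * (2 / x)) := by ring
    rw [key, hT', hT]; ring

lemma At.fs_pos (h : At B X Y Z N x r g) : ∀ f ∈ B.fs, 0 < f.eval X Y Z := by
  have hN := h.N6
  have hx := h.x_pos
  obtain ⟨e1, e2, e3, e4, e5, e6⟩ := h.evals
  obtain ⟨hr0, hr1⟩ := rho_bounds (T := 1 + x) hN (by linarith)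
  set u := 2 / x with hu
  have hu0 : 0 < u := by positivity
  have hA : 0 < N ^ 2 * (2 + x) := by positivity
  have hB : 0 < 2 * (N - 2) * (1 + x) := by
    have : 0 < N - 2 := by linarith
    positivity
  simp only [Box.fs, List.forall_mem_cons, List.not_mem_nil, IsEmpty.forall_iff, Box.ni, Box.yn,
    Ex.eval, e1, e2, e3, e4, e5, e6, h.es]
  push_cast
  have hs := h.hsd
  have h0 := h.hr0
  refine ⟨by norm_num, by norm_num, by linarith, by linarith, hu0, by positivity, hs, h.hgd,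
    by positivity, ?_, by positivity, by nlinarith, ?_, by positivity, by positivity, by simp⟩
  · have h1 := h.hts
    rw [rho, show 1 + (1 + x) = 2 + x by ring, div_mul_eq_mul_div, div_lt_one (by linarith)] at h1
    nlinarith [mul_pos (mul_pos (sub_pos.2 h1) hu0) hs]
  · have : 0 ≤ (19 * N - 60) * u := mul_nonneg (by linarith) hu0.le
    linarith

lemma At.base_eval (h : At B X Y Z N x r g) (w : B.Q) :
    (B.base w).map (RQ.val X Y Z)
      = baseR N (1 + x) (1 + x * rho N (1 + x) * r) (w.val X Y Z) := by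
  have hfs := h.fs_pos
  have hN := h.N6
  have hx := h.x_pos
  obtain ⟨e1, e2, e3, e4, e5, e6⟩ := h.evals
  have hA : 0 < N ^ 2 * (2 + x) := by positivity
  have hh : 0 < N - 2 := by linarith
  have hB : 0 < N ^ 2 * (2 + x) + 2 * (N - 2) * (1 + x) := by positivity
  have hsd := h.hsd
  have hs0 : 0 < 1 + x * rho N (1 + x) * r + (1 + x) := by
    have := (rho_bounds (T := 1 + x) hN (by linarith)).1
    have := h.hr0
    positivity
  have hts : 0 < 1 + x - (1 + x * rho N (1 + x) * r) := by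
    obtain ⟨a, b⟩ := rho_bounds (T := 1 + x) hN (by linarith)
    nlinarith [mul_lt_mul_of_pos_left h.hts hx]
  have hD : (1 + x) ^ 2 - (1 + x * rho N (1 + x) * r) ^ 2
      = (1 + x * rho N (1 + x) * r + (1 + x)) * (1 + x - (1 + x * rho N (1 + x) * r)) := by ring
  have hy : B.vy.val X Y Z = x * rho N (1 + x) * r := by
    simp only [Box.vy, RQ.val_div, RQ.val_of]
    simp only [Box.fs, List.map_cons, List.map_nil, dprod, pow_zero, pow_one, one_mul, mul_one,
      Box.ni, Box.yn, Ex.eval, e3, e5, e6, h.es, rho]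
    push_cast
    rw [show 1 + (1 + x) = 2 + x by ring]
    field_simp
  have hG : B.vG.val X Y Z = gOne N (1 + x) := by
    simp only [Box.vG, RQ.val_div, RQ.val_of]
    simp only [Box.fs, List.map_cons, List.map_nil, dprod, pow_zero, pow_one, one_mul, mul_one,
      Box.ni, Ex.eval, e1, e3, e4, gOne]
    push_cast
    have : N ^ 2 - 12 ≠ 0 := by nlinarith
    have : N * N - 12 ≠ 0 := by nlinarith
    have h5 : 5 * N * (2 / x) + 6 * ((1 + x) * (2 / x)) ≠ 0 := by positivity
    have h19 : 84 * N * 2 + (19 * N - 60) * (2 / x) ≠ 0 := by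
      have : 0 ≤ (19 * N - 60) * (2 / x) := mul_nonneg (by linarith) (by positivity)
      linarith
    have e7 : 1 + x - 1 + 19 / 84 - 5 / (7 * N)
        = (84 * N * x + (19 * N - 60)) / (84 * N) := by field_simp; ring
    have e8 : 1 + 6 * (1 + x) / (5 * N) = (5 * N + 6 * (1 + x)) / (5 * N) := by field_simp
    rw [e7, e8]
    have : 84 * N * x + (19 * N - 60) ≠ 0 := by nlinarith
    have : 5 * N + 6 * (1 + x) ≠ 0 := by linarith
    field_simp
    ring
  simp only [Base.map, baseR, Box.base, Box.one, Box.vT, Box.vC, RQ.val_add hfs, RQ.val_mul,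
    Box.viX, Box.viY, RQ.val_div, RQ.val_of, hy, hG]
  simp only [Box.fs, List.map_cons, List.map_nil, dprod, pow_zero, pow_one, one_mul, mul_one,
    Box.ni, Box.yn, Ex.eval, e1, e2, e3, e4, e5, e6, h.es, Base.mk.injEq]
  push_cast
  have hx0 := hx.ne'
  have e9 : 2 / x + (1 + x) * (2 / x) = (2 + x) * (2 / x) := by ring
  have hr : rho N (1 + x) = N ^ 2 * (2 + x) / (N ^ 2 * (2 + x) + 2 * (N - 2) * (1 + x)) := by
    rw [rho, show 1 + (1 + x) = 2 + x by ring]
  refine ⟨by trivial, ?_, by trivial, by trivial,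
    by trivial, ?_, ?_, ?_, by trivial, by trivial⟩
  · field_simp
  · rw [hr] at hs0 ⊢
    generalize N ^ 2 * (2 + x) + 2 * (N - 2) * (1 + x) = D at hB hs0 ⊢
    field_simp
    ring
  · rw [hD, ← one_div_mul_one_div]
    rw [hr] at hs0 hts ⊢
    generalize N ^ 2 * (2 + x) + 2 * (N - 2) * (1 + x) = D at hB hs0 hts ⊢
    generalize N ^ 2 * (2 + x) = A at *
    congr 1
    · field_simp
      ring
    · have e : 1 + x - (1 + x * (A / D) * r) = x * (D - A * r) / D := by field_simp; ring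
      rw [e]
      have : D - A * r ≠ 0 := by
        intro h0; rw [e, h0] at hts; simp at hts
      field_simp
  · rw [e9, show 1 + (1 + x) = 2 + x by ring]
    field_simp
    ring

lemma At.wL_eval (h : At B X Y Z N x r g) : B.vwL.val X Y Z =
    lineK N (1 + x) * (x * rho N (1 + x) * (r - g)) := by
  have hfs := h.fs_pos
  have hN := h.N6
  have hx := h.x_pos
  obtain ⟨e1, e2, e3, e4, e5, e6⟩ := h.evals
  have hh : 0 < N - 2 := by linarith
  have hB : 0 < N ^ 2 * (2 + x) + 2 * (N - 2) * (1 + x) := by positivity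
  have hsd := h.hsd
  have hgd := h.hgd
  simp only [Box.vwL, Box.vk, RQ.val_mul, RQ.val_add hfs, RQ.val_div, RQ.val_of]
  simp only [Box.fs, List.map_cons, List.map_nil, dprod, pow_zero, pow_one, one_mul, mul_one,
    Box.ni, Ex.eval, e1, e3, e4, e5, e6, h.es, h.eg, lineK]
  push_cast
  have e : (1 + x) * (2 / x) + 5 * (2 / x) = (6 + x) * (2 / x) := by ring
  rw [e, rho, show 1 + (1 + x) = 2 + x by ring, show 1 + x - 1 = x by ring,
    show 1 + x + 5 = 6 + x by ring]
  generalize N ^ 2 * (2 + x) + 2 * (N - 2) * (1 + x) = D at hB ⊢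
  field_simp

lemma At.wU_eval (h : At B X Y Z N x r g) : B.vwU.val X Y Z =
    2 / (N - 2) * (x * rho N (1 + x) * r * (1 - 3 / 4 * r)) := by
  have hfs := h.fs_pos
  have hN := h.N6
  have hx := h.x_pos
  obtain ⟨e1, e2, e3, e4, e5, e6⟩ := h.evals
  have hh : 0 < N - 2 := by linarith
  have hB : 0 < N ^ 2 * (2 + x) + 2 * (N - 2) * (1 + x) := by positivity
  have hsd := h.hsd
  simp only [Box.vwU, Box.vy, RQ.val_mul, RQ.val_sub hfs, RQ.val_div, RQ.val_of]
  simp only [Box.fs, List.map_cons, List.map_nil, dprod, pow_zero, pow_one, one_mul, mul_one,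
    Box.ni, Box.yn, Ex.eval, e1, e2, e3, e5, e6, h.es]
  push_cast
  rw [rho, show 1 + (1 + x) = 2 + x by ring]
  generalize N ^ 2 * (2 + x) + 2 * (N - 2) * (1 + x) = D at hB ⊢
  field_simp
  ring

theorem At.quad_pos (h : At B X Y Z N x r g) (w : B.Q) (hc : check (B.num w) = true) :
    0 < (baseR N (1 + x) (1 + x * rho N (1 + x) * r) (w.val X Y Z)).quad := by
  rw [← h.base_eval w, ← Base.val_quad h.fs_pos]
  exact RQ.val_pos h.fs_pos hc h.hX h.hY h.hZ

/-- `quad / V` is concave in `W`. -/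
lemma quad_between {N T s W1 W W2 : ℝ} (h1 : W1 ≤ W) (h2 : W ≤ W2) (hv : 0 < s * (s - 1) + W1)
    (q1 : 0 < (baseR N T s W1).quad) (q2 : 0 < (baseR N T s W2).quad) :
    0 < (baseR N T s W).quad := by
  rcases eq_or_lt_of_le h1 with rfl | h1
  · exact q1
  rcases eq_or_lt_of_le h2 with rfl | h2
  · exact q2
  set A0 := (baseR N T s W).A0
  set A1 := (baseR N T s W).A1
  set G := (baseR N T s W).Gam
  set S := s * (s - 1)
  have e : ∀ w, (baseR N T s w).quad = (A0 + A1 * w) * (S + w) - G * G * (w * w) := by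
    intro w
    simp only [Base.quad, baseR, S]
    push_cast
    rfl
  rw [e] at q1 q2 ⊢
  have hv0 : 0 < S + W := by linarith
  have hv2 : 0 < S + W2 := by linarith
  have key : (W2 - W1) * ((A0 + A1 * W) * (S + W) - G * G * (W * W)) * ((S + W1) * (S + W2)) =
      (W2 - W) * ((A0 + A1 * W1) * (S + W1) - G * G * (W1 * W1)) * ((S + W) * (S + W2))
      + (W - W1) * ((A0 + A1 * W2) * (S + W2) - G * G * (W2 * W2)) * ((S + W) * (S + W1))
      + (G * S) ^ 2 * ((W2 - W) * (W - W1) * (W2 - W1)) := by ring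
  have h12 : 0 < W2 - W1 := by linarith
  have hpos : 0 < (W2 - W1) * ((A0 + A1 * W) * (S + W) - G * G * (W * W)) * ((S + W1) * (S + W2)) := by
    rw [key]
    have := mul_pos (mul_pos (sub_pos.2 h2) q1) (mul_pos hv0 hv2)
    have := mul_pos (mul_pos (sub_pos.2 h1) q2) (mul_pos hv0 hv)
    have := mul_nonneg (sq_nonneg (G * S))
      (mul_nonneg (mul_nonneg (sub_pos.2 h2).le (sub_pos.2 h1).le) h12.le)
    linarith
  have := pos_of_mul_pos_left hpos (mul_pos hv hv2).le
  exact pos_of_mul_pos_right this h12.le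

/-- **(iii)** when `σ∞ = 1`, in the variables `x = T - 1`, `r = (σ - 1)/(s₂ - 1)`. -/
theorem quad_pos_main {N x r W : ℝ} (hN : 6 ≤ N) (hx0 : 0 < x) (hx : (N - 2) * x ≤ 2)
    (hr0 : 0 < r) (hr1 : r ≤ 1) (hW0 : 0 ≤ W)
    (hWL : lineK N (1 + x) * (x * rho N (1 + x) * (r - 1 / (3 * (1 + x) ^ 2))) ≤ W)
    (hWU : W ≤ 2 / (N - 2) * (x * rho N (1 + x) * r * (1 - 3 / 4 * r))) :
    0 < (baseR N (1 + x) (1 + x * rho N (1 + x) * r) W).quad := by
  have hh : 0 < N - 2 := by linarith
  set Y := 2 / ((N - 2) * x) - 1 with hY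
  have hY0 : 0 ≤ Y := by rw [hY, sub_nonneg, one_le_div (by positivity)]; exact hx
  have ex : x = 2 / ((N - 2) * (1 + Y)) := by rw [hY]; field_simp; ring
  set g := 1 / (3 * (1 + x) ^ 2) with hg
  have hg0 : 0 < g := by positivity
  obtain ⟨hro, _⟩ := rho_bounds (T := 1 + x) hN (by linarith)
  have hgd : ∀ Z, 0 < Box.gd0.eval (N - 6) Y Z ∧
      Box.gn0.eval (N - 6) Y Z = g * Box.gd0.eval (N - 6) Y Z := by
    intro Z
    simp only [Box.gd0, Box.gn0, Box.Tn, Box.xd, Box.h, Box.ni, Ex.eval]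
    push_cast
    have hY1 : 0 < 1 + Y := by linarith
    have h4 : 0 < 4 + (N - 6) := by linarith
    refine ⟨by positivity, ?_⟩
    rw [hg, ex, show 4 + (N - 6) = N - 2 by ring]
    field_simp
  have hts : rho N (1 + x) * r < 1 := by
    obtain ⟨h1, h2⟩ := rho_bounds (T := 1 + x) hN (by linarith)
    exact (mul_le_of_le_one_right h1.le hr1).trans_lt h2
  have H3 : 0 < (baseR N (1 + x) (1 + x * rho N (1 + x) * r)
      (2 / (N - 2) * (x * rho N (1 + x) * r * (1 - 3 / 4 * r)))).quad := by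
    have H : At Box.full (N - 6) Y (1 / r - 1) N x r 0 := by
      refine ⟨by linarith, hY0, by rw [sub_nonneg, one_le_div hr0]; exact hr1, by ring, ex,
        hr0.le, hts, ?_, ?_, ?_, ?_⟩
      · simp only [Box.full, Box.z1, Box.ni, Ex.eval]; push_cast; linarith [one_div_pos.2 hr0]
      · simp only [Box.full, Box.z1, Box.ni, Ex.eval]; push_cast; field_simp; ring
      · simp [Box.full, Box.ni, Ex.eval]
      · simp [Box.full, Box.ni, Ex.eval]
    have := H.quad_pos _ Box.certU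
    rwa [H.wU_eval] at this
  have hs0 : 0 < (1 + x * rho N (1 + x) * r) * (1 + x * rho N (1 + x) * r - 1) := by
    have : 0 < x * rho N (1 + x) * r := by positivity
    nlinarith
  rcases le_or_gt r g with h | h
  · have H : At Box.below (N - 6) Y (g / r - 1) N x r g := by
      have hz : 0 ≤ g / r - 1 := by rw [sub_nonneg, one_le_div hr0]; exact h
      refine ⟨by linarith, hY0, hz, by ring, ex, hr0.le, hts, ?_, ?_, (hgd _).1, (hgd _).2⟩
      · simp only [Box.below, Box.z1, Box.ni, Ex.eval]; exact mul_pos (hgd _).1 (by push_cast; linarith)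
      · simp only [Box.below, Box.z1, Box.ni, Ex.eval, (hgd _).2]; push_cast; field_simp; ring
    have := H.quad_pos _ Box.certZ
    simp only [RQ.val_of, Box.ni, Ex.eval, Int.cast_zero] at this
    exact quad_between hW0 hWU (by linarith) this H3
  · have hz : 0 ≤ (1 - r) / (r - g) := div_nonneg (by linarith) (by linarith)
    have H : At Box.above (N - 6) Y ((1 - r) / (r - g)) N x r g := by
      refine ⟨by linarith, hY0, hz, by ring, ex, hr0.le, hts, ?_, ?_, (hgd _).1, (hgd _).2⟩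
      · simp only [Box.above, Box.z1, Box.ni, Ex.eval]; exact mul_pos (hgd _).1 (by push_cast; linarith)
      · simp only [Box.above, Box.z1, Box.ni, Ex.eval, (hgd _).2]; push_cast
        have : r - g ≠ 0 := by linarith
        field_simp; ring
    have := H.quad_pos _ Box.certL
    rw [H.wL_eval] at this
    have hk : 0 ≤ lineK N (1 + x) := by
      have : (0:ℝ) ≤ 1 + x - 1 := by linarith
      have : 0 < N := by linarith
      unfold lineK; positivity
    have : 0 ≤ lineK N (1 + x) * (x * rho N (1 + x) * (r - g)) :=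
      mul_nonneg hk (mul_nonneg (by positivity) (by linarith))
    exact quad_between hWL hWU (by linarith) (by assumption) H3

end Vale.Agent.P100T.Ineq3One
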