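import Vale.Agent.P100T.IneqIIIOneBox

/-!
Boxes for inequality (iii) on the lower edge `W = extL` of the extension box, `σ∞ = 1`.
The spare factor `gd` is `rod + 2 N²`.
-/

namespace Vale.Agent.P100T.Ineq3One

open PosCheck

namespace Box

/-- `rod - 2 N (N - 2)` and the second factor of `extC0`. -/
def xA1 : Ex := .sub rod (.mul (.mul (ni 2) N) h)
def xA2 : Ex :=
  .sub (.mul (.mul (ni 2) (.add xd N)) rod)
    (.mul (.mul (ni 2) h) (.mul (.mul N N) (.add xd Tn)))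
def xS : Ex := .add rod (.mul (ni 2) (.mul N N))
/-- Numerator and denominator of `e`, the excess of `(σ - 1)/(s₂ - 1)` at `extS3`. -/
def xeN : Ex := .mul (.mul (.mul (ni 2) Tn) h) (.mul xA1 xA2)
def xeD : Ex := .mul (.mul (.mul (ni 5) N) (.add xd Tn)) (.mul (.mul rod rod) xS)

/-- `4/5 ≤ (σ - 1)/(s₂ - 1) ≤ 1`. -/
def extLo : Box := ⟨.add (ni 4) (.mul (ni 5) .z), .mul (ni 5) z1, ni 0, xS⟩
/-- Numerator and denominator of a bound `27 (2 + x) / (250 (N + 2)²) > e`. -/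
def xfN : Ex := .mul (ni 27) (.add xd Tn)
def xfD : Ex := .mul (.mul (ni 250) xd) (.mul (.add N (ni 2)) (.add N (ni 2)))
/-- `1 ≤ (σ - 1)/(s₂ - 1) < 1 + 27 (2 + x) / (250 (N + 2)²)`. -/
def extHi : Box := ⟨.add (.mul xfD z1) (.mul xfN .z), .mul xfD z1, ni 0, xS⟩
/-- The test of that bound. -/
def okF : Bool := check (.sub (.sub (.mul xfN xeD) (.mul xeN xfD)) (ni 1))

/-- `extL`. -/
def vwE (B : Box) : B.Q :=
  (RQ.of (.mul (.mul (.sub (.mul (ni 67) Tn) (.mul (ni 3) xd)) (.mul (.mul N N) (.add xd Tn)))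
    (.mul xA1 xA2))).div [0, 2, 0, 0, 2, 3, 0, 1]

/-- The test on the lower edge. -/
def okE (B : Box) : Bool := check (B.num (vwE B))

end Box

end Vale.Agent.P100T.Ineq3One
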