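import Vale.Agent.P100T.IneqIIIBox

/-!
The rational functions of a box evaluate to the quantities of inequality (iii).
-/

noncomputable section

namespace Vale.Agent.P100T.Ineq3

open PosCheck

/-- `φ = G (tb - σ∞)` for `σ∞ > 1`. -/
def phiR (N L : ℝ) : ℝ :=
  (4 / 25 + 15 / (2 * N ^ 2)) * (1 + 69 / (5 * (N ^ 2 - 12))) * (N - L) * L
    / ((N - L + (19 / 84 - 5 / (7 * N)) * L) * (L + 6 / 5))
/-- `δ = c₀ - c₁`. -/
def dlR (N L : ℝ) : ℝ := L * (N - 2 - L) / (20 * N ^ 3)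
/-- `θ` at `σ = s₂`. -/
def th2 (N L : ℝ) : ℝ := 2 * (N - 1) * (2 + L) / (N ^ 2 + N * L + 2 * (N - 2))
/-- `k` of the lower line. -/
def kR (N L : ℝ) : ℝ := (N / L - 1) / N * (2 / 5 + (N / L - 1) / (N / L + 5)) + 4 / N ^ 3
/-- `w` on the lower line with offset `g`, at `θ = th2 s`. -/
def wLR (N L g s : ℝ) : ℝ := kR N L * 2 * L / N ^ 2 * (th2 N L * (s - g))
/-- `w` on the upper curve at `θ = th2 s`. -/
def wUR (N L s : ℝ) : ℝ :=
  (20 * L * (N - 1) + 19 * (N - 2) * (N - 2 - L)) / (5 * (N - 2) * (N - 1) * N ^ 2) * th2 N L *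
    (s * (1 - 3 * L * s / (4 * (L + 2 * (N - 2) * (N - 2 - L)))) +
      11 / 100 * ((N - 2 - L) * (N - 2) / ((N - 2 - L) * (N - 2) + 6 * L)))

/-- The point `(N, Λ, θ, w)`. -/
def base3 (N L th w : ℝ) : Base ℝ where
  N := N
  L := L
  th := th
  ih := 1 / (N - 2)
  iN := 1 / N
  iN1 := 1 / (N - 1)
  iM := 1 / (N - 1 + th)
  ip := 1 / (1 - th)
  i2 := 1 / 2
  phi := phiR N L
  dl := dlR N L
  w := w

lemma phi_den {N L : ℝ} (hN : 6 ≤ N) (hL : L < N - 2) :
    0 < 84 * (N * N) - (65 * N + 60) * L := by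
  nlinarith [mul_le_mul_of_nonneg_left hL.le (by linarith : (0:ℝ) ≤ 65 * N + 60)]

lemma th2_lt_one {N L : ℝ} (hN : 2 < N) (hL0 : 0 < L) (hL : L < N - 2) :
    0 < th2 N L ∧ th2 N L < 1 := by
  have hden : 0 < N ^ 2 + N * L + 2 * (N - 2) := by nlinarith
  refine ⟨div_pos (by nlinarith) hden, ?_⟩
  rw [th2, div_lt_one hden]; nlinarith

/-- A point of a box: the values of its expressions. -/
structure At (B : Box) (X Y Z N L s g : ℝ) : Prop where
  hX : 0 ≤ X
  hY : 0 ≤ Y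
  hZ : 0 ≤ Z
  hN : 6 ≤ N
  hL0 : 0 < L
  hL : L < N - 2
  hs0 : 0 ≤ s
  hts : th2 N L * s < 1
  eN : B.N.eval X Y Z = N
  hLd : 0 < B.Ld.eval X Y Z
  eL : B.Ln.eval X Y Z = L * B.Ld.eval X Y Z
  hsd : 0 < B.sd.eval X Y Z
  es : B.sn.eval X Y Z = s * B.sd.eval X Y Z
  hgd : 0 < B.gd.eval X Y Z
  eg : B.gn.eval X Y Z = g * B.gd.eval X Y Z

variable {B : Box} {X Y Z N L s g : ℝ}

lemma At.thn_eval (h : At B X Y Z N L s g) : B.thn.eval X Y Z =
    2 * (N - 1) * (2 + L) * B.Ld.eval X Y Z * (s * B.sd.eval X Y Z) := by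
  simp only [Box.thn, Box.tn, Box.ni, Ex.eval, h.eN, h.eL, h.es]; push_cast; ring

lemma At.T2_eval (h : At B X Y Z N L s g) :
    B.T2.eval X Y Z = (N ^ 2 + N * L + 2 * (N - 2)) * B.Ld.eval X Y Z := by
  simp only [Box.T2, Box.h, Box.ni, Ex.eval, h.eN, h.eL]; push_cast; ring

lemma At.fs_pos (h : At B X Y Z N L s g) : ∀ f ∈ B.fs, 0 < f.eval X Y Z := by
  have hN := h.hN
  have hLd := h.hLd
  have hL := h.hL
  have hL0 := h.hL0
  have hden : 0 < N ^ 2 + N * L + 2 * (N - 2) := by nlinarith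
  obtain ⟨ht0, ht1⟩ := th2_lt_one (by linarith) hL0 hL
  have hts := h.hts
  have hthd : B.thd.eval X Y Z =
      (N ^ 2 + N * L + 2 * (N - 2)) * B.Ld.eval X Y Z * B.sd.eval X Y Z := by
    rw [Box.thd, Ex.eval, h.T2_eval]
  have hthn : B.thn.eval X Y Z = th2 N L * s * B.thd.eval X Y Z := by
    rw [h.thn_eval, hthd, th2]
    generalize hD : N ^ 2 + N * L + 2 * (N - 2) = D at hden ⊢
    field_simp
  have hthd0 : 0 < B.thd.eval X Y Z := by rw [hthd]; exact mul_pos (mul_pos hden hLd) h.hsd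
  have hK := mul_pos (phi_den hN hL) hLd
  have hhL : 0 < (N - 2 - L) * B.Ld.eval X Y Z := mul_pos (by linarith) hLd
  have hT2 := h.T2_eval
  have hh : (0:ℝ) < N - 2 := by linarith
  simp only [Box.fs, List.forall_mem_cons, List.not_mem_nil, IsEmpty.forall_iff,
    Box.ni, Box.h, Box.hL, Ex.eval, h.eN, h.eL, hthn, hT2]
  push_cast
  refine ⟨by norm_num, by norm_num, by linarith, by linarith, hh, hLd, mul_pos hden hLd, h.hsd,
    by nlinarith [mul_pos (sub_pos.2 hts) hthd0],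
    by nlinarith [mul_pos (by linarith : (0:ℝ) < N - 1) hthd0,
      mul_nonneg (mul_nonneg ht0.le h.hs0) hthd0.le],
    by nlinarith [mul_pos hL0 hLd], by linarith, by nlinarith [mul_pos hL0 hLd],
    mul_pos hL0 hLd, h.hgd, by nlinarith [mul_pos hhL hh, mul_pos hL0 hLd], ?_, by nlinarith,
    by simp⟩
  nlinarith [mul_pos (mul_pos hhL hh) hLd, mul_pos (mul_pos hL0 hLd) hLd]

lemma At.base_eval (h : At B X Y Z N L s g) (w : B.Q) :
    (B.base w).map (RQ.val X Y Z) = base3 N L (th2 N L * s) (w.val X Y Z) := by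
  have hN := h.hN
  have hfs := h.fs_pos
  have hLd := h.hLd.ne'
  have hsd := h.hsd.ne'
  have hden : (N ^ 2 + N * L + 2 * (N - 2)) ≠ 0 := by nlinarith [h.hL0]
  have eN := h.eN
  have eL := h.eL
  have e1 := h.thn_eval
  have e2 := h.T2_eval
  have hK := phi_den hN h.hL
  have hL := h.hL
  have hL0 := h.hL0
  have hN0 : N ≠ 0 := by linarith
  have hN1 : N - 1 ≠ 0 := by linarith
  have hh : N - 2 ≠ 0 := by linarith
  have h56 : 5 * L + 6 ≠ 0 := by linarith
  simp only [Base.map, base3, Box.base, Box.one, Box.vN, Box.vL, Box.vth, Box.vphi, Box.vdl,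
    RQ.val_div, RQ.val_of, Box.fs, List.map_cons, List.map_nil, dprod, pow_zero, pow_one, one_mul,
    mul_one, Ex.eval, Box.ni, Box.h, Box.hL, Box.NL, eN]
  push_cast
  simp only [eL, e1, e2, Box.thd, Ex.eval, Base.mk.injEq]
  have hp : (1:ℝ) - th2 N L * s ≠ 0 := by
    obtain ⟨ht0, ht1⟩ := th2_lt_one (N := N) (by linarith) h.hL0 h.hL
    linarith [h.hts]
  have hM : N - 1 + th2 N L * s ≠ 0 := by
    nlinarith [mul_nonneg (th2_lt_one (N := N) (by linarith) h.hL0 h.hL).1.le h.hs0]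
  refine ⟨trivial, ?_, ?_, trivial, trivial, trivial, ?_, ?_, trivial, ?_, ?_, trivial⟩
  · field_simp
  · rw [th2]
    generalize N ^ 2 + N * L + 2 * (N - 2) = D at hden ⊢
    field_simp
  · rw [th2] at hM ⊢
    generalize N ^ 2 + N * L + 2 * (N - 2) = D at hden hM ⊢
    field_simp
  · rw [th2] at hp ⊢
    generalize N ^ 2 + N * L + 2 * (N - 2) = D at hden hp ⊢
    field_simp
  · rw [phiR]
    have : 84 * N ^ 2 - (65 * N + 60) * L ≠ 0 := by nlinarith
    have h57 : N - L + (19 / 84 - 5 / (7 * N)) * L = (84 * N ^ 2 - (65 * N + 60) * L) / (84 * N) := by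
      field_simp; ring
    have h12 : N ^ 2 - 12 ≠ 0 := by nlinarith
    have h12' : N * N - 12 ≠ 0 := by nlinarith
    have h4 : 1 + 69 / (5 * (N ^ 2 - 12)) = (5 * N ^ 2 + 9) / (5 * (N ^ 2 - 12)) := by
      field_simp; ring
    rw [h57, h4]
    field_simp
    ring
  · rw [dlR]; field_simp; ring

lemma At.wL_eval (h : At B X Y Z N L s g) : B.vwL.val X Y Z = wLR N L g s := by
  have hN := h.hN
  have hLd := h.hLd.ne'
  have hsd := h.hsd.ne'
  have hgd := h.hgd.ne'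
  have hL0 := h.hL0
  have hden : (N ^ 2 + N * L + 2 * (N - 2)) ≠ 0 := by nlinarith
  have h5 : N + 5 * L ≠ 0 := by linarith
  have hN0 : N ≠ 0 := by linarith
  have hfs := h.fs_pos
  have eN := h.eN
  have eL := h.eL
  simp only [Box.vwL, Box.vk, Box.vdth, Box.one, Box.vL, RQ.val_mul, RQ.val_add hfs, RQ.val_div,
    RQ.val_of]
  simp only [Box.fs, List.map_cons, List.map_nil, dprod, pow_zero, pow_one, one_mul, mul_one,
    Ex.eval, Box.ni, Box.tn, Box.NL, eN]
  push_cast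
  simp only [eL, h.T2_eval, h.es, h.eg, wLR, kR, th2]
  have : N / L + 5 = (N + 5 * L) / L := by field_simp
  rw [this]
  field_simp

lemma At.wU_eval (h : At B X Y Z N L s g) : B.vwU.val X Y Z = wUR N L s := by
  have hN := h.hN
  have hLd := h.hLd.ne'
  have hsd := h.hsd.ne'
  have hL0 := h.hL0
  have hL := h.hL
  have hden : (N ^ 2 + N * L + 2 * (N - 2)) ≠ 0 := by nlinarith
  have hN0 : N ≠ 0 := by linarith
  have hN1 : N - 1 ≠ 0 := by linarith
  have hh : N - 2 ≠ 0 := by linarith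
  have h6 : (N - 2 - L) * (N - 2) + 6 * L ≠ 0 := by nlinarith
  have hb : L + 2 * (N - 2) * (N - 2 - L) ≠ 0 := by nlinarith
  have hfs := h.fs_pos
  have eN := h.eN
  have eL := h.eL
  simp only [Box.vwU, RQ.val_mul, RQ.val_add hfs, RQ.val_sub hfs, RQ.val_div, RQ.val_of]
  simp only [Box.fs, List.map_cons, List.map_nil, dprod, pow_zero, pow_one, one_mul, mul_one,
    Ex.eval, Box.ni, Box.tn, Box.h, Box.hL, eN]
  push_cast
  simp only [eL, h.T2_eval, h.es, wUR, th2]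
  field_simp
  ring

/-- A successful check gives the strict inequality at every point of the box. -/
theorem At.quad_pos (h : At B X Y Z N L s g) (w : B.Q) (hc : check (B.num w) = true) :
    0 < (base3 N L (th2 N L * s) (w.val X Y Z)).quad := by
  rw [← h.base_eval w, ← Base.val_quad h.fs_pos]
  exact RQ.val_pos h.fs_pos hc h.hX h.hY h.hZ

end Vale.Agent.P100T.Ineq3
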