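import Vale.Agent.P100T.IneqIIIAlg
import Vale.Agent.P100T.IneqIIIReal

/-!
`A₀`, `A₁` and `Γ` in scale-free variables, for `σ∞ > 1`.
-/

noncomputable section

namespace Vale.Agent.P100T.Ineq3

variable {N L th : ℝ}

/-- `σ` at `(N, Λ, θ)`. -/
def sOf (N L th : ℝ) : ℝ := (N - 2 + 2 * th) / L
/-- `-c` at `(N, Λ, θ)`. -/
def cOf (N L th : ℝ) : ℝ := N / (2 * (N - 2)) + dlR N L + phiR N L * th

lemma a0_scale (hN : 2 < N) (hL : 0 < L) (h0 : 0 ≤ th) (h1 : th < 1) :
    a0F N (N / L) (sOf N L th) = (N - 4) / (N - 2)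
      - N * th * (N - 2 + 2 * th - L) / (2 * (N - 2) * (1 - th) * (N - 1 + th)) := by
  have : N - 2 ≠ 0 := by linarith
  have : 1 - th ≠ 0 := by linarith
  have : N - 1 + th ≠ 0 := by linarith
  have : N ≠ 0 := by linarith
  have e : (N / L) ^ 2 - sOf N L th ^ 2 = 4 * (1 - th) * (N - 1 + th) / L ^ 2 := by
    rw [sOf]; field_simp; ring
  rw [a0F, e, sOf]; field_simp; ring

lemma scale_aux (hN : 2 < N) (hL : 0 < L) :
    (N / L) ^ 2 - sOf N L th ^ 2 = 4 * (1 - th) * (N - 1 + th) / L ^ 2 ∧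
    sOf N L th + N / L = 2 * (N - 1 + th) / L ∧
    muF N (N / L) (sOf N L th) = (N - 1) * N * (L + N) / (2 * (N - 2) * L * (N - 1 + th)) := by
  have : L ≠ 0 := hL.ne'
  have : N ≠ 0 := by linarith
  have e : sOf N L th + N / L = 2 * (N - 1 + th) / L := by rw [sOf]; field_simp; ring
  refine ⟨by rw [sOf]; field_simp; ring, e, ?_⟩
  have : N - 2 ≠ 0 := by linarith
  rw [muF, e]; field_simp

lemma d0_scale (hN : 2 < N) (hL : 0 < L) (h0 : 0 ≤ th) (h1 : th < 1) (w : ℝ) :
    d0F N (N / L) (sOf N L th) (cOf N L th)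
      = (base3 N L th w).d0N * (N - 1) ^ 2 / (N * (N - 1 + th) ^ 2) := by
  obtain ⟨_, e, em⟩ := scale_aux (N := N) (L := L) (th := th) hN hL
  have : N - 2 ≠ 0 := by linarith
  have : N - 1 + th ≠ 0 := by linarith
  have : N - 1 ≠ 0 := by linarith
  have : N ≠ 0 := by linarith
  rw [d0F, em, e, sOf, cOf]
  simp only [Base.d0N, Base.kap, Base.eps, Base.m2, Base.r1, Base.r2, Base.u, Base.M1, Base.h,
    base3, Int.cast_id]
  push_cast
  field_simp
  ring

lemma base_eta (w : ℝ) : (base3 N L th w).eta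
    = N * th * (N - 2 + 2 * th - L) / (2 * (N - 2) * (1 - th) * (N - 1 + th)) := by
  simp only [Base.eta, Base.h, base3]
  push_cast
  rw [one_div, one_div, one_div, one_div, div_eq_mul_inv, mul_inv, mul_inv, mul_inv]
  ring

lemma A0_scale (hN : 2 < N) (hL : 0 < L) (h0 : 0 ≤ th) (h1 : th < 1) (w : ℝ) :
    A0F N (N / L) (sOf N L th) (cOf N L th) * (N ^ 2 * (N - 1 + th) ^ 2 / (4 * (N - 1) ^ 2))
      = (base3 N L th w).F0 := by
  obtain ⟨_, e, em⟩ := scale_aux (N := N) (L := L) (th := th) hN hL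
  have : N - 2 ≠ 0 := by linarith
  have : N - 1 + th ≠ 0 := by linarith
  have : N - 1 ≠ 0 := by linarith
  have : N ≠ 0 := by linarith
  rw [A0F, d0_scale hN hL h0 h1 w, em, e, a0_scale hN hL h0 h1, ← base_eta w, cOf]
  simp only [Base.F0, Base.E, Base.v, Base.d0N]
  generalize (base3 N L th w).eta = et
  simp only [Base.kap, Base.eps, Base.m2, Base.r1, Base.r2, Base.u, Base.M1, Base.h, base3]
  push_cast
  generalize dlR N L = dl
  generalize phiR N L = ph
  field_simp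
  ring

lemma A1_scale (hN : 2 < N) (hL : 0 < L) (h0 : 0 ≤ th) (h1 : th < 1) (w : ℝ) :
    A1F N (N / L) (sOf N L th) (cOf N L th) (phiR N L * L / 2) * (N / L) ^ 2
      * (N ^ 2 * (N - 1 + th) ^ 2 / (4 * (N - 1) ^ 2)) = (base3 N L th w).A := by
  obtain ⟨eD, e, em⟩ := scale_aux (N := N) (L := L) (th := th) hN hL
  have : N - 2 ≠ 0 := by linarith
  have : 1 - th ≠ 0 := by linarith
  have : N - 1 + th ≠ 0 := by linarith
  have : N - 1 ≠ 0 := by linarith
  have : N ≠ 0 := by linarith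
  rw [A1F, d0_scale hN hL h0 h1 w, em, e, eD, a0_scale hN hL h0 h1, ← base_eta w, cOf, sOf]
  simp only [Base.A, Base.B4, Base.C, Base.m]
  generalize (base3 N L th w).eta = et
  generalize (base3 N L th w).d0N = d
  simp only [Base.u, Base.M1, Base.h, base3]
  push_cast
  generalize dlR N L = dl
  generalize phiR N L = ph
  field_simp
  ring

lemma Gam_scale (hN : 2 < N) (hL : 0 < L) (h0 : 0 ≤ th) (h1 : th < 1) (w : ℝ) :
    GamF N (N / L) (sOf N L th) (cOf N L th) (phiR N L * L / 2) * (N / L) * (N - 1 + th)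
      = (base3 N L th w).gM := by
  obtain ⟨eD, e, em⟩ := scale_aux (N := N) (L := L) (th := th) hN hL
  have : N - 2 ≠ 0 := by linarith
  have : 1 - th ≠ 0 := by linarith
  have : N - 1 + th ≠ 0 := by linarith
  have : N - 1 ≠ 0 := by linarith
  have : N ≠ 0 := by linarith
  rw [GamF, em, eD, cOf, sOf]
  simp only [Base.gM, Base.C, Base.u, Base.M1, Base.h, base3]
  push_cast
  field_simp
  ring

/-- The closed discriminant in terms of `quad`. -/
theorem disc_scale (hN : 2 < N) (hL : 0 < L) (h0 : 0 ≤ th) (h1 : th < 1) (W : ℝ) :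
    ((A0F N (N / L) (sOf N L th) (cOf N L th)
      + A1F N (N / L) (sOf N L th) (cOf N L th) (phiR N L * L / 2) * W)
        * (sOf N L th * (sOf N L th - 1) + W)
      - GamF N (N / L) (sOf N L th) (cOf N L th) (phiR N L * L / 2) ^ 2 * W ^ 2)
      = 4 * (N - 1) ^ 2 / (L ^ 2 * (N - 1 + th) ^ 2) * (base3 N L th (W / (N / L) ^ 2)).quad := by
  have : N - 1 + th ≠ 0 := by linarith
  have : N - 1 ≠ 0 := by linarith
  have : N ≠ 0 := by linarith
  have : L ≠ 0 := hL.ne'
  set w := W / (N / L) ^ 2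
  have hs : (base3 N L th w).sg = sOf N L th * (sOf N L th - 1) / (N / L) ^ 2 := by
    simp only [Base.sg, Base.h, base3, sOf]; push_cast; field_simp
  have hw : (base3 N L th w).w = W / (N / L) ^ 2 := rfl
  rw [Base.quad, hs, hw, Base.G2, ← Gam_scale hN hL h0 h1 w, ← A0_scale hN hL h0 h1 w,
    ← A1_scale hN hL h0 h1 w]
  simp only [base3]
  push_cast
  field_simp
  ring

end Vale.Agent.P100T.Ineq3
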