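import Vale.Agent.P100T.CertFun

/-!
Inequality (iv) of the certificate. At criticality, with `M = (N-4)/N + 2/((N-2)(p+1))`,
`ρ R / R` is affine in `z` and in `W`: `(tb - σ) ρ = rho0 + z (r10 + r11 W)`.
-/

noncomputable section

namespace Vale.Agent.P100T

/-- The parametrisation of a critical triple by `N` and `tb = (p+1)/(q+1)`. -/
structure CPar.IsCrit (C : CPar) (tb : ℝ) : Prop where
  two_lt : 2 < C.N
  tb_pos : 0 < tb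
  p_eq : C.p = C.N * (1 + tb) / (C.N - 2) - 1
  q_eq : C.q = C.N * (1 + tb) / ((C.N - 2) * tb) - 1
  M_eq : C.M = (C.N - 4) / C.N + 2 / ((C.N - 2) * (C.p + 1))

namespace IV

variable (N tb s c G W : ℝ)

/-- `(tb - σ) ρ` at `z = 0`; it does not involve `W`. -/
def rho0 : ℝ := 2 / N * (-c - (N - 1) * tb / ((N - 2) * (s + tb)))

def nuF : ℝ := (N - 1) / (N * (s + tb))
def ce0 : ℝ := -(nuF N tb s * (N * (1 + tb) * tb / (N - 2) + s * (s - 1)) / (s + tb))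
def Q0 : ℝ := (2 * s * (s + tb) - N * tb * (s - 1) + (N ^ 2 - 6 * N + 4) / N * (s * (s - 1))) /
  ((N - 2) * (s + tb))
def K0 : ℝ := (tb * (N * (1 + tb) - (N - 2) * (2 * s - 1)) - (N - 2) * s
  + (N - 2) ^ 2 / N * (s * (s - 1))) / ((N - 2) * (s + tb))
def r10 : ℝ := (ce0 N tb s - c) * Q0 N tb s
  + nuF N tb s / (s + tb) * (s * (s - 1)) * K0 N tb s
def r11 : ℝ := (nuF N tb s * (K0 N tb s - Q0 N tb s + 2 * nuF N tb s * (s * (s - 1)))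
  + 2 * ce0 N tb s - 2 * (ce0 N tb s - c) / N) / (s + tb) - G

end IV

variable {C : CPar} {tb s W z : ℝ}

lemma CPar.IsCrit.rho_eq (h : C.IsCrit tb) (hs : 0 < s) (hst : s < tb) :
    (tb - s) * C.rho s W z = IV.rho0 C.N tb s (C.c s)
      + z * (IV.r10 C.N tb s (C.c s) + IV.r11 C.N tb s (C.c s) C.G * W) := by
  obtain ⟨h2, htb, hp, hq, hM⟩ := h
  have : (0:ℝ) < C.N - 2 := by linarith
  have : C.N ≠ 0 := by linarith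
  have : 0 < s + tb := by linarith
  have : tb - s ≠ 0 := by linarith
  have hK : C.K s = C.N * (1 + tb) * (s + tb) / ((C.N - 2) * tb) := by
    simp only [CPar.K, hp, hq]; field_simp; ring
  have hL : C.L s = C.N * (1 + tb) * (tb - s) / ((C.N - 2) * tb) := by
    simp only [CPar.L, hp, hq]; field_simp; ring
  have : 1 + tb ≠ 0 := by linarith
  simp only [CPar.rho, CPar.kz, CPar.a, CPar.ce, CPar.c', CPar.Kp0, CPar.E0, CPar.l, CPar.nu,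
    CPar.mu, CPar.V, hK, hL, IV.rho0, IV.r10, IV.r11, IV.ce0, IV.Q0, IV.K0, IV.nuF, hM, hp, hq]
  generalize C.c s = c
  field_simp
  ring

namespace IV

def num0 (n x y : ℝ) : ℝ :=
  (-400) * y + (-160) * y ^ 2 + 620 * y ^ 3 + 300 * y ^ 4 + 2000 * x + 2800 * x * y
    + 1300 * x * y ^ 2 + 1040 * x * y ^ 3 + 300 * x * y ^ 4 + 2000 * x ^ 2 + 2300 * x ^ 2 * y
    + 180 * x ^ 2 * y ^ 2 + 120 * x ^ 2 * y ^ 3 + 500 * x ^ 3 + 400 * x ^ 3 * y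
    + (-180) * x ^ 3 * y ^ 2 + (-660) * n * y + (-472) * n * y ^ 2 + 519 * n * y ^ 3
    + 295 * n * y ^ 4 + 1700 * n * x + 1820 * n * x * y + 625 * n * x * y ^ 2
    + 908 * n * x * y ^ 3 + 295 * n * x * y ^ 4 + 1700 * n * x ^ 2 + 1595 * n * x ^ 2 * y
    + (-119) * n * x ^ 2 * y ^ 2 + 94 * n * x ^ 2 * y ^ 3 + 425 * n * x ^ 3 + 260 * n * x ^ 3 * y
    + (-201) * n * x ^ 3 * y ^ 2 + (-316) * n ^ 2 * y + (-268) * n ^ 2 * y ^ 2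
    + 159 * n ^ 2 * y ^ 3 + 107 * n ^ 2 * y ^ 4 + 540 * n ^ 2 * x + 392 * n ^ 2 * x * y
    + 23 * n ^ 2 * x * y ^ 2 + 290 * n ^ 2 * x * y ^ 3 + 107 * n ^ 2 * x * y ^ 4
    + 540 * n ^ 2 * x ^ 2 + 387 * n ^ 2 * x ^ 2 * y + (-141) * n ^ 2 * x ^ 2 * y ^ 2
    + 24 * n ^ 2 * x ^ 2 * y ^ 3 + 135 * n ^ 2 * x ^ 3 + 56 * n ^ 2 * x ^ 3 * y
    + (-83) * n ^ 2 * x ^ 3 * y ^ 2 + (-60) * n ^ 3 * y + (-56) * n ^ 3 * y ^ 2
    + 21 * n ^ 3 * y ^ 3 + 17 * n ^ 3 * y ^ 4 + 76 * n ^ 3 * x + 28 * n ^ 3 * x * y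
    + (-25) * n ^ 3 * x * y ^ 2 + 40 * n ^ 3 * x * y ^ 3 + 17 * n ^ 3 * x * y ^ 4
    + 76 * n ^ 3 * x ^ 2 + 37 * n ^ 3 * x ^ 2 * y + (-37) * n ^ 3 * x ^ 2 * y ^ 2
    + 2 * n ^ 3 * x ^ 2 * y ^ 3 + 19 * n ^ 3 * x ^ 3 + 4 * n ^ 3 * x ^ 3 * y
    + (-15) * n ^ 3 * x ^ 3 * y ^ 2 + (-4) * n ^ 4 * y + (-4) * n ^ 4 * y ^ 2 + 1 * n ^ 4 * y ^ 3
    + 1 * n ^ 4 * y ^ 4 + 4 * n ^ 4 * x + (-3) * n ^ 4 * x * y ^ 2 + 2 * n ^ 4 * x * y ^ 3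
    + 1 * n ^ 4 * x * y ^ 4 + 4 * n ^ 4 * x ^ 2 + 1 * n ^ 4 * x ^ 2 * y
    + (-3) * n ^ 4 * x ^ 2 * y ^ 2 + 1 * n ^ 4 * x ^ 3 + (-1) * n ^ 4 * x ^ 3 * y ^ 2

def num0_0 (n x : ℝ) : ℝ :=
  2000 * x + 2000 * x ^ 2 + 500 * x ^ 3 + 1700 * n * x + 1700 * n * x ^ 2 + 425 * n * x ^ 3
    + 540 * n ^ 2 * x + 540 * n ^ 2 * x ^ 2 + 135 * n ^ 2 * x ^ 3 + 76 * n ^ 3 * x
    + 76 * n ^ 3 * x ^ 2 + 19 * n ^ 3 * x ^ 3 + 4 * n ^ 4 * x + 4 * n ^ 4 * x ^ 2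
    + 1 * n ^ 4 * x ^ 3

lemma num0_0_pos {n x : ℝ} (hn : 0 ≤ n) (hx : 0 < x)  :
    0 < num0_0 n x := by
  unfold num0_0
  positivity

def num0_1 (n x : ℝ) : ℝ :=
  1900 * x + 2700 * x ^ 2 + 1075 * x ^ 3 + 100 * x ^ 4 + 1535 * n * x + 2155 * n * x ^ 2
    + 3295 / 4 * n * x ^ 3 + 65 * n * x ^ 4 + 461 * n ^ 2 * x + 638 * n ^ 2 * x ^ 2
    + 927 / 4 * n ^ 2 * x ^ 3 + 14 * n ^ 2 * x ^ 4 + 61 * n ^ 3 * x + 83 * n ^ 3 * x ^ 2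
    + 113 / 4 * n ^ 3 * x ^ 3 + 1 * n ^ 3 * x ^ 4 + 3 * n ^ 4 * x + 4 * n ^ 4 * x ^ 2
    + 5 / 4 * n ^ 4 * x ^ 3

lemma num0_1_pos {n x : ℝ} (hn : 0 ≤ n) (hx : 0 < x)  :
    0 < num0_1 n x := by
  unfold num0_1
  positivity

def num0_2 (n x : ℝ) : ℝ :=
  1800 * x + 10120 / 3 * x ^ 2 + 5600 / 3 * x ^ 3 + 230 * x ^ 4 + (-30) * x ^ 5 + 1370 * n * x
    + 7594 / 3 * n * x ^ 2 + 3980 / 3 * n * x ^ 3 + 661 / 6 * n * x ^ 4 + (-67 / 2) * n * x ^ 5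
    + 382 * n ^ 2 * x + 2074 / 3 * n ^ 2 * x ^ 2 + 997 / 3 * n ^ 2 * x ^ 3
    + 9 / 2 * n ^ 2 * x ^ 4 + (-83 / 6) * n ^ 2 * x ^ 5 + 46 * n ^ 3 * x
    + 242 / 3 * n ^ 3 * x ^ 2 + 100 / 3 * n ^ 3 * x ^ 3 + (-25 / 6) * n ^ 3 * x ^ 4
    + (-5 / 2) * n ^ 3 * x ^ 5 + 2 * n ^ 4 * x + 10 / 3 * n ^ 4 * x ^ 2 + 1 * n ^ 4 * x ^ 3
    + (-1 / 2) * n ^ 4 * x ^ 4 + (-1 / 6) * n ^ 4 * x ^ 5

lemma num0_2_pos {n x : ℝ} (hn : 0 ≤ n) (hx : 0 < x) (hu : (n + 3) * x ≤ 2) :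
    0 < num0_2 n x := by
  have hu' : 0 ≤ 2 - (n + 3) * x := by linarith
  have e : num0_2 n x =
      1800 * x + 10120 / 3 * x ^ 2 + 5600 / 3 * x ^ 3 + 210 * x ^ 4 + 1370 * n * x
        + 7594 / 3 * n * x ^ 2 + 3980 / 3 * n * x ^ 3 + 189 / 2 * n * x ^ 4 + 382 * n ^ 2 * x
        + 2074 / 3 * n ^ 2 * x ^ 2 + 979 / 3 * n ^ 2 * x ^ 3 + 19 / 2 * n ^ 2 * x ^ 4
        + 46 * n ^ 3 * x + 242 / 3 * n ^ 3 * x ^ 2 + 97 / 3 * n ^ 3 * x ^ 3 + 2 * n ^ 4 * x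
        + 10 / 3 * n ^ 4 * x ^ 2 + 1 * n ^ 4 * x ^ 3 + 1 / 6 * n ^ 3 * x ^ 4 * (2 - (n + 3) * x)
        + 2 * n ^ 2 * x ^ 4 * (2 - (n + 3) * x) + 47 / 6 * n * x ^ 4 * (2 - (n + 3) * x)
        + 10 * x ^ 4 * (2 - (n + 3) * x) + 1 / 2 * n ^ 3 * x ^ 3 * (2 - (n + 3) * x)
        + 3 * n ^ 2 * x ^ 3 * (2 - (n + 3) * x) := by
    unfold num0_2; ring
  rw [e]; positivity

def num0_3 (n x : ℝ) : ℝ :=
  1700 * x + 4020 * x ^ 2 + 3030 * x ^ 3 + 650 * x ^ 4 + (-60) * x ^ 5 + 1205 * n * x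
    + 2829 * n * x ^ 2 + 4127 / 2 * n * x ^ 3 + 725 / 2 * n * x ^ 4 + (-77) * n * x ^ 5
    + 303 * n ^ 2 * x + 700 * n ^ 2 * x ^ 2 + 953 / 2 * n ^ 2 * x ^ 3 + 44 * n ^ 2 * x ^ 4
    + (-71 / 2) * n ^ 2 * x ^ 5 + 31 * n ^ 3 * x + 69 * n ^ 3 * x ^ 2 + 79 / 2 * n ^ 3 * x ^ 3
    + (-11 / 2) * n ^ 3 * x ^ 4 + (-7) * n ^ 3 * x ^ 5 + 1 * n ^ 4 * x + 2 * n ^ 4 * x ^ 2
    + 1 / 2 * n ^ 4 * x ^ 3 + (-1) * n ^ 4 * x ^ 4 + (-1 / 2) * n ^ 4 * x ^ 5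

lemma num0_3_pos {n x : ℝ} (hn : 0 ≤ n) (hx : 0 < x) (hu : (n + 3) * x ≤ 2) :
    0 < num0_3 n x := by
  have hu' : 0 ≤ 2 - (n + 3) * x := by linarith
  have e : num0_3 n x =
      1700 * x + 4020 * x ^ 2 + 3030 * x ^ 3 + 610 * x ^ 4 + 1205 * n * x + 2829 * n * x ^ 2
        + 4127 / 2 * n * x ^ 3 + 649 / 2 * n * x ^ 4 + 303 * n ^ 2 * x + 700 * n ^ 2 * x ^ 2
        + 939 / 2 * n ^ 2 * x ^ 3 + 87 / 2 * n ^ 2 * x ^ 4 + 31 * n ^ 3 * x + 69 * n ^ 3 * x ^ 2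
        + 75 / 2 * n ^ 3 * x ^ 3 + 1 * n ^ 4 * x + 2 * n ^ 4 * x ^ 2 + 1 / 2 * n ^ 4 * x ^ 3
        + 1 / 2 * n ^ 3 * x ^ 4 * (2 - (n + 3) * x) + 11 / 2 * n ^ 2 * x ^ 4 * (2 - (n + 3) * x)
        + 19 * n * x ^ 4 * (2 - (n + 3) * x) + 20 * x ^ 4 * (2 - (n + 3) * x)
        + 1 * n ^ 3 * x ^ 3 * (2 - (n + 3) * x) + 7 / 2 * n ^ 2 * x ^ 3 * (2 - (n + 3) * x) := by
    unfold num0_3; ring
  rw [e]; positivity

def num0_4 (n x : ℝ) : ℝ :=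
  1600 * x + 4640 * x ^ 2 + 4720 * x ^ 3 + 1920 * x ^ 4 + 240 * x ^ 5 + 1040 * n * x
    + 3048 * n * x ^ 2 + 3164 * n * x ^ 3 + 1344 * n * x ^ 4 + 188 * n * x ^ 5 + 224 * n ^ 2 * x
    + 664 * n ^ 2 * x ^ 2 + 704 * n ^ 2 * x ^ 3 + 312 * n ^ 2 * x ^ 4 + 48 * n ^ 2 * x ^ 5
    + 16 * n ^ 3 * x + 48 * n ^ 3 * x ^ 2 + 52 * n ^ 3 * x ^ 3 + 24 * n ^ 3 * x ^ 4
    + 4 * n ^ 3 * x ^ 5

lemma num0_4_pos {n x : ℝ} (hn : 0 ≤ n) (hx : 0 < x)  :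
    0 < num0_4 n x := by
  unfold num0_4
  positivity

lemma num0_pos {n x y : ℝ} (hn : 0 ≤ n) (hx : 0 < x) (hy : 0 < y) (hyx : y ≤ x)
    (hu : (n + 3) * x ≤ 2) : 0 < num0 n x y := by
  have hw : 0 ≤ x - y := by linarith
  have h0 := num0_0_pos hn hx
  have h1 := num0_1_pos hn hx
  have h2 := num0_2_pos hn hx hu
  have h3 := num0_3_pos hn hx hu
  have h4 := num0_4_pos hn hx
  refine pos_of_mul_pos_left ?_ (pow_nonneg hx.le 4)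
  have e : num0 n x y * x ^ 4 =
      num0_0 n x * (x - y) ^ 4 + 4 * num0_1 n x * y * (x - y) ^ 3
        + 6 * num0_2 n x * y ^ 2 * (x - y) ^ 2 + 4 * num0_3 n x * y ^ 3 * (x - y)
        + num0_4 n x * y ^ 4 := by
    simp only [num0, num0_0, num0_1, num0_2, num0_3, num0_4]
    ring
  rw [e]; positivity

def numG (n x y : ℝ) : ℝ :=
  10 * y + 21 * y ^ 2 + 15 * y ^ 3 + (-5) * x * y + (-9) * x * y ^ 2 + 2 * n * y + 10 * n * y ^ 2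
    + 8 * n * y ^ 3 + (-6) * n * x * y + (-6) * n * x * y ^ 2 + 1 * n ^ 2 * y ^ 2
    + 1 * n ^ 2 * y ^ 3 + (-1) * n ^ 2 * x * y + (-1) * n ^ 2 * x * y ^ 2

def numG_1 (n x : ℝ) : ℝ :=
  10 / 3 * x + (-5 / 3) * x ^ 2 + 2 / 3 * n * x + (-2) * n * x ^ 2 + (-1 / 3) * n ^ 2 * x ^ 2

lemma numG_1_pos {n x : ℝ} (hn : 0 ≤ n) (hx : 0 < x) (hu : (n + 3) * x ≤ 2) :
    0 < numG_1 n x := by
  have hu' : 0 ≤ 2 - (n + 3) * x := by linarith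
  have e : numG_1 n x =
      4 / 3 * x + 4 / 3 * x ^ 2 + 1 / 3 * n * x * (2 - (n + 3) * x) + 1 * x * (2 - (n + 3) * x) := by
    unfold numG_1; ring
  rw [e]; positivity

def numG_2 (n x : ℝ) : ℝ :=
  20 / 3 * x + 11 / 3 * x ^ 2 + (-3) * x ^ 3 + 4 / 3 * n * x + (-2 / 3) * n * x ^ 2
    + (-2) * n * x ^ 3 + (-1 / 3) * n ^ 2 * x ^ 2 + (-1 / 3) * n ^ 2 * x ^ 3

lemma numG_2_pos {n x : ℝ} (hn : 0 ≤ n) (hx : 0 < x) (hu : (n + 3) * x ≤ 2) :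
    0 < numG_2 n x := by
  have hu' : 0 ≤ 2 - (n + 3) * x := by linarith
  have e : numG_2 n x =
      6 * x + 8 / 3 * x ^ 2 + 2 / 3 * n * x + 1 / 3 * n * x ^ 2 * (2 - (n + 3) * x)
        + 1 * x ^ 2 * (2 - (n + 3) * x) + 1 / 3 * n * x * (2 - (n + 3) * x)
        + 1 / 3 * x * (2 - (n + 3) * x) := by
    unfold numG_2; ring
  rw [e]; positivity

def numG_3 (n x : ℝ) : ℝ :=
  10 * x + 16 * x ^ 2 + 6 * x ^ 3 + 2 * n * x + 4 * n * x ^ 2 + 2 * n * x ^ 3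

lemma numG_3_pos {n x : ℝ} (hn : 0 ≤ n) (hx : 0 < x)  :
    0 < numG_3 n x := by
  unfold numG_3
  positivity

lemma numG_pos {n x y : ℝ} (hn : 0 ≤ n) (hx : 0 < x) (hy : 0 < y) (hyx : y ≤ x)
    (hu : (n + 3) * x ≤ 2) : 0 < numG n x y := by
  have hw : 0 ≤ x - y := by linarith
  have h1 := numG_1_pos hn hx hu
  have h2 := numG_2_pos hn hx hu
  have h3 := numG_3_pos hn hx
  refine pos_of_mul_pos_left ?_ (pow_nonneg hx.le 3)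
  have e : numG n x y * x ^ 3 =
      3 * numG_1 n x * y * (x - y) ^ 2 + 3 * numG_2 n x * y ^ 2 * (x - y) + numG_3 n x * y ^ 3 := by
    simp only [numG, numG_1, numG_2, numG_3]
    ring
  rw [e]; positivity

def numE0 (n x y : ℝ) : ℝ :=
  1600 + 240 * y + 320 * y ^ 2 + 300 * y ^ 3 + 4400 * x + 1200 * x * y + 740 * x * y ^ 2
    + 300 * x * y ^ 3 + 3200 * x ^ 2 + 180 * x ^ 2 * y + 120 * x ^ 2 * y ^ 2 + 700 * x ^ 3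
    + (-180) * x ^ 3 * y + 1040 * n + (-212) * n * y + 224 * n * y ^ 2 + 295 * n * y ^ 3
    + 3260 * n * x + 460 * n * x * y + 613 * n * x * y ^ 2 + 295 * n * x * y ^ 3
    + 2480 * n * x ^ 2 + (-119) * n * x ^ 2 * y + 94 * n * x ^ 2 * y ^ 2 + 555 * n * x ^ 3
    + (-201) * n * x ^ 3 * y + 224 * n ^ 2 + (-212) * n ^ 2 * y + 52 * n ^ 2 * y ^ 2
    + 107 * n ^ 2 * y ^ 3 + 876 * n ^ 2 * x + (-56) * n ^ 2 * x * y + 183 * n ^ 2 * x * y ^ 2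
    + 107 * n ^ 2 * x * y ^ 3 + 708 * n ^ 2 * x ^ 2 + (-141) * n ^ 2 * x ^ 2 * y
    + 24 * n ^ 2 * x ^ 2 * y ^ 2 + 163 * n ^ 2 * x ^ 3 + (-83) * n ^ 2 * x ^ 3 * y + 16 * n ^ 3
    + (-52) * n ^ 3 * y + 4 * n ^ 3 * y ^ 2 + 17 * n ^ 3 * y ^ 3 + 100 * n ^ 3 * x
    + (-40) * n ^ 3 * x * y + 23 * n ^ 3 * x * y ^ 2 + 17 * n ^ 3 * x * y ^ 3
    + 88 * n ^ 3 * x ^ 2 + (-37) * n ^ 3 * x ^ 2 * y + 2 * n ^ 3 * x ^ 2 * y ^ 2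
    + 21 * n ^ 3 * x ^ 3 + (-15) * n ^ 3 * x ^ 3 * y + (-4) * n ^ 4 * y + 1 * n ^ 4 * y ^ 3
    + 4 * n ^ 4 * x + (-4) * n ^ 4 * x * y + 1 * n ^ 4 * x * y ^ 2 + 1 * n ^ 4 * x * y ^ 3
    + 4 * n ^ 4 * x ^ 2 + (-3) * n ^ 4 * x ^ 2 * y + 1 * n ^ 4 * x ^ 3 + (-1) * n ^ 4 * x ^ 3 * y

def numE0_0 (n x : ℝ) : ℝ :=
  1600 + 4400 * x + 3200 * x ^ 2 + 700 * x ^ 3 + 1040 * n + 3260 * n * x + 2480 * n * x ^ 2
    + 555 * n * x ^ 3 + 224 * n ^ 2 + 876 * n ^ 2 * x + 708 * n ^ 2 * x ^ 2 + 163 * n ^ 2 * x ^ 3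
    + 16 * n ^ 3 + 100 * n ^ 3 * x + 88 * n ^ 3 * x ^ 2 + 21 * n ^ 3 * x ^ 3 + 4 * n ^ 4 * x
    + 4 * n ^ 4 * x ^ 2 + 1 * n ^ 4 * x ^ 3

lemma numE0_0_pos {n x : ℝ} (hn : 0 ≤ n) (hx : 0 < x)  :
    0 < numE0_0 n x := by
  unfold numE0_0
  positivity

def numE0_1 (n x : ℝ) : ℝ :=
  1600 + 4480 * x + 3600 * x ^ 2 + 760 * x ^ 3 + (-60) * x ^ 4 + 1040 * n + 9568 / 3 * n * x
    + 7900 / 3 * n * x ^ 2 + 1546 / 3 * n * x ^ 3 + (-67) * n * x ^ 4 + 224 * n ^ 2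
    + 2416 / 3 * n ^ 2 * x + 2068 / 3 * n ^ 2 * x ^ 2 + 116 * n ^ 2 * x ^ 3
    + (-83 / 3) * n ^ 2 * x ^ 4 + 16 * n ^ 3 + 248 / 3 * n ^ 3 * x + 224 / 3 * n ^ 3 * x ^ 2
    + 26 / 3 * n ^ 3 * x ^ 3 + (-5) * n ^ 3 * x ^ 4 + 8 / 3 * n ^ 4 * x + 8 / 3 * n ^ 4 * x ^ 2
    + (-1 / 3) * n ^ 4 * x ^ 4

lemma numE0_1_pos {n x : ℝ} (hn : 0 ≤ n) (hx : 0 < x) (hu : (n + 3) * x ≤ 2) :
    0 < numE0_1 n x := by
  have hu' : 0 ≤ 2 - (n + 3) * x := by linarith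
  have e : numE0_1 n x =
      1600 + 4480 * x + 3600 * x ^ 2 + 720 * x ^ 3 + 1040 * n + 9568 / 3 * n * x
        + 7900 / 3 * n * x ^ 2 + 484 * n * x ^ 3 + 224 * n ^ 2 + 2416 / 3 * n ^ 2 * x
        + 2068 / 3 * n ^ 2 * x ^ 2 + 108 * n ^ 2 * x ^ 3 + 16 * n ^ 3 + 248 / 3 * n ^ 3 * x
        + 224 / 3 * n ^ 3 * x ^ 2 + 8 * n ^ 3 * x ^ 3 + 8 / 3 * n ^ 4 * x + 8 / 3 * n ^ 4 * x ^ 2
        + 1 / 3 * n ^ 3 * x ^ 3 * (2 - (n + 3) * x) + 4 * n ^ 2 * x ^ 3 * (2 - (n + 3) * x)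
        + 47 / 3 * n * x ^ 3 * (2 - (n + 3) * x) + 20 * x ^ 3 * (2 - (n + 3) * x) := by
    unfold numE0_1; ring
  rw [e]; positivity

def numE0_2 (n x : ℝ) : ℝ :=
  1600 + 4560 * x + 12320 / 3 * x ^ 2 + 3200 / 3 * x ^ 3 + (-80) * x ^ 4 + 1040 * n
    + 9356 / 3 * n * x + 8584 / 3 * n * x ^ 2 + 680 * n * x ^ 3 + (-308 / 3) * n * x ^ 4
    + 224 * n ^ 2 + 2204 / 3 * n ^ 2 * x + 688 * n ^ 2 * x ^ 2 + 130 * n ^ 2 * x ^ 3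
    + (-142 / 3) * n ^ 2 * x ^ 4 + 16 * n ^ 3 + 196 / 3 * n ^ 3 * x + 188 / 3 * n ^ 3 * x ^ 2
    + 4 * n ^ 3 * x ^ 3 + (-28 / 3) * n ^ 3 * x ^ 4 + 4 / 3 * n ^ 4 * x + 4 / 3 * n ^ 4 * x ^ 2
    + (-2 / 3) * n ^ 4 * x ^ 3 + (-2 / 3) * n ^ 4 * x ^ 4

lemma numE0_2_pos {n x : ℝ} (hn : 0 ≤ n) (hx : 0 < x) (hu : (n + 3) * x ≤ 2) :
    0 < numE0_2 n x := by
  have hu' : 0 ≤ 2 - (n + 3) * x := by linarith
  have e : numE0_2 n x =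
      1600 + 4560 * x + 12320 / 3 * x ^ 2 + 3040 / 3 * x ^ 3 + 1040 * n + 9356 / 3 * n * x
        + 8584 / 3 * n * x ^ 2 + 1888 / 3 * n * x ^ 3 + 224 * n ^ 2 + 2204 / 3 * n ^ 2 * x
        + 688 * n ^ 2 * x ^ 2 + 346 / 3 * n ^ 2 * x ^ 3 + 16 * n ^ 3 + 196 / 3 * n ^ 3 * x
        + 184 / 3 * n ^ 3 * x ^ 2 + 14 / 3 * n ^ 3 * x ^ 3 + 4 / 3 * n ^ 4 * x
        + 4 / 3 * n ^ 4 * x ^ 2 + 2 / 3 * n ^ 3 * x ^ 3 * (2 - (n + 3) * x)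
        + 22 / 3 * n ^ 2 * x ^ 3 * (2 - (n + 3) * x) + 76 / 3 * n * x ^ 3 * (2 - (n + 3) * x)
        + 80 / 3 * x ^ 3 * (2 - (n + 3) * x) + 2 / 3 * n ^ 3 * x ^ 2 * (2 - (n + 3) * x) := by
    unfold numE0_2; ring
  rw [e]; positivity

def numE0_3 (n x : ℝ) : ℝ :=
  1600 + 4640 * x + 4720 * x ^ 2 + 1920 * x ^ 3 + 240 * x ^ 4 + 1040 * n + 3048 * n * x
    + 3164 * n * x ^ 2 + 1344 * n * x ^ 3 + 188 * n * x ^ 4 + 224 * n ^ 2 + 664 * n ^ 2 * x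
    + 704 * n ^ 2 * x ^ 2 + 312 * n ^ 2 * x ^ 3 + 48 * n ^ 2 * x ^ 4 + 16 * n ^ 3
    + 48 * n ^ 3 * x + 52 * n ^ 3 * x ^ 2 + 24 * n ^ 3 * x ^ 3 + 4 * n ^ 3 * x ^ 4

lemma numE0_3_pos {n x : ℝ} (hn : 0 ≤ n) (hx : 0 < x)  :
    0 < numE0_3 n x := by
  unfold numE0_3
  positivity

lemma numE0_pos {n x y : ℝ} (hn : 0 ≤ n) (hx : 0 < x) (hy : 0 < y) (hyx : y ≤ x)
    (hu : (n + 3) * x ≤ 2) : 0 < numE0 n x y := by
  have hw : 0 ≤ x - y := by linarith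
  have h0 := numE0_0_pos hn hx
  have h1 := numE0_1_pos hn hx hu
  have h2 := numE0_2_pos hn hx hu
  have h3 := numE0_3_pos hn hx
  refine pos_of_mul_pos_left ?_ (pow_nonneg hx.le 3)
  have e : numE0 n x y * x ^ 3 =
      numE0_0 n x * (x - y) ^ 3 + 3 * numE0_1 n x * y * (x - y) ^ 2
        + 3 * numE0_2 n x * y ^ 2 * (x - y) + numE0_3 n x * y ^ 3 := by
    simp only [numE0, numE0_0, numE0_1, numE0_2, numE0_3]
    ring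
  rw [e]; positivity

def numEG (n x y : ℝ) : ℝ :=
  20 + 16 * y + 15 * y ^ 2 + 10 * x + (-9) * x * y + 4 * n + 4 * n * y + 8 * n * y ^ 2
    + 2 * n * x + (-6) * n * x * y + 1 * n ^ 2 * y ^ 2 + (-1) * n ^ 2 * x * y

def numEG_0 (n x : ℝ) : ℝ :=
  20 + 10 * x + 4 * n + 2 * n * x

lemma numEG_0_pos {n x : ℝ} (hn : 0 ≤ n) (hx : 0 < x)  :
    0 < numEG_0 n x := by
  unfold numEG_0
  positivity

def numEG_1 (n x : ℝ) : ℝ :=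
  20 + 18 * x + (-9 / 2) * x ^ 2 + 4 * n + 4 * n * x + (-3) * n * x ^ 2
    + (-1 / 2) * n ^ 2 * x ^ 2

lemma numEG_1_pos {n x : ℝ} (hn : 0 ≤ n) (hx : 0 < x) (hu : (n + 3) * x ≤ 2) :
    0 < numEG_1 n x := by
  have hu' : 0 ≤ 2 - (n + 3) * x := by linarith
  have e : numEG_1 n x =
      20 + 15 * x + 4 * n + 3 * n * x + 1 / 2 * n * x * (2 - (n + 3) * x)
        + 3 / 2 * x * (2 - (n + 3) * x) := by
    unfold numEG_1; ring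
  rw [e]; positivity

def numEG_2 (n x : ℝ) : ℝ :=
  20 + 26 * x + 6 * x ^ 2 + 4 * n + 6 * n * x + 2 * n * x ^ 2

lemma numEG_2_pos {n x : ℝ} (hn : 0 ≤ n) (hx : 0 < x)  :
    0 < numEG_2 n x := by
  unfold numEG_2
  positivity

lemma numEG_pos {n x y : ℝ} (hn : 0 ≤ n) (hx : 0 < x) (hy : 0 < y) (hyx : y ≤ x)
    (hu : (n + 3) * x ≤ 2) : 0 < numEG n x y := by
  have hw : 0 ≤ x - y := by linarith
  have h0 := numEG_0_pos hn hx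
  have h1 := numEG_1_pos hn hx hu
  have h2 := numEG_2_pos hn hx
  refine pos_of_mul_pos_left ?_ (pow_nonneg hx.le 2)
  have e : numEG n x y * x ^ 2 =
      numEG_0 n x * (x - y) ^ 2 + 2 * numEG_1 n x * y * (x - y) + numEG_2 n x * y ^ 2 := by
    simp only [numEG, numEG_0, numEG_1, numEG_2]
    ring
  rw [e]; positivity
end IV

namespace IV

section

variable {n x y : ℝ}


lemma E0_zero (hn : 0 ≤ n) (hx : 0 ≤ x) (hy : 0 ≤ y) :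
    y * rho0 (5 + n) (1 + x) (1 + y) (-(((5 + n) - 1) * (1 + x) / (((5 + n) - 2) * (1 + (1 + x))))) + r10 (5 + n) (1 + x) (1 + y) (-(((5 + n) - 1) * (1 + x) / (((5 + n) - 2) * (1 + (1 + x))))) = y * (numE0 n x y / ((5 + n) ^ 2 * ((5 + n) - 2) ^ 2 * (1 + (1 + x)) * ((1 + y) + (1 + x)) ^ 3)) := by
  have : (5 + n) - 2 ≠ 0 := by linarith
  have : (5 + n) ≠ 0 := by linarith
  have : 1 + (1 + x) ≠ 0 := by linarith
  have : (1 + y) + (1 + x) ≠ 0 := by linarith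
  simp only [rho0, r10, ce0, Q0, K0, nuF]
  field_simp
  simp only [numE0]
  ring

lemma slope_zero (hn : 0 ≤ n) (hx : 0 ≤ x) (hy : 0 ≤ y) :
    rho0 (5 + n) (1 + x) (1 + y) (-(((5 + n) - 1) * (1 + x) / (((5 + n) - 2) * (1 + (1 + x))))) + (1 + y) * r11 (5 + n) (1 + x) (1 + y) (-(((5 + n) - 1) * (1 + x) / (((5 + n) - 2) * (1 + (1 + x))))) 0 =
      ((5 + n) - 2) / 2 * (num0 n x y / ((5 + n) ^ 2 * ((5 + n) - 2) ^ 2 * (1 + (1 + x)) * ((1 + y) + (1 + x)) ^ 3) - (1 + y) * (numE0 n x y / ((5 + n) ^ 2 * ((5 + n) - 2) ^ 2 * (1 + (1 + x)) * ((1 + y) + (1 + x)) ^ 3))) := by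
  have : (5 + n) - 2 ≠ 0 := by linarith
  have : (5 + n) ≠ 0 := by linarith
  have : 1 + (1 + x) ≠ 0 := by linarith
  have : (1 + y) + (1 + x) ≠ 0 := by linarith
  simp only [rho0, r11, ce0, Q0, K0, nuF]
  field_simp
  simp only [num0, numE0]
  ring

lemma E0_G (hn : 0 ≤ n) (hx : 0 ≤ x) (hy : 0 ≤ y) :
    2 / (5 + n) * y + Q0 (5 + n) (1 + x) (1 + y) = numEG n x y / ((5 + n) * ((5 + n) - 2) * ((1 + y) + (1 + x))) := by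
  have : (5 + n) - 2 ≠ 0 := by linarith
  have : (5 + n) ≠ 0 := by linarith
  have : (1 + y) + (1 + x) ≠ 0 := by linarith
  simp only [Q0, numEG]
  field_simp
  ring

lemma slope_G (hn : 0 ≤ n) (hx : 0 ≤ x) (hy : 0 ≤ y) :
    2 * y * (1 + x) / ((5 + n) * ((1 + y) + (1 + x))) - (1 + y) =
      ((5 + n) - 2) / 2 * (numG n x y / ((5 + n) * ((5 + n) - 2) * ((1 + y) + (1 + x))) - (1 + y) * (numEG n x y / ((5 + n) * ((5 + n) - 2) * ((1 + y) + (1 + x))))) := by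
  have : (5 + n) - 2 ≠ 0 := by linarith
  have : (5 + n) ≠ 0 := by linarith
  have : (1 + y) + (1 + x) ≠ 0 := by linarith
  simp only [numG, numEG]
  field_simp
  ring

end

variable {N tb s c G δ : ℝ}

/-- An affine function of `z`, positive at both ends of `[0, σ/V]`. -/
lemma pos_of_endpoints {ρ0 R1 z V : ℝ} (hs : 0 < s) (h0 : 0 < ρ0) (h1 : 0 < V * ρ0 + s * R1)
    (hz : 0 ≤ z) (hzV : z * V ≤ s) : 0 < ρ0 + z * R1 := by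
  rcases hz.eq_or_lt with rfl | hz'
  · linarith [zero_mul R1]
  refine (mul_pos_iff_of_pos_left hs).1 ?_
  have e : s * (ρ0 + z * R1) = z * (V * ρ0 + s * R1) + (s - z * V) * ρ0 := by ring
  rw [e]
  linarith [mul_pos hz' h1, mul_nonneg (sub_nonneg.2 hzV) h0.le]

/-- Dependence on `c`. -/
lemma affine (hN : N ≠ 0) (hX : s + tb ≠ 0) :
    rho0 N tb s (c - δ) = rho0 N tb s c + 2 / N * δ ∧
      r10 N tb s (c - δ) = r10 N tb s c + δ * Q0 N tb s ∧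
      rho0 N tb s (c - δ) + s * r11 N tb s (c - δ) G =
        rho0 N tb s c + s * r11 N tb s c 0 + (2 * δ * tb / (N * (s + tb)) - s * G) := by
  refine ⟨by simp only [rho0]; ring, by simp only [r10]; ring, ?_⟩
  simp only [rho0, r11]
  field_simp
  ring

lemma combine {ρ r r' ρ' R R' e0 eg p0 pg y W q : ℝ} (i0 : ρ = ρ' + 2 / N * (G * y))
    (i1 : r = R + G * y * q)
    (i2 : ρ + s * r' = ρ' + s * R' + (2 * (G * y) * tb / (N * (s + tb)) - s * G))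
    (j0 : y * ρ' + R = y * e0) (j1 : ρ' + s * R' = (N - 2) / 2 * (p0 - s * e0))
    (k0 : 2 / N * y + q = eg)
    (k1 : 2 * y * tb / (N * (s + tb)) - s = (N - 2) / 2 * (pg - s * eg)) :
    (s * y + W) * ρ + s * (r + r' * W) =
      (y - (N - 2) * W / 2) * (s * (e0 + G * eg)) + (N - 2) * W / 2 * (p0 + G * pg) := by
  linear_combination W * i2 + s * y * i0 + s * i1 + W * j1 + s * j0 + G * y * s * k0
    + G * W * k1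

end IV

/-- At `z = 0` the inequality is `(N-1) tb/((N-2)(σ+tb)) < -c(σ)`. -/
theorem CPar.IsCrit.rho_zero_pos (h : C.IsCrit tb) (hN : 2 < C.N) (hs : 0 < s) (hst : s < tb)
    (hc : (C.N - 1) * tb / ((C.N - 2) * (s + tb)) < -C.c s) : 0 < C.rho s W 0 := by
  have e := h.rho_eq (W := W) (z := 0) hs hst
  have : 0 < IV.rho0 C.N tb s (C.c s) :=
    mul_pos (div_pos two_pos (by linarith)) (by linarith)
  refine (mul_pos_iff_of_pos_left (sub_pos.2 hst)).1 ?_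
  rw [e]; linarith [zero_mul (IV.r10 C.N tb s (C.c s) + IV.r11 C.N tb s (C.c s) C.G * W)]

/-- `(N-1) tb/((N-2)(σ+tb))` lies below `-c₁` beyond `σ∞`, in both cases. -/
lemma CPar.c_bound (hN : 2 < C.N) (htb : 0 < tb) (hsi : 0 < C.si) (hs : C.si < s) (hG : 0 ≤ C.G)
    (hc1 : (C.N - 1) * tb / ((C.N - 2) * (C.si + tb)) ≤ -C.c1) :
    (C.N - 1) * tb / ((C.N - 2) * (s + tb)) < -C.c s := by
  have h1 : (C.N - 1) * tb / ((C.N - 2) * (s + tb)) < (C.N - 1) * tb / ((C.N - 2) * (C.si + tb)) :=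
    div_lt_div_of_pos_left (mul_pos (by linarith) htb) (mul_pos (by linarith) (by linarith))
      (mul_lt_mul_of_pos_left (by linarith) (by linarith))
  simp only [CPar.c]
  linarith [mul_nonneg hG (sub_nonneg.2 hs.le)]

/-- **(iv) when `σ∞ = 1`**: all of `0 ≤ z ≤ σ/V`, `0 ≤ W ≤ 2 (σ-1)/(N-2)`. -/
theorem CPar.IsCrit.rho_pos_le (h : C.IsCrit tb) (hN : 5 ≤ C.N) (hss : (C.N - 2) * tb ≤ C.N)
    (hsi : C.si = 1) (hG : 0 ≤ C.G) (hc1 : C.c1 = -((C.N - 1) * tb / ((C.N - 2) * (1 + tb))))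
    (hs : 1 < s) (hst : s < tb) (hW : 0 ≤ W) (hWU : W ≤ 2 / (C.N - 2) * (s - 1))
    (hz : 0 ≤ z) (hzV : z * (s * (s - 1) + W) ≤ s) : 0 < C.rho s W z := by
  have hr0 : 0 < IV.rho0 C.N tb s (C.c s) := by
    refine mul_pos (div_pos two_pos (by linarith)) (sub_pos.2 ?_)
    exact CPar.c_bound (by linarith) (by linarith) (by linarith) (by linarith) hG
      (by rw [hsi, hc1, neg_neg])
  obtain ⟨n, hn, hNn⟩ : ∃ n, 0 ≤ n ∧ C.N = 5 + n := ⟨C.N - 5, by linarith, by ring⟩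
  obtain ⟨x, hx, htx⟩ : ∃ x, 0 < x ∧ tb = 1 + x := ⟨tb - 1, by linarith, by ring⟩
  obtain ⟨y, hy, hsy⟩ : ∃ y, 0 < y ∧ s = 1 + y := ⟨s - 1, by linarith, by ring⟩
  have hyx : y ≤ x := by linarith
  have hu : (n + 3) * x ≤ 2 := by rw [hNn, htx] at hss; linarith
  have hc : C.c s = -((C.N - 1) * tb / ((C.N - 2) * (1 + tb))) - C.G * y := by
    rw [CPar.c, hsi, hc1, hsy]; ring
  obtain ⟨i0, i1, i2⟩ := IV.affine (N := C.N) (tb := tb) (s := s) (G := C.G) (δ := C.G * y)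
    (c := -((C.N - 1) * tb / ((C.N - 2) * (1 + tb)))) (by linarith) (by linarith)
  rw [← hc] at i0 i1 i2
  have j0 := IV.E0_zero hn hx.le hy.le
  have j1 := IV.slope_zero hn hx.le hy.le
  have k0 := IV.E0_G hn hx.le hy.le
  have k1 := IV.slope_G hn hx.le hy.le
  rw [← hNn, ← htx, ← hsy] at j0 j1 k0 k1
  set R0 := IV.rho0 C.N tb s (-((C.N - 1) * tb / ((C.N - 2) * (1 + tb))))
  set R10 := IV.r10 C.N tb s (-((C.N - 1) * tb / ((C.N - 2) * (1 + tb))))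
  set R11 := IV.r11 C.N tb s (-((C.N - 1) * tb / ((C.N - 2) * (1 + tb)))) 0
  set e0 := IV.numE0 n x y / (C.N ^ 2 * (C.N - 2) ^ 2 * (1 + tb) * (s + tb) ^ 3)
  set eg := IV.numEG n x y / (C.N * (C.N - 2) * (s + tb))
  set p0 := IV.num0 n x y / (C.N ^ 2 * (C.N - 2) ^ 2 * (1 + tb) * (s + tb) ^ 3)
  set pg := IV.numG n x y / (C.N * (C.N - 2) * (s + tb))
  have key : (s * (s - 1) + W) * IV.rho0 C.N tb s (C.c s)
      + s * (IV.r10 C.N tb s (C.c s) + IV.r11 C.N tb s (C.c s) C.G * W) =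
        (y - (C.N - 2) * W / 2) * (s * (e0 + C.G * eg)) + (C.N - 2) * W / 2 * (p0 + C.G * pg) := by
    have hy1 : s - 1 = y := by linarith
    rw [hy1]
    exact IV.combine i0 i1 i2 j0 j1 k0 k1
  have hl : 0 ≤ y - (C.N - 2) * W / 2 := by
    rw [div_mul_eq_mul_div, le_div_iff₀ (by linarith)] at hWU
    linarith
  have a0 := IV.num0_pos hn hx hy hyx hu
  have a1 := IV.numG_pos hn hx hy hyx hu
  have b0 := IV.numE0_pos hn hx hy hyx hu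
  have b1 := IV.numEG_pos hn hx hy hyx hu
  have h2 : 0 < C.N - 2 := by linarith
  have hX : 0 < s + tb := by linarith
  have hend : 0 < (s * (s - 1) + W) * IV.rho0 C.N tb s (C.c s)
      + s * (IV.r10 C.N tb s (C.c s) + IV.r11 C.N tb s (C.c s) C.G * W) := by
    rw [key]
    have : 0 < s := by linarith
    have : 0 < C.N := by linarith
    have : 0 < 1 + tb := by linarith
    have : 0 < e0 := div_pos b0 (by positivity)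
    have : 0 < eg := div_pos b1 (by positivity)
    have : 0 < p0 := div_pos a0 (by positivity)
    have : 0 < pg := div_pos a1 (by positivity)
    rcases hl.lt_or_eq with hl' | hl'
    · positivity
    · rw [← hl']
      have : 0 < W := by nlinarith
      rw [zero_mul, zero_add]
      positivity
  refine (mul_pos_iff_of_pos_left (sub_pos.2 hst)).1 ?_
  rw [h.rho_eq (by linarith) hst]
  exact IV.pos_of_endpoints (by linarith) hr0 hend hz hzV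

end Vale.Agent.P100T
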