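import Vale.Agent.P100T.Ground

/-! # The orbit of the critical ground state: planar ODE and invariant bounds

`σ = ξ/η`, `R = Θ/η²`, `e = 1/η`, `t = V^(p+1)/U^(q+1)` with `ξ = -rU'/U`, `η = -rV'/V`,
`Θ = r²U^q/V`. For `p > q`: `t < σ`, `1 < σ`, `σ < (p+1)/(q+1)`, `t` decreases. -/

open Set Filter Topology

noncomputable section

namespace Vale.Agent.P100T

lemma mono_of_deriv {f f' : ℝ → ℝ} {a b : ℝ} (hf : ∀ x ∈ Icc a b, HasDerivAt f (f' x) x)
    (h : ∀ x ∈ Ioo a b, 0 ≤ f' x) (hab : a ≤ b) : f a ≤ f b := by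
  rcases hab.eq_or_lt with rfl | hlt
  · exact le_rfl
  obtain ⟨c, hc, he⟩ := exists_hasDerivAt_eq_slope f f' hlt
    (fun x hx => (hf x hx).continuousAt.continuousWithinAt)
    fun x hx => hf x (Ioo_subset_Icc_self hx)
  have := h c hc
  rw [he, le_div_iff₀ (sub_pos.2 hlt)] at this
  linarith

/-- Zeros with positive derivative: positivity to the right. -/
lemma eventually_pos_right {g : ℝ → ℝ} {g' x : ℝ} (hg : HasDerivAt g g' x) (h0 : 0 ≤ g x)
    (hz : g x = 0 → 0 < g') : ∀ᶠ y in 𝓝[>] x, 0 < g y := by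
  rcases h0.eq_or_lt with h | h
  · have hs := hasDerivAt_iff_tendsto_slope.1 hg
    have := (hs.mono_left (nhdsWithin_mono x fun y (hy : x < y) => hy.ne')).eventually
      (eventually_gt_nhds (hz h.symm))
    filter_upwards [this, self_mem_nhdsWithin] with y hy (hxy : x < y)
    rw [slope_def_field, ← h, sub_zero] at hy
    exact (div_pos_iff_of_pos_right (sub_pos.2 hxy)).1 hy
  · exact nhdsWithin_le_nhds (hg.continuousAt.eventually (eventually_gt_nhds h))

/-- Forward invariance of `{s ≥ c, g ≥ 0}` for `s' = k g`, when `g' > 0` at zeros of `g` there. -/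
lemma forward {s g g' k : ℝ → ℝ} {a b c : ℝ} (_hab : a ≤ b)
    (hs : ∀ x ∈ Icc a b, HasDerivAt s (k x * g x) x) (hg : ∀ x ∈ Icc a b, HasDerivAt g (g' x) x)
    (hk : ∀ x ∈ Icc a b, 0 ≤ k x) (hz : ∀ x ∈ Icc a b, c ≤ s x → g x = 0 → 0 < g' x)
    (hsa : c ≤ s a) (hga : 0 ≤ g a) :
    (∀ x ∈ Icc a b, c ≤ s x ∧ 0 ≤ g x) ∧ ∀ x ∈ Ioc a b, 0 < g x := by
  have hsc : ContinuousOn s (Icc a b) := fun x hx => (hs x hx).continuousAt.continuousWithinAt
  have hgc : ContinuousOn g (Icc a b) := fun x hx => (hg x hx).continuousAt.continuousWithinAt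
  set S := {x | c ≤ s x ∧ 0 ≤ g x}
  have hcl : IsClosed (S ∩ Icc a b) := by
    have : S ∩ Icc a b = (Icc a b ∩ s ⁻¹' Ici c) ∩ (Icc a b ∩ g ⁻¹' Ici 0) := by
      ext x; simp [S]; tauto
    rw [this]
    exact (hsc.preimage_isClosed_of_isClosed isClosed_Icc isClosed_Ici).inter
      (hgc.preimage_isClosed_of_isClosed isClosed_Icc isClosed_Ici)
  have hsub : Icc a b ⊆ S := by
    refine hcl.Icc_subset_of_forall_mem_nhdsWithin ⟨hsa, hga⟩ fun x hx => ?_
    obtain ⟨⟨hxs, hxg⟩, hxab⟩ := hx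
    have hxI : x ∈ Icc a b := ⟨hxab.1, hxab.2.le⟩
    obtain ⟨u, hu, hmem⟩ := mem_nhdsGT_iff_exists_Ioo_subset.1
      (eventually_pos_right (hg x hxI) hxg (hz x hxI hxs))
    have hpos : Ioo x (min u b) ⊆ {y | 0 < g y} := fun y hy =>
      hmem ⟨hy.1, hy.2.trans_le (min_le_left _ _)⟩
    refine mem_of_superset (Ioo_mem_nhdsGT (lt_min hu hxab.2)) fun y hy => ⟨?_, (hpos hy).le⟩
    have hsub' : ∀ z ∈ Icc x y, z ∈ Icc a b := fun z hz' =>
      ⟨hxab.1.trans hz'.1, hz'.2.trans (hy.2.le.trans (min_le_right _ _))⟩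
    exact hxs.trans (mono_of_deriv (fun z hz' => hs z (hsub' z hz'))
      (fun z hz' => mul_nonneg (hk z (hsub' z (Ioo_subset_Icc_self hz')))
        (hpos ⟨hz'.1, hz'.2.trans hy.2⟩).le) hy.1.le)
  refine ⟨hsub, fun x hx => ?_⟩
  have hxI := Ioc_subset_Icc_self hx
  obtain ⟨hxs, hxg⟩ := hsub hxI
  refine hxg.lt_of_ne fun h0 => ?_
  -- a zero with positive derivative has negative values to its left
  have hs' := hasDerivAt_iff_tendsto_slope.1 (hg x hxI)
  have hev := (hs'.mono_left (nhdsWithin_mono x (show Iio x ⊆ {x}ᶜ from fun y hy => ne_of_lt hy))).eventually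
    (eventually_gt_nhds (hz x hxI hxs h0.symm))
  obtain ⟨y, hy, hyI⟩ := (hev.and (Ioo_mem_nhdsLT hx.1)).exists
  rw [slope_def_field, ← h0, sub_zero] at hy
  have hgy := (hsub ⟨hyI.1.le, hyI.2.le.trans hx.2⟩).2
  exact absurd hy (not_lt.2 (div_nonpos_of_nonneg_of_nonpos hgy (by linarith [hyI.2])))

/-- Backward invariance of `{s ≥ c, g ≤ 0}`. -/
lemma backward {s g g' k : ℝ → ℝ} {a b c : ℝ} (hab : a ≤ b)
    (hs : ∀ x ∈ Icc a b, HasDerivAt s (k x * g x) x) (hg : ∀ x ∈ Icc a b, HasDerivAt g (g' x) x)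
    (hk : ∀ x ∈ Icc a b, 0 ≤ k x) (hz : ∀ x ∈ Icc a b, c ≤ s x → g x = 0 → 0 < g' x)
    (hsb : c ≤ s b) (hgb : g b ≤ 0) :
    (∀ x ∈ Icc a b, c ≤ s x ∧ g x ≤ 0) ∧ ∀ x ∈ Ico a b, g x < 0 := by
  have m : ∀ x ∈ Icc (-b) (-a), -x ∈ Icc a b := fun x hx =>
    ⟨by linarith [hx.2], by linarith [hx.1]⟩
  obtain ⟨h1, h2⟩ := forward (s := fun x => s (-x)) (g := fun x => -g (-x))
    (g' := fun x => g' (-x)) (k := fun x => k (-x)) (c := c) (neg_le_neg hab)
    (fun x hx => ((hs _ (m x hx)).comp x (hasDerivAt_neg x)).congr_deriv (by ring))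
    (fun x hx => (((hg _ (m x hx)).comp x (hasDerivAt_neg x)).neg).congr_deriv (by ring))
    (fun x hx => hk _ (m x hx)) (fun x hx h h' => hz _ (m x hx) h (neg_eq_zero.1 h'))
    (by simpa using hsb) (by simpa using hgb)
  refine ⟨fun x hx => ?_, fun x hx => ?_⟩
  · simpa using h1 (-x) ⟨neg_le_neg hx.2, neg_le_neg hx.1⟩
  · simpa using h2 (-x) ⟨neg_lt_neg hx.2, neg_le_neg hx.1⟩

/-- A function with positive derivative at its zeros stays positive. -/
lemma upcross {f f' : ℝ → ℝ} {a b : ℝ} (hab : a < b)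
    (hf : ∀ x ∈ Icc a b, HasDerivAt f (f' x) x) (hz : ∀ x ∈ Icc a b, f x = 0 → 0 < f' x)
    (ha : 0 ≤ f a) : 0 < f b :=
  (forward (s := fun _ => (0:ℝ)) (k := fun _ => 0) (c := 0) hab.le
    (fun x _ => (hasDerivAt_const x (0:ℝ)).congr_deriv (by ring)) hf (fun _ _ => le_rfl)
    (fun x hx _ => hz x hx) le_rfl ha).2 b ⟨hab, le_rfl⟩

/-- The sign of the rate of `R` on `{σ ≥ (p+1)/(q+1), G = 0}`. -/
lemma rate_neg {N p q t σ R : ℝ} (hN : 2 < N) (hp : 0 < p) (hq : 0 < q)
    (hcrit : N / (p + 1) + N / (q + 1) = N - 2) (ht : 0 ≤ t) (hσ : (p + 1) / (q + 1) ≤ σ)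
    (hσ1 : 1 ≤ σ) (hts : t < σ) (hG : R * (σ - t) = σ * (σ - 1)) :
    2 * (N - 1) * (σ + R * (t / (p + 1) + 1 / (q + 1)))
      < N * (σ / (p + 1) + 1 / (q + 1)) * (1 + q * σ + 2 * R) := by
  set a := 1 / (p + 1) with ha
  set b := 1 / (q + 1) with hb
  have ha0 : 0 < a := by positivity
  have hb0 : 0 < b := by positivity
  have hab : a + b < 1 := by
    have : N * (a + b) = N - 2 := by rw [← hcrit, ha, hb]; ring
    nlinarith
  have hD : N * (1 - a - b) = 2 := by
    have : N * (a + b) = N - 2 := by rw [← hcrit, ha, hb]; ring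
    linarith
  have hqb : q * b = 1 - b := by rw [hb]; field_simp; ring
  rw [show t / (p + 1) = a * t by rw [ha]; ring, show σ / (p + 1) = a * σ by rw [ha]; ring]
  have hR : σ - 1 ≤ R := by
    by_contra hlt
    push Not at hlt
    have h1 : R * (σ - t) < (σ - 1) * (σ - t) := mul_lt_mul_of_pos_right hlt (by linarith)
    nlinarith [mul_nonneg (sub_nonneg.2 hσ1) ht]
  set S := a * σ + b with hS
  have e : R * (a * t + b) = R * S - a * (σ * (σ - 1)) := by rw [← hG, hS]; ring
  rw [e]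
  have hS0 : 0 < S := by positivity
  -- the case `t = 0`
  set s := a * σ / b with hs
  have hσs : σ = b * s / a := by rw [hs]; field_simp
  have hs1 : 1 ≤ s := by
    rw [hs, le_div_iff₀ hb0, one_mul]
    calc b = a * ((p + 1) / (q + 1)) := by rw [ha, hb]; field_simp
      _ ≤ a * σ := mul_le_mul_of_nonneg_left hσ ha0.le
  set D := 1 - a - b with hDdef
  have hD0 : 0 < D := by linarith
  have key : (1 + a + b) * s - (1 + a + b) * s * (b * s - a) - (s + 1) * (b * s - a) * D
      - (s + 1) * (a + (1 - b) * s) < 0 := by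
    have e1 : (1 + a + b) * s - (1 + a + b) * s * (b * s - a) - (s + 1) * (b * s - a) * D
        - (s + 1) * (a + (1 - b) * s)
        = -(D * (1 + b - a)) + (-2 + 2 * a - b + a * b + b ^ 2) * (s - 1)
          - (b * (1 + a + b) + b * D + (1 - b)) * (s - 1) ^ 2 := by rw [hDdef]; ring
    rw [e1]
    have k1 : 0 < D * (1 + b - a) := mul_pos hD0 (by linarith)
    have k2 : -2 + 2 * a - b + a * b + b ^ 2 ≤ 0 := by nlinarith
    have k3 : 0 ≤ b * (1 + a + b) + b * D + (1 - b) := by nlinarith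
    nlinarith [mul_nonpos_of_nonpos_of_nonneg k2 (sub_nonneg.2 hs1),
      mul_nonneg k3 (sq_nonneg (s - 1))]
  have main : 2 * (N - 1) * (σ - a * (σ * (σ - 1))) < N * S * (1 + q * σ) + 2 * S * (σ - 1) := by
    have e2 : (2 * (N - 1) * (σ - a * (σ * (σ - 1))) - (N * S * (1 + q * σ) + 2 * S * (σ - 1)))
        * (D * a) = 2 * b * ((1 + a + b) * s - (1 + a + b) * s * (b * s - a)
          - (s + 1) * (b * s - a) * D - (s + 1) * (a + (1 - b) * s)) := by
      have hN' : N = 2 / D := by rw [eq_div_iff hD0.ne']; exact hD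
      rw [hS, hN', hσs, show q = (1 - b) / b by rw [eq_div_iff hb0.ne']; exact hqb]
      field_simp
      rw [hDdef]
      ring
    have : (2 * (N - 1) * (σ - a * (σ * (σ - 1))) - (N * S * (1 + q * σ) + 2 * S * (σ - 1)))
        * (D * a) < 0 := by rw [e2]; exact mul_neg_of_pos_of_neg (by positivity) key
    exact sub_neg.1 (neg_of_mul_neg_left this (by positivity))
  nlinarith [mul_le_mul_of_nonneg_left hR (show 0 ≤ 2 * S by positivity)]

section

variable (U V U' V' : ℝ → ℝ) (p q r : ℝ)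

/-- `η = -rV'/V`. -/
def oEta : ℝ := -(r * V' r) / V r

/-- `σ = ξ/η`. -/
def oSig : ℝ := -(r * U' r) / U r / oEta V V' r

/-- `R = Θ/η²`. -/
def oR : ℝ := r ^ 2 * U r ^ q / V r / oEta V V' r ^ 2

/-- `e = 1/η`. -/
def oE : ℝ := 1 / oEta V V' r

/-- `t = V^(p+1)/U^(q+1)`. -/
def oT : ℝ := V r ^ (p + 1) / U r ^ (q + 1)

/-- `G = σ(σ-1) + R(t-σ)`, the rate of `σ`. -/
def oG : ℝ := oSig U V U' V' r * (oSig U V U' V' r - 1)
  + oR U V V' q r * (oT U V p q r - oSig U V U' V' r)

end

namespace IsGround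

variable {N p q r : ℝ} {U V U' V' : ℝ → ℝ}

lemma eta_pos (h : IsGround N p q U V U' V') (hr : 0 < r) : 0 < (oEta V V') r :=
  div_pos (neg_pos.2 (mul_neg_of_pos_of_neg hr (h.negV r hr))) (h.posV r hr.le)

lemma sig_pos (h : IsGround N p q U V U' V') (hr : 0 < r) : 0 < (oSig U V U' V') r :=
  div_pos (div_pos (neg_pos.2 (mul_neg_of_pos_of_neg hr (h.negU r hr))) (h.posU r hr.le))
    (h.eta_pos hr)

lemma R_pos (h : IsGround N p q U V U' V') (hr : 0 < r) : 0 < (oR U V V' q) r := by
  have := h.posU r hr.le; have := h.posV r hr.le; have := h.eta_pos hr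
  unfold oR; positivity

lemma T_pos (h : IsGround N p q U V U' V') (hr : 0 ≤ r) : 0 < (oT U V p q) r := by
  have := h.posU r hr; have := h.posV r hr
  unfold oT; positivity

lemma R_mul_T (h : IsGround N p q U V U' V') (hr : 0 < r) :
    (oR U V V' q) r * (oT U V p q) r = r ^ 2 * V r ^ p / U r / (oEta V V') r ^ 2 := by
  have hu := h.posU r hr.le; have hv := h.posV r hr.le; have := h.eta_pos hr
  rw [oR, oT, Real.rpow_add_one hu.ne', Real.rpow_add_one hv.ne']
  field_simp

lemma oE_eq (h : IsGround N p q U V U' V') (hp : 0 < p) (hq : 0 < q) (hr : 0 < r) :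
    N * (oE V V') r * ((oSig U V U' V') r / (p + 1) + 1 / (q + 1))
      = (oSig U V U' V') r + (oR U V V' q) r * ((oT U V p q) r / (p + 1) + 1 / (q + 1)) := by
  have hu := h.posU r hr.le; have hv := h.posV r hr.le
  have hη := (h.eta_pos hr).ne'
  have hv' := (h.negV r hr).ne
  rw [show (oR U V V' q) r * ((oT U V p q) r / (p + 1) + 1 / (q + 1)) = (oR U V V' q) r * (oT U V p q) r / (p + 1) + (oR U V V' q) r * (1 / (q + 1))
    by ring, h.R_mul_T hr]
  have hpo := h.poho r hr
  rw [Real.rpow_add_one hu.ne', Real.rpow_add_one hv.ne'] at hpo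
  unfold oE oSig oR oEta at *
  have := hr.ne'
  have : p + 1 ≠ 0 := by linarith
  have : q + 1 ≠ 0 := by linarith
  field_simp at hpo ⊢
  linear_combination (-1:ℝ) * hpo

lemma hasDerivAt_eta (h : IsGround N p q U V U' V') (hr : 0 < r) :
    HasDerivAt (oEta V V') (((oEta V V') r ^ 2 - (N - 2) * (oEta V V') r + r ^ 2 * U r ^ q / V r) / r) r := by
  have hv := h.posV r hr.le
  refine ((((hasDerivAt_id r).mul (h.derivV' r hr)).neg).div (h.derivV r hr) hv.ne').congr_deriv ?_
  simp only [oEta, Pi.mul_apply, Pi.neg_apply, id]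
  field_simp
  ring

lemma hasDerivAt_sig (h : IsGround N p q U V U' V') (hr : 0 < r) :
    HasDerivAt (oSig U V U' V') ((oEta V V') r / r * (oG U V U' V' p q) r) r := by
  have hu := h.posU r hr.le; have hv := h.posV r hr.le
  have hη := (h.eta_pos hr).ne'
  have hξ := (((hasDerivAt_id r).mul (h.derivU' r hr)).neg).div (h.derivU r hr) hu.ne'
  refine (hξ.div (h.hasDerivAt_eta hr) hη).congr_deriv ?_
  have e : oR U V V' q r * (oT U V p q r - oSig U V U' V' r)
      = r ^ 2 * V r ^ p / U r / (oEta V V') r ^ 2 - (oR U V V' q) r * (oSig U V U' V') r := by rw [mul_sub, h.R_mul_T hr]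
  rw [oG, e]
  simp only [oSig, oR, Pi.mul_apply, Pi.neg_apply, Pi.div_apply, id]
  set z := (oEta V V') r with hz
  field_simp
  ring

lemma hasDerivAt_T (h : IsGround N p q U V U' V') (hr : 0 < r) :
    HasDerivAt (oT U V p q) (-((oT U V p q) r * (oEta V V') r * ((p + 1) - (q + 1) * (oSig U V U' V') r)) / r) r := by
  have hu := h.posU r hr.le; have hv := h.posV r hr.le
  have hη := (h.eta_pos hr).ne'
  refine (((h.derivV r hr).rpow_const (p := p + 1) (Or.inl hv.ne')).div
    ((h.derivU r hr).rpow_const (p := q + 1) (Or.inl hu.ne'))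
    (Real.rpow_pos_of_pos hu _).ne').congr_deriv ?_
  simp only [add_sub_cancel_right, oT, oSig, Real.rpow_add_one hu.ne', Real.rpow_add_one hv.ne']
  set z := (oEta V V') r with hz
  rw [show V' r = -(z * V r) / r by rw [hz, oEta]; field_simp]
  field_simp
  ring

lemma hasDerivAt_R (h : IsGround N p q U V U' V') (hr : 0 < r) :
    HasDerivAt (oR U V V' q)
      ((oEta V V') r / r * (oR U V V' q) r * (2 * (N - 1) * (oE V V') r - q * (oSig U V U' V') r - 1 - 2 * (oR U V V' q) r)) r := by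
  have hu := h.posU r hr.le; have hv := h.posV r hr.le
  have hη := (h.eta_pos hr).ne'
  refine ((((hasDerivAt_pow 2 r).mul ((h.derivU r hr).rpow_const (p := q) (Or.inl hu.ne'))).div
    (h.derivV r hr) hv.ne').div ((h.hasDerivAt_eta hr).pow 2) (pow_ne_zero 2 hη)).congr_deriv ?_
  simp only [oR, oE, oSig, Pi.mul_apply, Pi.div_apply, Pi.pow_apply, Real.rpow_sub_one hu.ne']
  set z := (oEta V V') r with hz
  rw [show V' r = -(z * V r) / r by rw [hz, oEta]; field_simp]
  field_simp
  ring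

lemma hasDerivAt_e (h : IsGround N p q U V U' V') (hr : 0 < r) :
    HasDerivAt (oE V V') (-((oEta V V') r / r * (oE V V') r * ((2 - N) * (oE V V') r + 1 + (oR U V V' q) r))) r := by
  have hη := (h.eta_pos hr).ne'
  have hv := h.posV r hr.le
  refine ((hasDerivAt_const r (1:ℝ)).div (h.hasDerivAt_eta hr) hη).congr_deriv ?_
  simp only [oE, oR]
  field_simp
  ring

lemma pq_gt (hN : 2 < N) (hp : 0 < p) (hq : 0 < q)
    (hcrit : N / (p + 1) + N / (q + 1) = N - 2) : 1 < p * q := by
  have e : N * (q + 1) + N * (p + 1) = (N - 2) * ((p + 1) * (q + 1)) := by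
    rw [← hcrit]; field_simp
  nlinarith [mul_pos (show 0 < p + 1 by linarith) (show 0 < q + 1 by linarith)]

/-- `U` and `V` are antitone. -/
lemma anti (h : IsGround N p q U V U' V') {s : ℝ} (hs : 0 < s) (hsr : s ≤ r) :
    U r ≤ U s ∧ V r ≤ V s := by
  constructor
  · exact neg_le_neg_iff.1 (mono_of_deriv (f := fun x => -U x) (f' := fun x => -U' x)
      (fun x hx => (h.derivU x (hs.trans_le hx.1)).neg)
      (fun x hx => (neg_pos.2 (h.negU x (hs.trans hx.1))).le) hsr)
  · exact neg_le_neg_iff.1 (mono_of_deriv (f := fun x => -V x) (f' := fun x => -V' x)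
      (fun x hx => (h.derivV x (hs.trans_le hx.1)).neg)
      (fun x hx => (neg_pos.2 (h.negV x (hs.trans hx.1))).le) hsr)

/-- `U(r) ≥ r² V(2r)^p / N` and symmetrically. -/
lemma step (h : IsGround N p q U V U' V') (hN : 0 < N) (hp : 0 ≤ p) (hq : 0 ≤ q) (hr : 0 < r) :
    r ^ 2 * V (2 * r) ^ p / N ≤ U r ∧ r ^ 2 * U (2 * r) ^ q / N ≤ V r := by
  have hle : r ≤ 2 * r := by linarith
  have hb : ∀ x ∈ Ioo r (2 * r), r * V (2 * r) ^ p / N ≤ -U' x ∧
      r * U (2 * r) ^ q / N ≤ -V' x := by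
    intro x hx
    have hx0 : 0 < x := hr.trans hx.1
    obtain ⟨a1, a2⟩ := h.anti hx0 hx.2.le
    have hu := h.posU (2 * r) (by linarith)
    have hv := h.posV (2 * r) (by linarith)
    refine ⟨le_trans (div_le_div_of_nonneg_right ?_ hN.le) (h.slopeU x hx0.le).1,
      le_trans (div_le_div_of_nonneg_right ?_ hN.le) (h.slopeV x hx0.le).1⟩
    · exact mul_le_mul hx.1.le (Real.rpow_le_rpow hv.le a2 hp) (by positivity) hx0.le
    · exact mul_le_mul hx.1.le (Real.rpow_le_rpow hu.le a1 hq) (by positivity) hx0.le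
  have hu := h.posU (2 * r) (by linarith)
  have hv := h.posV (2 * r) (by linarith)
  have h1 := mono_of_deriv (f := fun x => -U x - r * V (2 * r) ^ p / N * x)
    (fun x hx => (h.derivU x (hr.trans_le hx.1)).neg.sub ((hasDerivAt_id x).const_mul _))
    (fun x hx => by linarith [(hb x hx).1]) hle
  have h2 := mono_of_deriv (f := fun x => -V x - r * U (2 * r) ^ q / N * x)
    (fun x hx => (h.derivV x (hr.trans_le hx.1)).neg.sub ((hasDerivAt_id x).const_mul _))
    (fun x hx => by linarith [(hb x hx).2]) hle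
  constructor
  · rw [show r ^ 2 * V (2 * r) ^ p / N = r * V (2 * r) ^ p / N * r by ring]; linarith
  · rw [show r ^ 2 * U (2 * r) ^ q / N = r * U (2 * r) ^ q / N * r by ring]; linarith

lemma le_zero_val (h : IsGround N p q U V U' V') (hr : 0 < r) : U r ≤ U 0 ∧ V r ≤ V 0 :=
  ⟨le_of_tendsto_of_tendsto tendsto_const_nhds ((h.contU.tendsto 0).mono_left nhdsWithin_le_nhds)
      (eventually_of_mem (Ioc_mem_nhdsGT hr) fun _ hx => (h.anti hx.1 hx.2).1),
    le_of_tendsto_of_tendsto tendsto_const_nhds ((h.contV.tendsto 0).mono_left nhdsWithin_le_nhds)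
      (eventually_of_mem (Ioc_mem_nhdsGT hr) fun _ hx => (h.anti hx.1 hx.2).2)⟩

/-- Power decay. -/
lemma decay (h : IsGround N p q U V U' V') (hN : 0 < N) (hp : 0 < p) (hq : 0 < q) (hr : 0 < r) :
    U (2 * r) ≤ (N * V 0 / r ^ 2) ^ (1 / q) ∧ V (2 * r) ≤ (N * U 0 / r ^ 2) ^ (1 / p) := by
  obtain ⟨a, b⟩ := h.step hN hp.le hq.le hr
  obtain ⟨a', b'⟩ := h.le_zero_val hr
  have hu := h.posU (2 * r) (by linarith)
  have hv := h.posV (2 * r) (by linarith)
  have root : ∀ {x z k : ℝ}, 0 < x → 0 < k → r ^ 2 * x ^ k / N ≤ z →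
      x ≤ (N * z / r ^ 2) ^ (1 / k) := by
    intro x z k hx hk hz
    have h1 : x ^ k ≤ N * z / r ^ 2 := by
      rw [le_div_iff₀ (by positivity)]; rw [div_le_iff₀ hN] at hz; linarith
    have h2 := Real.rpow_le_rpow (by positivity) h1 (one_div_nonneg.2 hk.le)
    rwa [← Real.rpow_mul hx.le, mul_one_div_cancel hk.ne', Real.rpow_one] at h2
  exact ⟨root hu hq (b.trans b'), root hv hp (a.trans a')⟩

lemma exists_lt (h : IsGround N p q U V U' V') (hN : 0 < N) (hp : 0 < p) (hq : 0 < q) {c : ℝ}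
    (hc : 0 < c) : ∃ R0, 0 < R0 ∧ ∀ r, R0 ≤ r → U r < c ∧ V r < c := by
  have hev : ∀ {k z : ℝ}, 0 < k →
      ∀ᶠ r : ℝ in atTop, (N * z / r ^ 2) ^ (1 / k) < c := fun {k z} hk => by
    have h1 : Tendsto (fun r : ℝ => N * z / r ^ 2) atTop (𝓝 0) :=
      (tendsto_pow_atTop two_ne_zero).const_div_atTop (N * z)
    have h2 := h1.rpow_const (p := 1 / k) (Or.inr (one_div_nonneg.2 hk.le))
    rw [Real.zero_rpow (one_div_ne_zero hk.ne')] at h2
    exact h2.eventually (eventually_lt_nhds hc)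
  obtain ⟨M, hM⟩ := eventually_atTop.1 ((hev (z := V 0) hq).and (hev (z := U 0) hp))
  refine ⟨2 * max M 1, by positivity, fun r hr => ?_⟩
  have hr2 : 0 < r / 2 := by linarith [le_max_right M 1]
  obtain ⟨a, b⟩ := h.decay hN hp hq hr2
  rw [show 2 * (r / 2) = r by ring] at a b
  obtain ⟨a', b'⟩ := hM (r / 2) (by linarith [le_max_left M 1])
  exact ⟨a.trans_lt a', b.trans_lt b'⟩

/-- `rU' + (N-2)U ≥ 0`. -/
lemma xi_le (h : IsGround N p q U V U' V') (hN : 2 ≤ N) (hr : 0 < r) :
    -(r * U' r) ≤ (N - 2) * U r ∧ -(r * V' r) ≤ (N - 2) * V r := by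
  have gen : ∀ {X X' F : ℝ → ℝ}, (∀ x, 0 < x → HasDerivAt X (X' x) x) →
      (∀ x, 0 < x → HasDerivAt X' (-((N - 1) / x) * X' x - F x) x) → (∀ x, 0 < x → 0 ≤ F x) →
      (∀ x, 0 < x → 0 < X x) → 2 ≤ N → -(r * X' r) ≤ (N - 2) * X r := by
    intro X X' F hX hX' hF hpos hN
    by_contra hlt
    push Not at hlt
    set c := -((N - 2) * X r + r * X' r) with hc
    have hc0 : 0 < c := by rw [hc]; linarith
    have hd : ∀ x, 0 < x → HasDerivAt (fun y => (N - 2) * X y + y * X' y) (-(x * F x)) x :=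
      fun x hx => (((hX x hx).const_mul (N - 2)).add
        ((hasDerivAt_id x).mul (hX' x hx))).congr_deriv (by simp only [id]; field_simp; ring)
    set S := r * Real.exp (X r / c + 1) with hS
    have hrS : r ≤ S := le_mul_of_one_le_right hr.le
      (Real.one_le_exp (by have := hpos r hr; positivity))
    have hmon : ∀ x ∈ Icc r S, x * X' x ≤ -c := by
      intro x hx
      have := mono_of_deriv (f := fun y => -((N - 2) * X y + y * X' y))
        (f' := fun y => -(-(y * F y))) (fun y hy => (hd y (hr.trans_le hy.1)).neg)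
        (fun y hy => by
          simp only [neg_neg]
          exact mul_nonneg (hr.trans hy.1).le (hF y (hr.trans hy.1))) hx.1
      have hXx := hpos x (hr.trans_le hx.1)
      nlinarith
    have hfin := mono_of_deriv (f := fun y => -(c * Real.log y) - X y)
      (f' := fun y => -(c * y⁻¹) - X' y)
      (fun y hy => (((Real.hasDerivAt_log (hr.trans_le hy.1).ne').const_mul c).neg).sub
        (hX y (hr.trans_le hy.1)))
      (fun y hy => by
        have hy0 : 0 < y := hr.trans hy.1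
        have := hmon y (Ioo_subset_Icc_self hy)
        have e : -(c * y⁻¹) - X' y = (-c - y * X' y) / y := by field_simp
        rw [e]
        exact div_nonneg (by linarith) hy0.le) hrS
    simp only [hS, Real.log_mul hr.ne' (Real.exp_pos _).ne', Real.log_exp] at hfin
    have : c * (X r / c + 1) = X r + c := by field_simp
    nlinarith [hpos S (hr.trans_le hrS)]
  exact ⟨gen (F := fun x => V x ^ p) h.derivU h.derivU'
    (fun x hx => Real.rpow_nonneg (h.posV x hx.le).le _) (fun x hx => h.posU x hx.le) hN,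
    gen (F := fun x => U x ^ q) h.derivV h.derivV'
    (fun x hx => Real.rpow_nonneg (h.posU x hx.le).le _) (fun x hx => h.posV x hx.le) hN⟩

lemma hasDerivAt_G (h : IsGround N p q U V U' V') (hr : 0 < r) :
    HasDerivAt (oG U V U' V' p q) ((oEta V V') r / r * ((2 * (oSig U V U' V') r - 1 - (oR U V V' q) r) * (oG U V U' V' p q) r
      + (oR U V V' q) r * ((2 * (N - 1) * (oE V V') r - q * (oSig U V U' V') r - 1 - 2 * (oR U V V' q) r) * ((oT U V p q) r - (oSig U V U' V') r)
        - (oT U V p q) r * ((p + 1) - (q + 1) * (oSig U V U' V') r)))) r := by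
  have hs := h.hasDerivAt_sig hr
  refine ((hs.mul (hs.sub_const 1)).add
    ((h.hasDerivAt_R hr).mul ((h.hasDerivAt_T hr).sub hs))).congr_deriv ?_
  simp only [Pi.sub_apply]
  ring

/-- `0 < G'` at zeros of `G` with `σ ≥ (p+1)/(q+1)`. -/
lemma G'_pos (h : IsGround N p q U V U' V') (hN : 2 < N) (hp : 0 < p) (hq : 0 < q) (hpq : q < p)
    (hcrit : N / (p + 1) + N / (q + 1) = N - 2) (hr : 0 < r)
    (hσ : (p + 1) / (q + 1) ≤ (oSig U V U' V') r) (ht : (oT U V p q) r ≤ (p + 1) / (q + 1)) (hG : (oG U V U' V' p q) r = 0) :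
    0 < (oEta V V') r / r * ((2 * (oSig U V U' V') r - 1 - (oR U V V' q) r) * (oG U V U' V' p q) r
      + (oR U V V' q) r * ((2 * (N - 1) * (oE V V') r - q * (oSig U V U' V') r - 1 - 2 * (oR U V V' q) r) * ((oT U V p q) r - (oSig U V U' V') r)
        - (oT U V p q) r * ((p + 1) - (q + 1) * (oSig U V U' V') r))) := by
  have h1 : 1 < (p + 1) / (q + 1) := by rw [lt_div_iff₀ (by linarith)]; linarith
  have hR := h.R_pos hr
  have hts : (oT U V p q) r < (oSig U V U' V') r := by
    refine (ht.trans hσ).lt_of_ne fun he => ?_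
    rw [oG, he, sub_self, mul_zero, add_zero] at hG
    nlinarith
  have hk := rate_neg hN hp hq hcrit (h.T_pos hr.le).le hσ (by linarith) hts
    (R := (oR U V V' q) r) (by rw [oG] at hG; linarith)
  have he := h.oE_eq hp hq hr
  have hS : 0 < (oSig U V U' V') r / (p + 1) + 1 / (q + 1) := by
    have := h.sig_pos hr; positivity
  have hK : 2 * (N - 1) * (oE V V') r - q * (oSig U V U' V') r - 1 - 2 * (oR U V V' q) r < 0 := by
    refine neg_of_mul_neg_left (b := N * ((oSig U V U' V') r / (p + 1) + 1 / (q + 1))) ?_ (by positivity)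
    rw [← he] at hk
    linarith
  rw [hG, mul_zero, zero_add]
  refine mul_pos (div_pos (h.eta_pos hr) hr) (mul_pos hR ?_)
  have hL : (p + 1) - (q + 1) * (oSig U V U' V') r ≤ 0 := by rw [div_le_iff₀ (by linarith)] at hσ; linarith
  nlinarith [mul_pos_of_neg_of_neg hK (sub_neg.2 hts),
    mul_nonpos_of_nonneg_of_nonpos (h.T_pos hr.le).le hL]

/-- The comparison `t ≤ (p+1)/(q+1)`. -/
lemma T_le (h : IsGround N p q U V U' V') (hN : 2 < N) (hp : 0 < p) (hq : 0 < q) (hpq : q < p)
    (hr : 0 < r) : (oT U V p q) r ≤ (p + 1) / (q + 1) := by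
  by_contra hlt
  push Not at hlt
  set m := (q + 1) / (p + 1) with hm
  set l := ((p + 1) / (q + 1)) ^ (1 / (p + 1)) with hl
  have hm0 : 0 < m := by positivity
  have hm1 : m < 1 := by rw [hm, div_lt_one (by linarith)]; linarith
  have hl0 : 0 < l := by positivity
  have hl1 : l ^ (p + 1) = (p + 1) / (q + 1) := by
    rw [hl, ← Real.rpow_mul (by positivity), one_div_mul_cancel (by linarith), Real.rpow_one]
  set w := fun x => V x - l * U x ^ m with hw
  set g := fun x => x ^ (N - 1) * (V' x - l * (U' x * m * U x ^ (m - 1))) with hg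
  set g' := fun x => x ^ (N - 1) * (-(U x ^ q) + l * m * U x ^ (m - 1) * V x ^ p
    + l * m * (1 - m) * U x ^ (m - 1 - 1) * U' x ^ 2) with hg'
  have hdw : ∀ x, 0 < x → HasDerivAt w (x ^ (1 - N) * g x) x := fun x hx => by
    refine ((h.derivV x hx).sub (((h.derivU x hx).rpow_const (p := m)
      (Or.inl (h.posU x hx.le).ne')).const_mul l)).congr_deriv ?_
    simp only [hg]
    rw [← mul_assoc (x ^ (1 - N)), ← Real.rpow_add hx]
    simp
  have hdg : ∀ x, 0 < x → HasDerivAt g (g' x) x := fun x hx => by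
    refine ((Real.hasDerivAt_rpow_const (p := N - 1) (Or.inl hx.ne')).mul ((h.derivV' x hx).sub
      ((((h.derivU' x hx).mul_const m).mul ((h.derivU x hx).rpow_const (p := m - 1)
        (Or.inl (h.posU x hx.le).ne'))).const_mul l))).congr_deriv ?_
    simp only [hg', Pi.mul_apply, Pi.sub_apply, Real.rpow_sub_one hx.ne' (N - 1)]
    field_simp
    ring
  set c := w r with hc
  have hc0 : 0 < c := by
    simp only [hc, hw, sub_pos]
    have hu := h.posU r hr.le
    refine lt_of_not_ge fun hle => not_le.2 hlt ?_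
    rw [oT, div_le_iff₀ (by positivity), ← hl1]
    calc V r ^ (p + 1) ≤ (l * U r ^ m) ^ (p + 1) :=
          Real.rpow_le_rpow (h.posV r hr.le).le hle (by linarith)
      _ = l ^ (p + 1) * U r ^ (q + 1) := by
          rw [Real.mul_rpow hl0.le (by positivity), ← Real.rpow_mul hu.le, hm,
            div_mul_cancel₀ _ (by linarith : p + 1 ≠ 0)]
  have hgp : ∀ x, 0 < x → c ≤ w x → 0 < g' x := fun x hx hcx => by
    have hu := h.posU x hx.le
    have h1 : l * U x ^ m < V x := by simp only [hw] at hcx; linarith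
    have h2 := Real.rpow_lt_rpow (by positivity) h1 hp
    have e : l * m * U x ^ (m - 1) * (l * U x ^ m) ^ p = U x ^ q := by
      rw [Real.mul_rpow hl0.le (by positivity), ← Real.rpow_mul hu.le]
      have e1 : l * l ^ p * m = 1 := by
        rw [mul_comm l, ← Real.rpow_add_one hl0.ne', hl1, hm]; field_simp
      have e2 : U x ^ (m - 1) * U x ^ (m * p) = U x ^ q := by
        rw [← Real.rpow_add hu]; congr 1; rw [hm]; field_simp; ring
      linear_combination (l * l ^ p * m) * e2 + U x ^ q * e1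
    have h3 := mul_lt_mul_of_pos_left h2
      (show 0 < l * m * U x ^ (m - 1) by positivity)
    rw [e] at h3
    have h4 : 0 ≤ l * m * (1 - m) * U x ^ (m - 1 - 1) * U' x ^ 2 := by
      have : 0 ≤ 1 - m := by linarith
      positivity
    exact mul_pos (Real.rpow_pos_of_pos hx _) (by linarith)
  rcases le_or_gt 0 (g r) with hg0 | hg0
  · obtain ⟨R0, hR0, hsmall⟩ := h.exists_lt (by linarith) hp hq hc0
    have hS : r ≤ max r R0 := le_max_left _ _
    have hx : ∀ x ∈ Icc r (max r R0), 0 < x := fun x hx => hr.trans_le hx.1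
    obtain ⟨h1, -⟩ := (forward (s := w) (g := g) (g' := g') (k := fun x => x ^ (1 - N)) hS
      (fun x hx' => hdw x (hx x hx')) (fun x hx' => hdg x (hx x hx'))
      (fun x hx' => (Real.rpow_pos_of_pos (hx x hx') _).le)
      (fun x hx' hcx _ => hgp x (hx x hx') hcx) le_rfl hg0).1 _ ⟨hS, le_rfl⟩
    have h2 := (hsmall _ (le_max_right r R0)).2
    have hu : 0 ≤ l * U (max r R0) ^ m := by
      have := h.posU (max r R0) (hr.le.trans hS); positivity
    simp only [hw] at h1
    linarith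
  · have hlow : ∀ x ∈ Ioc 0 r, -(x ^ N * U 0 ^ q / N) ≤ g r := by
      intro x hx
      have hI : ∀ y ∈ Icc x r, 0 < y := fun y hy => hx.1.trans_le hy.1
      obtain ⟨hB, -⟩ := backward (s := w) (g := g) (g' := g') (k := fun y => y ^ (1 - N)) hx.2
        (fun y hy => hdw y (hI y hy)) (fun y hy => hdg y (hI y hy))
        (fun y hy => (Real.rpow_pos_of_pos (hI y hy) _).le)
        (fun y hy hcy _ => hgp y (hI y hy) hcy) le_rfl hg0.le
      refine le_trans ?_ (mono_of_deriv (fun y hy => hdg y (hI y hy))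
        (fun y hy => (hgp y (hI y (Ioo_subset_Icc_self hy))
          (hB y (Ioo_subset_Icc_self hy)).1).le) hx.2)
      simp only [hg]
      have h1 := (h.slopeV x hx.1.le).2
      have h2 : 0 ≤ -(l * (U' x * m * U x ^ (m - 1))) := by
        have := h.negU x hx.1
        have := h.posU x hx.1.le
        have h3 : U' x * m * U x ^ (m - 1) ≤ 0 :=
          mul_nonpos_of_nonpos_of_nonneg (by nlinarith) (by positivity)
        nlinarith
      have e : x ^ N = x ^ (N - 1) * x := by
        rw [Real.rpow_sub_one hx.1.ne', div_mul_cancel₀ _ hx.1.ne']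
      rw [e]
      have h4 := mul_le_mul_of_nonneg_left
        (show -(x * U 0 ^ q / N) ≤ V' x - l * (U' x * m * U x ^ (m - 1)) by linarith)
        (Real.rpow_pos_of_pos hx.1 (N - 1)).le
      refine le_of_eq_of_le ?_ h4
      ring
    have ht : Tendsto (fun x : ℝ => -(x ^ N * U 0 ^ q / N)) (𝓝[>] 0) (𝓝 0) := by
      have h1 : Continuous fun x : ℝ => -(x ^ N * U 0 ^ q / N) :=
        ((((Real.continuous_rpow_const (by linarith : (0:ℝ) ≤ N))).mul continuous_const).div_const
          N).neg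
      have h2 := (h1.tendsto 0).mono_left (nhdsWithin_le_nhds (s := Ioi 0))
      simpa [Real.zero_rpow (by linarith : N ≠ 0)] using h2
    exact absurd (le_of_tendsto ht (eventually_of_mem (Ioc_mem_nhdsGT hr) hlow)) (not_le.2 hg0)

lemma sig_tendsto (h : IsGround N p q U V U' V') (hN : 0 < N) (hp : 0 < p) (hq : 0 < q) :
    Tendsto (oSig U V U' V') (𝓝[>] 0) (𝓝 ((oT U V p q) 0)) ∧ Tendsto (oT U V p q) (𝓝[>] 0) (𝓝 ((oT U V p q) 0)) := by
  have hu := h.posU 0 le_rfl
  have hv := h.posV 0 le_rfl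
  have cU := (h.contU.tendsto 0).mono_left (nhdsWithin_le_nhds (s := Ioi 0))
  have cV := (h.contV.tendsto 0).mono_left (nhdsWithin_le_nhds (s := Ioi 0))
  have hlim : ∀ {W X' : ℝ → ℝ} {a : ℝ}, 0 < a → Tendsto W (𝓝[>] 0) (𝓝 (W 0)) → 0 < W 0 →
      (∀ x, 0 ≤ x → x * W x ^ a / N ≤ -X' x ∧ -X' x ≤ x * W 0 ^ a / N) →
      Tendsto (fun x => -X' x / x) (𝓝[>] 0) (𝓝 (W 0 ^ a / N)) := by
    intro W X' a ha hW hW0 hb
    refine tendsto_of_tendsto_of_tendsto_of_le_of_le' ((hW.rpow_const (Or.inl hW0.ne')).div_const N)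
      tendsto_const_nhds ?_ ?_ <;> filter_upwards [self_mem_nhdsWithin] with x (hx : 0 < x)
    · rw [le_div_iff₀ hx]; exact le_of_eq_of_le (by ring) (hb x hx.le).1
    · rw [div_le_iff₀ hx]; exact (hb x hx.le).2.trans_eq (by ring)
  have l1 := hlim hp cV hv h.slopeU
  have l2 := hlim hq cU hu h.slopeV
  refine ⟨?_, ?_⟩
  · have h3 := (l1.div cU hu.ne').div (l2.div cV hv.ne') (by positivity)
    have e : V 0 ^ p / N / U 0 / (U 0 ^ q / N / V 0) = (oT U V p q) 0 := by
      rw [oT, Real.rpow_add_one hu.ne', Real.rpow_add_one hv.ne']; field_simp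
    rw [e] at h3
    refine h3.congr' ?_
    filter_upwards [self_mem_nhdsWithin] with x (hx : 0 < x)
    have := (h.negV x hx).ne
    have := (h.posU x hx.le).ne'
    have := (h.posV x hx.le).ne'
    simp only [oSig, oEta, Pi.div_apply]
    field_simp
  · exact (cV.rpow_const (Or.inl hv.ne')).div (cU.rpow_const (Or.inl hu.ne'))
      (Real.rpow_pos_of_pos hu _).ne'

/-- `t < σ`. -/
lemma T_lt_sig (h : IsGround N p q U V U' V') (hN : 2 < N) (hp : 0 < p) (hq : 0 < q)
    (hpq : q < p) (hr : 0 < r) : (oT U V p q) r < (oSig U V U' V') r := by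
  have hb : (p + 1) / (q + 1) < p / q := by
    rw [div_lt_div_iff₀ (by linarith) hq]; linarith
  set f' := fun x => (oEta V V') x / x * ((oSig U V U' V') x * ((oSig U V U' V') x - 1) - (oR U V V' q) x * ((oSig U V U' V') x - (oT U V p q) x)
    + (oT U V p q) x * ((p + 1) - (q + 1) * (oSig U V U' V') x))
  have hd : ∀ x, 0 < x → HasDerivAt (fun y => (oSig U V U' V') y - (oT U V p q) y) (f' x) x := fun x hx =>
    ((h.hasDerivAt_sig hx).sub (h.hasDerivAt_T hx)).congr_deriv (by simp only [f', oG]; ring)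
  have hz : ∀ x, 0 < x → (oSig U V U' V') x - (oT U V p q) x = 0 → 0 < f' x := fun x hx h0 => by
    have e : (oSig U V U' V') x = (oT U V p q) x := by linarith
    have htq : (oT U V p q) x * q < p := by
      have := (h.T_le hN hp hq hpq hx).trans_lt hb
      rwa [lt_div_iff₀ hq] at this
    refine mul_pos (div_pos (h.eta_pos hx) hx) ?_
    rw [e, sub_self, mul_zero, sub_zero]
    nlinarith [mul_pos (h.T_pos hx.le) (sub_pos.2 htq)]
  by_contra hle
  push Not at hle
  have hneg : ∀ x ∈ Ioo 0 r, (oSig U V U' V') x - (oT U V p q) x < 0 := by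
    intro x hx
    by_contra hge
    push Not at hge
    have := upcross hx.2 (fun y hy => hd y (hx.1.trans_le hy.1))
      (fun y hy => hz y (hx.1.trans_le hy.1)) hge
    linarith
  obtain ⟨ls, lt⟩ := h.sig_tendsto (by linarith) hp hq
  have h0 : 0 < (oT U V p q) 0 := h.T_pos le_rfl
  have hle0 : (oT U V p q) 0 ≤ (p + 1) / (q + 1) :=
    le_of_tendsto lt (eventually_of_mem self_mem_nhdsWithin fun x hx => h.T_le hN hp hq hpq hx)
  have hsum := ((ls.mul (ls.sub_const 1)).add
    (lt.mul ((ls.const_mul (q + 1)).const_sub (p + 1))))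
  have hpos : 0 < (oT U V p q) 0 * ((oT U V p q) 0 - 1) + (oT U V p q) 0 * ((p + 1) - (q + 1) * (oT U V p q) 0) := by
    have : (oT U V p q) 0 * q < p := by
      have := hle0.trans_lt hb
      rwa [lt_div_iff₀ hq] at this
    nlinarith [mul_pos h0 (sub_pos.2 this)]
  obtain ⟨u, hu, hsub⟩ := mem_nhdsGT_iff_exists_Ioo_subset.1
    (hsum.eventually (eventually_gt_nhds hpos))
  set a := min u r / 2 with ha
  have hu0 : 0 < min u r := lt_min hu hr
  have ha0 : 0 < a := by positivity
  have har : a < r := by linarith [min_le_right u r]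
  have hinc : ∀ x ∈ Ioo 0 a, (oSig U V U' V') x - (oT U V p q) x ≤ (oSig U V U' V') a - (oT U V p q) a := fun x hx =>
    mono_of_deriv (fun y hy => hd y (hx.1.trans_le hy.1)) (fun y hy => by
      have hy0 : 0 < y := hx.1.trans hy.1
      have h1 := hneg y ⟨hy0, hy.2.trans har⟩
      have h2 : 0 < (oSig U V U' V') y * ((oSig U V U' V') y - 1) + (oT U V p q) y * ((p + 1) - (q + 1) * (oSig U V U' V') y) :=
        hsub ⟨hy0, by linarith [hy.2, min_le_left u r]⟩
      refine mul_nonneg (div_nonneg (h.eta_pos hy0).le hy0.le) ?_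
      nlinarith [mul_nonpos_of_nonneg_of_nonpos (h.R_pos hy0).le h1.le]) hx.2.le
  have := le_of_tendsto (ls.sub lt) (eventually_of_mem (Ioo_mem_nhdsGT ha0) hinc)
  rw [sub_self] at this
  linarith [hneg a ⟨ha0, har⟩]

/-- `σ < (p+1)/(q+1)`: `t` is strictly decreasing. -/
lemma sig_lt (h : IsGround N p q U V U' V') (hN : 2 < N) (hp : 0 < p) (hq : 0 < q) (hpq : q < p)
    (hcrit : N / (p + 1) + N / (q + 1) = N - 2) (hr : 0 < r) :
    (oSig U V U' V') r < (p + 1) / (q + 1) := by
  set c := (p + 1) / (q + 1) with hc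
  by_contra hle
  push Not at hle
  have hzz : ∀ x, 0 < x → c ≤ (oSig U V U' V') x → (oG U V U' V' p q) x = 0 → _ := fun x hx h1 h2 =>
    h.G'_pos hN hp hq hpq hcrit hx h1 (h.T_le hN hp hq hpq hx) h2
  have hk : ∀ x, 0 < x → 0 ≤ (oEta V V') x / x := fun x hx => div_nonneg (h.eta_pos hx).le hx.le
  rcases le_or_gt 0 ((oG U V U' V' p q) r) with hG | hG
  · have hI : ∀ S, ∀ x ∈ Icc r S, 0 < x := fun S x hx => hr.trans_le hx.1
    have fw := fun S (hS : r ≤ S) => forward (s := (oSig U V U' V')) (g := (oG U V U' V' p q)) (k := fun x => (oEta V V') x / x) hS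
      (fun x hx => h.hasDerivAt_sig (hI S x hx)) (fun x hx => h.hasDerivAt_G (hI S x hx))
      (fun x hx => hk x (hI S x hx)) (fun x hx => hzz x (hI S x hx)) hle hG
    set r2 := r + 1 with hr2'
    have hr2 : r < r2 := lt_add_one r
    have hr20 : 0 < r2 := hr.trans hr2
    have hd : c < (oSig U V U' V') r2 := by
      obtain ⟨w, hw, he⟩ := exists_hasDerivAt_eq_slope (oSig U V U' V') (fun x => (oEta V V') x / x * (oG U V U' V' p q) x) hr2
        (fun x hx => (h.hasDerivAt_sig (hI r2 x hx)).continuousAt.continuousWithinAt)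
        (fun x hx => h.hasDerivAt_sig (hI r2 x (Ioo_subset_Icc_self hx)))
      have : 0 < ((oSig U V U' V') r2 - (oSig U V U' V') r) / (r2 - r) := by
        rw [← he]
        exact mul_pos (div_pos (h.eta_pos (hr.trans hw.1)) (hr.trans hw.1))
          ((fw r2 hr2.le).2 w (Ioo_subset_Ioc_self hw))
      have := (div_pos_iff_of_pos_right (sub_pos.2 hr2)).1 this
      linarith
    set δ := (q + 1) * ((oSig U V U' V') r2 - c) with hδ
    have hδ0 : 0 < δ := mul_pos (by linarith) (by linarith)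
    set v := Real.exp ((Real.log ((oT U V p q) r2) + δ * Real.log (V r2) - Real.log c - 1) / δ)
    obtain ⟨R0, -, hsmall⟩ := h.exists_lt (by linarith) hp hq (Real.exp_pos
      ((Real.log ((oT U V p q) r2) + δ * Real.log (V r2) - Real.log c - 1) / δ))
    set S := max r2 R0
    have hS : r2 ≤ S := le_max_left _ _
    have hS0 : 0 < S := hr20.trans_le hS
    have hmon := mono_of_deriv (f := fun x => Real.log ((oT U V p q) x) + δ * Real.log (V x))
      (f' := fun x => (oEta V V') x / x * ((q + 1) * (oSig U V U' V') x - (p + 1) - δ)) (a := r2) (b := S)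
      (fun x hx => by
        have hx0 : 0 < x := hr20.trans_le hx.1
        refine (((h.hasDerivAt_T hx0).log (h.T_pos hx0.le).ne').add
          (((h.derivV x hx0).log (h.posV x hx0.le).ne').const_mul δ)).congr_deriv ?_
        have := (h.T_pos hx0.le).ne'
        have := (h.posV x hx0.le).ne'
        rw [show V' x = -((oEta V V') x * V x) / x by rw [oEta]; field_simp]
        field_simp
        ring)
      (fun x hx => by
        have hx0 : 0 < x := hr20.trans hx.1
        refine mul_nonneg (hk x hx0) ?_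
        have h1 : (oSig U V U' V') r2 ≤ (oSig U V U' V') x := mono_of_deriv (fun y hy => h.hasDerivAt_sig (hr20.trans_le hy.1))
          (fun y hy => mul_nonneg (hk y (hr20.trans hy.1))
            ((fw x (hr2.le.trans hx.1.le)).1 y ⟨hr2.le.trans hy.1.le, hy.2.le⟩).2) hx.1.le
        have h2 : (q + 1) * (oSig U V U' V') r2 ≤ (q + 1) * (oSig U V U' V') x := mul_le_mul_of_nonneg_left h1 (by linarith)
        have h3 : (q + 1) * c = p + 1 := by rw [hc]; field_simp
        simp only [hδ]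
        linarith) hS
    have h1 : Real.log ((oT U V p q) S) ≤ Real.log c :=
      Real.log_le_log (h.T_pos hS0.le) (h.T_le hN hp hq hpq hS0)
    have h2 : Real.log (V S) < (Real.log ((oT U V p q) r2) + δ * Real.log (V r2) - Real.log c - 1) / δ :=
      (Real.log_lt_iff_lt_exp (h.posV S hS0.le)).2 (hsmall S (le_max_right r2 R0)).2
    rw [lt_div_iff₀ hδ0] at h2
    linarith
  · have bw := fun x (hx : x ∈ Ioc 0 r) => backward (s := (oSig U V U' V')) (g := (oG U V U' V' p q)) (k := fun y => (oEta V V') y / y) hx.2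
      (fun y hy => h.hasDerivAt_sig (hx.1.trans_le hy.1))
      (fun y hy => h.hasDerivAt_G (hx.1.trans_le hy.1))
      (fun y hy => hk y (hx.1.trans_le hy.1)) (fun y hy => hzz y (hx.1.trans_le hy.1)) hle hG.le
    have h2 : c < (oSig U V U' V') (r / 2) := by
      obtain ⟨w, hw, he⟩ := exists_hasDerivAt_eq_slope (oSig U V U' V') (fun x => (oEta V V') x / x * (oG U V U' V' p q) x)
        (show r / 2 < r by linarith)
        (fun x hx => (h.hasDerivAt_sig ((half_pos hr).trans_le hx.1)).continuousAt.continuousWithinAt)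
        (fun x hx => h.hasDerivAt_sig ((half_pos hr).trans hx.1))
      have hw0 : 0 < w := (half_pos hr).trans hw.1
      have : ((oSig U V U' V') r - (oSig U V U' V') (r / 2)) / (r - r / 2) < 0 := by
        rw [← he]
        exact mul_neg_of_pos_of_neg (div_pos (h.eta_pos hw0) hw0)
          ((bw w ⟨hw0, hw.2.le⟩).2 w ⟨le_rfl, hw.2⟩)
      rw [div_neg_iff] at this
      rcases this with ⟨_, h'⟩ | ⟨h', _⟩ <;> linarith
    have h3 : ∀ x ∈ Ioo 0 (r / 2), (oSig U V U' V') (r / 2) ≤ (oSig U V U' V') x := fun x hx =>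
      neg_le_neg_iff.1 (mono_of_deriv (f := fun y => -(oSig U V U' V') y)
        (fun y hy => (h.hasDerivAt_sig (hx.1.trans_le hy.1)).neg)
        (fun y hy => neg_nonneg.2 (mul_nonpos_of_nonneg_of_nonpos (hk y (hx.1.trans hy.1))
          ((bw x ⟨hx.1, by linarith [hx.2]⟩).1 y ⟨hy.1.le, by linarith [hy.2]⟩).2)) hx.2.le)
    obtain ⟨ls, lt⟩ := h.sig_tendsto (by linarith) hp hq
    have h4 : (oSig U V U' V') (r / 2) ≤ (oT U V p q) 0 :=
      ge_of_tendsto ls (eventually_of_mem (Ioo_mem_nhdsGT (half_pos hr)) h3)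
    have h5 : (oT U V p q) 0 ≤ c :=
      le_of_tendsto lt (eventually_of_mem self_mem_nhdsWithin fun x hx => h.T_le hN hp hq hpq hx)
    linarith

lemma T_anti (h : IsGround N p q U V U' V') (hN : 2 < N) (hp : 0 < p) (hq : 0 < q) (hpq : q < p)
    (hcrit : N / (p + 1) + N / (q + 1) = N - 2) {s : ℝ} (hs : 0 < s) (hsr : s < r) :
    (oT U V p q) r < (oT U V p q) s := by
  obtain ⟨w, hw, he⟩ := exists_hasDerivAt_eq_slope (oT U V p q)
    (fun x => -((oT U V p q) x * (oEta V V') x * ((p + 1) - (q + 1) * (oSig U V U' V') x)) / x) hsr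
    (fun x hx => (h.hasDerivAt_T (hs.trans_le hx.1)).continuousAt.continuousWithinAt)
    (fun x hx => h.hasDerivAt_T (hs.trans hx.1))
  have hw0 : 0 < w := hs.trans hw.1
  have hL : 0 < (p + 1) - (q + 1) * (oSig U V U' V') w := by
    have := h.sig_lt hN hp hq hpq hcrit hw0
    rw [lt_div_iff₀ (by linarith)] at this
    linarith
  have : ((oT U V p q) r - (oT U V p q) s) / (r - s) < 0 := by
    rw [← he]
    exact div_neg_of_neg_of_pos
      (neg_lt_zero.2 (mul_pos (mul_pos (h.T_pos hw0.le) (h.eta_pos hw0)) hL)) hw0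
  rw [div_neg_iff] at this
  rcases this with ⟨_, h'⟩ | ⟨h', _⟩ <;> linarith

/-- `t < (p+1)/(q+1)` strictly. -/
lemma T_lt (h : IsGround N p q U V U' V') (hN : 2 < N) (hp : 0 < p) (hq : 0 < q) (hpq : q < p)
    (hcrit : N / (p + 1) + N / (q + 1) = N - 2) (hr : 0 < r) : (oT U V p q) r < (p + 1) / (q + 1) :=
  (h.T_anti hN hp hq hpq hcrit (half_pos hr) (half_lt_self hr)).trans_le
    (h.T_le hN hp hq hpq (half_pos hr))

/-- `1 < σ`. -/
lemma one_lt_sig (h : IsGround N p q U V U' V') (hN : 2 < N) (hp : 0 < p) (hq : 0 < q)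
    (hpq : q < p) (hr : 0 < r) : 1 < (oSig U V U' V') r := by
  by_contra hle
  push Not at hle
  have hts := fun {x : ℝ} (hx : 0 < x) => h.T_lt_sig hN hp hq hpq hx
  have hGneg : ∀ x, 0 < x → (oSig U V U' V') x ≤ 1 → (oG U V U' V' p q) x < 0 := fun x hx h1 => by
    rw [oG]
    nlinarith [mul_pos (h.R_pos hx) (sub_pos.2 (hts hx)), h.sig_pos hx]
  have hd : ∀ x, 0 < x → HasDerivAt (fun y => 1 - (oSig U V U' V') y) (-((oEta V V') x / x * (oG U V U' V' p q) x)) x := fun x hx =>
    (h.hasDerivAt_sig hx).const_sub 1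
  have hlt : ∀ x, r < x → (oSig U V U' V') x < 1 := fun x hx => by
    have := upcross hx (fun y hy => hd y (hr.trans_le hy.1))
      (fun y hy h0 => neg_pos.2 (mul_neg_of_pos_of_neg
        (div_pos (h.eta_pos (hr.trans_le hy.1)) (hr.trans_le hy.1))
        (hGneg y (hr.trans_le hy.1) (by linarith)))) (by linarith)
    linarith
  set r2 := r + 1
  have hr2 : r < r2 := lt_add_one r
  have hr20 : 0 < r2 := hr.trans hr2
  have hdec : ∀ x, r2 ≤ x → (oSig U V U' V') x ≤ (oSig U V U' V') r2 := fun x hx =>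
    neg_le_neg_iff.1 (mono_of_deriv (f := fun y => -(oSig U V U' V') y)
      (fun y hy => (h.hasDerivAt_sig (hr20.trans_le hy.1)).neg)
      (fun y hy => neg_nonneg.2 (mul_nonpos_of_nonneg_of_nonpos
        (div_nonneg (h.eta_pos (hr20.trans hy.1)).le (hr20.trans hy.1).le)
        (hGneg y (hr20.trans hy.1) (hlt y (hr2.trans hy.1)).le).le)) hx)
  set c := 1 - (oSig U V U' V') r2 with hc
  have hc0 : 0 < c := by linarith [hlt r2 hr2]
  set δ := 1 / q with hδ
  have hδ0 : 0 < δ := by positivity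
  set z := (Real.log δ - Real.log (N - 2) - Real.log ((oSig U V U' V') r2) + c * Real.log (V r2)) / c
  obtain ⟨R0, -, hsmall⟩ := h.exists_lt (by linarith) hp hq (Real.exp_pos z)
  set r3 := max r2 R0
  have hr3 : r2 ≤ r3 := le_max_left _ _
  have hr30 : 0 < r3 := hr20.trans_le hr3
  have hxi : ∀ x, r3 ≤ x → (oSig U V U' V') x * (oEta V V') x ≤ δ := fun x hx => by
    have hx2 : r2 ≤ x := hr3.trans hx
    have hx0 : 0 < x := hr20.trans_le hx2
    have hmon := mono_of_deriv (f := fun y => c * Real.log (V y) - Real.log ((oSig U V U' V') y))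
      (f' := fun y => (oEta V V') y / y * (-c - (oG U V U' V' p q) y / (oSig U V U' V') y)) (a := r2) (b := x)
      (fun y hy => by
        have hy0 : 0 < y := hr20.trans_le hy.1
        refine ((((h.derivV y hy0).log (h.posV y hy0.le).ne').const_mul c).sub
          ((h.hasDerivAt_sig hy0).log (h.sig_pos hy0).ne')).congr_deriv ?_
        have := (h.sig_pos hy0).ne'
        have := (h.posV y hy0.le).ne'
        rw [show V' y = -((oEta V V') y * V y) / y by rw [oEta]; field_simp]
        field_simp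
        try ring)
      (fun y hy => by
        have hy0 : 0 < y := hr20.trans hy.1
        refine mul_nonneg (div_nonneg (h.eta_pos hy0).le hy0.le) ?_
        have hs := h.sig_pos hy0
        rw [sub_nonneg, div_le_iff₀ hs, oG]
        nlinarith [hdec y hy.1.le, mul_pos (h.R_pos hy0) (sub_pos.2 (hts hy0))]) hx2
    have hv : Real.log (V x) < z :=
      (Real.log_lt_iff_lt_exp (h.posV x hx0.le)).2
        (hsmall x ((le_max_right r2 R0).trans hx)).2
    rw [lt_div_iff₀ hc0] at hv
    have h1 : (oSig U V U' V') x ≤ δ / (N - 2) := by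
      rw [← Real.log_le_log_iff (h.sig_pos hx0) (div_pos hδ0 (by linarith)),
        Real.log_div hδ0.ne' (by linarith)]
      linarith
    have h2 : (oEta V V') x ≤ N - 2 := by
      rw [oEta, div_le_iff₀ (h.posV x hx0.le)]; exact (h.xi_le hN.le hx0).2
    calc (oSig U V U' V') x * (oEta V V') x ≤ δ / (N - 2) * (N - 2) :=
          mul_le_mul h1 h2 (h.eta_pos hx0).le (div_nonneg hδ0.le (by linarith))
      _ = δ := div_mul_cancel₀ _ (by linarith)
  set K := Real.log (N * V 0) / q + 2 * Real.log 2 / q - Real.log (U r3) - δ * Real.log r3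
  set x := max r3 (Real.exp ((K + 1) * q))
  have hx3 : r3 ≤ x := le_max_left _ _
  have hx0 : 0 < x := hr30.trans_le hx3
  have hlo := mono_of_deriv (f := fun y => Real.log (U y) + δ * Real.log y)
    (f' := fun y => (δ - (oSig U V U' V') y * (oEta V V') y) / y) (a := r3) (b := x)
    (fun y hy => by
      have hy0 : 0 < y := hr30.trans_le hy.1
      refine (((h.derivU y hy0).log (h.posU y hy0.le).ne').add
        ((Real.hasDerivAt_log hy0.ne').const_mul δ)).congr_deriv ?_
      have := (h.eta_pos hy0).ne'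
      have := (h.posU y hy0.le).ne'
      rw [oSig]
      field_simp
      ring)
    (fun y hy => div_nonneg (sub_nonneg.2 (hxi y hy.1.le)) (hr30.trans hy.1).le) hx3
  have hv0 := h.posV 0 le_rfl
  have hup := (h.decay (by linarith) hp hq (half_pos hx0)).1
  rw [show 2 * (x / 2) = x by ring] at hup
  have hup' := Real.log_le_log (h.posU x hx0.le) hup
  have hNv : 0 < N * V 0 := mul_pos (by linarith) hv0
  rw [Real.log_rpow (by positivity), Real.log_div hNv.ne' (by positivity), Real.log_pow,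
    Real.log_div hx0.ne' two_ne_zero] at hup'
  have hbig : (K + 1) * q ≤ Real.log x :=
    (Real.le_log_iff_exp_le hx0).2 (le_max_right _ _)
  simp only [K, hδ] at hbig hlo
  push_cast at hup'
  field_simp at hbig hlo hup'
  nlinarith

/-- Bounds: `ξ, η ≤ N - 2`, `R ≤ N e`, `t R ≤ N σ e`. -/
lemma basic_bounds (h : IsGround N p q U V U' V') (hN : 2 < N) (hr : 0 < r) :
    1 / (N - 2) ≤ (oE V V') r ∧ (oSig U V U' V') r ≤ (N - 2) * (oE V V') r ∧ (oR U V V' q) r ≤ N * (oE V V') r ∧
      (oR U V V' q) r * (oT U V p q) r ≤ N * (oSig U V U' V') r * (oE V V') r := by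
  have hη := h.eta_pos hr
  have hu := h.posU r hr.le
  have hv := h.posV r hr.le
  obtain ⟨x1, x2⟩ := h.xi_le hN.le hr
  have h1 : (oEta V V') r ≤ N - 2 := by rw [oEta, div_le_iff₀ hv]; exact x2
  refine ⟨one_div_le_one_div_of_le hη h1, ?_, ?_, ?_⟩
  · rw [oSig, oE, mul_one_div]
    exact div_le_div_of_nonneg_right (by rw [div_le_iff₀ hu]; exact x1) hη.le
  · have h2 : r ^ 2 * U r ^ q / V r ≤ N * (oEta V V') r := by
      have := mul_le_mul_of_nonneg_left (h.slopeV r hr.le).1 hr.le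
      rw [mul_div_assoc', div_le_iff₀ (by linarith : (0:ℝ) < N)] at this
      rw [oEta, mul_div_assoc']
      refine div_le_div_of_nonneg_right ?_ hv.le
      linarith
    rw [oR, oE, mul_one_div, div_le_div_iff₀ (by positivity) hη]
    nlinarith [mul_le_mul_of_nonneg_right h2 hη.le]
  · rw [h.R_mul_T hr, oSig, oE]
    have h2 : r ^ 2 * V r ^ p / U r ≤ N * (-(r * U' r) / U r) := by
      have := mul_le_mul_of_nonneg_left (h.slopeU r hr.le).1 hr.le
      rw [mul_div_assoc', div_le_iff₀ (by linarith : (0:ℝ) < N)] at this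
      rw [mul_div_assoc']
      refine div_le_div_of_nonneg_right ?_ hu.le
      linarith
    rw [show N * (-(r * U' r) / U r / (oEta V V') r) * (1 / (oEta V V') r) = N * (-(r * U' r) / U r) / (oEta V V') r ^ 2 by
      field_simp]
    exact div_le_div_of_nonneg_right h2 (by positivity)

end IsGround

end Vale.Agent.P100T
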