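import Vale.Agent.P100T.Assembly
import Vale.Agent.P100T.Orbit

/-!
The lower barrier: `A E₁ - κ Xh` has a fixed sign on each side of `τ₀`, which bounds the slope
`dW/dσ` along the curve by a function of `(σ, W)`.
-/

open Set Filter Topology

noncomputable section

namespace Vale.Agent.P100T.CPar

variable (C : CPar) (s W z : ℝ)

/-- `y = l/(qσ)`. -/
def yv : ℝ := C.l s W / (C.q * s)
def Av : ℝ := (C.N + 2) * C.yv s W - C.N
def Bv : ℝ := (C.N - 2) * (C.l s W - 1) - 2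
def Xh : ℝ := (1 - C.yv s W) * C.Bv s W + 2 * C.yv s W * W / s
def kb : ℝ := (C.N + 2) / (C.N + 4)
def Den : ℝ := C.kb * C.Xh s W - C.Av s W * C.E0 s W
/-- `g = A E₁ - κ Xh`. -/
def gI : ℝ := 2 / C.N * C.Av s W / z - C.Den s W
/-- `L dl/dτ` where `g = 0`. -/
def Dl : ℝ := C.q * s / 2 * (C.kb * C.Xh s W - (1 - C.yv s W) * C.Bv s W)
def gam : ℝ := C.q * s * (s + (C.p + 1) / (C.q + 1)) / 2
/-- `L dW/dτ` where `g = 0`; so the slope bound is `dW/dσ = Wd/W`. -/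
def Wd : ℝ := (C.p + 2 - C.l s W - 2 * s) * W - (s + (C.p + 1) / (C.q + 1)) * C.Dl s W
def Dy : ℝ := C.Dl s W / (C.q * s) - C.yv s W * W / s
def DXh : ℝ := -(C.Dy s W * C.Bv s W) + (1 - C.yv s W) * ((C.N - 2) * C.Dl s W)
  + 2 * C.Dy s W * W / s + 2 * C.yv s W * (C.Wd s W * s - W * W) / s ^ 2
/-- `L dDen/dτ` where `g = 0`. -/
def DDen : ℝ := C.kb * C.DXh s W - (C.N + 2) * C.Dy s W * C.E0 s W
  - C.Av s W * ((2 - C.N) / C.N * C.Dl s W)
def dDen : ℝ := C.kb * (-(C.Bv s W) / 2 + (1 - C.yv s W) * ((C.N - 2) * (C.q * s / 2))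
    + W / s - 2 * C.yv s W * C.gam s / s)
  - (C.N + 2) / 2 * C.E0 s W - C.Av s W * ((2 - C.N) / C.N * (C.q * s / 2))
/-- The forcing term of `g`: it must be positive. -/
def Gc : ℝ := C.Den s W * (C.Kp0 s W - C.E0 s W) - C.DDen s W

variable {C} {τ₀ b τ : ℝ} {S Wf zf : ℝ → ℝ}

lemma tb_K (hA : C.Adm) : s + (C.p + 1) / (C.q + 1) = C.K s / (C.q + 1) := by
  have := hA.hq
  simp only [K]
  field_simp
  ring

/-- The algebra behind `W'`. -/
lemma W_identity {s : ℝ} (z : ℝ) (hA : C.Adm) (hs : 0 < s) (W : ℝ) (hz : z ≠ 0) :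
    W * (1 - z * (2 * s - 1)) + (z * C.Kp0 s W + 2 / C.N) * V s W - (s - z * V s W) * C.L s
      = z * (C.Wd s W - C.gam s * C.gI s W z) := by
  have hK := (K_pos hA hs).ne'
  have hN : C.N ≠ 0 := by linarith [hA.hN]
  have hq0 := hA.hq.ne'
  have hq1 : C.q + 1 ≠ 0 := by linarith [hA.hq]
  have e : C.Wd s W - C.gam s * C.gI s W z
      = (C.p + 2 - C.l s W - 2 * s) * W - (s + (C.p + 1) / (C.q + 1)) * (C.q * s / 2)
        * (2 / C.N * C.Av s W / z + C.Av s W * C.E0 s W - (1 - C.yv s W) * C.Bv s W) := by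
    simp only [Wd, gI, Den, Dl, gam]; ring
  have hl : C.l s W * (s + (C.p + 1) / (C.q + 1)) = (C.p + 1) * s - V s W := by
    rw [tb_K s hA]; simp only [l]; field_simp
  have hV : V s W = (C.p + 1) * s - C.l s W * (s + (C.p + 1) / (C.q + 1)) := by linarith
  have hW : W = (C.p + 1) * s - C.l s W * (s + (C.p + 1) / (C.q + 1)) - s * (s - 1) := by
    rw [← hV]; simp only [V]; ring
  rw [e]
  simp only [Kp0, E0, Av, Bv, yv, L]
  rw [hV]
  generalize C.l s W = l at hW ⊢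
  subst hW
  have hc := hA.crit
  have hs' := hs.ne'
  field_simp
  linear_combination (-2 * s * (1 + l * z)) * hc

lemma _root_.Vale.Agent.P100T.IsCurve.hasDerivAt_W (h : IsCurve C τ₀ b S Wf zf) (hA : C.Adm) (hτ : τ < b) (hne : τ ≠ τ₀) :
    HasDerivAt Wf ((C.Wd (S τ) (Wf τ) - C.gam (S τ) * C.gI (S τ) (Wf τ) (zf τ)) / C.L (S τ)) τ := by
  obtain ⟨d, hd⟩ : ∃ d, HasDerivAt Wf d τ :=
    ⟨_, ((h.smoothW.differentiableOn one_ne_zero).differentiableAt (Iio_mem_nhds hτ)).hasDerivAt⟩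
  refine hd.congr_deriv ?_
  have dS := h.derivS τ hτ
  have dz := h.derivz τ hτ
  have h1 : HasDerivAt (fun x => S x - zf x * V (S x) (Wf x)) _ τ :=
    dS.sub (dz.mul ((dS.mul (dS.sub_const 1)).add hd))
  have h2 : HasDerivAt (fun x => S x - zf x * V (S x) (Wf x)) (Real.exp τ) τ :=
    (Real.hasDerivAt_exp τ).congr_of_eventuallyEq
      ((eventually_lt_nhds hτ).mono fun x hx => (h.texp x hx).symm)
  have he := h1.unique h2
  rw [h.texp τ hτ] at he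
  have hL := (h.L_pos τ hτ).ne'
  have hz := h.z_ne τ hτ hne
  rw [eq_div_iff hL]
  refine mul_left_cancel₀ hz ?_
  have key := C.W_identity (zf τ) hA (h.S_pos τ hτ) (Wf τ) hz
  generalize C.Wd (S τ) (Wf τ) - C.gam (S τ) * C.gI (S τ) (Wf τ) (zf τ) = X at key ⊢
  simp only [CPar.dz, V] at he key ⊢
  field_simp at he key
  linear_combination (-1) * he + key

lemma _root_.Vale.Agent.P100T.IsCurve.hasDerivAt_l (h : IsCurve C τ₀ b S Wf zf) (hA : C.Adm) (hτ : τ < b) (hne : τ ≠ τ₀) :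
    HasDerivAt (fun x => C.l (S x) (Wf x))
      ((C.Dl (S τ) (Wf τ) + C.q * S τ / 2 * C.gI (S τ) (Wf τ) (zf τ)) / C.L (S τ)) τ := by
  have dS := h.derivS τ hτ
  have dW := h.hasDerivAt_W hA hτ hne
  have hL := (h.L_pos τ hτ).ne'
  have hK := (K_pos hA (h.S_pos τ hτ)).ne'
  have hs := (h.S_pos τ hτ).ne'
  have hq1 : C.q + 1 ≠ 0 := by linarith [hA.hq]
  refine ((((dS.const_mul (C.p + 1)).sub ((dS.mul (dS.sub_const 1)).add dW)).mul_const
    (C.q + 1)).div ((dS.const_mul (C.q + 1)).const_add (C.p + 1)) hK).congr_deriv ?_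
  have hl : C.l (S τ) (Wf τ) * C.K (S τ)
      = ((C.p + 1) * S τ - V (S τ) (Wf τ)) * (C.q + 1) := by
    simp only [l]; field_simp
  simp only [Pi.sub_apply, Pi.add_apply, Pi.mul_apply]
  rw [show S τ * (S τ - 1) + Wf τ = V (S τ) (Wf τ) from rfl, ← hl,
    show C.p + 1 + (C.q + 1) * S τ = C.K (S τ) from rfl]
  simp only [Wd, gam]
  rw [tb_K (S τ) hA]
  generalize C.l (S τ) (Wf τ) = l at hl ⊢
  generalize C.Dl (S τ) (Wf τ) = D
  generalize C.gI (S τ) (Wf τ) (zf τ) = g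
  field_simp
  ring

lemma _root_.Vale.Agent.P100T.IsCurve.hasDerivAt_yv (h : IsCurve C τ₀ b S Wf zf) (hA : C.Adm) (hτ : τ < b) (hne : τ ≠ τ₀) :
    HasDerivAt (fun x => C.yv (S x) (Wf x))
      ((C.Dy (S τ) (Wf τ) + C.gI (S τ) (Wf τ) (zf τ) / 2) / C.L (S τ)) τ := by
  have hs := (h.S_pos τ hτ).ne'
  have hq := hA.hq.ne'
  refine ((h.hasDerivAt_l hA hτ hne).div ((h.derivS τ hτ).const_mul C.q)
    (mul_ne_zero hq hs)).congr_deriv ?_
  have := (h.L_pos τ hτ).ne'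
  simp only [Dy, yv]
  field_simp
  ring

lemma _root_.Vale.Agent.P100T.IsCurve.hasDerivAt_Den (h : IsCurve C τ₀ b S Wf zf) (hA : C.Adm) (hτ : τ < b) (hne : τ ≠ τ₀) :
    HasDerivAt (fun x => C.Den (S x) (Wf x))
      ((C.DDen (S τ) (Wf τ) + C.gI (S τ) (Wf τ) (zf τ) * C.dDen (S τ) (Wf τ)) / C.L (S τ)) τ := by
  have hs := (h.S_pos τ hτ).ne'
  have hL := (h.L_pos τ hτ).ne'
  have hN : C.N ≠ 0 := by linarith [hA.hN]
  have dy := h.hasDerivAt_yv hA hτ hne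
  have dl := h.hasDerivAt_l hA hτ hne
  have dX := ((dy.const_sub 1).mul (((dl.sub_const 1).const_mul (C.N - 2)).sub_const 2)).add
    (((dy.const_mul 2).mul (h.hasDerivAt_W hA hτ hne)).div (h.derivS τ hτ) hs)
  refine ((dX.const_mul C.kb).sub (((dy.const_mul (C.N + 2)).sub_const C.N).mul
    (((dl.const_mul (2 - C.N)).div_const C.N).add_const 1))).congr_deriv ?_
  simp only [DDen, dDen, DXh, Av, Bv, E0, Pi.mul_apply]
  field_simp
  ring

/-- The rate of `g`. -/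
theorem _root_.Vale.Agent.P100T.IsCurve.hasDerivAt_gI (h : IsCurve C τ₀ b S Wf zf) (hA : C.Adm) (hτ : τ < b)
    (hne : τ ≠ τ₀) :
    HasDerivAt (fun x => C.gI (S x) (Wf x) (zf x))
      ((C.gI (S τ) (Wf τ) (zf τ) * ((C.N + 4) / (C.N * zf τ) + C.Kp0 (S τ) (Wf τ)
        - C.E0 (S τ) (Wf τ) - C.dDen (S τ) (Wf τ)) + C.Gc (S τ) (Wf τ)) / C.L (S τ)) τ := by
  have hs := (h.S_pos τ hτ).ne'
  have hL := (h.L_pos τ hτ).ne'
  have hz := h.z_ne τ hτ hne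
  have hN : C.N ≠ 0 := by linarith [hA.hN]
  have hq := hA.hq.ne'
  have hN4 : C.N + 4 ≠ 0 := by linarith [hA.hN]
  refine (((((h.hasDerivAt_yv hA hτ hne).const_mul (C.N + 2)).sub_const C.N).const_mul
    (2 / C.N)).div (h.derivz τ hτ) hz |>.sub (h.hasDerivAt_Den hA hτ hne)).congr_deriv ?_
  have hDA : (C.N + 2) * C.Dy (S τ) (Wf τ) = -(C.kb * C.Xh (S τ) (Wf τ)) := by
    simp only [Dy, Dl, Xh, kb]
    field_simp
    ring
  have hg : C.gI (S τ) (Wf τ) (zf τ)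
      = 2 / C.N * C.Av (S τ) (Wf τ) / zf τ - C.Den (S τ) (Wf τ) := rfl
  simp only [Gc, CPar.dz]
  rw [show (C.N + 2) * C.yv (S τ) (Wf τ) - C.N = C.Av (S τ) (Wf τ) from rfl,
    show (C.N + 2) * ((C.Dy (S τ) (Wf τ) + C.gI (S τ) (Wf τ) (zf τ) / 2) / C.L (S τ))
      = ((C.N + 2) * C.Dy (S τ) (Wf τ) + (C.N + 2) / 2 * C.gI (S τ) (Wf τ) (zf τ)) / C.L (S τ)
      by ring, hDA, hg]
  simp only [Den]
  field_simp
  ring

/-- `z g`, which extends continuously through `τ₀`. -/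
def psi (s W z : ℝ) : ℝ := 2 / C.N * C.Av s W - z * C.Den s W

lemma psi_eq {s W z : ℝ} (hz : z ≠ 0) : C.psi s W z = z * C.gI s W z := by
  simp only [psi, gI]
  field_simp

lemma _root_.Vale.Agent.P100T.IsCurve.contOn (h : IsCurve C τ₀ b S Wf zf) (hA : C.Adm) :
    ContinuousOn (fun x => C.psi (S x) (Wf x) (zf x)) (Iio b) := by
  have cS := h.smoothS.continuousOn
  have cW := h.smoothW.continuousOn
  have cz := h.smoothz.continuousOn
  have hK : ∀ x ∈ Iio b, C.K (S x) ≠ 0 := fun x hx => (K_pos hA (h.S_pos x hx)).ne'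
  have hs : ∀ x ∈ Iio b, S x ≠ 0 := fun x hx => (h.S_pos x hx).ne'
  have hqs : ∀ x ∈ Iio b, C.q * S x ≠ 0 := fun x hx => mul_ne_zero hA.hq.ne' (hs x hx)
  unfold psi Den Xh Av Bv yv E0 l CPar.V
  simp only [K] at hK ⊢
  fun_prop (disch := assumption)

/-- At `τ₀` the centre is regular: `z g = 0`. -/
lemma _root_.Vale.Agent.P100T.IsCurve.psi_zero (h : IsCurve C τ₀ b S Wf zf) (hA : C.Adm)
    (hb : τ₀ < b) (hz0 : zf τ₀ = 0) : C.psi (S τ₀) (Wf τ₀) (zf τ₀) = 0 := by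
  obtain ⟨d, hd⟩ : ∃ d, HasDerivAt Wf d τ₀ :=
    ⟨_, ((h.smoothW.differentiableOn one_ne_zero).differentiableAt (Iio_mem_nhds hb)).hasDerivAt⟩
  have dS := h.derivS τ₀ hb
  have h1 : HasDerivAt (fun x => S x - zf x * V (S x) (Wf x)) _ τ₀ :=
    dS.sub ((h.derivz τ₀ hb).mul ((dS.mul (dS.sub_const 1)).add hd))
  have h2 : HasDerivAt (fun x => S x - zf x * V (S x) (Wf x)) (Real.exp τ₀) τ₀ :=
    (Real.hasDerivAt_exp τ₀).congr_of_eventuallyEq
      ((eventually_lt_nhds hb).mono fun x hx => (h.texp x hx).symm)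
  have he := h1.unique h2
  rw [h.texp τ₀ hb, hz0] at he
  have hL := (h.L_pos τ₀ hb).ne'
  have hK := (K_pos hA (h.S_pos τ₀ hb)).ne'
  have hs := (h.S_pos τ₀ hb).ne'
  have hq := hA.hq.ne'
  have hN : C.N ≠ 0 := by linarith [hA.hN]
  have hp1 : C.p + 1 ≠ 0 := by linarith [hA.hp]
  simp only [CPar.dz, zero_mul, zero_add, add_zero, sub_zero] at he
  simp only [psi, hz0, zero_mul, sub_zero, Av, yv, l, V] at he ⊢
  generalize hW : Wf τ₀ = W at he ⊢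
  generalize hS : S τ₀ = s at he hK hs hL ⊢
  simp only [L, K] at he hK hL ⊢
  field_simp at he ⊢
  linear_combination (-2 * (C.q + 1)) * he - (2 * s) * hA.crit

lemma _root_.Vale.Agent.P100T.IsCurve.z_pos (h : IsCurve C τ₀ b S Wf zf) (hA : C.Adm) (hb : τ₀ < b)
    (hz0 : zf τ₀ = 0) {x : ℝ} (hx : x < τ₀) : 0 < zf x := by
  have hd : HasDerivAt (fun y => -zf y) (-C.dz (S τ₀) (Wf τ₀) (zf τ₀)) τ₀ := (h.derivz τ₀ hb).neg
  have hdpos : 0 < -C.dz (S τ₀) (Wf τ₀) (zf τ₀) := by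
    have : (0 : ℝ) < C.N := by linarith [hA.hN]
    have := h.L_pos τ₀ hb
    rw [CPar.dz, hz0, zero_mul, zero_add, neg_neg]
    positivity
  by_contra hle
  have hc : ∀ y ∈ Icc x τ₀, zf y ≠ 0 ∨ y = τ₀ := fun y hy => by
    rcases eq_or_ne y τ₀ with e | e
    · exact Or.inr e
    · exact Or.inl (h.z_ne y (hy.2.trans_lt hb) e)
  -- a point just left of `τ₀` has `z > 0`
  obtain ⟨y, hy, hyx⟩ : ∃ y, (x < y ∧ y < τ₀) ∧ 0 < zf y := by
    have hs := (hd.tendsto_slope.mono_left (nhdsLT_le_nhdsNE τ₀)).eventually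
      (eventually_gt_nhds hdpos)
    obtain ⟨y, hy1, hy2⟩ := (hs.and (Ioo_mem_nhdsLT hx)).exists
    refine ⟨y, hy2, ?_⟩
    rw [slope_def_field, hz0, neg_zero, sub_zero, lt_div_iff_of_neg (sub_neg.2 hy2.2), zero_mul] at hy1
    linarith
  obtain ⟨w, hw, hw0⟩ := intermediate_value_Icc hy.1.le
    (h.smoothz.continuousOn.mono fun w hw => (hw.2.trans_lt (hy.2.trans hb)))
    (show (0 : ℝ) ∈ Icc (zf x) (zf y) from ⟨le_of_not_gt hle, hyx.le⟩)
  exact h.z_ne w (hw.2.trans_lt (hy.2.trans hb)) (hw.2.trans_lt hy.2).ne hw0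

lemma _root_.Vale.Agent.P100T.IsCurve.z_neg (h : IsCurve C τ₀ b S Wf zf) (hA : C.Adm) (hb : τ₀ < b)
    (hz0 : zf τ₀ = 0) {x : ℝ} (hx : τ₀ < x) (hxb : x < b) : zf x < 0 := by
  have hd : HasDerivAt (fun y => -zf y) (-C.dz (S τ₀) (Wf τ₀) (zf τ₀)) τ₀ := (h.derivz τ₀ hb).neg
  have hdpos : 0 < -C.dz (S τ₀) (Wf τ₀) (zf τ₀) := by
    have : (0 : ℝ) < C.N := by linarith [hA.hN]
    have := h.L_pos τ₀ hb
    rw [CPar.dz, hz0, zero_mul, zero_add, neg_neg]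
    positivity
  by_contra hle
  obtain ⟨y, hy, hyx⟩ : ∃ y, (τ₀ < y ∧ y < x) ∧ zf y < 0 := by
    have hs := (hd.tendsto_slope.mono_left (nhdsGT_le_nhdsNE τ₀)).eventually
      (eventually_gt_nhds hdpos)
    obtain ⟨y, hy1, hy2⟩ := (hs.and (Ioo_mem_nhdsGT hx)).exists
    refine ⟨y, hy2, ?_⟩
    rw [slope_def_field, hz0, neg_zero, sub_zero, lt_div_iff₀ (sub_pos.2 hy2.1), zero_mul] at hy1
    linarith
  obtain ⟨w, hw, hw0⟩ := intermediate_value_Icc hy.2.le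
    (h.smoothz.continuousOn.mono fun w hw => (hw.2.trans_lt hxb))
    (show (0 : ℝ) ∈ Icc (zf y) (zf x) from ⟨hyx.le, le_of_not_gt hle⟩)
  exact h.z_ne w (hw.2.trans_lt hxb) (hy.1.trans_le hw.1).ne' hw0

lemma _root_.Vale.Agent.P100T.IsCurve.hasDerivAt_psi (h : IsCurve C τ₀ b S Wf zf) (hA : C.Adm)
    (hτ : τ < b) (hne : τ ≠ τ₀) :
    HasDerivAt (fun x => C.psi (S x) (Wf x) (zf x))
      ((C.gI (S τ) (Wf τ) (zf τ) * ((C.N + 2) / C.N
        - zf τ * (C.E0 (S τ) (Wf τ) + C.dDen (S τ) (Wf τ))) + zf τ * C.Gc (S τ) (Wf τ))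
        / C.L (S τ)) τ := by
  have hev : (fun x => C.psi (S x) (Wf x) (zf x))
      =ᶠ[𝓝 τ] fun x => zf x * C.gI (S x) (Wf x) (zf x) := by
    filter_upwards [eventually_lt_nhds hτ, isOpen_ne.mem_nhds hne] with x hx hx'
    exact psi_eq (h.z_ne x hx hx')
  refine ((((h.derivz τ hτ).mul (h.hasDerivAt_gI hA hτ hne))).congr_deriv ?_).congr_of_eventuallyEq hev
  have := h.z_ne τ hτ hne
  have := (h.L_pos τ hτ).ne'
  have : C.N ≠ 0 := by linarith [hA.hN]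
  simp only [CPar.dz]
  field_simp
  ring

/-- Near `τ₀` the coefficient of `g` in the rate of `z g` is positive. -/
lemma _root_.Vale.Agent.P100T.IsCurve.coef_pos (h : IsCurve C τ₀ b S Wf zf) (hA : C.Adm)
    (hb : τ₀ < b) (hz0 : zf τ₀ = 0) :
    ∀ᶠ x in 𝓝 τ₀, 0 < (C.N + 2) / C.N - zf x * (C.E0 (S x) (Wf x) + C.dDen (S x) (Wf x)) := by
  have cS := h.smoothS.continuousOn
  have cW := h.smoothW.continuousOn
  have cz := h.smoothz.continuousOn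
  have hK : ∀ x ∈ Iio b, C.K (S x) ≠ 0 := fun x hx => (K_pos hA (h.S_pos x hx)).ne'
  have hs : ∀ x ∈ Iio b, S x ≠ 0 := fun x hx => (h.S_pos x hx).ne'
  have hqs : ∀ x ∈ Iio b, C.q * S x ≠ 0 := fun x hx => mul_ne_zero hA.hq.ne' (hs x hx)
  have hc : ContinuousOn (fun x => (C.N + 2) / C.N
      - zf x * (C.E0 (S x) (Wf x) + C.dDen (S x) (Wf x))) (Iio b) := by
    unfold dDen gam Av Bv yv E0 l CPar.V
    simp only [K] at hK ⊢
    fun_prop (disch := assumption)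
  refine (hc.continuousAt (Iio_mem_nhds hb)).eventually (eventually_gt_nhds ?_)
  have : (0 : ℝ) < C.N := by linarith [hA.hN]
  simp only [hz0, zero_mul, sub_zero]
  positivity

/-- **Sign of `g` before `τ₀`.** -/
theorem _root_.Vale.Agent.P100T.IsCurve.gI_neg (h : IsCurve C τ₀ b S Wf zf) (hA : C.Adm)
    (hb : τ₀ < b) (hz0 : zf τ₀ = 0) {a : ℝ}
    (hG : ∀ x ∈ Ico a τ₀, 0 ≤ C.gI (S x) (Wf x) (zf x) → 0 < C.Gc (S x) (Wf x))
    {x : ℝ} (hx : x ∈ Ico a τ₀) : C.gI (S x) (Wf x) (zf x) < 0 := by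
  by_contra hge
  push Not at hge
  have hpos : ∀ y ∈ Ioo x τ₀, 0 < C.gI (S y) (Wf y) (zf y) := fun y hy =>
    upcross (f := fun z => C.gI (S z) (Wf z) (zf z)) hy.1
      (fun z hz => h.hasDerivAt_gI hA ((hz.2.trans_lt hy.2).trans hb) (hz.2.trans_lt hy.2).ne)
      (fun z hz h0 => by
        have hz' : z ∈ Ico a τ₀ := ⟨hx.1.trans hz.1, hz.2.trans_lt hy.2⟩
        rw [h0, zero_mul, zero_add]
        exact div_pos (hG z hz' h0.ge) (h.L_pos z (hz'.2.trans hb))) hge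
  obtain ⟨l, hl, hsub⟩ : ∃ l < τ₀, ∀ z ∈ Ioo l τ₀, 0 < (C.N + 2) / C.N
      - zf z * (C.E0 (S z) (Wf z) + C.dDen (S z) (Wf z)) := by
    obtain ⟨l, hl, hs⟩ := (mem_nhdsLT_iff_exists_Ioo_subset).1
      (mem_nhdsWithin_of_mem_nhds (h.coef_pos hA hb hz0))
    exact ⟨l, hl, fun z hz => hs hz⟩
  set y := (max l x + τ₀) / 2 with hy
  have hxy : max l x < y := by have := max_lt hl hx.2; linarith
  have hyτ : y < τ₀ := by have := max_lt hl hx.2; linarith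
  have hy1 := hpos y ⟨(le_max_right _ _).trans_lt hxy, hyτ⟩
  have hψy : 0 < C.psi (S y) (Wf y) (zf y) := by
    rw [psi_eq (h.z_ne y (hyτ.trans hb) hyτ.ne)]
    exact mul_pos (h.z_pos hA hb hz0 hyτ) hy1
  have hev : ∀ᶠ z in 𝓝[<] τ₀, C.psi (S y) (Wf y) (zf y) ≤ C.psi (S z) (Wf z) (zf z) := by
    filter_upwards [Ioo_mem_nhdsLT hyτ] with z hz
    refine mono_of_deriv (f := fun w => C.psi (S w) (Wf w) (zf w))
      (fun w hw => h.hasDerivAt_psi hA ((hw.2.trans_lt hz.2).trans hb) (hw.2.trans_lt hz.2).ne)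
      (fun w hw => ?_) hz.1.le
    have hwτ : w < τ₀ := hw.2.trans hz.2
    have hwx : x < w := ((le_max_right l x).trans_lt hxy).trans hw.1
    have hg := hpos w ⟨hwx, hwτ⟩
    have := hsub w ⟨((le_max_left l x).trans_lt hxy).trans hw.1, hwτ⟩
    have := hG w ⟨hx.1.trans hwx.le, hwτ⟩ hg.le
    have := h.z_pos hA hb hz0 hwτ
    have := h.L_pos w (hwτ.trans hb)
    positivity
  have hlim : Tendsto (fun z => C.psi (S z) (Wf z) (zf z)) (𝓝[<] τ₀) (𝓝 0) := by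
    rw [← h.psi_zero hA hb hz0]
    exact ((h.contOn hA).continuousAt (Iio_mem_nhds hb)).tendsto.mono_left nhdsWithin_le_nhds
  linarith [ge_of_tendsto hlim hev]

/-- **Sign of `g` after `τ₀`.** -/
theorem _root_.Vale.Agent.P100T.IsCurve.gI_pos (h : IsCurve C τ₀ b S Wf zf) (hA : C.Adm)
    (hb : τ₀ < b) (hz0 : zf τ₀ = 0) {a : ℝ} (hab : a < b)
    (hG : ∀ x ∈ Ioc τ₀ a, C.gI (S x) (Wf x) (zf x) ≤ 0 → 0 < C.Gc (S x) (Wf x))
    {x : ℝ} (hx : x ∈ Ioc τ₀ a) : 0 < C.gI (S x) (Wf x) (zf x) := by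
  by_contra hle
  push Not at hle
  have hxb : x < b := hx.2.trans_lt hab
  have hneg : ∀ y ∈ Ioo τ₀ x, C.gI (S y) (Wf y) (zf y) < 0 := fun y hy => by
    by_contra hc
    push Not at hc
    have := upcross (f := fun z => C.gI (S z) (Wf z) (zf z)) hy.2
      (fun z hz => h.hasDerivAt_gI hA (hz.2.trans_lt hxb) (hy.1.trans_le hz.1).ne')
      (fun z hz h0 => by
        rw [h0, zero_mul, zero_add]
        exact div_pos (hG z ⟨hy.1.trans_le hz.1, hz.2.trans hx.2⟩ h0.le)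
          (h.L_pos z (hz.2.trans_lt hxb))) hc
    linarith
  obtain ⟨u, hu, hsub⟩ : ∃ u > τ₀, ∀ z ∈ Ioo τ₀ u, 0 < (C.N + 2) / C.N
      - zf z * (C.E0 (S z) (Wf z) + C.dDen (S z) (Wf z)) := by
    obtain ⟨u, hu, hs⟩ := (mem_nhdsGT_iff_exists_Ioo_subset).1
      (mem_nhdsWithin_of_mem_nhds (h.coef_pos hA hb hz0))
    exact ⟨u, hu, fun z hz => hs hz⟩
  set y := (τ₀ + min u x) / 2 with hy
  have hyx : y < min u x := by have := lt_min hu hx.1; linarith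
  have hτy : τ₀ < y := by have := lt_min hu hx.1; linarith
  have hyb : y < b := (hyx.trans_le (min_le_right _ _)).trans hxb
  have hy1 := hneg y ⟨hτy, hyx.trans_le (min_le_right _ _)⟩
  have hψy : 0 < C.psi (S y) (Wf y) (zf y) := by
    rw [psi_eq (h.z_ne y hyb hτy.ne')]
    exact mul_pos_of_neg_of_neg (h.z_neg hA hb hz0 hτy hyb) hy1
  have hev : ∀ᶠ z in 𝓝[>] τ₀, C.psi (S y) (Wf y) (zf y) ≤ C.psi (S z) (Wf z) (zf z) := by
    filter_upwards [Ioo_mem_nhdsGT hτy] with z hz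
    refine neg_le_neg_iff.1 (mono_of_deriv (f := fun w => -C.psi (S w) (Wf w) (zf w))
      (fun w hw => (h.hasDerivAt_psi hA (hw.2.trans_lt hyb) (hz.1.trans_le hw.1).ne').neg)
      (fun w hw => ?_) hz.2.le)
    have hwτ : τ₀ < w := hz.1.trans hw.1
    have hwx : w < x := hw.2.trans (hyx.trans_le (min_le_right _ _))
    have hg := hneg w ⟨hwτ, hwx⟩
    have h1 := hsub w ⟨hwτ, hw.2.trans (hyx.trans_le (min_le_left _ _))⟩
    have h2 := hG w ⟨hwτ, hwx.le.trans hx.2⟩ hg.le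
    have h3 := h.z_neg hA hb hz0 hwτ (hwx.trans hxb)
    refine neg_nonneg.2 (div_nonpos_of_nonpos_of_nonneg ?_ (h.L_pos w (hwx.trans hxb)).le)
    linarith [mul_neg_of_neg_of_pos hg h1, mul_neg_of_neg_of_pos h3 h2]
  have hlim : Tendsto (fun z => C.psi (S z) (Wf z) (zf z)) (𝓝[>] τ₀) (𝓝 0) := by
    rw [← h.psi_zero hA hb hz0]
    exact ((h.contOn hA).continuousAt (Iio_mem_nhds hb)).tendsto.mono_left nhdsWithin_le_nhds
  linarith [ge_of_tendsto hlim hev]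

/-- Before `τ₀` the slope `dW/dσ` is above `Wd/W`: the rate of `W` along the curve. -/
theorem _root_.Vale.Agent.P100T.IsCurve.Wd_lt (h : IsCurve C τ₀ b S Wf zf) (hA : C.Adm)
    (hb : τ₀ < b) (hz0 : zf τ₀ = 0) {a : ℝ}
    (hG : ∀ x ∈ Ico a τ₀, 0 ≤ C.gI (S x) (Wf x) (zf x) → 0 < C.Gc (S x) (Wf x))
    {x d : ℝ} (hx : x ∈ Ico a τ₀) (hd : HasDerivAt Wf d x) :
    C.Wd (S x) (Wf x) < C.L (S x) * d := by
  have hxb := hx.2.trans hb
  have := h.L_pos x hxb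
  rw [hd.unique (h.hasDerivAt_W hA hxb hx.2.ne), mul_div_cancel₀ _ this.ne']
  have := mul_neg_of_pos_of_neg (show 0 < C.gam (S x) by
    have := hA.hp; have := hA.hq; have := h.S_pos x hxb
    simp only [gam]; positivity) (h.gI_neg hA hb hz0 hG hx)
  linarith

/-- After `τ₀` it is below. -/
theorem _root_.Vale.Agent.P100T.IsCurve.lt_Wd (h : IsCurve C τ₀ b S Wf zf) (hA : C.Adm)
    (hb : τ₀ < b) (hz0 : zf τ₀ = 0) {a : ℝ} (hab : a < b)
    (hG : ∀ x ∈ Ioc τ₀ a, C.gI (S x) (Wf x) (zf x) ≤ 0 → 0 < C.Gc (S x) (Wf x))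
    {x d : ℝ} (hx : x ∈ Ioc τ₀ a) (hd : HasDerivAt Wf d x) :
    C.L (S x) * d < C.Wd (S x) (Wf x) := by
  have hxb := hx.2.trans_lt hab
  have := h.L_pos x hxb
  rw [hd.unique (h.hasDerivAt_W hA hxb hx.1.ne'), mul_div_cancel₀ _ this.ne']
  have := mul_pos (show 0 < C.gam (S x) by
    have := hA.hp; have := hA.hq; have := h.S_pos x hxb
    simp only [gam]; positivity) (h.gI_pos hA hb hz0 hab hG hx)
  linarith

end Vale.Agent.P100T.CPar
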