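import Vale.Agent.P100T.Lower

/-!
The forcing term of `g` is positive: `Gc > 0` for `max(1, σ_eq) ≤ σ ≤ T`, `W > 0` and
`y ≥ (N-2)/(N+2)`, where `T = (p+1)/(q+1)` and `N ≥ 5`.

In `w = W/σ` and `u = 1 - y` one has `E₀ = -B/N` and
`Gc = 2 B X/(N+4) + 2 κ y w br` with `X ≥ 0` and `br > 0`.
-/

noncomputable section

namespace Vale.Agent.P100T.CPar

section algebra

variable (N T q s u w : ℝ)

def gB : ℝ := (N - 2) * (q * s * (1 - u)) - N
def gE : ℝ := (q + 1) * s - (1 + T)
def gX : ℝ := 2 * (N + 1) / N * (q * s) * u * (1 - 2 * ((N + 2) / (N + 4)) * u)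
  + 2 * ((N + 2) / (N + 4)) * u * gB N q s u / N
  - (N + 2) / (N + 4) * (1 - u) * gE T q s
  + (N + 2) / (N + 4) * w * (u + 4 * (1 - u) / N - (1 - u))
def gbr : ℝ := q * s * u * (1 + 2 * ((N + 2) / (N + 4)) * (N - 2) / N - (N + 2) / (N + 4))
  + 8 * (q * s) / (N * (N + 4)) + s - 2 * (q * T) * (1 - u) / (N + 4) + 2 * w / (N + 4)

variable {N T q s u w}

/-- Bounds on `q` from the critical relation. -/
lemma g_qbound (hN : 5 ≤ N) (hT : 1 < T) (hq : (N - 2) * T * (q + 1) = N * (1 + T)) :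
    0 < q ∧ q * (N - 2) ≤ N + 2 := by
  have h0 : 0 < N - 2 := by linarith
  constructor
  · by_contra hc
    push Not at hc
    have := mul_le_mul_of_nonneg_left (by linarith : q + 1 ≤ 1) (mul_nonneg h0.le (by linarith : (0:ℝ) ≤ T))
    linarith
  · refine le_of_mul_le_mul_right ?_ (show 0 < T by linarith)
    nlinarith

lemma g_X0 (hN : 5 ≤ N) (hT : 1 < T) (hq : (N - 2) * T * (q + 1) = N * (1 + T))
    (hs : 0 < s) (hs' : s ≤ T) (he : 0 ≤ gE T q s) :
    0 ≤ gX N T q s (gE T q s / (q * (s + T))) 0 := by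
  obtain ⟨hq0, hqb⟩ := g_qbound hN hT hq
  have hN4 : 0 < N + 4 := by linarith
  have hN0 : (N : ℝ) ≠ 0 := by linarith
  set k := (N + 2) / (N + 4) with hk
  have hk0 : 0 < k := div_pos (by linarith) hN4
  have hD : 0 < q * (s + T) := by positivity
  set u := gE T q s / (q * (s + T)) with hu
  have hu0 : 0 ≤ u := div_nonneg he hD.le
  set e := gE T q s with hed
  have huD : u * (q * (s + T)) = e := by rw [hu]; field_simp
  have h2au : 2 * (q * s) * u ≤ e := by
    have := mul_le_mul_of_nonneg_right (show 2 * (q * s) ≤ q * (s + T) by nlinarith) hu0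
    linarith
  have key : q * (s + T) * gX N T q s u 0
      = e * (q * s * (2 + (2 - 4 * k) / N) - 4 * k * (q * s) * u
        - k * q * (T - s) * (1 - u) - 2 * k) := by
    simp only [gX, gB, ← hk, ← hed]
    rw [← huD]
    field_simp
    ring
  refine nonneg_of_mul_nonneg_right (key ▸ mul_nonneg he ?_) hD
  have ha : q * s = 1 + (T - s) + e := by rw [hed, gE]; ring
  have h1 : (2 - 4 * k) / N = -(2 / (N + 4)) := by rw [hk]; field_simp; ring
  have h6 : k * q * (T - s) ≤ (2 - 2 / (N + 4)) * (T - s) + 2 / (N + 4) := by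
    have e : k * q * (T - s) - (2 - 2 / (N + 4)) * (T - s) - 2 / (N + 4)
        = ((q * (N + 2) - (2 * N + 6)) * (T - s) - 2) / (N + 4) := by rw [hk]; field_simp; ring
    suffices h : (q * (N + 2) - (2 * N + 6)) * (T - s) ≤ 2 by
      have := div_nonpos_of_nonpos_of_nonneg (sub_nonpos.2 h) hN4.le
      linarith
    rcases le_or_gt (q * (N + 2) - (2 * N + 6)) 0 with hc | hc
    · linarith [mul_nonpos_of_nonpos_of_nonneg hc (sub_nonneg.2 hs')]
    have hup : q * (N + 2) - (2 * N + 6) ≤ 1 := by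
      refine le_of_mul_le_mul_right ?_ (show 0 < N - 2 by linarith)
      nlinarith [mul_le_mul_of_nonneg_left hqb (show 0 ≤ N + 2 by linarith)]
    have hq2 : 2 ≤ q := by
      by_contra hlt
      linarith [mul_le_mul_of_nonneg_right (not_le.1 hlt).le (show 0 ≤ N + 2 by linarith)]
    have hT2 : T ≤ 2 := by
      have h1 := mul_le_mul_of_nonneg_left (show 3 ≤ q + 1 by linarith)
        (mul_nonneg (show 0 ≤ N - 2 by linarith) (show 0 ≤ T by linarith))
      nlinarith
    calc (q * (N + 2) - (2 * N + 6)) * (T - s) ≤ 1 * (T - s) :=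
          mul_le_mul_of_nonneg_right hup (sub_nonneg.2 hs')
      _ ≤ 2 := by linarith
  have h3 : 2 - 2 * k - 2 / (N + 4) = 2 / (N + 4) := by rw [hk]; field_simp; ring
  have h4 : 0 < 2 / (N + 4) := by positivity
  have h5 := mul_le_mul_of_nonneg_left h2au hk0.le
  have h7 : 0 ≤ k * q * (T - s) * u :=
    mul_nonneg (mul_nonneg (mul_nonneg hk0.le hq0.le) (sub_nonneg.2 hs')) hu0
  have h8 : 0 ≤ e * (2 / (N + 4)) := mul_nonneg he h4.le
  rw [h1]
  have h9 : q * s * (2 + -(2 / (N + 4))) = (2 - 2 / (N + 4)) + (T - s) * (2 - 2 / (N + 4))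
      + e * (2 - 2 / (N + 4)) := by rw [ha]; ring
  have h10 : e * (2 - 2 / (N + 4)) - 2 * k * e = e * (2 / (N + 4)) := by
    linear_combination e * h3
  linarith

lemma g_X1 (hN : 5 ≤ N) (hT : 1 < T) (hq : (N - 2) * T * (q + 1) = N * (1 + T))
    (hs' : s ≤ T) (he : 0 ≤ gE T q s) :
    0 ≤ gX N T q s (4 / (N + 2)) (q * (s + T) * (4 / (N + 2)) - gE T q s) := by
  obtain ⟨hq0, hqb⟩ := g_qbound hN hT hq
  set e := gE T q s with hed
  have key : gX N T q s (4 / (N + 2)) (q * (s + T) * (4 / (N + 2)) - e) * (N * (N + 2) * (N + 4))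
      = 8 * ((q * s) * (N ^ 2 + 3 * N - 8) - N * (N + 2) - (N ^ 2 + N - 2) * e
        - q * (T - s) * (N ^ 2 - 10 * N + 8) / 2) := by
    simp only [gX, gB, ← hed]
    field_simp
    ring
  refine nonneg_of_mul_nonneg_left ?_ (show 0 < N * (N + 2) * (N + 4) by
    have : 0 < N := by linarith
    positivity)
  rw [key, show q * s = 1 + (T - s) + e by rw [hed, gE]; ring]
  set C := N ^ 2 + 3 * N - 8 - q * (N ^ 2 - 10 * N + 8) / 2 with hC
  have hCd : 2 * N - 6 ≥ 4 := by linarith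
  have hC0 : 6 * (q + 1) ≤ C := by
    rw [hC]
    refine le_of_mul_le_mul_right ?_ (show 0 < N - 2 by linarith)
    obtain ⟨n, hn, rfl⟩ : ∃ n, 0 ≤ n ∧ N = n + 5 := ⟨N - 5, by linarith, by ring⟩
    rcases le_total 0 (12 + ((n + 5) ^ 2 - 10 * (n + 5) + 8)) with h | h
    · linarith [mul_le_mul_of_nonneg_left hqb h, pow_nonneg hn 2, pow_nonneg hn 3]
    · linarith [mul_le_mul_of_nonneg_left h (mul_nonneg hq0.le (show 0 ≤ n + 5 - 2 by linarith)),
        pow_nonneg hn 2, pow_nonneg hn 3]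
  have hsum : (N - 2) * T * (e + (q + 1) * (T - s)) = 2 * T * (1 + T) := by
    rw [hed, gE]; linear_combination T * hq
  have h4 : 4 ≤ (N - 2) * (e + (q + 1) * (T - s)) :=
    le_of_mul_le_mul_right (by nlinarith) (show 0 < T by linarith)
  have h5 := mul_le_mul_of_nonneg_right hC0 (sub_nonneg.2 hs')
  have h6 := mul_le_mul_of_nonneg_right hCd he
  have h7 : 8 - N ≤ 4 * (e + (q + 1) * (T - s)) := by
    rcases le_total 8 N with h | h
    · linarith [mul_nonneg (show (0:ℝ) ≤ q + 1 by linarith) (sub_nonneg.2 hs')]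
    · nlinarith
  linarith [mul_nonneg (show (0:ℝ) ≤ q + 1 by linarith) (sub_nonneg.2 hs'), show (1 + (T - s) + e) * (N ^ 2 + 3 * N - 8) - N * (N + 2) - (N ^ 2 + N - 2) * e
      - q * (T - s) * (N ^ 2 - 10 * N + 8) / 2 = (N - 8) + (2 * N - 6) * e + C * (T - s) by
    rw [hC]; ring]

/-- `X ≥ 0` between the two ends. -/
lemma g_X (hN : 5 ≤ N) (hT : 1 < T) (hq : (N - 2) * T * (q + 1) = N * (1 + T))
    (hs : 0 < s) (hs' : s ≤ T) (hss : (N - 2) * T ≤ N * s) (he : 0 ≤ gE T q s) (hw : 0 < w)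
    (hu1 : u ≤ 4 / (N + 2)) (hwu : w = q * (s + T) * u - gE T q s) :
    0 ≤ gX N T q s u w := by
  obtain ⟨hq0, -⟩ := g_qbound hN hT hq
  have hD : 0 < q * (s + T) := by positivity
  set e := gE T q s with hed
  set u0 := e / (q * (s + T)) with hu0
  set u1 := 4 / (N + 2) with hu1d
  have hu0u : u0 ≤ u := by rw [hu0, div_le_iff₀ hD]; linarith
  have hu01 : u0 < u1 := by
    refine lt_of_lt_of_le ?_ hu1
    rw [hu0, div_lt_iff₀ hD]; linarith
  set k := (N + 2) / (N + 4) with hk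
  have hk0 : 0 < k := div_pos (by linarith) (by linarith)
  have hN0 : (N : ℝ) ≠ 0 := by linarith
  have key : gX N T q s u w * (u1 - u0)
      = gX N T q s u0 0 * (u1 - u) + gX N T q s u1 (q * (s + T) * u1 - e) * (u - u0)
        + k * q / N * (4 * (N + 1) * s - 2 * (N - 2) * T) * ((u - u0) * (u1 - u) * (u1 - u0)) := by
    have e2 : e = q * (s + T) * u0 := by rw [hu0]; field_simp
    simp only [gX, gB, ← hed, ← hk]
    rw [hwu, e2]
    field_simp
    ring
  refine nonneg_of_mul_nonneg_left (key ▸ ?_) (sub_pos.2 hu01)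
  have h0 := g_X0 hN hT hq hs hs' he
  have h1 := g_X1 hN hT hq hs' he
  rw [← hed, ← hu0] at h0
  rw [← hed] at h1
  have c2 : 0 ≤ 4 * (N + 1) * s - 2 * (N - 2) * T := by
    nlinarith
  have : 0 ≤ k * q / N := div_nonneg (mul_nonneg hk0.le hq0.le) (by linarith)
  have := sub_nonneg.2 hu0u
  have := sub_nonneg.2 hu1
  have := sub_pos.2 hu01
  positivity

lemma g_rest (hN : 5 ≤ N) (hq0 : 0 < q) (hqb : q * (N - 2) ≤ N + 2) (hs : 0 < s) (hT : 0 < T)
    (hss : (N - 2) * T ≤ N * s) (hu : 0 ≤ u) :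
    0 < 8 * (q * s) / (N * (N + 4)) + s - 2 * (q * T) * (1 - u) / (N + 4) := by
  have h0 : 0 < N - 2 := by linarith
  have hN0 : 0 < N := by linarith
  have h1 : q * T * (1 - u) ≤ q * T := mul_le_of_le_one_right (by positivity) (by linarith)
  have h2 : q * ((N - 2) * T) ≤ q * (N * s) := mul_le_mul_of_nonneg_left hss hq0.le
  have c0 : 0 ≤ 2 * N ^ 2 - 8 * (N - 2) := by nlinarith
  have c1 : 0 < N * (N + 4) * (N - 2) * (N - 2) - (N + 2) * (2 * N ^ 2 - 8 * (N - 2)) := by
    obtain ⟨n, hn, rfl⟩ : ∃ n, 0 ≤ n ∧ N = n + 5 := ⟨N - 5, by linarith, by ring⟩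
    linarith [pow_nonneg hn 2, pow_nonneg hn 3, pow_nonneg hn 4]
  have h3 : 0 < N * (N + 4) * (N - 2) + q * (8 * (N - 2) - 2 * N ^ 2) := by
    refine pos_of_mul_pos_left ?_ h0.le
    linarith [mul_le_mul_of_nonneg_right hqb c0]
  have h4 := mul_pos hs h3
  have h5 : 0 < (N - 2) * (8 * (q * s) + s * (N * (N + 4)) - 2 * N * (q * T)) := by
    have := mul_le_mul_of_nonneg_left h2 (show 0 ≤ 2 * N by linarith)
    linarith
  have h6 := pos_of_mul_pos_right h5 h0.le
  rw [show 8 * (q * s) / (N * (N + 4)) + s - 2 * (q * T) * (1 - u) / (N + 4)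
      = (8 * (q * s) + s * (N * (N + 4)) - 2 * N * (q * T * (1 - u))) / (N * (N + 4)) by field_simp]
  have := mul_le_mul_of_nonneg_left h1 (show 0 ≤ 2 * N by linarith)
  exact div_pos (by linarith) (by positivity)

lemma g_aff {k γ : ℝ} (hN : 5 ≤ N) (hu : 0 ≤ u) (hu1 : u ≤ 4 / (N + 2)) (hk : k = (N + 2) / (N + 4))
    (hγ : γ = 1 + 2 * k * (N - 2) / N - k) :
    (N - 2) / (N + 4) * ((N + 1) / N * (1 - 2 * k * u) + k * u) ≤ k * (1 - u) * γ := by
  have hN4 : 0 < N + 4 := by linarith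
  have hN0 : 0 < N := by linarith
  -- affine in `u`: check the two ends
  set F := fun x => k * (1 - x) * γ - (N - 2) / (N + 4) * ((N + 1) / N * (1 - 2 * k * x) + k * x)
    with hF
  have e0 : F 0 = ((N + 2) * γ - (N - 2) * (N + 1) / N) / (N + 4) := by
    simp only [hF, hk]; field_simp; ring
  have e1 : F (4 / (N + 2)) = (N - 2) / (N + 4) * (k - 1 / N) := by
    simp only [hF, hγ, hk]; field_simp; ring
  have lin : F u * (4 / (N + 2)) = F 0 * (4 / (N + 2) - u) + F (4 / (N + 2)) * u := by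
    simp only [hF]; ring
  have hk2 : 1 / N ≤ k := by rw [hk, div_le_div_iff₀ hN0 hN4]; nlinarith
  have g0 : 0 ≤ F 0 := by
    rw [e0]
    refine div_nonneg (sub_nonneg.2 ?_) hN4.le
    have h1 : (N - 2) * (N + 1) / N ≤ N := by rw [div_le_iff₀ hN0]; nlinarith
    have h2 : 1 ≤ γ := by
      have hk0 : 0 ≤ k := hk ▸ (div_nonneg (by linarith) hN4.le)
      have : k ≤ 2 * k * (N - 2) / N := by
        rw [le_div_iff₀ hN0]
        linarith [mul_nonneg hk0 (show 0 ≤ N - 4 by linarith)]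
      rw [hγ]; linarith
    nlinarith
  have g1 : 0 ≤ F (4 / (N + 2)) := by
    rw [e1]; exact mul_nonneg (div_nonneg (by linarith) hN4.le) (sub_nonneg.2 hk2)
  have : 0 ≤ F u * (4 / (N + 2)) := by
    rw [lin]; exact add_nonneg (mul_nonneg g0 (sub_nonneg.2 hu1)) (mul_nonneg g1 hu)
  exact sub_nonneg.1 (nonneg_of_mul_nonneg_left this (by positivity))

/-- The algebraic core of `Gc > 0`. -/
lemma g_main (hN : 5 ≤ N) (hT : 1 < T) (hq : (N - 2) * T * (q + 1) = N * (1 + T))
    (hs1 : 1 ≤ s) (hs' : s ≤ T) (hss : (N - 2) * T ≤ N * s) (hw : 0 < w)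
    (hu1 : u ≤ 4 / (N + 2)) (hwu : w = q * (s + T) * u - gE T q s) :
    0 < 2 * gB N q s u * gX N T q s u w / (N + 4)
      + 2 * ((N + 2) / (N + 4)) * (1 - u) * w * gbr N T q s u w := by
  obtain ⟨hq0, hqb⟩ := g_qbound hN hT hq
  have hs : 0 < s := by linarith
  have he : 0 ≤ gE T q s := by
    have h1 := mul_le_mul_of_nonneg_right hss (show (0:ℝ) ≤ q + 1 by linarith)
    rw [hq] at h1
    have := le_of_mul_le_mul_left (show N * (1 + T) ≤ N * (s * (q + 1)) by linarith) (by linarith)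
    rw [gE]; linarith
  have hD : 0 < q * (s + T) := by positivity
  have hu0 : 0 < u := pos_of_mul_pos_right (by linarith : 0 < q * (s + T) * u) hD.le
  have hu2 : (N + 2) * u ≤ 4 := by rwa [le_div_iff₀' (by linarith)] at hu1
  have hy : 0 < 1 - u := by
    have : 4 / (N + 2) < 1 := by rw [div_lt_one (by linarith)]; linarith
    linarith
  set k := (N + 2) / (N + 4) with hk
  have hk0 : 0 < k := div_pos (by linarith) (by linarith)
  have hN4 : 0 < N + 4 := by linarith
  have hN0 : 0 < N := by linarith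
  have hX := g_X hN hT hq hs hs' hss he hw hu1 hwu
  set γ := 1 + 2 * k * (N - 2) / N - k with hγ
  have hγ0 : 0 < γ := by
    have : k < 1 := by rw [hk, div_lt_one hN4]; linarith
    have : 0 ≤ 2 * k * (N - 2) / N := div_nonneg (mul_nonneg (by positivity) (by linarith)) hN0.le
    linarith
  -- `br > σ-part > 0`
  have hrest := g_rest hN hq0 hqb hs (by linarith : 0 < T) hss hu0.le
  have hbr : q * s * u * γ < gbr N T q s u w := by
    have : 0 < 2 * w / (N + 4) := by positivity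
    simp only [gbr, ← hk, ← hγ]; linarith
  have hqsu : 0 < q * s * u := by positivity
  rcases le_or_gt 0 (gB N q s u) with hB | hB
  · have : 0 < gbr N T q s u w := (mul_pos hqsu hγ0).trans hbr
    positivity
  -- `B` is at worst `-(N-2) σ w/(σ+T)`
  have hsT : 0 < s + T := by linarith
  have hB0 : -((N - 2) * s * w) ≤ gB N q s u * (s + T) := by
    have e : gB N q s u * (s + T) = (s - 1) * (N * T - (N - 2) * s) - (N - 2) * s * w := by
      simp only [gB, hwu, gE]
      linear_combination s * hq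
    have : 0 ≤ (s - 1) * (N * T - (N - 2) * s) := by
      refine mul_nonneg (by linarith) ?_
      nlinarith
    linarith
  have hXub : gX N T q s u w ≤ 2 * (N + 1) / N * (q * s) * u * (1 - 2 * k * u)
      + k * (q * (s + T) * u) * u := by
    have h1 : 2 * k * u * gB N q s u / N ≤ 0 :=
      div_nonpos_of_nonpos_of_nonneg (mul_nonpos_of_nonneg_of_nonpos (by positivity) hB.le) hN0.le
    have h2 : 0 ≤ k * (1 - u) * gE T q s := mul_nonneg (by positivity) he
    have h3 : 4 * (1 - u) / N ≤ 1 - u := by rw [div_le_iff₀ hN0]; nlinarith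
    have h4 : k * w * (u + 4 * (1 - u) / N - (1 - u)) ≤ k * w * u :=
      mul_le_mul_of_nonneg_left (by linarith) (by positivity)
    have h5 : k * w * u ≤ k * (q * (s + T) * u) * u := by
      refine mul_le_mul_of_nonneg_right (mul_le_mul_of_nonneg_left ?_ hk0.le) hu0.le
      linarith
    simp only [gX, ← hk]; linarith
  have hku : 2 * k * u ≤ 1 := by
    have : k * ((N + 2) * u) ≤ 4 * k := by
      have := mul_le_mul_of_nonneg_left hu2 hk0.le; linarith
    have e : 2 * k * u * (N + 4) = 2 * ((N + 2) * u) := by rw [hk]; field_simp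
    exact le_of_mul_le_mul_right (by linarith) hN4
  have hsX : s * gX N T q s u w
      ≤ q * s * u * ((N + 1) / N * (1 - 2 * k * u) + k * u) * (s + T) := by
    refine (mul_le_mul_of_nonneg_left hXub hs.le).trans ?_
    have h : 0 ≤ (N + 1) / N * (q * s) * u * (1 - 2 * k * u) * (T - s) :=
      mul_nonneg (mul_nonneg (by positivity) (by linarith)) (sub_nonneg.2 hs')
    exact sub_nonneg.1 (h.trans_eq (by ring))
  have hf : (N - 2) / (N + 4) * ((N + 1) / N * (1 - 2 * k * u) + k * u) ≤ k * (1 - u) * γ :=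
    g_aff hN hu0.le hu1 hk hγ
  refine pos_of_mul_pos_left ?_ hsT.le
  have h1 := mul_le_mul_of_nonneg_right hB0 hX
  have h2 : w * (2 * ((N - 2) / (N + 4)) * (s * gX N T q s u w))
      ≤ w * (2 * ((N - 2) / (N + 4)) * (q * s * u
        * ((N + 1) / N * (1 - 2 * k * u) + k * u) * (s + T))) :=
    mul_le_mul_of_nonneg_left (mul_le_mul_of_nonneg_left hsX
      (mul_nonneg zero_le_two (div_nonneg (by linarith) hN4.le))) hw.le
  have h3 := mul_le_mul_of_nonneg_left hf (show 0 ≤ 2 * w * (q * s * u) * (s + T) by positivity)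
  have h4 := mul_lt_mul_of_pos_left hbr (show 0 < 2 * k * (1 - u) * w * (s + T) by positivity)
  have h5 : 2 * gB N q s u * gX N T q s u w / (N + 4) * (s + T)
      = 2 * (gB N q s u * (s + T) * gX N T q s u w) / (N + 4) := by ring
  have h6 : -(w * (2 * ((N - 2) / (N + 4)) * (s * gX N T q s u w)))
      ≤ 2 * (gB N q s u * (s + T) * gX N T q s u w) / (N + 4) := by
    rw [le_div_iff₀ hN4]
    have : w * (2 * ((N - 2) / (N + 4)) * (s * gX N T q s u w)) * (N + 4)
        = 2 * ((N - 2) * s * w * gX N T q s u w) := by field_simp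
    linarith
  linarith

end algebra

variable {C : CPar} {s W : ℝ}

/-- **`Gc > 0`.** -/
theorem Gc_pos (hA : C.Adm) (hN : 5 ≤ C.N) (hpq : C.q < C.p) (hs1 : 1 ≤ s)
    (hs' : s ≤ (C.p + 1) / (C.q + 1)) (hss : (C.N - 2) * (C.p + 1) ≤ C.N * (C.q + 1) * s)
    (hW : 0 < W) (hy : C.N - 2 ≤ (C.N + 2) * C.yv s W) : 0 < C.Gc s W := by
  have hp := hA.hp
  have hq := hA.hq
  set T := (C.p + 1) / (C.q + 1) with hTd
  have hT : 1 < T := by rw [hTd, lt_div_iff₀ (by linarith)]; linarith
  have hs : 0 < s := by linarith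
  have hp1 : C.p + 1 = T * (C.q + 1) := by rw [hTd]; field_simp
  have hqT : (C.N - 2) * T * (C.q + 1) = C.N * (1 + T) := by
    have hc := hA.crit
    rw [hp1] at hc
    refine mul_left_cancel₀ (show C.q + 1 ≠ 0 by linarith) ?_
    linear_combination hc
  have hssT : (C.N - 2) * T ≤ C.N * s := by
    rw [hTd, mul_div_assoc', div_le_iff₀ (by linarith)]; linarith
  set u := 1 - C.yv s W with hu
  have hu1 : u ≤ 4 / (C.N + 2) := by rw [le_div_iff₀ (by linarith), hu]; linarith
  have hsT : s + T ≠ 0 := by linarith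
  have hK : C.K s = (C.q + 1) * (s + T) := by simp only [K]; rw [hp1]; ring
  have hwu : W / s = C.q * (s + T) * u - gE T C.q s := by
    simp only [hu, yv, l, hK, V, gE, hp1]
    field_simp
    ring
  have key : C.Gc s W = 2 * gB C.N C.q s u * gX C.N T C.q s u (W / s) / (C.N + 4)
      + 2 * ((C.N + 2) / (C.N + 4)) * (1 - u) * (W / s) * gbr C.N T C.q s u (W / s) := by
    have hl : C.l s W = C.q * s * (1 - u) := by
      simp only [hu, yv]; field_simp; ring
    have hy' : C.yv s W = 1 - u := by rw [hu]; ring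
    have hWs : W = s * (W / s) := by field_simp
    have hWd : C.p + 2 - C.l s W - 2 * s
        = W / s + C.q * T * (1 - u) - s := by
      rw [hl, hwu]; simp only [gE]; linear_combination hp1
    have hN : C.N ≠ 0 := by linarith
    have hN4 : C.N + 4 ≠ 0 := by linarith
    simp only [Gc, DDen, DXh, Dy, Den, Xh, Wd, Dl, Av, Bv, Kp0, E0, kb, ← hTd]
    rw [hWd, hl, hy']
    simp only [gX, gB, gbr]
    generalize hw : W / s = w at hwu ⊢
    have hW' : W = s * w := by rw [← hw]; exact hWs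
    subst hW'
    rw [hwu]
    simp only [gE]
    field_simp
    ring
  rw [key]
  exact g_main hN hT hqT hs1 hs' hssT (div_pos hW hs) hu1 hwu

end Vale.Agent.P100T.CPar
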