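import Vale.Agent.P100.Main
import Vale.Agent.P100T.Est

/-!
Nonexistence from a coercive variable certificate and the comparison `τ ≤ τb`.
-/

open MeasureTheory Filter Topology Laplacian
open scoped ContDiff

noncomputable section

namespace Vale.Agent.P100T

open Vale.Agent.P100

variable {n : ℕ}

/-- One squeeze step, at fixed inner and outer radii. -/
lemma squeeze_step {p q τb : ℝ} {Φ : TPar} {u v : Euc n → ℝ} {k : ℕ} {κ C c W0 L : ℝ} (hk : 1 ≤ k)
    (hκ : 0 < κ) (hΦ : Φ.Smooth) (hC : 0 ≤ C) (hc0 : 0 ≤ c) (hL0 : 0 ≤ L)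
    (hest : ∀ (U V η : Euc n → ℝ), ContDiff ℝ 2 U → ContDiff ℝ 2 V → (∀ x, 0 < U x) →
        (∀ x, 0 < V x) → ContDiff ℝ 1 η → (∀ x, 0 ≤ η x ∧ η x ≤ 1) →
        ∀ x, ((∑ i, pd i (pd i U) x = -(V x ^ p)) ∧ (∑ i, pd i (pd i V) x = -(U x ^ q)) ∧
              tauf U V p q x ≤ τb ∨ x ∉ tsupport η) →
          κ * (η x ^ k * (wT U V Φ p q x * (Pf U V p x + Pf V U q x) ^ 2)) ≤
              ItotT U V Φ p q (fun y => η y ^ k) x + C * (wT U V Φ p q x * grad2 η x ^ 2) ∧
          κ * (η x ^ k * (wT U V Φ p q x * (Pf U V p x + Pf V U q x) ^ 2)) ≤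
              ItotT U V Φ p q (fun y => η y ^ k) x + C * grad2 η x ^ (c + 2))
    (hL : ∀ y, |deriv Real.smoothTransition y| ≤ L)
    (hLz : ∀ y, deriv Real.smoothTransition y ≠ 0 → 0 ≤ y ∧ y ≤ 1)
    (hu2 : ContDiffOn ℝ 2 u {x | x ≠ 0}) (hv2 : ContDiffOn ℝ 2 v {x | x ≠ 0})
    (hup : ∀ x, 0 < u x) (hvp : ∀ x, 0 < v x)
    (heq : ∀ x, x ≠ 0 → -(Δ u x) = v x ^ p ∧ -(Δ v x) = u x ^ q)
    (hcmp : ∀ x, x ≠ 0 → tauf u v p q x ≤ τb)
    (hW0 : ∀ x ∈ Metric.closedBall (0 : Euc n) 1, ‖wT u v Φ p q x‖ ≤ W0)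
    (hAi : IntegrableOn (fun x => wT u v Φ p q x * (Pf u v p x + Pf v u q x) ^ 2)
      {x : Euc n | 1 ≤ ‖x‖ ∧ ‖x‖ ≤ 2})
    (hAm : MeasurableSet {x : Euc n | 1 ≤ ‖x‖ ∧ ‖x‖ ≤ 2})
    {ε R : ℝ} (hε : 0 < ε) (hε4 : ε < 1 / 4) (hR : 2 ≤ R) :
    κ * ∫ x in {x : Euc n | 1 ≤ ‖x‖ ∧ ‖x‖ ≤ 2}, wT u v Φ p q x * (Pf u v p x + Pf v u q x) ^ 2
      ≤ C * |W0| * ((16 * L ^ 2 / ε ^ 2) ^ 2)
          * ((2 * ε) ^ n * (volume : Measure (Euc n)).real (Metric.ball 0 1))
        + C * (16 * L ^ 2 / R ^ 2) ^ (c + 2)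
          * ((2 * R) ^ n * (volume : Measure (Euc n)).real (Metric.ball 0 1)) := by
  set d : Euc n → ℝ := fun x => wT u v Φ p q x * (Pf u v p x + Pf v u q x) ^ 2 with hd
  set A : Set (Euc n) := {x | 1 ≤ ‖x‖ ∧ ‖x‖ ≤ 2} with hA
  set V := (volume : Measure (Euc n)).real (Metric.ball 0 1) with hV
  set χ0 : Euc n → ℝ := radial (1 / ε ^ 2) (-1) with hχ0
  set χ1 : Euc n → ℝ := radial (-(1 / R ^ 2)) 2 with hχ1
  set η : Euc n → ℝ := fun x => χ0 x * χ1 x with hη
  have hηs : ContDiff ℝ 1 η := (contDiff_radial _ _).mul (contDiff_radial _ _)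
  have hηb : ∀ x, 0 ≤ η x ∧ η x ≤ 1 := fun x =>
    ⟨mul_nonneg (radial_mem _ _ x).1 (radial_mem _ _ x).1,
      mul_le_one₀ (radial_mem _ _ x).2 (radial_mem _ _ x).1 (radial_mem _ _ x).2⟩
  have hlow : ∀ x : Euc n, ‖x‖ ≤ ε → χ0 x = 0 := fun x hx => by
    apply Real.smoothTransition.zero_of_nonpos
    have : 1 / ε ^ 2 * ‖x‖ ^ 2 ≤ 1 := by
      rw [div_mul_eq_mul_div, div_le_one (by positivity), one_mul]
      exact pow_le_pow_left₀ (norm_nonneg x) hx 2
    linarith
  have hout : ∀ x : Euc n, 2 * ε ≤ ‖x‖ → χ0 x = 1 := fun x hx => by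
    apply Real.smoothTransition.one_of_one_le
    have : 4 ≤ 1 / ε ^ 2 * ‖x‖ ^ 2 := by
      rw [div_mul_eq_mul_div, le_div_iff₀ (by positivity)]; nlinarith
    linarith
  have hin : ∀ x : Euc n, ‖x‖ ≤ R → χ1 x = 1 := fun x hx => by
    apply Real.smoothTransition.one_of_one_le
    have : 1 / R ^ 2 * ‖x‖ ^ 2 ≤ 1 := by
      rw [div_mul_eq_mul_div, div_le_one (by positivity), one_mul]
      exact pow_le_pow_left₀ (norm_nonneg x) hx 2
    linarith
  have hfar : ∀ x : Euc n, 2 * R ≤ ‖x‖ → χ1 x = 0 := fun x hx => by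
    apply Real.smoothTransition.zero_of_nonpos
    have : 4 ≤ 1 / R ^ 2 * ‖x‖ ^ 2 := by
      rw [div_mul_eq_mul_div, le_div_iff₀ (by positivity)]; nlinarith
    linarith
  have hts : tsupport η ⊆ {x | ε ≤ ‖x‖ ∧ ‖x‖ ≤ 2 * R} := by
    refine closure_minimal (fun x hx => ?_) (isClosed_le continuous_const continuous_norm |>.inter
      (isClosed_le continuous_norm continuous_const))
    constructor
    · by_contra h; exact hx (by simp [hη, hlow x (le_of_not_ge h)])
    · by_contra h; exact hx (by simp [hη, hfar x (le_of_not_ge h)])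
  have hηc : HasCompactSupport η := (isCompact_closedBall (0 : Euc n) (2 * R)).of_isClosed_subset
    (isClosed_tsupport η) fun x hx => by simpa using (hts hx).2
  set U := glue ε u with hU
  set Vv := glue ε v with hVv
  have hUs := contDiff_glue hε hu2
  have hVs := contDiff_glue hε hv2
  have hwf : ∀ x : Euc n, ε ≤ ‖x‖ → U x = u x ∧ Vv x = v x := fun x hx =>
    ⟨glue_eq hε u (by linarith), glue_eq hε v (by linarith)⟩
  have hcase : ∀ x, ((∑ i, pd i (pd i U) x = -(Vv x ^ p)) ∧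
      (∑ i, pd i (pd i Vv) x = -(U x ^ q)) ∧ tauf U Vv p q x ≤ τb) ∨ x ∉ tsupport η := by
    intro x
    by_cases hx : x ∈ tsupport η
    · refine Or.inl ?_
      have hxn := (hts hx).1
      have hx0 : x ≠ 0 := by rintro rfl; simp at hxn; linarith
      have hnhds : {y : Euc n | 3 / 4 * ε < ‖y‖} ∈ 𝓝 x :=
        (isOpen_lt continuous_const continuous_norm).mem_nhds (by simp; linarith)
      have hEu : U =ᶠ[𝓝 x] u := mem_of_superset hnhds fun y (hy : 3 / 4 * ε < ‖y‖) =>
        glue_eq hε u hy.le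
      have hEv : Vv =ᶠ[𝓝 x] v := mem_of_superset hnhds fun y (hy : 3 / 4 * ε < ‖y‖) =>
        glue_eq hε v hy.le
      rw [← laplacian_eq_sum hUs.contDiffAt, ← laplacian_eq_sum hVs.contDiffAt,
        (InnerProductSpace.laplacian_congr_nhds hEu).eq_of_nhds,
        (InnerProductSpace.laplacian_congr_nhds hEv).eq_of_nhds, hEu.eq_of_nhds, hEv.eq_of_nhds]
      obtain ⟨e1, e2⟩ := heq x hx0
      have ht := hcmp x hx0
      refine ⟨by linarith, by linarith, ?_⟩
      simpa [tauf, hEu.eq_of_nhds, hEv.eq_of_nhds] using ht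
    · exact Or.inr hx
  have hzero : ∀ x : Euc n, x ∉ tsupport η → grad2 η x = 0 := fun x hx => by
    have : η =ᶠ[𝓝 x] fun _ => (0 : ℝ) := notMem_tsupport_iff_eventuallyEq.1 hx
    simp [grad2, pd, this.fderiv_eq]
  have hg0 : ∀ x : Euc n, ‖x‖ ≤ 1 → grad2 η x = grad2 χ0 x := fun x hx => by
    have : η =ᶠ[𝓝 x] χ0 := by
      filter_upwards [(isOpen_lt continuous_norm continuous_const).mem_nhds
        (show ‖x‖ < R by linarith)] with y hy
      simp [hη, hin y (le_of_lt hy)]
    simp [grad2, pd, this.fderiv_eq]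
  have hg1 : ∀ x : Euc n, 1 < ‖x‖ → grad2 η x = grad2 χ1 x := fun x hx => by
    have : η =ᶠ[𝓝 x] χ1 := by
      filter_upwards [(isOpen_lt continuous_const continuous_norm).mem_nhds
        (show 2 * ε < ‖x‖ by linarith)] with y hy
      simp [hη, hout y (le_of_lt hy)]
    simp [grad2, pd, this.fderiv_eq]
  have hb0 : ∀ x : Euc n, grad2 χ0 x ≤ 16 * L ^ 2 / ε ^ 2 ∧ (2 * ε < ‖x‖ → grad2 χ0 x = 0) := by
    intro x
    rw [hχ0, grad2_radial]
    by_cases h : deriv Real.smoothTransition (1 / ε ^ 2 * ‖x‖ ^ 2 + -1) = 0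
    · simp only [h]; constructor
      · simp; positivity
      · simp
    · have hy := (hLz _ h).2
      have hx2 : ‖x‖ ^ 2 ≤ 4 * ε ^ 2 := by
        have : 1 / ε ^ 2 * ‖x‖ ^ 2 ≤ 4 := by linarith
        rwa [div_mul_eq_mul_div, div_le_iff₀ (by positivity), one_mul] at this
      refine ⟨?_, fun h' => by nlinarith⟩
      calc _ ≤ L ^ 2 * (4 * (1 / ε ^ 2) ^ 2 * (4 * ε ^ 2)) := by
            refine mul_le_mul (sq_le_sq.2 (by rw [abs_of_nonneg hL0]; exact hL _))
              (mul_le_mul_of_nonneg_left hx2 (by positivity)) (by positivity) (by positivity)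
        _ = _ := by field_simp; ring
  have hb1 : ∀ x : Euc n, grad2 χ1 x ≤ 16 * L ^ 2 / R ^ 2 ∧ (2 * R < ‖x‖ → grad2 χ1 x = 0) := by
    intro x
    rw [hχ1, grad2_radial]
    by_cases h : deriv Real.smoothTransition (-(1 / R ^ 2) * ‖x‖ ^ 2 + 2) = 0
    · simp only [h]; constructor
      · simp; positivity
      · simp
    · have hy := (hLz _ h).1
      have hx2 : ‖x‖ ^ 2 ≤ 4 * R ^ 2 := by
        have : 1 / R ^ 2 * ‖x‖ ^ 2 ≤ 4 := by linarith
        rwa [div_mul_eq_mul_div, div_le_iff₀ (by positivity), one_mul] at this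
      refine ⟨?_, fun h' => by nlinarith⟩
      calc _ ≤ L ^ 2 * (4 * (-(1 / R ^ 2)) ^ 2 * (4 * R ^ 2)) := by
            refine mul_le_mul (sq_le_sq.2 (by rw [abs_of_nonneg hL0]; exact hL _))
              (mul_le_mul_of_nonneg_left hx2 (by positivity)) (by positivity) (by positivity)
        _ = _ := by field_simp; ring
  set E0 := C * |W0| * (16 * L ^ 2 / ε ^ 2) ^ 2 with hE0
  set E1 := C * (16 * L ^ 2 / R ^ 2) ^ (c + 2) with hE1
  set B0 := Metric.closedBall (0 : Euc n) (2 * ε)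
  set B1 := Metric.closedBall (0 : Euc n) (2 * R)
  have hE0n : 0 ≤ E0 := by positivity
  have hE1n : 0 ≤ E1 := by positivity
  have hb : ∀ x, κ * A.indicator d x ≤ ItotT U Vv Φ p q (fun y => η y ^ k) x
      + (B0.indicator (fun _ => E0) x + B1.indicator (fun _ => E1) x) := by
    intro x
    have hUp := glue_pos (ε := ε) hup
    have hVp := glue_pos (ε := ε) hvp
    obtain ⟨t1, t2⟩ := hest U Vv η hUs hVs hUp hVp hηs hηb x (hcase x)
    have hl : κ * A.indicator d x ≤
        κ * (η x ^ k * (wT U Vv Φ p q x * (Pf U Vv p x + Pf Vv U q x) ^ 2)) := by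
      refine mul_le_mul_of_nonneg_left ?_ hκ.le
      by_cases hx : x ∈ A
      · have h1 : η x = 1 := by
          simp [hη, hout x (by linarith [hx.1]), hin x (by linarith [hx.2])]
        obtain ⟨eU, eV⟩ := hwf x (by linarith [hx.1])
        simp [Set.indicator_of_mem hx, h1, hd, wT, tauf, Pf, eU, eV]
      · rw [Set.indicator_of_notMem hx]
        have := (hηb x).1
        exact mul_nonneg (pow_nonneg this k) (mul_nonneg (Real.exp_pos _).le (sq_nonneg _))
    have i0 : 0 ≤ B0.indicator (fun _ => E0) x := Set.indicator_nonneg (fun _ _ => hE0n) x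
    have i1 : 0 ≤ B1.indicator (fun _ => E1) x := Set.indicator_nonneg (fun _ _ => hE1n) x
    rcases le_or_gt ‖x‖ 1 with hx | hx
    · have hS : C * (wT U Vv Φ p q x * grad2 η x ^ 2) ≤ B0.indicator (fun _ => E0) x := by
        by_cases hts' : x ∈ tsupport η
        · obtain ⟨eU, eV⟩ := hwf x (hts hts').1
          by_cases hxB : x ∈ B0
          · rw [Set.indicator_of_mem hxB, hE0, mul_assoc]
            refine mul_le_mul_of_nonneg_left (mul_le_mul ?_ (pow_le_pow_left₀ (grad2_nonneg η x)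
              (hg0 x hx ▸ (hb0 x).1) 2) (sq_nonneg _) (abs_nonneg _)) hC
            have := hW0 x (by simpa using hx)
            simp only [wT, tauf, eU, eV] at this ⊢
            exact le_trans (le_of_eq_of_le rfl (le_abs_self _)) (this.trans (le_abs_self W0))
          · have : 2 * ε < ‖x‖ := by simpa [B0] using hxB
            rw [hg0 x hx, (hb0 x).2 this]; simpa using i0
        · rw [hzero x hts']; simpa using i0
      linarith
    · have hS : C * grad2 η x ^ (c + 2) ≤ B1.indicator (fun _ => E1) x := by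
        rw [hg1 x hx]
        by_cases hxB : x ∈ B1
        · rw [Set.indicator_of_mem hxB, hE1]
          exact mul_le_mul_of_nonneg_left
            (Real.rpow_le_rpow (grad2_nonneg _ _) (hb1 x).1 (by linarith)) hC
        · have : 2 * R < ‖x‖ := by simpa [B1] using hxB
          rw [(hb1 x).2 this, Real.zero_rpow (by linarith)]; simpa using i1
      linarith
  obtain ⟨hI, hI0⟩ := integrable_ItotT (Φ := Φ) (p := p) (q := q) hUs hVs (glue_pos hup)
    (glue_pos hvp) hΦ (hηs.pow k) (hηc.comp_left (g := fun t => t ^ k) (zero_pow (by omega)))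
  have hi0 : Integrable (B0.indicator fun _ => E0) :=
    (integrableOn_const (isCompact_closedBall _ _).measure_lt_top.ne).integrable_indicator
      measurableSet_closedBall
  have hi1 : Integrable (B1.indicator fun _ => E1) :=
    (integrableOn_const (isCompact_closedBall _ _).measure_lt_top.ne).integrable_indicator
      measurableSet_closedBall
  have hint := integral_mono ((hAi.integrable_indicator hAm).const_mul κ)
    (hI.add (hi0.add hi1)) hb
  simp only [Pi.add_apply] at hint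
  rw [integral_const_mul, integral_indicator hAm] at hint
  have hsum : ∫ x, (ItotT U Vv Φ p q (fun y => η y ^ k) x
      + (B0.indicator (fun _ => E0) x + B1.indicator (fun _ => E1) x))
      = E0 * ((2 * ε) ^ n * V) + E1 * ((2 * R) ^ n * V) := by
    rw [integral_add hI, integral_add hi0 hi1, hI0, zero_add,
      integral_indicator_const _ measurableSet_closedBall,
      integral_indicator_const _ measurableSet_closedBall,
      volume_real_closedBall _ (by linarith), volume_real_closedBall _ (by linarith)]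
    · simp only [smul_eq_mul, hV]; ring
    · exact hi0.add hi1
  linarith

theorem no_solution_of_coercive (hn : 5 ≤ n) {p q : ℝ} (hp : 0 ≤ p) (hq : 0 ≤ q) {Φ : TPar}
    {τb K e : ℝ} (hΦ : Φ.Smooth) (hK : Φ.Bounded τb K) (he : 0 < e)
    (hcoer : Φ.Coercive p q n τb e) (hs : 0 ≤ Φ.s) (hD : (n : ℝ) - 4 < 2 * Φ.s)
    {u v : Euc n → ℝ} (hsol : IsPositiveEntireSolution p q u v)
    (hcmp : ∀ x, x ≠ 0 → tauf u v p q x ≤ τb) : False := by
  obtain ⟨huc, hvc, hu2, hv2, hup, hvp, heq⟩ := hsol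
  obtain ⟨k, κ, C, hk, hκ, hC, hest⟩ :=
    pointwise_cutoff (n := n) (by omega) hp hq hΦ hK he hcoer hs
  set c := Φ.s with hc
  have hc0 : 0 ≤ c := hs
  have hD' : (n : ℝ) < 2 * c + 4 := by linarith
  obtain ⟨L, hL0, hL, hLz⟩ := exists_deriv_bound
  -- the density whose integral we squeeze
  set d : Euc n → ℝ := fun x => wT u v Φ p q x * (Pf u v p x + Pf v u q x) ^ 2 with hd
  have hτc : Continuous (tauf u v p q) :=
    (continuous_const.mul (hvc.log fun x => (hvp x).ne')).sub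
      (continuous_const.mul (huc.log fun x => (hup x).ne'))
  have hwc : Continuous (wT u v Φ p q) :=
    Real.continuous_exp.comp ((continuous_const.mul ((continuous_const.mul
      (huc.log fun x => (hup x).ne')).sub (hvc.log fun x => (hvp x).ne'))).add
      ((contDiff_one_of_hasDerivAt hΦ.1 hΦ.2.2.2.2.2.1).continuous.comp hτc))
  have hdc : Continuous d := by
    have hP : ∀ (f g : Euc n → ℝ) (r : ℝ), Continuous f → Continuous g → (∀ x, 0 < f x) →
        (∀ x, 0 < g x) → Continuous (Pf f g r) := fun f g r hf hg hf0 hg0 =>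
      (hg.rpow_const fun x => Or.inl (hg0 x).ne').div hf fun x => (hf0 x).ne'
    exact hwc.mul
      (((hP u v p huc hvc hup hvp).add (hP v u q hvc huc hvp hup)).pow 2)
  have hdpos : ∀ x, 0 < d x := fun x => by
    have : 0 < Pf u v p x := div_pos (Real.rpow_pos_of_pos (hvp x) _) (hup x)
    have : 0 < Pf v u q x := div_pos (Real.rpow_pos_of_pos (hup x) _) (hvp x)
    exact mul_pos (Real.exp_pos _) (by positivity)
  set A : Set (Euc n) := {x | 1 ≤ ‖x‖ ∧ ‖x‖ ≤ 2} with hA
  have hAc : IsCompact A := (isCompact_closedBall (0 : Euc n) 2).of_isClosed_subset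
    (isClosed_le continuous_const continuous_norm |>.inter
      (isClosed_le continuous_norm continuous_const))
    fun x hx => by simpa using hx.2
  have hAi : IntegrableOn d A := hdc.continuousOn.integrableOn_compact hAc
  have hIpos : 0 < ∫ x in A, d x := by
    rw [setIntegral_pos_iff_support_of_nonneg_ae (Eventually.of_forall fun x => (hdpos x).le) hAi]
    have hs : Function.support d = Set.univ := Set.eq_univ_of_forall fun x => (hdpos x).ne'
    rw [hs, Set.univ_inter]
    have : NeZero n := ⟨by omega⟩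
    set x0 : Euc n := (3 / 2 : ℝ) • ev 0
    have hx0 : ‖x0‖ = 3 / 2 := by simp [x0, norm_smul, norm_ev]
    refine lt_of_lt_of_le (Metric.measure_ball_pos volume x0 (by norm_num : (0 : ℝ) < 1 / 2))
      (measure_mono fun x hx => ?_)
    simp only [Metric.mem_ball, dist_eq_norm] at hx
    have := norm_le_norm_add_norm_sub x0 x
    have := norm_le_norm_add_norm_sub x x0
    rw [norm_sub_rev x x0] at *
    constructor <;> linarith
  -- bound of the weight near the origin
  obtain ⟨W0, hW0⟩ := (isCompact_closedBall (0 : Euc n) 1).exists_bound_of_continuousOn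
    (hwc.continuousOn (f := wT u v Φ p q))
  set V := (volume : Measure (Euc n)).real (Metric.ball 0 1) with hV
  have main : ∀ ε R : ℝ, 0 < ε → ε < 1 / 4 → 2 ≤ R →
      κ * ∫ x in A, d x ≤ C * |W0| * ((16 * L ^ 2 / ε ^ 2) ^ 2) * ((2 * ε) ^ n * V)
        + C * (16 * L ^ 2 / R ^ 2) ^ (c + 2) * ((2 * R) ^ n * V) := fun ε R hε hε4 hR =>
    squeeze_step hk hκ hΦ hC hc0 hL0 hest hL hLz hu2 hv2 hup hvp heq hcmp hW0 hAi hAc.measurableSet
      hε hε4 hR
  -- the limit
  have l0 : Tendsto (fun ε : ℝ => C * |W0| * ((16 * L ^ 2 / ε ^ 2) ^ 2) * ((2 * ε) ^ n * V))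
      (𝓝[>] 0) (𝓝 0) := by
    have h : Tendsto (fun ε : ℝ => C * |W0| * (16 * L ^ 2) ^ 2 * 2 ^ n * V * ε ^ (n - 4))
        (𝓝[>] 0) (𝓝 0) := by
      have := ((continuous_pow (n - 4)).tendsto (0 : ℝ)).const_mul
        (C * |W0| * (16 * L ^ 2) ^ 2 * 2 ^ n * V)
      rw [zero_pow (by omega), mul_zero] at this
      exact this.mono_left nhdsWithin_le_nhds
    refine h.congr' ?_
    filter_upwards [self_mem_nhdsWithin] with ε (hε : 0 < ε)
    have : ε ^ n = ε ^ (n - 4) * ε ^ 4 := by rw [← pow_add]; congr 1; omega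
    rw [mul_pow 2 ε n, this]
    field_simp
  have l1 : Tendsto (fun R : ℝ => C * (16 * L ^ 2 / R ^ 2) ^ (c + 2) * ((2 * R) ^ n * V))
      atTop (𝓝 0) := by
    have h := (tendsto_rpow_neg_atTop (show (0 : ℝ) < 2 * c + 4 - n by linarith)).const_mul
      (C * (16 * L ^ 2) ^ (c + 2) * 2 ^ n * V)
    rw [mul_zero] at h
    refine h.congr' ?_
    filter_upwards [eventually_gt_atTop (0 : ℝ)] with R hR
    rw [Real.div_rpow (by positivity) (by positivity), ← Real.rpow_natCast R 2,
      ← Real.rpow_mul hR.le, Real.rpow_neg hR.le, mul_pow, ← Real.rpow_natCast R n,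
      Real.rpow_sub hR]
    push_cast
    rw [show 2 * (c + 2) = 2 * c + 4 by ring]
    field_simp
  have hsmall : ∀ b, 0 < b → κ * ∫ x in A, d x ≤ b := by
    intro b hb
    obtain ⟨ε, ⟨h0, hε0⟩, hε⟩ := ((l0.eventually (Iio_mem_nhds (by linarith : (0 : ℝ) < b / 2))).and
      self_mem_nhdsWithin).and (mem_nhdsWithin_of_mem_nhds (Iio_mem_nhds
        (show (0 : ℝ) < 1 / 4 by norm_num))) |>.exists
    obtain ⟨R, h1', hR⟩ := ((l1.eventually (Iio_mem_nhds (by linarith : (0 : ℝ) < b / 2))).and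
      (eventually_ge_atTop (2 : ℝ))).exists
    have := main ε R hε0 hε hR
    linarith
  have := hsmall (κ * (∫ x in A, d x) / 2) (by positivity)
  nlinarith [mul_pos hκ hIpos]

end Vale.Agent.P100T
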