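import Vale.Agent.P100T.OrbitGlue

/-! # The orbit as smooth functions of `τ = log t` beyond `t = (p+1)/(q+1)` -/

open Set Filter Topology MeasureTheory

noncomputable section

namespace Vale.Agent.P100T

/-- The continued orbit on `(-∞, τb)`: `κ = 1/R`, `ε = e/R`, with `κ = 0` at `τ₀`. -/
structure IsOrbitExt (N p q τ₀ τb : ℝ) (S κ ε : ℝ → ℝ) : Prop where
  τ₀_lt : τ₀ < Real.log ((p + 1) / (q + 1))
  lt_τb : Real.log ((p + 1) / (q + 1)) < τb
  smooth : ∀ n : ℕ, ContDiffOn ℝ n S (Iio τb) ∧ ContDiffOn ℝ n κ (Iio τb) ∧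
    ContDiffOn ℝ n ε (Iio τb)
  one_lt : ∀ τ < τb, 1 < S τ
  lt_tb : ∀ τ < τb, S τ < (p + 1) / (q + 1)
  lt_exp : ∀ τ, τ₀ < τ → τ < τb → S τ < Real.exp τ
  ε_pos : ∀ τ < τb, 0 < ε τ
  κ_zero : κ τ₀ = 0
  κ_neg : ∀ τ, τ₀ < τ → τ < τb → κ τ < 0
  κ_pos : ∀ τ < τ₀, 0 < κ τ
  eqS : ∀ τ < τb, κ τ * (((p + 1) - (q + 1) * S τ) * deriv S τ + S τ * (S τ - 1))
    = S τ - Real.exp τ
  derivκ : ∀ τ < τb, HasDerivAt κ
    (-(2 - 2 * (N - 1) * ε τ + (q * S τ + 1) * κ τ) / ((p + 1) - (q + 1) * S τ)) τ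
  deriv_ε : ∀ τ < τb, κ τ * (((p + 1) - (q + 1) * S τ) * deriv ε τ)
    = ε τ * (N * ε τ - 1 - q * S τ * κ τ)
  poho : ∀ τ < τb, N * ε τ * (S τ / (p + 1) + 1 / (q + 1))
    = S τ * κ τ + (Real.exp τ / (p + 1) + 1 / (q + 1))
  below : IsOrbit N p q τ₀ S (fun τ => (κ τ)⁻¹) (fun τ => ε τ / κ τ)

namespace ZSys

variable {N p q b z : ℝ} {P Q : ℝ → ℝ}

lemma negQ (h : ZSys N p q b P Q) (hN : 1 ≤ N) (hz : -b < z) : deriv Q z < 0 := by
  rw [(h.derivQ z hz).deriv]
  refine mul_neg_of_neg_of_pos (by norm_num) ?_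
  have hc : ContinuousOn (fun y => P y ^ q) (Ioi (-b)) :=
    h.contP.rpow_const fun y hy => Or.inl (h.posP y hy).ne'
  refine intervalIntegral.intervalIntegral_pos_of_pos_on
    ((continuousOn_kernel h.b_pos (by linarith) hc hz).intervalIntegrable_of_Icc zero_le_one)
    (fun θ hθ => ?_) one_pos
  have := h.posP (z * θ ^ 2) (mem_dom h.b_pos hz (Ioo_subset_Icc_self hθ))
  have := hθ.1
  positivity

lemma smooth_zS (h : ZSys N p q b P Q) (hN : 1 ≤ N) (n : ℕ) :
    ContDiffOn ℝ n (zS P Q) (Ioi (-b)) :=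
  ((h.smooth_deriv hN n).mul (h.swap.smooth hN n)).div
    ((h.swap.smooth_deriv hN n).mul (h.smooth hN n))
    fun x hx => mul_ne_zero (h.negQ hN hx).ne (h.posP x hx).ne'

lemma smooth_zK (h : ZSys N p q b P Q) (hN : 1 ≤ N) (n : ℕ) :
    ContDiffOn ℝ n (zK P Q q) (Ioi (-b)) :=
  ((contDiffOn_const.mul contDiffOn_id).mul ((h.swap.smooth_deriv hN n).pow 2)).div
    (((h.smooth hN n).rpow_const_of_ne fun x hx => (h.posP x hx).ne').mul (h.swap.smooth hN n))
    fun x hx => mul_ne_zero (Real.rpow_pos_of_pos (h.posP x hx) q).ne' (h.posQ x hx).ne'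

lemma smooth_zE (h : ZSys N p q b P Q) (hN : 1 ≤ N) (n : ℕ) :
    ContDiffOn ℝ n (zE P Q q) (Ioi (-b)) :=
  (contDiffOn_const.mul (h.swap.smooth_deriv hN n)).div
    ((h.smooth hN n).rpow_const_of_ne fun x hx => (h.posP x hx).ne')
    fun x hx => (Real.rpow_pos_of_pos (h.posP x hx) q).ne'

lemma smooth_tau (h : ZSys N p q b P Q) (hN : 1 ≤ N) (n : ℕ) :
    ContDiffOn ℝ n (zTau P Q p q) (Ioi (-b)) :=
  (contDiffOn_const.mul ((h.swap.smooth hN n).log fun x hx => (h.posQ x hx).ne')).sub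
    (contDiffOn_const.mul ((h.smooth hN n).log fun x hx => (h.posP x hx).ne'))

lemma exp_tau (h : ZSys N p q b P Q) (hz : -b < z) :
    Real.exp (zTau P Q p q z) = Q z ^ (p + 1) / P z ^ (q + 1) := by
  have hP := h.posP z hz
  have hQ := h.posQ z hz
  rw [zTau, ← Real.log_rpow hQ, ← Real.log_rpow hP, ← Real.log_div
    (Real.rpow_pos_of_pos hQ _).ne' (Real.rpow_pos_of_pos hP _).ne', Real.exp_log (by positivity)]

/-- The values at `z = 0`. -/
lemma at_zero (h : ZSys N p q b P Q) (hN : 1 ≤ N) :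
    zS P Q 0 = Real.exp (zTau P Q p q 0) ∧ zK P Q q 0 = 0 ∧ zE P Q q 0 = 1 / N := by
  have h0 : -b < 0 := by linarith [h.b_pos]
  have := h.posP 0 h0; have := h.posQ 0 h0
  have : N ≠ 0 := by linarith
  refine ⟨?_, by simp [zK], ?_⟩
  · rw [h.exp_tau h0, zS, h.deriv_zero hN, h.swap.deriv_zero hN,
      Real.rpow_add_one (h.posP 0 h0).ne', Real.rpow_add_one (h.posQ 0 h0).ne']
    field_simp
  · rw [zE, h.swap.deriv_zero hN]
    field_simp

end ZSys

variable {N p q T r : ℝ} {U V U' V' W X W' X' : ℝ → ℝ}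

/-- The variables at `z = r² > 0`. -/
lemma at_sq (h : IsGround N p q U V U' V') (hr : 0 < r) :
    zS (glue U W) (glue V X) (r ^ 2) = oSig U V U' V' r ∧
      zK (glue U W) (glue V X) q (r ^ 2) = (oR U V V' q r)⁻¹ ∧
      zE (glue U W) (glue V X) q (r ^ 2) = oE V V' r / oR U V V' q r ∧
      zTau (glue U W) (glue V X) p q (r ^ 2) = Real.log (oT U V p q r) := by
  have hu := h.posU r hr.le; have hv := h.posV r hr.le
  have := (h.negV r hr).ne
  have := (h.eta_pos hr).ne'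
  refine ⟨?_, ?_, ?_, ?_⟩
  · rw [zS, (hasDerivAt_glue_pos hr (h.derivU r hr)).deriv,
      (hasDerivAt_glue_pos hr (h.derivV r hr)).deriv, glue_sq hr.le, glue_sq hr.le, oSig, oEta]
    field_simp
  · rw [zK, (hasDerivAt_glue_pos hr (h.derivV r hr)).deriv, glue_sq hr.le, glue_sq hr.le, oR, oEta]
    field_simp
    ring
  · rw [zE, (hasDerivAt_glue_pos hr (h.derivV r hr)).deriv, glue_sq hr.le, oE, oR, oEta]
    field_simp
  · rw [zTau, glue_sq hr.le, glue_sq hr.le, oT, Real.log_div (Real.rpow_pos_of_pos hv _).ne'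
      (Real.rpow_pos_of_pos hu _).ne', Real.log_rpow hv, Real.log_rpow hu]

/-- The variables at `z = -r² < 0`. -/
lemma at_neg_sq (g : IsGrow N p q T W X W' X') (hN : 0 < N) (hr : r ∈ Ioo 0 T) :
    zS (glue U W) (glue V X) (-r ^ 2) = oSig W X W' X' r ∧
      zK (glue U W) (glue V X) q (-r ^ 2) = -(oR W X X' q r)⁻¹ ∧
      zE (glue U W) (glue V X) q (-r ^ 2) = -oE X X' r / oR W X X' q r ∧
      zTau (glue U W) (glue V X) p q (-r ^ 2) = Real.log (oT W X p q r) := by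
  have hu := g.u_pos hr; have hv := g.v_pos hr
  have := (g.dV_pos hN hr).ne'
  have := (g.eta_neg hN hr).ne
  have := hr.1.ne'
  refine ⟨?_, ?_, ?_, ?_⟩
  · rw [zS, (hasDerivAt_glue_neg hr.1 (g.derivU r hr)).deriv,
      (hasDerivAt_glue_neg hr.1 (g.derivV r hr)).deriv, glue_neg_sq hr.1, glue_neg_sq hr.1, oSig,
      oEta]
    field_simp
  · rw [zK, (hasDerivAt_glue_neg hr.1 (g.derivV r hr)).deriv, glue_neg_sq hr.1, glue_neg_sq hr.1,
      oR, oEta]
    field_simp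
    ring
  · rw [zE, (hasDerivAt_glue_neg hr.1 (g.derivV r hr)).deriv, glue_neg_sq hr.1, oE, oR, oEta]
    field_simp
  · rw [zTau, glue_neg_sq hr.1, glue_neg_sq hr.1, oT,
      Real.log_div (Real.rpow_pos_of_pos hv _).ne' (Real.rpow_pos_of_pos hu _).ne',
      Real.log_rpow hv, Real.log_rpow hu]

/-- A decreasing smooth change of variable has a smooth inverse. -/
lemma exists_inverse {f : ℝ → ℝ} {b τb : ℝ} (hf : ∀ n : ℕ, ContDiffOn ℝ n f (Ioi (-b)))
    (hneg : ∀ z, -b < z → deriv f z < 0) (hsurj : ∀ τ < τb, ∃ z, -b < z ∧ f z = τ) :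
    ∃ ζ : ℝ → ℝ, (∀ τ < τb, -b < ζ τ ∧ f (ζ τ) = τ ∧ HasDerivAt ζ (deriv f (ζ τ))⁻¹ τ) ∧
      (∀ z, -b < z → ∀ τ < τb, f z = τ → ζ τ = z) ∧
      ∀ n : ℕ, ContDiffOn ℝ n ζ (Iio τb) := by
  have hd : ∀ z, -b < z → HasDerivAt f (deriv f z) z := fun z hz =>
    (((hf 1).differentiableOn (by norm_num)).differentiableAt (Ioi_mem_nhds hz)).hasDerivAt
  have hanti : StrictAntiOn f (Ioi (-b)) :=
    strictAntiOn_of_deriv_neg (convex_Ioi _) (hf 0).continuousOn fun x hx =>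
      hneg x (by rwa [interior_Ioi] at hx)
  choose! ζ hζ hζf using hsurj
  have hcont : ∀ τ < τb, ContinuousAt ζ τ := by
    intro τ hτ
    refine Metric.continuousAt_iff.2 fun e he => ?_
    have hx := hζ τ hτ
    set d := min (e / 2) ((ζ τ + b) / 2)
    have hd0 : 0 < d := lt_min (half_pos he) (by linarith)
    have hd1 : d ≤ e / 2 := min_le_left _ _
    have hd2 : d ≤ (ζ τ + b) / 2 := min_le_right _ _
    have i1 : f (ζ τ + d) < τ :=
      (hanti hx (show -b < ζ τ + d by linarith) (lt_add_of_pos_right _ hd0)).trans_eq (hζf τ hτ)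
    have i2 : τ < f (ζ τ - d) :=
      (hζf τ hτ).symm.trans_lt (hanti (show -b < ζ τ - d by linarith) hx (sub_lt_self _ hd0))
    obtain ⟨u, hu, hball⟩ := Metric.mem_nhds_iff.1 (Ioo_mem_nhds i1 (lt_min i2 hτ))
    refine ⟨u, hu, fun y hy => ?_⟩
    obtain ⟨y1, y2⟩ := hball hy
    have hyτ : y < τb := y2.trans_le (min_le_right _ _)
    have hyf := hζf y hyτ
    rw [Real.dist_eq, abs_lt]
    constructor
    · by_contra hc
      push Not at hc
      have := hanti.antitoneOn (hζ y hyτ) (show -b < ζ τ - d by linarith) (by linarith)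
      linarith [min_le_left (f (ζ τ - d)) τb]
    · by_contra hc
      push Not at hc
      have := hanti.antitoneOn (show -b < ζ τ + d by linarith) (hζ y hyτ) (by linarith)
      linarith
  have hderiv : ∀ τ < τb, HasDerivAt ζ (deriv f (ζ τ))⁻¹ τ := fun τ hτ =>
    (hd _ (hζ τ hτ)).of_local_left_inverse (hcont τ hτ) (hneg _ (hζ τ hτ)).ne
      (eventually_of_mem (Iio_mem_nhds hτ) fun y hy => hζf y hy)
  refine ⟨ζ, fun τ hτ => ⟨hζ τ hτ, hζf τ hτ, hderiv τ hτ⟩,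
    fun z hz τ hτ he => hanti.injOn (hζ τ hτ) hz ((hζf τ hτ).trans he.symm), fun n => ?_⟩
  induction n with
  | zero => exact contDiffOn_zero.2 fun τ hτ => (hcont τ hτ).continuousWithinAt
  | succ n ih =>
    rw [Nat.cast_succ, contDiffOn_succ_iff_deriv_of_isOpen isOpen_Iio]
    refine ⟨fun τ hτ => (hderiv τ hτ).differentiableAt.differentiableWithinAt,
      fun h => absurd h (WithTop.natCast_ne_top n), ?_⟩
    have h1 : ContDiffOn ℝ n (fun z => (deriv f z)⁻¹) (Ioi (-b)) := by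
      have := hf (n + 1)
      rw [Nat.cast_succ, contDiffOn_succ_iff_deriv_of_isOpen isOpen_Ioi] at this
      exact this.2.2.inv fun z hz => (hneg z hz).ne
    exact (h1.comp ih fun τ hτ => hζ τ hτ).congr fun τ hτ => (hderiv τ hτ).deriv

/-- `σ > 1` at `z = 0`. -/
lemma ZSys.one_lt_zero {b : ℝ} {P Q : ℝ → ℝ} (h : ZSys N p q b P Q) (hN : 1 ≤ N)
    (hb : ∀ z, -b < z → z ≠ 0 → 1 < zS P Q z) (hL : 0 < (p + 1) - (q + 1) * zS P Q 0) :
    1 < zS P Q 0 := by
  have h0 : -b < 0 := by linarith [h.b_pos]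
  have hc : ContinuousAt (zS P Q) 0 :=
    (h.smooth_zS hN 0).continuousOn.continuousAt (Ioi_mem_nhds h0)
  have hge : 1 ≤ zS P Q 0 := ge_of_tendsto (hc.tendsto.mono_left (nhdsWithin_le_nhds (s := {0}ᶜ)))
    (by filter_upwards [nhdsWithin_le_nhds (Ioi_mem_nhds h0), self_mem_nhdsWithin] with z hz hz0
        exact (hb z hz hz0).le)
  refine hge.lt_of_ne fun e => ?_
  obtain ⟨eS, eK, eE⟩ := h.at_zero hN
  have hmin : IsLocalMin (zS P Q) 0 := by
    filter_upwards [Ioi_mem_nhds h0] with z hz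
    rcases eq_or_ne z 0 with rfl | hz0
    · exact le_rfl
    · rw [← e]; exact (hb z hz hz0).le
  set F := fun z => deriv (zS P Q) z * Q z / deriv Q z + zS P Q z * (zS P Q z - 1)
  have hF0 : F 0 = 0 := by simp only [F, hmin.deriv_eq_zero, ← e]; simp
  have hS2 : ContDiffOn ℝ (1 : ℕ) (deriv (zS P Q)) (Ioi (-b)) := by
    have := h.smooth_zS hN (1 + 1)
    rw [Nat.cast_succ, contDiffOn_succ_iff_deriv_of_isOpen isOpen_Ioi] at this
    exact this.2.2
  have hFd : DifferentiableAt ℝ F 0 :=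
    (((hS2.mul (h.swap.smooth hN 1)).div (h.swap.smooth_deriv hN 1)
      (fun x hx => (h.negQ hN hx).ne)).add
      ((h.smooth_zS hN 1).mul ((h.smooth_zS hN 1).sub contDiffOn_const))).differentiableOn
      (by norm_num) |>.differentiableAt (Ioi_mem_nhds h0)
  have hSd : HasDerivAt (zS P Q) 0 0 := by
    have := (((h.smooth_zS hN 1).differentiableOn (by norm_num)).differentiableAt
      (Ioi_mem_nhds h0)).hasDerivAt
    rwa [hmin.deriv_eq_zero] at this
  have hQ' := (h.negQ hN h0).ne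
  have d1 := (h.hasDerivAt_zK hN h0 hQ').mul hFd.hasDerivAt
  have d2 := hSd.sub (h.hasDerivAt_tau h0 hQ').exp
  have e3 := (d1.congr_of_eventuallyEq (by
    filter_upwards [Ioi_mem_nhds h0] with z hz
    exact (h.deriv_zS hN hz (h.negQ hN hz).ne).symm)).unique d2
  rw [hF0, eK, zero_mul, mul_zero, add_zero, zero_sub, ← eS] at e3
  have hne : deriv Q 0 / Q 0 ≠ 0 := div_ne_zero hQ' (h.posQ 0 h0).ne'
  rcases mul_eq_zero.1 (neg_eq_zero.1 e3.symm) with h' | h'
  · linarith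
  · exact mul_ne_zero hne hL.ne' h'

/-- The facts along the glued solution. -/
lemma glue_facts (hN : 2 < N) (hp : 0 < p) (hq : 0 < q) (hpq : q < p)
    (hcrit : N / (p + 1) + N / (q + 1) = N - 2) (h : IsGround N p q U V U' V')
    (g : IsGrow N p q T W X W' X') (h1 : U 0 = W 0) (h2 : V 0 = X 0)
    (hs : ∀ x ∈ Ioo 0 T, W' x = x * radAvg N (fun ρ => X ρ ^ p) x ∧
      X' x = x * radAvg N (fun ρ => W ρ ^ q) x)
    (hb : ∀ x ∈ Ioo 0 T, 1 < oSig W X W' X' x ∧ oSig W X W' X' x < oT W X p q x ∧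
      oSig W X W' X' x < (p + 1) / (q + 1) ∧ oT W X p q 0 < oT W X p q x) :
    ∀ z, -T ^ 2 < z →
      1 < zS (glue U W) (glue V X) z ∧ zS (glue U W) (glue V X) z < (p + 1) / (q + 1) ∧
      0 < zE (glue U W) (glue V X) q z ∧
      (z < 0 → zS (glue U W) (glue V X) z < Real.exp (zTau (glue U W) (glue V X) p q z) ∧
        zK (glue U W) (glue V X) q z < 0) ∧
      N * zE (glue U W) (glue V X) q z
          * (zS (glue U W) (glue V X) z / (p + 1) + 1 / (q + 1))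
        = zS (glue U W) (glue V X) z * zK (glue U W) (glue V X) q z
          + (Real.exp (zTau (glue U W) (glue V X) p q z) / (p + 1) + 1 / (q + 1)) := by
  have hN1 : 1 ≤ N := by linarith
  have hN0 : 0 < N := by linarith
  have hsys := zSys_glue hN hp hq h g h1 h2 hs
  have hne : ∀ z, -T ^ 2 < z → z ≠ 0 → (∃ r, 0 < r ∧ z = r ^ 2) ∨ ∃ r ∈ Ioo 0 T, z = -r ^ 2 := by
    intro z hz hz0
    rcases lt_or_gt_of_ne hz0 with hn | hp'
    · refine Or.inr ⟨Real.sqrt (-z), ⟨Real.sqrt_pos.2 (by linarith), ?_⟩,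
        by rw [Real.sq_sqrt (by linarith), neg_neg]⟩
      rw [← Real.sqrt_sq g.T_pos.le]
      exact Real.sqrt_lt_sqrt (by linarith) (by linarith)
    · exact Or.inl ⟨Real.sqrt z, Real.sqrt_pos.2 hp', (Real.sq_sqrt hp'.le).symm⟩
  have hoff : ∀ z, -T ^ 2 < z → z ≠ 0 →
      1 < zS (glue U W) (glue V X) z ∧ zS (glue U W) (glue V X) z < (p + 1) / (q + 1) := by
    intro z hz hz0
    rcases hne z hz hz0 with ⟨r, hr, rfl⟩ | ⟨r, hr, rfl⟩
    · rw [(at_sq (W := W) (X := X) h hr).1]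
      exact ⟨h.one_lt_sig hN hp hq hpq hr, h.sig_lt hN hp hq hpq hcrit hr⟩
    · rw [(at_neg_sq (U := U) (V := V) g hN0 hr).1]
      exact ⟨(hb r hr).1, (hb r hr).2.2.1⟩
  obtain ⟨eS, eK, eE⟩ := hsys.at_zero hN1
  have hS0 : zS (glue U W) (glue V X) 0 < (p + 1) / (q + 1) := by
    rw [eS, hsys.exp_tau (by linarith [pow_pos g.T_pos 2])]
    have := h.T0_lt hN hp hq hpq hcrit
    rwa [oT, ← glue_sq (U := V) (W := X) (le_refl (0:ℝ)),
      ← glue_sq (U := U) (W := W) (le_refl (0:ℝ)), zero_pow two_ne_zero] at this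
  intro z hz
  rcases eq_or_ne z 0 with rfl | hz0
  · refine ⟨hsys.one_lt_zero hN1 (fun y hy hy0 => (hoff y hy hy0).1) ?_, hS0, ?_,
      fun h => absurd h (lt_irrefl 0), ?_⟩
    · have : (q + 1) * ((p + 1) / (q + 1)) = p + 1 := by field_simp
      nlinarith
    · rw [eE]; positivity
    · rw [eE, eK, ← eS]; field_simp; ring
  refine ⟨(hoff z hz hz0).1, (hoff z hz hz0).2, ?_⟩
  rcases hne z hz hz0 with ⟨r, hr, rfl⟩ | ⟨r, hr, rfl⟩
  · obtain ⟨e1, e2, e3, e4⟩ := at_sq (W := W) (X := X) h hr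
    have hR := h.R_pos hr
    have hT := h.T_pos (p := p) (q := q) hr.le
    rw [e1, e2, e3, e4, Real.exp_log hT]
    refine ⟨div_pos (one_div_pos.2 (h.eta_pos hr)) hR,
      fun h' => absurd h' (not_lt.2 (sq_nonneg r)), ?_⟩
    have he := h.oE_eq hp hq hr
    field_simp at he ⊢
    linear_combination he
  · obtain ⟨e1, e2, e3, e4⟩ := at_neg_sq (U := U) (V := V) g hN0 hr
    have hR := g.R_pos hN0 hr
    have hT := g.T_pos' (Ioo_subset_Ico_self hr)
    rw [e1, e2, e3, e4, Real.exp_log hT]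
    refine ⟨div_pos (neg_pos.2 (div_neg_of_pos_of_neg one_pos (g.eta_neg hN0 hr))) hR,
      fun _ => ⟨(hb r hr).2.1, neg_neg_of_pos (inv_pos.2 hR)⟩, ?_⟩
    have he := g.oE_eq hN0 hp hq hr
    field_simp at he ⊢
    linear_combination -he

/-- The orbit exists, as smooth functions, on a neighbourhood of `(-∞, log ((p+1)/(q+1))]`. -/
theorem exists_orbit_ext (hN : 2 < N) (hp : 0 < p) (hq : 0 < q) (hpq : q < p)
    (hcrit : N / (p + 1) + N / (q + 1) = N - 2) :
    ∃ τ₀ τb, ∃ S κ ε : ℝ → ℝ, IsOrbitExt N p q τ₀ τb S κ ε := by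
  have hN1 : 1 ≤ N := by linarith
  have hN0 : 0 < N := by linarith
  obtain ⟨U, V, U', V', h⟩ := exists_isGround hN hp hq hcrit
  set c := (p + 1) / (q + 1) with hc
  have ht1 : 1 ≤ oT U V p q 0 :=
    ge_of_tendsto (h.sig_tendsto hN0 hp hq).1
      (eventually_of_mem self_mem_nhdsWithin fun x hx => (h.one_lt_sig hN hp hq hpq hx).le)
  obtain ⟨T0, W, X, W', X', g0, hW, hX, hs0, hb0, rb, hrb, hrbt⟩ :=
    exists_grow hN hp hq hpq hcrit (h.posU 0 le_rfl) (h.posV 0 le_rfl) ht1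
      (h.T0_lt hN hp hq hpq hcrit)
  set T := (rb + T0) / 2 with hT
  have hTI : T ∈ Ioo 0 T0 := ⟨by linarith [hrb.1, hrb.2], by linarith [hrb.2]⟩
  have g := g0.mono hTI.1 hTI.2.le
  have hs := fun x (hx : x ∈ Ioo 0 T) => hs0 x ⟨hx.1, hx.2.trans hTI.2⟩
  have hb := fun x (hx : x ∈ Ioo 0 T) => hb0 x ⟨hx.1, hx.2.trans hTI.2⟩
  set P := glue U W
  set Q := glue V X
  have hsys : ZSys N p q (T ^ 2) P Q := zSys_glue hN hp hq h g hW.symm hX.symm hs
  have facts := glue_facts hN hp hq hpq hcrit h g hW.symm hX.symm hs hb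
  have hL : ∀ z, -T ^ 2 < z → 0 < (p + 1) - (q + 1) * zS P Q z := fun z hz => by
    have := (facts z hz).2.1
    rw [lt_div_iff₀ (by linarith)] at this
    linarith
  have hneg : ∀ z, -T ^ 2 < z → deriv (zTau P Q p q) z < 0 := fun z hz => by
    rw [(hsys.hasDerivAt_tau hz (hsys.negQ hN1 hz).ne).deriv]
    exact mul_neg_of_neg_of_pos (div_neg_of_neg_of_pos (hsys.negQ hN1 hz) (hsys.posQ z hz))
      (hL z hz)
  set τb := Real.log (oT W X p q T) with hτb
  have hrbT : rb < T := by linarith [hrb.2]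
  have hTrb : oT W X p q rb < oT W X p q T :=
    g0.T_mono hN0 hq hrb.1 hrbT hTI.2 fun x hx =>
      (hb0 x ⟨hrb.1.trans hx.1, hx.2.trans hTI.2⟩).2.2.1
  have hlb : Real.log c < τb := by
    rw [hτb, hc, ← hrbt]; exact Real.log_lt_log (g0.T_pos' (Ioo_subset_Ico_self hrb)) hTrb
  have hsurj : ∀ τ < τb, ∃ z, -T ^ 2 < z ∧ zTau P Q p q z = τ := by
    intro τ hτ
    obtain ⟨B, hB, hBt⟩ := h.exists_T_lt hN hp hq hpq hcrit (Real.exp_pos τ)
    have hTc : ContinuousAt (fun x => Real.log (oT W X p q x)) T :=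
      ((g0.hasDerivAt_T hN0 hTI).continuousAt).log (g0.T_pos' (Ioo_subset_Ico_self hTI)).ne'
    obtain ⟨a, ha, haI⟩ := (((hTc.tendsto.mono_left (nhdsWithin_le_nhds (s := Iio T))).eventually
      (eventually_gt_nhds hτ)).and (Ioo_mem_nhdsLT hTI.1)).exists
    have ea := (at_neg_sq (U := U) (V := V) g hN0 haI).2.2.2
    have eb := (at_sq (W := W) (X := X) h hB).2.2.2
    have hcz : -T ^ 2 < -a ^ 2 := by nlinarith [haI.1, haI.2]
    obtain ⟨z, hz, hzf⟩ := intermediate_value_Icc'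
      (show -a ^ 2 ≤ B ^ 2 by nlinarith)
      ((hsys.smooth_tau hN1 0).continuousOn.mono fun y hy => hcz.trans_le hy.1)
      (show τ ∈ Icc (zTau P Q p q (B ^ 2)) (zTau P Q p q (-a ^ 2)) from
        ⟨by rw [eb]; exact ((Real.log_lt_iff_lt_exp (h.T_pos hB.le)).2 hBt).le,
          by rw [ea]; exact ha.le⟩)
    exact ⟨z, hcz.trans_le hz.1, hzf⟩
  obtain ⟨ζ, hζ, hinj, hsm⟩ := exists_inverse (hsys.smooth_tau hN1) hneg hsurj
  set τ₀ := zTau P Q p q 0 with hτ₀
  have hT2 : -T ^ 2 < 0 := by linarith [pow_pos hTI.1 2]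
  have hexp0 : Real.exp τ₀ = oT U V p q 0 := by
    rw [hτ₀, hsys.exp_tau hT2, oT]; simp [P, Q, glue]
  have hτ₀lt : τ₀ < Real.log c := by
    rw [Real.lt_log_iff_exp_lt (by positivity), hexp0]
    exact h.T0_lt hN hp hq hpq hcrit
  have hanti : StrictAntiOn (zTau P Q p q) (Ioi (-T ^ 2)) :=
    strictAntiOn_of_deriv_neg (convex_Ioi _) (hsys.smooth_tau hN1 0).continuousOn fun x hx =>
      hneg x (by rwa [interior_Ioi] at hx)
  have hsgn : ∀ τ < τb, (τ₀ < τ → ζ τ < 0) ∧ (τ < τ₀ → 0 < ζ τ) := fun τ hτ => by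
    obtain ⟨z1, z2, -⟩ := hζ τ hτ
    constructor <;> intro hlt
    · by_contra hge
      push Not at hge
      have := hanti.antitoneOn hT2 z1 hge
      linarith
    · by_contra hge
      push Not at hge
      have := hanti.antitoneOn z1 hT2 hge
      linarith
  have hζ0 : ζ τ₀ = 0 := hinj 0 hT2 τ₀ (hτ₀lt.trans hlb) rfl
  set S := fun τ => zS P Q (ζ τ) with hS
  set κ := fun τ => zK P Q q (ζ τ) with hκ
  set ε := fun τ => zE P Q q (ζ τ) with hε
  obtain ⟨eS0, eK0, eE0⟩ := hsys.at_zero hN1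
  have hdz : ∀ τ < τb, HasDerivAt ζ
      ((deriv Q (ζ τ) / Q (ζ τ) * ((p + 1) - (q + 1) * zS P Q (ζ τ)))⁻¹) τ := fun τ hτ => by
    obtain ⟨z1, -, z3⟩ := hζ τ hτ
    rwa [(hsys.hasDerivAt_tau z1 (hsys.negQ hN1 z1).ne).deriv] at z3
  have hsmooth : ∀ {F : ℝ → ℝ}, (∀ n : ℕ, ContDiffOn ℝ n F (Ioi (-T ^ 2))) → ∀ n : ℕ,
      ContDiffOn ℝ n (fun τ => F (ζ τ)) (Iio τb) := fun hF n =>
    (hF n).comp (hsm n) fun τ hτ => (hζ τ hτ).1
  have hdS : ∀ τ < τb, deriv S τ = deriv (zS P Q) (ζ τ)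
      * (deriv Q (ζ τ) / Q (ζ τ) * ((p + 1) - (q + 1) * zS P Q (ζ τ)))⁻¹ := fun τ hτ =>
    (((((hsys.smooth_zS hN1 1).differentiableOn (by norm_num)).differentiableAt
      (Ioi_mem_nhds (hζ τ hτ).1)).hasDerivAt).comp τ (hdz τ hτ)).deriv
  have hpohoS : ∀ τ < τb, N * ε τ * (S τ / (p + 1) + 1 / (q + 1))
      = S τ * κ τ + (Real.exp τ / (p + 1) + 1 / (q + 1)) := fun τ hτ => by
    have := (facts _ (hζ τ hτ).1).2.2.2.2
    rwa [(hζ τ hτ).2.1] at this
  have hκ' : ∀ τ < τb, HasDerivAt κ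
      (-(2 - 2 * (N - 1) * ε τ + (q * S τ + 1) * κ τ) / ((p + 1) - (q + 1) * S τ)) τ := by
    intro τ hτ
    have z1 := (hζ τ hτ).1
    refine ((hsys.hasDerivAt_zK hN1 z1 (hsys.negQ hN1 z1).ne).comp τ (hdz τ hτ)).congr_deriv ?_
    have := (hsys.negQ hN1 z1).ne
    have := (hsys.posQ _ z1).ne'
    have := (hL _ z1).ne'
    simp only [hS, hκ, hε]
    field_simp
    ring
  have heqS : ∀ τ < τb, κ τ * (((p + 1) - (q + 1) * S τ) * deriv S τ + S τ * (S τ - 1))
      = S τ - Real.exp τ := fun τ hτ => by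
    have z1 := (hζ τ hτ).1
    have e := hsys.deriv_zS hN1 z1 (hsys.negQ hN1 z1).ne
    rw [(hζ τ hτ).2.1] at e
    rw [hdS τ hτ]
    simp only [hS, hκ]
    rw [← e]
    have := (hsys.negQ hN1 z1).ne
    have := (hsys.posQ _ z1).ne'
    have := (hL _ z1).ne'
    field_simp
  have hε' : ∀ τ < τb, ∃ E, HasDerivAt ε E τ ∧
      κ τ * (((p + 1) - (q + 1) * S τ) * E) = ε τ * (N * ε τ - 1 - q * S τ * κ τ) := by
    intro τ hτ
    have z1 := (hζ τ hτ).1
    obtain ⟨E', hE', hEeq⟩ := hsys.deriv_zE hN1 z1 (hsys.negQ hN1 z1).ne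
    refine ⟨_, hE'.comp τ (hdz τ hτ), ?_⟩
    have := (hsys.negQ hN1 z1).ne
    have := (hsys.posQ _ z1).ne'
    have := (hL _ z1).ne'
    simp only [hS, hκ, hε]
    generalize (p + 1) - (q + 1) * zS P Q (ζ τ) = Lv at *
    field_simp at hEeq ⊢
    linear_combination hEeq
  have hκpos : ∀ τ < τ₀, 0 < κ τ := fun τ hτ => by
    have hζp := (hsgn τ (hτ.trans (hτ₀lt.trans hlb))).2 hτ
    have e : ζ τ = Real.sqrt (ζ τ) ^ 2 := (Real.sq_sqrt hζp.le).symm
    simp only [hκ]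
    rw [e, (at_sq (W := W) (X := X) h (Real.sqrt_pos.2 hζp)).2.1]
    exact inv_pos.2 (h.R_pos (Real.sqrt_pos.2 hζp))
  have hτ₀b := hτ₀lt.trans hlb
  have cts : ∀ {F : ℝ → ℝ}, (∀ n : ℕ, ContDiffOn ℝ n F (Ioi (-T ^ 2))) →
      Tendsto (fun τ => F (ζ τ)) (𝓝[<] τ₀) (𝓝 (F 0)) := fun {F} hF => by
    have := ((hsmooth hF 0).continuousOn.continuousAt (Iio_mem_nhds hτ₀b)).tendsto
    rw [show F (ζ τ₀) = F 0 by rw [hζ0]] at this
    exact this.mono_left nhdsWithin_le_nhds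
  have hbelow : IsOrbit N p q τ₀ S (fun τ => (κ τ)⁻¹) (fun τ => ε τ / κ τ) := by
    have facts' : ∀ τ < τ₀, ∃ r, 0 < r ∧ S τ = oSig U V U' V' r ∧ (κ τ)⁻¹ = oR U V V' q r ∧
        ε τ / κ τ = oE V V' r ∧ Real.exp τ = oT U V p q r := fun τ hτ => by
      have hζp := (hsgn τ (hτ.trans hτ₀b)).2 hτ
      refine ⟨Real.sqrt (ζ τ), Real.sqrt_pos.2 hζp, ?_⟩
      obtain ⟨e1, e2, e3, e4⟩ := at_sq (W := W) (X := X) h (Real.sqrt_pos.2 hζp)
      rw [Real.sq_sqrt hζp.le] at e1 e2 e3 e4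
      have hR := h.R_pos (Real.sqrt_pos.2 hζp)
      refine ⟨e1, by simp only [hκ]; rw [e2, inv_inv], ?_, ?_⟩
      · simp only [hε, hκ]; rw [e2, e3]; field_simp
      · rw [(hζ τ (hτ.trans hτ₀b)).2.1] at e4
        conv_lhs => rw [e4]
        exact Real.exp_log (h.T_pos (Real.sqrt_nonneg _))
    have hκne : ∀ τ < τ₀, κ τ ≠ 0 := fun τ hτ => (hκpos τ hτ).ne'
    exact
      { τ₀_le := hτ₀lt.le
        one_lt := fun τ hτ => (facts _ (hζ τ (hτ.trans hτ₀b)).1).1
        lt_tb := fun τ hτ => (facts _ (hζ τ (hτ.trans hτ₀b)).1).2.1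
        exp_lt := fun τ hτ => by
          obtain ⟨r, hr, e1, -, -, e4⟩ := facts' τ hτ
          rw [e1, e4]; exact h.T_lt_sig hN hp hq hpq hr
        R_pos := fun τ hτ => inv_pos.2 (hκpos τ hτ)
        e_ge := fun τ hτ => by
          obtain ⟨r, hr, e1, e2, e3, -⟩ := facts' τ hτ
          simp only [e3]; exact (h.basic_bounds hN hr).1
        S_le := fun τ hτ => by
          obtain ⟨r, hr, e1, e2, e3, -⟩ := facts' τ hτ
          simp only [e1, e3]; exact (h.basic_bounds hN hr).2.1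
        R_le := fun τ hτ => by
          obtain ⟨r, hr, e1, e2, e3, -⟩ := facts' τ hτ
          simp only [e2, e3]; exact (h.basic_bounds hN hr).2.2.1
        tR_le := fun τ hτ => by
          obtain ⟨r, hr, e1, e2, e3, e4⟩ := facts' τ hτ
          simp only [e1, e2, e3, e4]; exact (h.basic_bounds hN hr).2.2.2
        poho := fun τ hτ => by
          obtain ⟨r, hr, e1, e2, e3, e4⟩ := facts' τ hτ
          simp only [e1, e2, e3, e4]; exact h.oE_eq hp hq hr
        derivS := fun τ hτ => by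
          have hτb := hτ.trans hτ₀b
          have hL' : 0 < (p + 1) - (q + 1) * S τ := hL _ (hζ τ hτb).1
          refine ((((hsmooth (hsys.smooth_zS hN1) 1).differentiableOn (by norm_num)).differentiableAt
            (Iio_mem_nhds hτb)).hasDerivAt).congr_deriv ?_
          have := heqS τ hτb
          have := hκne τ hτ
          have heq := heqS τ hτb
          change deriv S τ = _
          generalize (p + 1) - (q + 1) * S τ = Lv at *
          field_simp
          linear_combination heq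
        derivR := fun τ hτ => by
          have hτb := hτ.trans hτ₀b
          have hL' : 0 < (p + 1) - (q + 1) * S τ := hL _ (hζ τ hτb).1
          refine ((hκ' τ hτb).inv (hκne τ hτ)).congr_deriv ?_
          have := hκne τ hτ
          field_simp
          ring
        deriv_e := fun τ hτ => by
          have hτb := hτ.trans hτ₀b
          have hL' : 0 < (p + 1) - (q + 1) * S τ := hL _ (hζ τ hτb).1
          obtain ⟨E, hE, hEeq⟩ := hε' τ hτb
          refine (hE.div (hκ' τ hτb) (hκne τ hτ)).congr_deriv ?_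
          have := hκne τ hτ
          generalize (p + 1) - (q + 1) * S τ = Lv at *
          field_simp
          linear_combination hEeq
        tendsto_S := by
          have := cts (hsys.smooth_zS hN1)
          rwa [eS0] at this
        tendsto_R := by
          refine tendsto_inv_nhdsGT_zero.comp (tendsto_nhdsWithin_iff.2 ⟨?_,
            eventually_of_mem self_mem_nhdsWithin fun τ hτ => hκpos τ hτ⟩)
          have := cts (hsys.smooth_zK hN1)
          rwa [eK0] at this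
        tendsto_e := by
          have h1 := cts (hsys.smooth_zE hN1)
          rw [eE0] at h1
          have h2 := cts (hsys.smooth_zK hN1)
          rw [eK0] at h2
          exact (tendsto_inv_nhdsGT_zero.comp (tendsto_nhdsWithin_iff.2 ⟨h2,
            eventually_of_mem self_mem_nhdsWithin fun τ hτ => hκpos τ hτ⟩)).atTop_mul_pos
              (one_div_pos.2 hN0) h1 |>.congr fun τ => by simp [hε, hκ, div_eq_mul_inv, mul_comm] }
  exact ⟨τ₀, τb, S, κ, ε,
    { τ₀_lt := hτ₀lt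
      lt_τb := hlb
      smooth := fun n => ⟨hsmooth (hsys.smooth_zS hN1) n, hsmooth (hsys.smooth_zK hN1) n,
        hsmooth (hsys.smooth_zE hN1) n⟩
      one_lt := fun τ hτ => (facts _ (hζ τ hτ).1).1
      lt_tb := fun τ hτ => (facts _ (hζ τ hτ).1).2.1
      lt_exp := fun τ h0 hτ => by
        have := ((facts _ (hζ τ hτ).1).2.2.2.1 ((hsgn τ hτ).1 h0)).1
        rwa [(hζ τ hτ).2.1] at this
      ε_pos := fun τ hτ => (facts _ (hζ τ hτ).1).2.2.1
      κ_zero := by simp only [hκ, hζ0]; exact eK0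
      κ_neg := fun τ h0 hτ => ((facts _ (hζ τ hτ).1).2.2.2.1 ((hsgn τ hτ).1 h0)).2
      κ_pos := hκpos
      eqS := heqS
      derivκ := hκ'
      deriv_ε := fun τ hτ => by
        obtain ⟨E, hE, hEeq⟩ := hε' τ hτ
        rwa [hE.deriv]
      poho := hpohoS
      below := hbelow }⟩

end Vale.Agent.P100T
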