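import Vale.Agent.P100T.OrbitZ

/-! # Gluing the ground state and its continuation into one solution in `z = r²` -/

open Set Filter Topology MeasureTheory

noncomputable section

namespace Vale.Agent.P100T

/-- `U(√z)` for `z ≥ 0`, `W(√(-z))` for `z ≤ 0`. -/
def glue (U W : ℝ → ℝ) (z : ℝ) : ℝ := if 0 ≤ z then U (Real.sqrt z) else W (Real.sqrt (-z))

variable {U V U' V' W X W' X' : ℝ → ℝ}

lemma continuous_glue (hU : Continuous U) (hW : Continuous W) (h0 : U 0 = W 0) :
    Continuous (glue U W) :=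
  Continuous.if_le (hU.comp Real.continuous_sqrt) (hW.comp (Real.continuous_sqrt.comp continuous_neg))
    continuous_const continuous_id fun z hz => by simp [← hz, h0]

lemma glue_sq {r : ℝ} (hr : 0 ≤ r) : glue U W (r ^ 2) = U r := by
  rw [glue, if_pos (sq_nonneg r), Real.sqrt_sq hr]

lemma glue_neg_sq {r : ℝ} (hr : 0 < r) : glue U W (-r ^ 2) = W r := by
  rw [glue, if_neg (by nlinarith), neg_neg, Real.sqrt_sq hr.le]

lemma hasDerivAt_glue_pos {r u : ℝ} (hr : 0 < r) (hU : HasDerivAt U u r) :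
    HasDerivAt (glue U W) (u / (2 * r)) (r ^ 2) := by
  have hs : HasDerivAt Real.sqrt (1 / (2 * r)) (r ^ 2) := by
    have := Real.hasDerivAt_sqrt (show r ^ 2 ≠ 0 by positivity)
    rwa [Real.sqrt_sq hr.le] at this
  have h := HasDerivAt.comp (r ^ 2) (h₂ := U) (by rwa [Real.sqrt_sq hr.le]) hs
  refine (h.congr_of_eventuallyEq ?_).congr_deriv (by ring)
  filter_upwards [Ioi_mem_nhds (show 0 < r ^ 2 by positivity)] with z hz
  simp only [glue, if_pos (le_of_lt (mem_Ioi.1 hz)), Function.comp_apply]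

lemma hasDerivAt_glue_neg {r w : ℝ} (hr : 0 < r) (hW : HasDerivAt W w r) :
    HasDerivAt (glue U W) (-w / (2 * r)) (-r ^ 2) := by
  have hs : HasDerivAt (fun z => Real.sqrt (-z)) (1 / (2 * r) * -1) (-r ^ 2) := by
    have := (Real.hasDerivAt_sqrt (show -(-r ^ 2) ≠ 0 by simp [hr.ne'])).comp (-r ^ 2)
      (hasDerivAt_neg (-r ^ 2))
    simpa only [Function.comp_def, neg_neg, Real.sqrt_sq hr.le] using this
  have h := HasDerivAt.comp (-r ^ 2) (h₂ := W) (by rwa [neg_neg, Real.sqrt_sq hr.le]) hs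
  refine (h.congr_of_eventuallyEq ?_).congr_deriv (by ring)
  filter_upwards [Iio_mem_nhds (show -r ^ 2 < 0 by nlinarith)] with z hz
  simp only [glue, if_neg (not_le.2 (mem_Iio.1 hz)), Function.comp_apply]

lemma avg2_glue_sq (N : ℝ) {r p : ℝ} (hr : 0 ≤ r) :
    avg2 (N - 1) (fun y => glue U W y ^ p) (r ^ 2) = radAvg N (fun ρ => U ρ ^ p) r := by
  refine intervalIntegral.integral_congr fun θ hθ => ?_
  rw [uIcc_of_le zero_le_one] at hθ
  simp only [← mul_pow, glue_sq (mul_nonneg hr hθ.1)]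

lemma avg2_glue_neg_sq (N : ℝ) {r p : ℝ} (hr : 0 < r) (h0 : U 0 = W 0) :
    avg2 (N - 1) (fun y => glue U W y ^ p) (-r ^ 2) = radAvg N (fun ρ => W ρ ^ p) r := by
  refine intervalIntegral.integral_congr fun θ hθ => ?_
  rw [uIcc_of_le zero_le_one] at hθ
  rcases hθ.1.eq_or_lt with e | e
  · subst e; simp [glue, h0]
  · simp only [neg_mul, ← mul_pow, glue_neg_sq (mul_pos hr e)]

namespace IsGround

variable {N p q : ℝ}

lemma slope_eq (h : IsGround N p q U V U' V') (hN : 1 < N) (hp : 0 ≤ p) {r : ℝ} (hr : 0 < r) :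
    U' r = -(r * radAvg N (fun ρ => V ρ ^ p) r) := by
  have hN1 : 1 ≤ N := hN.le
  have hc : Continuous fun ρ => V ρ ^ p := h.contV.rpow_const fun _ => Or.inr hp
  set f := fun s => s ^ (N - 1) * (U' s + s * radAvg N (fun ρ => V ρ ^ p) s) with hf
  have hd : ∀ s, 0 < s → HasDerivAt f 0 s := fun s hs => by
    refine ((Real.hasDerivAt_rpow_const (Or.inl hs.ne')).mul
      ((h.derivU' s hs).add (hasDerivAt_mul_radAvg hN1 hc hs))).congr_deriv ?_
    simp only [Pi.add_apply, Real.rpow_sub_one hs.ne' (N - 1)]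
    field_simp
    ring
  have hconst : ∀ s ∈ Ioo 0 r, f s = f r := fun s hs => by
    obtain ⟨w, -, hw⟩ := exists_hasDerivAt_eq_slope f (fun _ => 0) hs.2
      (fun x hx => (hd x (hs.1.trans_le hx.1)).continuousAt.continuousWithinAt)
      (fun x hx => hd x (hs.1.trans hx.1))
    rw [eq_comm, div_eq_zero_iff] at hw
    rcases hw with hw | hw <;> linarith [hs.2]
  have hU0 : Tendsto U' (𝓝[>] 0) (𝓝 0) := by
    have : Tendsto (fun s : ℝ => -(s * V 0 ^ p / N)) (𝓝[>] 0) (𝓝 0) :=
      (Continuous.tendsto' (by fun_prop) 0 0 (by simp)).mono_left nhdsWithin_le_nhds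
    refine tendsto_of_tendsto_of_tendsto_of_le_of_le' this tendsto_const_nhds ?_ ?_ <;>
      filter_upwards [self_mem_nhdsWithin] with s (hs : 0 < s)
    · linarith [(h.slopeU s hs.le).2]
    · exact (h.negU s hs).le
  have hlim : Tendsto f (𝓝[>] 0) (𝓝 0) := by
    have h1 := ((Real.continuous_rpow_const (show 0 ≤ N - 1 by linarith)).tendsto 0).mono_left
      (nhdsWithin_le_nhds (s := Ioi 0))
    have h2 := ((continuous_mul_radAvg hN1 hc).tendsto 0).mono_left
      (nhdsWithin_le_nhds (s := Ioi 0))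
    simpa [Real.zero_rpow (show N - 1 ≠ 0 by linarith)] using h1.mul (hU0.add h2)
  have := tendsto_nhds_unique (tendsto_const_nhds.congr'
    (eventually_of_mem (Ioo_mem_nhdsGT hr) fun s hs => (hconst s hs).symm)) hlim
  simp only [hf] at this
  linarith [(mul_eq_zero.1 this).resolve_left (Real.rpow_pos_of_pos hr _).ne']

lemma swap_slope_eq (h : IsGround N p q U V U' V') (hN : 1 < N) (hq : 0 ≤ q) {r : ℝ} (hr : 0 < r) :
    V' r = -(r * radAvg N (fun ρ => U ρ ^ q) r) := by
  have hN1 : 1 ≤ N := hN.le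
  have hc : Continuous fun ρ => U ρ ^ q := h.contU.rpow_const fun _ => Or.inr hq
  set f := fun s => s ^ (N - 1) * (V' s + s * radAvg N (fun ρ => U ρ ^ q) s) with hf
  have hd : ∀ s, 0 < s → HasDerivAt f 0 s := fun s hs => by
    refine ((Real.hasDerivAt_rpow_const (Or.inl hs.ne')).mul
      ((h.derivV' s hs).add (hasDerivAt_mul_radAvg hN1 hc hs))).congr_deriv ?_
    simp only [Pi.add_apply, Real.rpow_sub_one hs.ne' (N - 1)]
    field_simp
    ring
  have hconst : ∀ s ∈ Ioo 0 r, f s = f r := fun s hs => by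
    obtain ⟨w, -, hw⟩ := exists_hasDerivAt_eq_slope f (fun _ => 0) hs.2
      (fun x hx => (hd x (hs.1.trans_le hx.1)).continuousAt.continuousWithinAt)
      (fun x hx => hd x (hs.1.trans hx.1))
    rw [eq_comm, div_eq_zero_iff] at hw
    rcases hw with hw | hw <;> linarith [hs.2]
  have hV0 : Tendsto V' (𝓝[>] 0) (𝓝 0) := by
    have : Tendsto (fun s : ℝ => -(s * U 0 ^ q / N)) (𝓝[>] 0) (𝓝 0) :=
      (Continuous.tendsto' (by fun_prop) 0 0 (by simp)).mono_left nhdsWithin_le_nhds
    refine tendsto_of_tendsto_of_tendsto_of_le_of_le' this tendsto_const_nhds ?_ ?_ <;>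
      filter_upwards [self_mem_nhdsWithin] with s (hs : 0 < s)
    · linarith [(h.slopeV s hs.le).2]
    · exact (h.negV s hs).le
  have hlim : Tendsto f (𝓝[>] 0) (𝓝 0) := by
    have h1 := ((Real.continuous_rpow_const (show 0 ≤ N - 1 by linarith)).tendsto 0).mono_left
      (nhdsWithin_le_nhds (s := Ioi 0))
    have h2 := ((continuous_mul_radAvg hN1 hc).tendsto 0).mono_left
      (nhdsWithin_le_nhds (s := Ioi 0))
    simpa [Real.zero_rpow (show N - 1 ≠ 0 by linarith)] using h1.mul (hV0.add h2)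
  have := tendsto_nhds_unique (tendsto_const_nhds.congr'
    (eventually_of_mem (Ioo_mem_nhdsGT hr) fun s hs => (hconst s hs).symm)) hlim
  simp only [hf] at this
  linarith [(mul_eq_zero.1 this).resolve_left (Real.rpow_pos_of_pos hr _).ne']

/-- `t(0) < (p+1)/(q+1)`. -/
lemma T0_lt (h : IsGround N p q U V U' V') (hN : 2 < N) (hp : 0 < p) (hq : 0 < q) (hpq : q < p)
    (hcrit : N / (p + 1) + N / (q + 1) = N - 2) : oT U V p q 0 < (p + 1) / (q + 1) := by
  set c := (p + 1) / (q + 1) with hc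
  obtain ⟨-, lt⟩ := h.sig_tendsto (by linarith) hp hq
  have hle : oT U V p q 0 ≤ c :=
    le_of_tendsto lt (eventually_of_mem self_mem_nhdsWithin fun x hx => h.T_le hN hp hq hpq hx)
  by_contra hge
  push Not at hge
  have h0 : oT U V p q 0 = c := le_antisymm hle hge
  set K := (q + 1) * c * (U 0 ^ q / (N * V 1)) with hK
  have hv1 := h.posV 1 zero_le_one
  have hc0 : 0 < c := by rw [hc]; positivity
  have hmon : ∀ x ∈ Ioo (0:ℝ) 1, -((c - oT U V p q x) * Real.exp (-K * x))
      ≤ -((c - oT U V p q 1) * Real.exp (-K * 1)) := by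
    intro x hx
    refine mono_of_deriv (f := fun y => -((c - oT U V p q y) * Real.exp (-K * y)))
      (fun y hy => (((h.hasDerivAt_T (hx.1.trans_le hy.1)).const_sub c).mul
        ((hasDerivAt_id y).const_mul (-K)).exp).neg) (fun y hy => ?_) hx.2.le
    have hy0 : 0 < y := hx.1.trans hy.1
    have ht := h.T_le hN hp hq hpq hy0
    have hts := h.T_lt_sig hN hp hq hpq hy0
    have hTp := h.T_pos (p := p) (q := q) hy0.le
    have he : oEta V V' y / y ≤ U 0 ^ q / (N * V 1) := by
      have h1 := (h.slopeV y hy0.le).2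
      have h2 : V 1 ≤ V y := (h.anti hy0 hy.2.le).2
      have h3 : oEta V V' y / y = -V' y / V y := by
        rw [oEta]; field_simp
      rw [h3]
      calc -V' y / V y ≤ (y * U 0 ^ q / N) / V 1 :=
            div_le_div₀ (le_trans (neg_pos.2 (h.negV y hy0)).le h1) h1 hv1 h2
        _ ≤ (1 * U 0 ^ q / N) / V 1 := by
            have := h.posU 0 le_rfl
            have hyy : y * U 0 ^ q ≤ 1 * U 0 ^ q :=
              mul_le_mul_of_nonneg_right hy.2.le (by positivity)
            exact div_le_div_of_nonneg_right (div_le_div_of_nonneg_right hyy (by linarith)) hv1.le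
        _ = _ := by rw [one_mul, div_div]
    have hη : 0 ≤ oEta V V' y / y := div_nonneg (h.eta_pos hy0).le hy0.le
    have hX : (p + 1) - (q + 1) * oSig U V U' V' y ≤ (q + 1) * (c - oT U V p q y) := by
      have : (q + 1) * c = p + 1 := by rw [hc]; field_simp
      nlinarith
    have hY : 0 ≤ c - oT U V p q y := sub_nonneg.2 ht
    have key : oT U V p q y * (oEta V V' y / y) * ((p + 1) - (q + 1) * oSig U V U' V' y)
        ≤ K * (c - oT U V p q y) := by
      calc _ ≤ oT U V p q y * (oEta V V' y / y) * ((q + 1) * (c - oT U V p q y)) :=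
            mul_le_mul_of_nonneg_left hX (mul_nonneg hTp.le hη)
        _ ≤ c * (U 0 ^ q / (N * V 1)) * ((q + 1) * (c - oT U V p q y)) := by
            refine mul_le_mul_of_nonneg_right (mul_le_mul ht he hη hc0.le) ?_
            exact mul_nonneg (by linarith) hY
        _ = _ := by simp only [hK]; ring
    have hexp := (Real.exp_pos (-K * y)).le
    simp only [id, mul_one]
    rw [show -(oT U V p q y * oEta V V' y * (p + 1 - (q + 1) * oSig U V U' V' y)) / y
      = -(oT U V p q y * (oEta V V' y / y) * (p + 1 - (q + 1) * oSig U V U' V' y)) by ring]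
    nlinarith [mul_le_mul_of_nonneg_right key hexp]
  have hex : Tendsto (fun x : ℝ => Real.exp (-K * x)) (𝓝[>] 0) (𝓝 1) :=
    (Continuous.tendsto' (by fun_prop) 0 1 (by simp)).mono_left nhdsWithin_le_nhds
  have := le_of_tendsto (((lt.const_sub c).mul hex).neg)
    (eventually_of_mem (Ioo_mem_nhdsGT one_pos) hmon)
  rw [h0, sub_self, zero_mul, neg_zero] at this
  nlinarith [mul_pos (sub_pos.2 (h.T_lt hN hp hq hpq hcrit one_pos)) (Real.exp_pos (-K * 1))]

end IsGround

/-- The glued solution. -/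
theorem zSys_glue {N p q T : ℝ} (hN : 2 < N) (hp : 0 < p) (hq : 0 < q)
    (h : IsGround N p q U V U' V') (g : IsGrow N p q T W X W' X') (h1 : U 0 = W 0) (h2 : V 0 = X 0)
    (hs : ∀ x ∈ Ioo 0 T, W' x = x * radAvg N (fun ρ => X ρ ^ p) x ∧
      X' x = x * radAvg N (fun ρ => W ρ ^ q) x) :
    ZSys N p q (T ^ 2) (glue U W) (glue V X) := by
  have hN1 : 1 ≤ N := by linarith
  have hT := g.T_pos
  have hPc := continuous_glue h.contU g.contU h1
  have hQc := continuous_glue h.contV g.contV h2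
  have cases : ∀ z, -T ^ 2 < z →
      (∃ r, 0 ≤ r ∧ z = r ^ 2) ∨ ∃ r ∈ Ioo 0 T, z = -r ^ 2 := by
    intro z hz
    rcases le_or_gt 0 z with hz0 | hz0
    · exact Or.inl ⟨Real.sqrt z, Real.sqrt_nonneg _, (Real.sq_sqrt hz0).symm⟩
    · refine Or.inr ⟨Real.sqrt (-z), ⟨Real.sqrt_pos.2 (by linarith), ?_⟩,
        by rw [Real.sq_sqrt (by linarith), neg_neg]⟩
      rw [← Real.sqrt_sq hT.le]
      exact Real.sqrt_lt_sqrt (by linarith) (by linarith)
  have dgen : ∀ {a : ℝ} {A B C D A' C' : ℝ → ℝ}, A 0 = C 0 → B 0 = D 0 → 0 ≤ a →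
      Continuous A → Continuous B → Continuous C → Continuous D →
      (∀ z, -T ^ 2 < z → 0 < glue B D z) →
      (∀ r, 0 < r → HasDerivAt A (A' r) r) → (∀ r ∈ Ioo 0 T, HasDerivAt C (C' r) r) →
      (∀ r, 0 < r → A' r = -(r * radAvg N (fun ρ => B ρ ^ a) r)) →
      (∀ r ∈ Ioo 0 T, C' r = r * radAvg N (fun ρ => D ρ ^ a) r) →
      ∀ z, -T ^ 2 < z →
        HasDerivAt (glue A C) (-(1/2) * avg2 (N - 1) (fun y => glue B D y ^ a) z) z := by
    intro a A B C D A' C' e1 e2 ha cA cB cC cD hpos dA dC sA sC z hz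
    have hne : ∀ y, -T ^ 2 < y → y ≠ 0 →
        HasDerivAt (glue A C) (-(1/2) * avg2 (N - 1) (fun y => glue B D y ^ a) y) y := by
      intro y hy hy0
      rcases cases y hy with ⟨r, hr, rfl⟩ | ⟨r, hr, rfl⟩
      · have hr0 : 0 < r := hr.lt_of_ne fun e => hy0 (by rw [← e]; ring)
        refine (hasDerivAt_glue_pos hr0 (dA r hr0)).congr_deriv ?_
        rw [avg2_glue_sq N hr0.le, sA r hr0]; field_simp
      · refine (hasDerivAt_glue_neg hr.1 (dC r hr)).congr_deriv ?_
        have := hr.1.ne'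
        rw [avg2_glue_neg_sq N hr.1 e2, sC r hr]; field_simp
    by_cases hz0 : z = 0
    · subst hz0
      refine hasDerivAt_fill (g := fun y => -(1/2) * avg2 (N - 1) (fun y => glue B D y ^ a) y)
        (c := -T ^ 2) (d := 1) hz one_pos (fun y hy hy0 => hne y hy.1 hy0)
        (continuous_glue cA cC e1).continuousAt ?_
      exact continuousAt_const.mul ((continuousOn_avg2 (pow_pos hT 2) (by linarith)
        ((continuous_glue cB cD e2).continuousOn.rpow_const fun y hy =>
          Or.inl (hpos y hy).ne')).continuousAt (Ioi_mem_nhds hz))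
    · exact hne z hz hz0
  have hP : ∀ z, -T ^ 2 < z → 0 < glue U W z := fun z hz => by
    rcases cases z hz with ⟨r, hr, rfl⟩ | ⟨r, hr, rfl⟩
    · rw [glue_sq hr]; exact h.posU r hr
    · rw [glue_neg_sq hr.1]; exact g.posU r (Ioo_subset_Ico_self hr)
  have hQ : ∀ z, -T ^ 2 < z → 0 < glue V X z := fun z hz => by
    rcases cases z hz with ⟨r, hr, rfl⟩ | ⟨r, hr, rfl⟩
    · rw [glue_sq hr]; exact h.posV r hr
    · rw [glue_neg_sq hr.1]; exact g.posV r (Ioo_subset_Ico_self hr)
  exact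
    { b_pos := pow_pos hT 2
      contP := hPc.continuousOn
      contQ := hQc.continuousOn
      posP := hP
      posQ := hQ
      derivP := dgen h1 h2 hp.le h.contU h.contV g.contU g.contV hQ h.derivU g.derivU
        (fun r hr => h.slope_eq (by linarith) hp.le hr) fun r hr => (hs r hr).1
      derivQ := dgen h2 h1 hq.le h.contV h.contU g.contV g.contU hP h.derivV g.derivV
        (fun r hr => h.swap_slope_eq (by linarith) hq.le hr) fun r hr => (hs r hr).2 }

end Vale.Agent.P100T
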