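import Vale.Agent.P100T.Orbit

/-! # The orbit at infinity, at the origin, and as a function of `τ = log t` -/

open Set Filter Topology

noncomputable section

namespace Vale.Agent.P100T

/-- One-sided Lipschitz bound for the part of the rate free of `R`. -/
lemma rate_part_le {N p q lam s c : ℝ} (hN : 2 < N) (hp : 0 < p) (hq : 0 < q) (hlam : 0 ≤ lam)
    (hs : 1 ≤ s) (hsc : s ≤ c) :
    2 * (N - 1) * s / (N * (s / (p + 1) + 1 / (q + 1))) - q * s - 1 - lam * (s * (s - 1))
      ≤ 2 * (N - 1) * c / (N * (c / (p + 1) + 1 / (q + 1))) - q * c - 1 - lam * (c * (c - 1))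
        + (q + 2 * lam * c) * (c - s) := by
  have hs0 : 0 < s := by linarith
  have hc0 : 0 < c := by linarith
  have h1 : s / (N * (s / (p + 1) + 1 / (q + 1))) ≤ c / (N * (c / (p + 1) + 1 / (q + 1))) := by
    rw [div_le_div_iff₀ (by positivity) (by positivity)]
    have h3 : s * (1 / (q + 1)) ≤ c * (1 / (q + 1)) :=
      mul_le_mul_of_nonneg_right hsc (by positivity)
    have h4 := mul_le_mul_of_nonneg_left h3 (show 0 ≤ N by linarith)
    linear_combination h4
  have h2 := mul_le_mul_of_nonneg_left h1 (show 0 ≤ 2 * (N - 1) by linarith)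
  rw [← mul_div_assoc, ← mul_div_assoc] at h2
  nlinarith [mul_nonneg (mul_nonneg hlam (sub_nonneg.2 hsc)) (show 0 ≤ c - s + 1 by linarith)]

/-- The rate, split into the part free of `R` and the part linear in `R`. -/
lemma rate_split {N p q lam s t R e : ℝ} (hN : 2 < N) (hp : 0 < p) (hq : 0 < q) (hs : 1 ≤ s)
    (he : N * e * (s / (p + 1) + 1 / (q + 1)) = s + R * (t / (p + 1) + 1 / (q + 1))) :
    (2 * (N - 1) * e - q * s - 1 - 2 * R) - lam * (s * (s - 1) + R * (t - s))
      = 2 * (N - 1) * s / (N * (s / (p + 1) + 1 / (q + 1))) - q * s - 1 - lam * (s * (s - 1))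
        + R * (lam * (s - t) - 2 / N
          - 2 * (N - 1) * (1 / (p + 1)) * (s - t) / (N * (s / (p + 1) + 1 / (q + 1)))) := by
  have hs0 : 0 < s := by linarith
  set S := s / (p + 1) + 1 / (q + 1) with hSdef
  have hS0 : 0 < S := by positivity
  have he' : e = (s + R * (S - (s - t) / (p + 1))) / (N * S) := by
    rw [eq_div_iff (by positivity), show S - (s - t) / (p + 1) = t / (p + 1) + 1 / (q + 1) by
      rw [hSdef]; ring, ← he]
    ring
  have k1 : S * (N * S)⁻¹ = N⁻¹ := by field_simp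
  have k2 : N * N⁻¹ = 1 := mul_inv_cancel₀ (by linarith)
  rw [he']
  linear_combination (2 * (N - 1) * R) * k1 + (2 * R) * k2

/-- The rate of `log R - lam σ` is at most `-κ + M (c - σ)` while `t ≥ τ₀ > 0`. -/
lemma exists_rate {N p q τ₀ : ℝ} (hN : 2 < N) (hp : 0 < p) (hq : 0 < q) (hpq : q < p)
    (hcrit : N / (p + 1) + N / (q + 1) = N - 2) (hτ₀ : 0 < τ₀) (hτc : τ₀ < (p + 1) / (q + 1)) :
    ∃ lam M κ : ℝ, 0 ≤ lam ∧ 0 ≤ M ∧ 0 < κ ∧ ∀ s t R e : ℝ, 1 ≤ s → s ≤ (p + 1) / (q + 1) →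
      τ₀ ≤ t → t < s → 0 ≤ R →
      N * e * (s / (p + 1) + 1 / (q + 1)) = s + R * (t / (p + 1) + 1 / (q + 1)) →
      (2 * (N - 1) * e - q * s - 1 - 2 * R) - lam * (s * (s - 1) + R * (t - s))
        ≤ -κ + M * ((p + 1) / (q + 1) - s) := by
  set c := (p + 1) / (q + 1) with hc
  have hc1 : 1 < c := by rw [hc, lt_div_iff₀ (by linarith)]; linarith
  have hcτ : c - τ₀ ≠ 0 := (sub_pos.2 hτc).ne'
  set lam := 2 / (N * (c - τ₀)) + 2 * (N - 1) * (1 / (p + 1)) / (N * (2 / (q + 1))) with hlam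
  have hlam0 : 0 < lam := by
    have : 0 < N - 1 := by linarith
    have : 0 < c - τ₀ := by linarith
    positivity
  set Z := fun s : ℝ => 2 * (N - 1) * s / (N * (s / (p + 1) + 1 / (q + 1))) - q * s - 1
    - lam * (s * (s - 1)) with hZ
  set R0 := c * (c - 1) / (c - τ₀) with hR0
  have hGc : R0 * (c - τ₀) = c * (c - 1) := by rw [hR0]; field_simp
  have hc' : c / (p + 1) = 1 / (q + 1) := by rw [hc]; field_simp
  have hS : c / (p + 1) + 1 / (q + 1) = 2 / (q + 1) := by rw [hc']; ring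
  have hZc : Z c < 0 := by
    have hk := rate_neg hN hp hq hcrit hτ₀.le le_rfl hc1.le hτc (R := R0) hGc
    rw [hS] at hk
    have h1 : 2 * (N - 1) * c / (N * (2 / (q + 1))) * (N * (2 / (q + 1))) = 2 * (N - 1) * c :=
      div_mul_cancel₀ _ (by positivity)
    have h2 : lam * (c * (c - 1)) * (N * (2 / (q + 1)))
        = 2 * R0 * (2 / (q + 1)) + 2 * (N - 1) * (1 / (p + 1)) * (R0 * (c - τ₀)) := by
      rw [← hGc, hlam]; field_simp
    have e : Z c * (N * (2 / (q + 1))) = 2 * (N - 1) * (c + R0 * (τ₀ / (p + 1) + 1 / (q + 1)))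
        - N * (2 / (q + 1)) * (1 + q * c + 2 * R0) := by
      simp only [hZ, hS]
      linear_combination h1 - h2 - (2 * (N - 1) * R0) * hc'
    exact neg_of_mul_neg_left (b := N * (2 / (q + 1))) (by rw [e]; linarith) (by positivity)
  refine ⟨lam, q + 2 * lam * c, -Z c, hlam0.le, by positivity, by linarith,
    fun s t R e hs1 hs2 hτt hts hR he => ?_⟩
  have hs0 : 0 < s := by linarith
  set S := s / (p + 1) + 1 / (q + 1) with hSdef
  have hS0 : 0 < S := by positivity
  have hSb : S ≤ 2 / (q + 1) := by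
    rw [hSdef, ← hS]
    linarith [div_le_div_of_nonneg_right hs2 (show (0:ℝ) ≤ p + 1 by linarith)]
  have hsl : lam * (s - t) ≤ 2 / N + 2 * (N - 1) * (1 / (p + 1)) * (s - t) / (N * S) := by
    rw [hlam, add_mul]
    refine add_le_add ?_ ?_
    · calc 2 / (N * (c - τ₀)) * (s - t) ≤ 2 / (N * (c - τ₀)) * (c - τ₀) :=
            mul_le_mul_of_nonneg_left (by linarith)
              (div_nonneg zero_le_two (mul_nonneg (by linarith) (by linarith)))
        _ = 2 / N := by field_simp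
    · rw [div_mul_eq_mul_div]
      refine div_le_div_of_nonneg_left ?_ (by positivity)
        (mul_le_mul_of_nonneg_left hSb (by linarith))
      exact mul_nonneg (mul_nonneg (by linarith) (by positivity)) (by linarith)
  rw [rate_split hN hp hq hs1 he, ← hSdef]
  have hle := rate_part_le hN hp hq hlam0.le hs1 hs2
  rw [← hSdef] at hle
  simp only [hZ]
  linarith [mul_nonpos_of_nonneg_of_nonpos hR
    (show lam * (s - t) - 2 / N - 2 * (N - 1) * (1 / (p + 1)) * (s - t) / (N * S) ≤ 0 by linarith)]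

namespace IsGround

variable {N p q r : ℝ} {U V U' V' : ℝ → ℝ}

/-- While `t` stays above `τ₀ > 0`, `R` becomes small. -/
lemma R_small (h : IsGround N p q U V U' V') (hN : 2 < N) (hp : 0 < p) (hq : 0 < q)
    (hpq : q < p) (hcrit : N / (p + 1) + N / (q + 1) = N - 2) {τ₀ d : ℝ} (hτ₀ : 0 < τ₀)
    (hd : 0 < d) (hcon : ∀ x, 0 < x → τ₀ ≤ (oT U V p q) x) :
    ∃ X, 1 ≤ X ∧ ∀ x, X ≤ x → (oR U V V' q) x ≤ d := by
  have hτc : τ₀ < (p + 1) / (q + 1) :=
    (hcon 1 one_pos).trans_lt (h.T_lt hN hp hq hpq hcrit one_pos)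
  obtain ⟨lam, M, κ, hlam, hM, hκ, hrate⟩ := exists_rate hN hp hq hpq hcrit hτ₀ hτc
  set c := (p + 1) / (q + 1) with hc
  set Φ := fun x => Real.log ((oR U V V' q) x) - lam * (oSig U V U' V') x + M / (q + 1) * Real.log ((oT U V p q) x)
    - κ * Real.log (V x) with hΦ
  have hdΦ : ∀ x, 1 ≤ x → Φ x ≤ Φ 1 := fun x hx =>
    neg_le_neg_iff.1 (mono_of_deriv (f := fun y => -Φ y)
      (f' := fun y => -((oEta V V') y / y * ((2 * (N - 1) * (oE V V') y - q * (oSig U V U' V') y - 1 - 2 * (oR U V V' q) y) - lam * (oG U V U' V' p q) y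
        - M * (c - (oSig U V U' V') y) + κ)))
      (fun y hy => by
        have hy0 : 0 < y := by linarith [hy.1]
        refine ((((h.hasDerivAt_R hy0).log (h.R_pos hy0).ne').sub
          ((h.hasDerivAt_sig hy0).const_mul lam)).add
          (((h.hasDerivAt_T hy0).log (h.T_pos hy0.le).ne').const_mul (M / (q + 1))) |>.sub
          (((h.derivV y hy0).log (h.posV y hy0.le).ne').const_mul κ)).neg.congr_deriv ?_
        have := (h.R_pos hy0).ne'
        have := (h.T_pos hy0.le).ne'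
        have := (h.posV y hy0.le).ne'
        have hq1 : q + 1 ≠ 0 := by linarith
        rw [show V' y = -((oEta V V') y * V y) / y by rw [oEta]; field_simp,
          show (p + 1 : ℝ) = c * (q + 1) by rw [hc]; field_simp]
        field_simp
        ring)
      (fun y hy => by
        have hy0 : 0 < y := by linarith [hy.1]
        refine neg_nonneg.2 (mul_nonpos_of_nonneg_of_nonpos
          (div_nonneg (h.eta_pos hy0).le hy0.le) ?_)
        have := hrate ((oSig U V U' V') y) ((oT U V p q) y) ((oR U V V' q) y) ((oE V V') y) (h.one_lt_sig hN hp hq hpq hy0).le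
          (h.sig_lt hN hp hq hpq hcrit hy0).le (hcon y hy0) (h.T_lt_sig hN hp hq hpq hy0)
          (h.R_pos hy0).le (h.oE_eq hp hq hy0)
        rw [oG]
        linarith) hx)
  set v := (Real.log d - Φ 1 - lam * c + M / (q + 1) * Real.log τ₀) / κ with hv
  obtain ⟨X0, hX0, hsmall⟩ := h.exists_lt (by linarith) hp hq (Real.exp_pos v)
  refine ⟨max X0 1, le_max_right _ _, fun x hx => ?_⟩
  have hx1 : 1 ≤ x := (le_max_right _ _).trans hx
  have hx0 : 0 < x := by linarith
  have h1 := hdΦ x hx1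
  have h2 : M / (q + 1) * Real.log τ₀ ≤ M / (q + 1) * Real.log ((oT U V p q) x) :=
    mul_le_mul_of_nonneg_left (Real.log_le_log hτ₀ (hcon x hx0))
      (div_nonneg hM (by linarith))
  have h3 : Real.log (V x) < v := (Real.log_lt_iff_lt_exp (h.posV x hx0.le)).2
    (hsmall x ((le_max_left X0 1).trans hx)).2
  have h4 : lam * (oSig U V U' V') x ≤ lam * c :=
    mul_le_mul_of_nonneg_left (h.sig_lt hN hp hq hpq hcrit hx0).le hlam
  rw [← Real.log_le_log_iff (h.R_pos hx0) hd]
  rw [hv, lt_div_iff₀ hκ] at h3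
  simp only [hΦ] at h1 h3
  linarith

/-- If `G ≥ d > 0` on `{σ ≥ m}` near infinity, then `σ < m` there. -/
lemma sig_low (h : IsGround N p q U V U' V') (hN : 2 < N) (hp : 0 < p) (hq : 0 < q)
    (hpq : q < p) (hcrit : N / (p + 1) + N / (q + 1) = N - 2) {m d X : ℝ} (hd : 0 < d)
    (hX : 0 < X) (hGpos : ∀ x, X ≤ x → m ≤ (oSig U V U' V') x → d ≤ (oG U V U' V' p q) x) : ∀ x, X ≤ x → (oSig U V U' V') x < m :=
    fun x hx => by
  by_contra hge
  push Not at hge
  set c := (p + 1) / (q + 1) with hc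
  have hx0 : 0 < x := hX.trans_le hx
  obtain ⟨Y0, -, hY⟩ := h.exists_lt (by linarith) hp hq
    (Real.exp_pos (Real.log (V x) - (c - (oSig U V U' V') x) / d))
  set y := max x Y0
  have hxy : x ≤ y := le_max_left _ _
  have hy0 : 0 < y := hx0.trans_le hxy
  have up : ∀ z ∈ Icc x y, (oSig U V U' V') x ≤ (oSig U V U' V') z := fun z hz => by
    by_contra hlt
    push Not at hlt
    have hcont : ContinuousOn (oSig U V U' V') (Icc x z) := fun w hw =>
      (h.hasDerivAt_sig (hx0.trans_le hw.1)).continuousAt.continuousWithinAt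
    obtain ⟨w, hw, hwmax⟩ := isCompact_Icc.exists_isMaxOn (nonempty_Icc.2 hz.1) hcont
    have hwx : (oSig U V U' V') x ≤ (oSig U V U' V') w := hwmax ⟨le_rfl, hz.1⟩
    have hwz : w < z := lt_of_le_of_ne hw.2 fun e => by rw [e] at hwx; linarith
    have hw0 : 0 < w := hx0.trans_le hw.1
    have hpos : 0 < (oEta V V') w / w * (oG U V U' V' p q) w :=
      mul_pos (div_pos (h.eta_pos hw0) hw0)
        (hd.trans_le (hGpos w (hx.trans hw.1) (hge.trans hwx)))
    obtain ⟨w', hw', hwI⟩ := ((((hasDerivAt_iff_tendsto_slope.1 (h.hasDerivAt_sig hw0)).mono_left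
      (nhdsWithin_mono w (show Ioi w ⊆ {w}ᶜ from fun a ha => ne_of_gt ha))).eventually
      (eventually_gt_nhds hpos)).and (Ioo_mem_nhdsGT hwz)).exists
    rw [slope_def_field, lt_div_iff₀ (by linarith [hwI.1]), zero_mul] at hw'
    have : (oSig U V U' V') w' ≤ (oSig U V U' V') w := hwmax ⟨hw.1.trans hwI.1.le, hwI.2.le⟩
    linarith
  have hmon := mono_of_deriv (f := fun z => (oSig U V U' V') z + d * Real.log (V z))
    (f' := fun z => (oEta V V') z / z * ((oG U V U' V' p q) z - d))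
    (fun z hz => by
      have hz0 : 0 < z := hx0.trans_le hz.1
      refine ((h.hasDerivAt_sig hz0).add
        (((h.derivV z hz0).log (h.posV z hz0.le).ne').const_mul d)).congr_deriv ?_
      have := (h.posV z hz0.le).ne'
      rw [show V' z = -((oEta V V') z * V z) / z by rw [oEta]; field_simp]
      field_simp
      ring)
    (fun z hz => by
      refine mul_nonneg (div_nonneg (h.eta_pos (hx0.trans hz.1)).le (hx0.trans hz.1).le) ?_
      linarith [hGpos z (hx.trans hz.1.le) (hge.trans (up z (Ioo_subset_Icc_self hz)))]) hxy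
  have hv : Real.log (V y) < Real.log (V x) - (c - (oSig U V U' V') x) / d :=
    (Real.log_lt_iff_lt_exp (h.posV y hy0.le)).2 (hY y (le_max_right _ _)).2
  have hv' := mul_lt_mul_of_pos_left hv hd
  rw [mul_sub, mul_div_cancel₀ _ hd.ne'] at hv'
  linarith [h.sig_lt hN hp hq hpq hcrit hy0]

/-- `t → 0` at infinity. -/
lemma exists_T_lt (h : IsGround N p q U V U' V') (hN : 2 < N) (hp : 0 < p) (hq : 0 < q)
    (hpq : q < p) (hcrit : N / (p + 1) + N / (q + 1) = N - 2) {τ₀ : ℝ} (hτ₀ : 0 < τ₀) :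
    ∃ r, 0 < r ∧ (oT U V p q) r < τ₀ := by
  by_contra hcon
  push Not at hcon
  set c := (p + 1) / (q + 1) with hc
  have hc1 : 1 < c := by rw [hc, lt_div_iff₀ (by linarith)]; linarith
  set d := (c - 1) / 4 with hd
  set mid := (1 + c) / 2 with hmid
  have hd0 : 0 < d := by linarith
  obtain ⟨X, hX1, hRsmall⟩ := h.R_small hN hp hq hpq hcrit hτ₀ hd0 hcon
  have hX : 0 < X := by linarith
  have hlow := h.sig_low hN hp hq hpq hcrit (m := mid) hd0 hX fun x hx hm => by
    have hx0 : 0 < x := hX.trans_le hx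
    have h2 := h.T_pos (p := p) (q := q) hx0.le
    have hR := h.R_pos hx0
    have h5 := h.sig_pos hx0
    rw [oG]
    nlinarith [mul_le_mul_of_nonneg_left (hRsmall x hx) h5.le, mul_pos hR h2]
  set δ := (q + 1) * (c - mid) with hδ
  have hδ0 : 0 < δ := mul_pos (by linarith) (by linarith)
  obtain ⟨Y0, -, hY⟩ := h.exists_lt (by linarith) hp hq
    (Real.exp_pos (Real.log (V X) + (Real.log τ₀ - Real.log ((oT U V p q) X)) / δ))
  set y := max X Y0
  have hXy : X ≤ y := le_max_left _ _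
  have hy0 : 0 < y := by linarith
  have hmon := mono_of_deriv (f := fun z => -Real.log ((oT U V p q) z) + δ * Real.log (V z))
    (f' := fun z => (oEta V V') z / z * ((p + 1) - (q + 1) * (oSig U V U' V') z - δ))
    (fun z hz => by
      have hz0 : 0 < z := by linarith [hz.1]
      refine (((h.hasDerivAt_T hz0).log (h.T_pos hz0.le).ne').neg.add
        (((h.derivV z hz0).log (h.posV z hz0.le).ne').const_mul δ)).congr_deriv ?_
      have := (h.posV z hz0.le).ne'
      have := (h.T_pos hz0.le).ne'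
      rw [show V' z = -((oEta V V') z * V z) / z by rw [oEta]; field_simp]
      field_simp
      ring)
    (fun z hz => by
      have hz0 : 0 < z := by linarith [hz.1]
      refine mul_nonneg (div_nonneg (h.eta_pos hz0).le hz0.le) ?_
      have h1 := mul_le_mul_of_nonneg_left (hlow z hz.1.le).le (show (0:ℝ) ≤ q + 1 by linarith)
      have h3 : (q + 1) * c = p + 1 := by rw [hc]; field_simp
      simp only [hδ]
      linarith) hXy
  have hv : Real.log (V y) < Real.log (V X) + (Real.log τ₀ - Real.log ((oT U V p q) X)) / δ :=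
    (Real.log_lt_iff_lt_exp (h.posV y hy0.le)).2 (hY y (le_max_right _ _)).2
  have hv' := mul_lt_mul_of_pos_left hv hδ0
  rw [mul_add, mul_div_cancel₀ _ hδ0.ne'] at hv'
  linarith [Real.log_le_log hτ₀ (hcon y hy0)]

/-- `η → 0` and `R → ∞` at the origin. -/
lemma origin (h : IsGround N p q U V U' V') (hN : 0 < N) :
    Tendsto (oEta V V') (𝓝[>] 0) (𝓝 0) ∧ Tendsto (oR U V V' q) (𝓝[>] 0) atTop ∧ Tendsto (oE V V') (𝓝[>] 0) atTop := by
  have hu := h.posU 0 le_rfl
  have hv := h.posV 0 le_rfl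
  have hub : ∀ x, 0 < x → (oEta V V') x ≤ x ^ 2 * U 0 ^ q / N / V x := fun x hx => by
    rw [oEta]
    refine div_le_div_of_nonneg_right ?_ (h.posV x hx.le).le
    have := mul_le_mul_of_nonneg_left (h.slopeV x hx.le).2 hx.le
    rw [show x ^ 2 * U 0 ^ q / N = x * (x * U 0 ^ q / N) by ring]
    linarith
  have cU := (h.contU.tendsto 0).mono_left (nhdsWithin_le_nhds (s := Ioi 0))
  have cV := (h.contV.tendsto 0).mono_left (nhdsWithin_le_nhds (s := Ioi 0))
  have cx : Tendsto (fun x : ℝ => x ^ 2) (𝓝[>] 0) (𝓝[>] 0) := by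
    refine tendsto_nhdsWithin_iff.2 ⟨?_, eventually_of_mem self_mem_nhdsWithin fun x hx =>
      pow_pos (mem_Ioi.1 hx) 2⟩
    simpa using ((continuous_pow 2).tendsto (0:ℝ)).mono_left (nhdsWithin_le_nhds (s := Ioi 0))
  have hη : Tendsto (oEta V V') (𝓝[>] 0) (𝓝 0) := by
    refine squeeze_zero' (eventually_of_mem self_mem_nhdsWithin fun x hx => (h.eta_pos hx).le)
      (eventually_of_mem self_mem_nhdsWithin hub) ?_
    simpa [Pi.div_def] using
      (((cx.mono_right nhdsWithin_le_nhds).mul_const (U 0 ^ q)).div_const N).div cV hv.ne'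
  refine ⟨hη, ?_, ?_⟩
  · have hf : Tendsto (fun x => U x ^ q * V x * (N ^ 2 / (U 0 ^ q) ^ 2)) (𝓝[>] 0)
        (𝓝 (U 0 ^ q * V 0 * (N ^ 2 / (U 0 ^ q) ^ 2))) :=
      ((cU.rpow_const (Or.inl hu.ne')).mul cV).mul_const _
    refine tendsto_atTop_mono' _ ?_
      ((tendsto_inv_nhdsGT_zero.comp cx).atTop_mul_pos (by positivity) hf)
    filter_upwards [self_mem_nhdsWithin] with x (hx : 0 < x)
    have hη0 := h.eta_pos hx
    have hvx := h.posV x hx.le
    have hux := h.posU x hx.le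
    have h2 := pow_le_pow_left₀ hη0.le (hub x hx) 2
    simp only [Function.comp_apply, oR]
    rw [le_div_iff₀ (by positivity)]
    refine (mul_le_mul_of_nonneg_left h2 (by positivity)).trans (le_of_eq ?_)
    field_simp
  · refine (tendsto_inv_nhdsGT_zero.comp (tendsto_nhdsWithin_iff.2
      ⟨hη, eventually_of_mem self_mem_nhdsWithin fun x hx => h.eta_pos hx⟩)).congr fun x => ?_
    simp [oE]

end IsGround

/-- The orbit as functions of `τ = log t` on `(-∞, τ₀)`. -/
structure IsOrbit (N p q τ₀ : ℝ) (S R e : ℝ → ℝ) : Prop where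
  τ₀_le : τ₀ ≤ Real.log ((p + 1) / (q + 1))
  one_lt : ∀ τ < τ₀, 1 < S τ
  lt_tb : ∀ τ < τ₀, S τ < (p + 1) / (q + 1)
  exp_lt : ∀ τ < τ₀, Real.exp τ < S τ
  R_pos : ∀ τ < τ₀, 0 < R τ
  e_ge : ∀ τ < τ₀, 1 / (N - 2) ≤ e τ
  S_le : ∀ τ < τ₀, S τ ≤ (N - 2) * e τ
  R_le : ∀ τ < τ₀, R τ ≤ N * e τ
  tR_le : ∀ τ < τ₀, R τ * Real.exp τ ≤ N * S τ * e τ
  poho : ∀ τ < τ₀, N * e τ * (S τ / (p + 1) + 1 / (q + 1))
      = S τ + R τ * (Real.exp τ / (p + 1) + 1 / (q + 1))
  derivS : ∀ τ < τ₀, HasDerivAt S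
    ((R τ * (S τ - Real.exp τ) - S τ * (S τ - 1)) / ((p + 1) - (q + 1) * S τ)) τ
  derivR : ∀ τ < τ₀, HasDerivAt R
    (R τ * (2 * ((2 - N) * e τ + 1 + R τ) - 2 * e τ + q * S τ - 1)
      / ((p + 1) - (q + 1) * S τ)) τ
  deriv_e : ∀ τ < τ₀, HasDerivAt e
    (e τ * ((2 - N) * e τ + 1 + R τ) / ((p + 1) - (q + 1) * S τ)) τ
  tendsto_S : Tendsto S (𝓝[<] τ₀) (𝓝 (Real.exp τ₀))
  tendsto_R : Tendsto R (𝓝[<] τ₀) atTop
  tendsto_e : Tendsto e (𝓝[<] τ₀) atTop

theorem exists_orbit {N p q : ℝ} (hN : 2 < N) (hp : 0 < p) (hq : 0 < q) (hpq : q < p)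
    (hcrit : N / (p + 1) + N / (q + 1) = N - 2) :
    ∃ τ₀ : ℝ, ∃ S R e : ℝ → ℝ, IsOrbit N p q τ₀ S R e := by
  obtain ⟨U, V, U', V', h⟩ := exists_isGround hN hp hq hcrit
  set f := fun x => Real.log (oT U V p q x) with hf
  set τ₀ := Real.log (oT U V p q 0) with hτ₀
  obtain ⟨ls, lt⟩ := h.sig_tendsto (by linarith) hp hq
  have hanti : ∀ {x y}, 0 < x → x < y → f y < f x := fun {x y} hx hxy =>
    Real.log_lt_log (h.T_pos (hx.trans hxy).le) (h.T_anti hN hp hq hpq hcrit hx hxy)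
  have hflt : ∀ x, 0 < x → f x < τ₀ := fun x hx => by
    refine (hanti (half_pos hx) (half_lt_self hx)).trans_le (Real.log_le_log (h.T_pos (half_pos hx).le) ?_)
    exact ge_of_tendsto lt (eventually_of_mem (Ioo_mem_nhdsGT (half_pos hx)) fun y hy =>
      (h.T_anti hN hp hq hpq hcrit hy.1 hy.2).le)
  have hfder : ∀ x, 0 < x → HasDerivAt f
      (-(oEta V V' x * ((p + 1) - (q + 1) * oSig U V U' V' x)) / x) x := fun x hx => by
    refine ((h.hasDerivAt_T hx).log (h.T_pos hx.le).ne').congr_deriv ?_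
    have := (h.T_pos hx.le).ne'
    field_simp
  have hsurj : ∀ τ < τ₀, ∃ x, 0 < x ∧ f x = τ := by
    intro τ hτ
    obtain ⟨b, hb, hbt⟩ := h.exists_T_lt hN hp hq hpq hcrit (Real.exp_pos τ)
    have hl : Tendsto f (𝓝[>] 0) (𝓝 τ₀) := lt.log (h.T_pos le_rfl).ne'
    obtain ⟨a, ha, haI⟩ := ((hl.eventually (eventually_gt_nhds hτ)).and
      (Ioo_mem_nhdsGT hb)).exists
    have hbτ : f b < τ := (Real.log_lt_iff_lt_exp (h.T_pos hb.le)).2 hbt
    obtain ⟨x, hx, hfx⟩ := intermediate_value_Icc' haI.2.le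
      (fun y hy => (hfder y (haI.1.trans_le hy.1)).continuousAt.continuousWithinAt)
      (⟨hbτ.le, ha.le⟩ : τ ∈ Icc (f b) (f a))
    exact ⟨x, haI.1.trans_le hx.1, hfx⟩
  choose! ρ hρ hρf using hsurj
  have hρcont : ∀ τ < τ₀, ContinuousAt ρ τ := by
    intro τ hτ
    refine Metric.continuousAt_iff.2 fun ε hε => ?_
    have hx := hρ τ hτ
    set d := min (ε / 2) (ρ τ / 2)
    have hd : 0 < d := lt_min (half_pos hε) (half_pos hx)
    have hd1 : d ≤ ε / 2 := min_le_left _ _
    have hd2 : d ≤ ρ τ / 2 := min_le_right _ _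
    have i1 : f (ρ τ + d) < τ := (hanti hx (lt_add_of_pos_right _ hd)).trans_eq (hρf τ hτ)
    have i2 : τ < f (ρ τ - d) := (hρf τ hτ).symm.trans_lt (hanti (by linarith) (sub_lt_self _ hd))
    obtain ⟨u, hu, hball⟩ := Metric.mem_nhds_iff.1 (Ioo_mem_nhds i1 (lt_min i2 hτ))
    refine ⟨u, hu, fun y hy => ?_⟩
    obtain ⟨y1, y2⟩ := hball hy
    have hyτ : y < τ₀ := y2.trans_le (min_le_right _ _)
    have hy0 := hρ y hyτ
    have hyf := hρf y hyτ
    rw [Real.dist_eq, abs_lt]
    constructor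
    · by_contra hc
      push Not at hc
      have : f (ρ τ - d) ≤ f (ρ y) := by
        rcases (show ρ y ≤ ρ τ - d by linarith).eq_or_lt with e | e
        · rw [e]
        · exact (hanti hy0 e).le
      linarith [min_le_left (f (ρ τ - d)) τ₀]
    · by_contra hc
      push Not at hc
      have : f (ρ y) ≤ f (ρ τ + d) := by
        rcases (show ρ τ + d ≤ ρ y by linarith).eq_or_lt with e | e
        · rw [← e]
        · exact (hanti (by linarith) e).le
      linarith
  have hL : ∀ x, 0 < x → 0 < (p + 1) - (q + 1) * oSig U V U' V' x := fun x hx => by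
    have := h.sig_lt hN hp hq hpq hcrit hx
    rw [lt_div_iff₀ (by linarith)] at this
    linarith
  have hρd : ∀ τ < τ₀, HasDerivAt ρ
      (-(ρ τ) / (oEta V V' (ρ τ) * ((p + 1) - (q + 1) * oSig U V U' V' (ρ τ)))) τ := by
    intro τ hτ
    have hx := hρ τ hτ
    have hne : -(oEta V V' (ρ τ) * ((p + 1) - (q + 1) * oSig U V U' V' (ρ τ))) / ρ τ ≠ 0 :=
      div_ne_zero (neg_ne_zero.2 (mul_pos (h.eta_pos hx) (hL _ hx)).ne') hx.ne'
    refine ((hfder _ hx).of_local_left_inverse (hρcont τ hτ) hne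
      (eventually_of_mem (Iio_mem_nhds hτ) fun y hy => hρf y hy)).congr_deriv ?_
    rw [inv_div, div_neg, neg_div]
  have hexp : ∀ τ < τ₀, Real.exp τ = oT U V p q (ρ τ) := fun τ hτ => by
    conv_lhs => rw [← hρf τ hτ, hf]
    exact Real.exp_log (h.T_pos (hρ τ hτ).le)
  have hρ0 : Tendsto ρ (𝓝[<] τ₀) (𝓝[>] 0) := by
    refine tendsto_nhdsWithin_iff.2 ⟨?_, eventually_of_mem self_mem_nhdsWithin fun τ hτ => hρ τ hτ⟩
    refine Metric.tendsto_nhds.2 fun ε hε => ?_
    filter_upwards [self_mem_nhdsWithin,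
      nhdsWithin_le_nhds (Ioi_mem_nhds (hflt (ε / 2) (half_pos hε)))] with τ (hτ : τ < τ₀) hτ2
    rw [Real.dist_eq, sub_zero, abs_of_pos (hρ τ hτ)]
    by_contra hc
    push Not at hc
    have := hanti (half_pos hε) ((half_lt_self hε).trans_le hc)
    rw [hρf τ hτ] at this
    exact absurd hτ2 (not_lt.2 this.le)
  obtain ⟨-, oR', oe'⟩ := h.origin (by linarith)
  refine ⟨τ₀, fun τ => oSig U V U' V' (ρ τ), fun τ => oR U V V' q (ρ τ),
    fun τ => oE V V' (ρ τ), ?_⟩
  have b := fun τ (hτ : τ < τ₀) => h.basic_bounds hN (hρ τ hτ)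
  exact
    { τ₀_le := Real.log_le_log (h.T_pos le_rfl)
        (le_of_tendsto lt (eventually_of_mem self_mem_nhdsWithin fun x hx =>
          h.T_le hN hp hq hpq hx))
      one_lt := fun τ hτ => h.one_lt_sig hN hp hq hpq (hρ τ hτ)
      lt_tb := fun τ hτ => h.sig_lt hN hp hq hpq hcrit (hρ τ hτ)
      exp_lt := fun τ hτ => by rw [hexp τ hτ]; exact h.T_lt_sig hN hp hq hpq (hρ τ hτ)
      R_pos := fun τ hτ => h.R_pos (hρ τ hτ)
      e_ge := fun τ hτ => (b τ hτ).1
      S_le := fun τ hτ => (b τ hτ).2.1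
      R_le := fun τ hτ => (b τ hτ).2.2.1
      tR_le := fun τ hτ => by rw [hexp τ hτ]; exact (b τ hτ).2.2.2
      poho := fun τ hτ => by rw [hexp τ hτ]; exact h.oE_eq hp hq (hρ τ hτ)
      derivS := fun τ hτ => by
        refine ((h.hasDerivAt_sig (hρ τ hτ)).comp τ (hρd τ hτ)).congr_deriv ?_
        have := (h.eta_pos (hρ τ hτ)).ne'
        have := (hρ τ hτ).ne'
        have := (hL _ (hρ τ hτ)).ne'
        rw [oG, hexp τ hτ]
        field_simp
        ring
      derivR := fun τ hτ => by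
        refine ((h.hasDerivAt_R (hρ τ hτ)).comp τ (hρd τ hτ)).congr_deriv ?_
        have := (h.eta_pos (hρ τ hτ)).ne'
        have := (hρ τ hτ).ne'
        have := (hL _ (hρ τ hτ)).ne'
        field_simp
        ring
      deriv_e := fun τ hτ => by
        refine ((h.hasDerivAt_e (hρ τ hτ)).comp τ (hρd τ hτ)).congr_deriv ?_
        have := (h.eta_pos (hρ τ hτ)).ne'
        have := (hρ τ hτ).ne'
        have := (hL _ (hρ τ hτ)).ne'
        field_simp
      tendsto_S := by
        rw [hτ₀, Real.exp_log (h.T_pos le_rfl)]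
        exact ls.comp hρ0
      tendsto_R := oR'.comp hρ0
      tendsto_e := oe'.comp hρ0 }

end Vale.Agent.P100T
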