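import Vale.Agent.P100T.RadialSmooth
import Vale.Agent.P100T.GrowExist
import Vale.Agent.P100T.OrbitTau

/-! # The orbit as functions of `z = r²`, through `z = 0` -/

open Set Filter Topology MeasureTheory

noncomputable section

namespace Vale.Agent.P100T

/-- `σ` in the variable `z`. -/
def zS (P Q : ℝ → ℝ) (z : ℝ) : ℝ := deriv P z * Q z / (deriv Q z * P z)

/-- `κ = 1/R` in the variable `z`. -/
def zK (P Q : ℝ → ℝ) (q z : ℝ) : ℝ := 4 * z * deriv Q z ^ 2 / (P z ^ q * Q z)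

/-- `ε = e/R` in the variable `z`. -/
def zE (P Q : ℝ → ℝ) (q z : ℝ) : ℝ := -2 * deriv Q z / P z ^ q

/-- `τ = log t` in the variable `z`. -/
def zTau (P Q : ℝ → ℝ) (p q z : ℝ) : ℝ := (p + 1) * Real.log (Q z) - (q + 1) * Real.log (P z)

/-- `2z ∫θ^(N+1) g'(zθ²) + N ∫θ^(N-1) g(zθ²) = g(z)`. -/
lemma avg2_parts {b N z : ℝ} {g g' : ℝ → ℝ} (hb : 0 < b) (hN : 1 ≤ N)
    (hg : ∀ x, -b < x → HasDerivAt g (g' x) x) (hg' : ContinuousOn g' (Ioi (-b))) (hz : -b < z) :
    2 * z * avg2 (N + 1) g' z + N * avg2 (N - 1) g z = g z := by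
  have hgc : ContinuousOn g (Ioi (-b)) := fun x hx => (hg x hx).continuousAt.continuousWithinAt
  have i1 := ((continuousOn_kernel hb (k := N + 1) (by linarith) hg' hz).intervalIntegrable_of_Icc
    (μ := volume) zero_le_one).const_mul (2 * z)
  have i2 := ((continuousOn_kernel hb (k := N - 1) (by linarith) hgc hz).intervalIntegrable_of_Icc
    (μ := volume) zero_le_one).const_mul N
  rw [avg2, avg2, ← intervalIntegral.integral_const_mul, ← intervalIntegral.integral_const_mul,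
    ← intervalIntegral.integral_add i1 i2,
    intervalIntegral.integral_eq_sub_of_hasDerivAt (f := fun θ => θ ^ N * g (z * θ ^ 2)) ?_
      (i1.add i2)]
  · simp [Real.zero_rpow (show N ≠ 0 by linarith)]
  intro θ hθ
  rw [uIcc_of_le zero_le_one] at hθ
  refine ((Real.hasDerivAt_rpow_const (Or.inr hN)).mul ((hg _ (mem_dom hb hz hθ)).comp θ
    ((hasDerivAt_pow 2 θ).const_mul z))).congr_deriv ?_
  have e : θ ^ (N + 1) = θ ^ N * θ := by
    rw [Real.rpow_add' hθ.1 (by linarith), Real.rpow_one]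
  simp only [Function.comp_apply, e]
  push_cast
  ring

/-- A positive solution on `(-b, ∞)` of the radial system in `z = r²`. -/
structure ZSys (N p q b : ℝ) (P Q : ℝ → ℝ) : Prop where
  b_pos : 0 < b
  contP : ContinuousOn P (Ioi (-b))
  contQ : ContinuousOn Q (Ioi (-b))
  posP : ∀ z, -b < z → 0 < P z
  posQ : ∀ z, -b < z → 0 < Q z
  derivP : ∀ z, -b < z → HasDerivAt P (-(1/2) * avg2 (N - 1) (fun y => Q y ^ p) z) z
  derivQ : ∀ z, -b < z → HasDerivAt Q (-(1/2) * avg2 (N - 1) (fun y => P y ^ q) z) z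

namespace ZSys

variable {N p q b z : ℝ} {P Q : ℝ → ℝ}

lemma swap (h : ZSys N p q b P Q) : ZSys N q p b Q P :=
  ⟨h.b_pos, h.contQ, h.contP, h.posQ, h.posP, h.derivQ, h.derivP⟩

lemma smooth (h : ZSys N p q b P Q) (hN : 1 ≤ N) (n : ℕ) : ContDiffOn ℝ n P (Ioi (-b)) :=
  (contDiffOn_system h.b_pos (by linarith) h.contP h.contQ h.posP h.posQ h.derivP h.derivQ n).1

lemma smooth_deriv (h : ZSys N p q b P Q) (hN : 1 ≤ N) (n : ℕ) :
    ContDiffOn ℝ n (deriv P) (Ioi (-b)) := by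
  have := h.smooth hN (n + 1)
  rw [Nat.cast_succ, contDiffOn_succ_iff_deriv_of_isOpen isOpen_Ioi] at this
  exact this.2.2

lemma hasDeriv (h : ZSys N p q b P Q) (hz : -b < z) : HasDerivAt P (deriv P z) z :=
  (h.derivP z hz).differentiableAt.hasDerivAt

lemma hasDeriv' (h : ZSys N p q b P Q) (hN : 1 ≤ N) (hz : -b < z) :
    HasDerivAt (deriv P) (deriv (deriv P) z) z :=
  ((((h.smooth_deriv hN 1).differentiableOn (by norm_num)).differentiableAt
    (Ioi_mem_nhds hz))).hasDerivAt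

/-- `4zP'' + 2NP' = -Q^p`. -/
lemma ode (h : ZSys N p q b P Q) (hN : 1 ≤ N) (hz : -b < z) :
    4 * z * deriv (deriv P) z + 2 * N * deriv P z = -(Q z ^ p) := by
  set g := fun y => Q y ^ p with hg
  have hgd : ContDiffOn ℝ (1 : ℕ) g (Ioi (-b)) :=
    (h.swap.smooth hN 1).rpow_const_of_ne fun x hx => (h.posQ x hx).ne'
  have hd : ∀ x, -b < x → HasDerivAt g (deriv g x) x := fun x hx =>
    ((hgd.differentiableOn (by norm_num)).differentiableAt (Ioi_mem_nhds hx)).hasDerivAt
  have hc : ContinuousOn (deriv g) (Ioi (-b)) :=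
    hgd.continuousOn_deriv_of_isOpen isOpen_Ioi (by norm_num)
  have e1 : deriv P z = -(1/2) * avg2 (N - 1) g z := (h.derivP z hz).deriv
  have e2 : deriv (deriv P) z = -(1/2) * avg2 (N + 1) (deriv g) z := by
    have := ((hasDerivAt_avg2 h.b_pos (k := N - 1) (by linarith) hd hc hz).const_mul
      (-(1/2) : ℝ)).congr_of_eventuallyEq (f₁ := deriv P)
        (by filter_upwards [Ioi_mem_nhds hz] with x hx using (h.derivP x hx).deriv)
    rw [this.deriv, show N - 1 + 2 = N + 1 by ring]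
  have := avg2_parts h.b_pos hN hd hc hz
  rw [e1, e2]
  simp only [hg] at this ⊢
  linear_combination (-1 : ℝ) * this

lemma deriv_zero (h : ZSys N p q b P Q) (hN : 1 ≤ N) : deriv P 0 = -(Q 0 ^ p) / (2 * N) := by
  have := h.ode hN (z := 0) (by linarith [h.b_pos])
  rw [eq_div_iff (by linarith)]
  linarith

/-- The derivative of `τ`. -/
lemma hasDerivAt_tau (h : ZSys N p q b P Q) (hz : -b < z) (hQ' : deriv Q z ≠ 0) :
    HasDerivAt (zTau P Q p q)
      (deriv Q z / Q z * ((p + 1) - (q + 1) * zS P Q z)) z := by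
  refine ((((h.swap.hasDeriv hz).log (h.posQ z hz).ne').const_mul (p + 1)).sub
    (((h.hasDeriv hz).log (h.posP z hz).ne').const_mul (q + 1))).congr_deriv ?_
  have := (h.posQ z hz).ne'
  have := (h.posP z hz).ne'
  simp only [zS]
  field_simp

/-- The derivative of `κ`. -/
lemma hasDerivAt_zK (h : ZSys N p q b P Q) (hN : 1 ≤ N) (hz : -b < z) (hQ' : deriv Q z ≠ 0) :
    HasDerivAt (zK P Q q) (deriv Q z / Q z
      * (2 * (N - 1) * zE P Q q z - 2 - (q * zS P Q z + 1) * zK P Q q z)) z := by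
  have hP := h.posP z hz
  have hQ := h.posQ z hz
  have hode := h.swap.ode hN hz
  refine ((((hasDerivAt_id z).const_mul 4).mul ((h.swap.hasDeriv' hN hz).pow 2)).div
    (((h.hasDeriv hz).rpow_const (p := q) (Or.inl hP.ne')).mul (h.swap.hasDeriv hz))
    (mul_pos (Real.rpow_pos_of_pos hP q) hQ).ne').congr_deriv ?_
  have := (Real.rpow_pos_of_pos hP q).ne'
  simp only [zS, zE, zK, id, Pi.mul_apply, Pi.pow_apply, Real.rpow_sub_one hP.ne']
  push_cast
  field_simp
  linear_combination (2 * Q z * P z) * hode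

/-- The derivative of `ε`, multiplied by `κ`. -/
lemma deriv_zE (h : ZSys N p q b P Q) (hN : 1 ≤ N) (hz : -b < z) (hQ' : deriv Q z ≠ 0) :
    ∃ E', HasDerivAt (zE P Q q) E' z ∧ zK P Q q z * E'
      = deriv Q z / Q z * (zE P Q q z * (N * zE P Q q z - 1 - q * zS P Q z * zK P Q q z)) := by
  have hP := h.posP z hz
  have hQ := h.posQ z hz
  have hode := h.swap.ode hN hz
  refine ⟨_, ((h.swap.hasDeriv' hN hz).const_mul (-2)).div
    ((h.hasDeriv hz).rpow_const (p := q) (Or.inl hP.ne')) (Real.rpow_pos_of_pos hP q).ne', ?_⟩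
  have := (Real.rpow_pos_of_pos hP q).ne'
  simp only [zS, zE, zK, Real.rpow_sub_one hP.ne']
  field_simp
  linear_combination (-P z) * hode

/-- The equation of `σ`: `κ (dσ/dz · Q/Q' + σ(σ-1)) = σ - t`. -/
lemma deriv_zS (h : ZSys N p q b P Q) (hN : 1 ≤ N) (hz : -b < z) (hQ' : deriv Q z ≠ 0) :
    zK P Q q z * (deriv (zS P Q) z * Q z / deriv Q z + zS P Q z * (zS P Q z - 1))
      = zS P Q z - Real.exp (zTau P Q p q z) := by
  have hP := h.posP z hz
  have hQ := h.posQ z hz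
  have o1 := h.ode hN hz
  have o2 := h.swap.ode hN hz
  have hd := ((h.hasDeriv' hN hz).mul (h.swap.hasDeriv hz)).div
    ((h.swap.hasDeriv' hN hz).mul (h.hasDeriv hz)) (mul_ne_zero hQ' hP.ne')
  have et : Real.exp (zTau P Q p q z) = Q z ^ p * Q z / (P z ^ q * P z) := by
    rw [zTau, ← Real.log_rpow hQ, ← Real.log_rpow hP, ← Real.log_div
      (Real.rpow_pos_of_pos hQ _).ne' (Real.rpow_pos_of_pos hP _).ne',
      Real.exp_log (by positivity), Real.rpow_add_one hQ.ne', Real.rpow_add_one hP.ne']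
  have e : deriv (zS P Q) z = _ := HasDerivAt.deriv (f := zS P Q) hd
  rw [e, et]
  have := (Real.rpow_pos_of_pos hP q).ne'
  simp only [zS, zK, Pi.mul_apply]
  field_simp
  linear_combination (P z * Q z * deriv Q z) * o1 - (P z * Q z * deriv P z) * o2

end ZSys

end Vale.Agent.P100T
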