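import Mathlib

/-!
A kernel-checkable test that a polynomial in three variables has only nonnegative coefficients:
Kronecker substitution into one integer whose signed digits are the coefficients. Hence the
polynomial is nonnegative on nonnegative reals.
-/

namespace Vale.Agent.P100T.PosCheck

/-- Polynomial expressions in `x`, `y`, `z`. -/
inductive Ex where
  | num (k : Int)
  | x
  | y
  | z
  | add (a b : Ex)
  | sub (a b : Ex)
  | mul (a b : Ex)
  | pow (a : Ex) (n : Nat)

namespace Ex

/-- Value in a ring. -/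
def eval {R : Type*} [CommRing R] (X Y Z : R) : Ex → R
  | .num k => (k : R)
  | .x => X
  | .y => Y
  | .z => Z
  | .add a b => a.eval X Y Z + b.eval X Y Z
  | .sub a b => a.eval X Y Z - b.eval X Y Z
  | .mul a b => a.eval X Y Z * b.eval X Y Z
  | .pow a n => a.eval X Y Z ^ n

/-- Powers by recursion, for evaluation in the kernel. -/
def ipow (a : Int) : Nat → Int
  | 0 => 1
  | n + 1 => ipow a n * a

/-- Value at integers, for evaluation in the kernel. -/
def evalI (X Y Z : Int) : Ex → Int
  | .num k => k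
  | .x => X
  | .y => Y
  | .z => Z
  | .add a b => a.evalI X Y Z + b.evalI X Y Z
  | .sub a b => a.evalI X Y Z - b.evalI X Y Z
  | .mul a b => a.evalI X Y Z * b.evalI X Y Z
  | .pow a n => ipow (a.evalI X Y Z) n

/-- Bound on the sum of the absolute values of the coefficients. -/
def norm : Ex → Nat
  | .num k => k.natAbs
  | .x => 1
  | .y => 1
  | .z => 1
  | .add a b => a.norm + b.norm
  | .sub a b => a.norm + b.norm
  | .mul a b => a.norm * b.norm
  | .pow a n => a.norm ^ n

/-- Degree bounds in the three variables. -/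
def deg : Ex → Nat × Nat × Nat
  | .num _ => (0, 0, 0)
  | .x => (1, 0, 0)
  | .y => (0, 1, 0)
  | .z => (0, 0, 1)
  | .add a b => (max a.deg.1 b.deg.1, max a.deg.2.1 b.deg.2.1, max a.deg.2.2 b.deg.2.2)
  | .sub a b => (max a.deg.1 b.deg.1, max a.deg.2.1 b.deg.2.1, max a.deg.2.2 b.deg.2.2)
  | .mul a b => (a.deg.1 + b.deg.1, a.deg.2.1 + b.deg.2.1, a.deg.2.2 + b.deg.2.2)
  | .pow a n => (n * a.deg.1, n * a.deg.2.1, n * a.deg.2.2)

end Ex

/-- `2 ^ k` in each of the `D` lowest base-`2 ^ (k + 1)` digits. -/
def mask (k D : Nat) : Nat := 2 ^ k * (((2 ^ (k + 1)) ^ D - 1) / (2 ^ (k + 1) - 1))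

/-- All coefficients of `e` are nonnegative: the value is nonnegative and misses the mask. -/
def check (e : Ex) : Bool :=
  let k := Nat.log2 e.norm + 1
  let P := e.deg.1 + 1
  let Q := e.deg.2.1 + 1
  let B : Nat := 2 ^ (k + 1)
  match e.evalI (B : Int) ((B ^ P : Nat) : Int) ((B ^ (P * Q) : Nat) : Int) with
  | .ofNat n => Nat.beq (n &&& mask k (P * Q * (e.deg.2.2 + 1))) 0
  | .negSucc _ => false

/-! ### Soundness -/

/-- Terms `coefficient, exponents`. -/
abbrev Terms := List (Int × (Nat × Nat × Nat))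

section terms

variable {R : Type*} [CommRing R] (X Y Z : R)

/-- Value of a list of terms. -/
def tval (l : Terms) : R :=
  (l.map fun t => (t.1 : R) * (X ^ t.2.1 * Y ^ t.2.2.1 * Z ^ t.2.2.2)).sum

/-- Product of lists of terms. -/
def tmul (p q : Terms) : Terms :=
  (p.map fun s => q.map fun t =>
    (s.1 * t.1, (s.2.1 + t.2.1, s.2.2.1 + t.2.2.1, s.2.2.2 + t.2.2.2))).flatten

/-- Negation of a list of terms. -/
def tneg (p : Terms) : Terms := p.map fun t => (-t.1, t.2)

/-- Powers of a list of terms. -/
def tpow (p : Terms) : Nat → Terms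
  | 0 => [(1, (0, 0, 0))]
  | n + 1 => tmul (tpow p n) p

/-- Sum of absolute values of the coefficients. -/
def tnorm (l : Terms) : Nat := (l.map fun t => t.1.natAbs).sum

lemma tval_append (p q : Terms) : tval X Y Z (p ++ q) = tval X Y Z p + tval X Y Z q := by
  simp [tval]

lemma tval_mul (p q : Terms) : tval X Y Z (tmul p q) = tval X Y Z p * tval X Y Z q := by
  induction p with
  | nil => simp [tmul, tval]
  | cons s p ih =>
    have e : tmul (s :: p) q = (q.map fun t =>
      (s.1 * t.1, (s.2.1 + t.2.1, s.2.2.1 + t.2.2.1, s.2.2.2 + t.2.2.2))) ++ tmul p q := rfl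
    rw [e, tval_append, ih, show tval X Y Z (s :: p) =
      (s.1 : R) * (X ^ s.2.1 * Y ^ s.2.2.1 * Z ^ s.2.2.2) + tval X Y Z p by simp [tval], add_mul]
    congr 1
    rw [tval, List.map_map, tval, ← List.sum_map_mul_left]
    congr 1
    refine List.map_congr_left fun t _ => ?_
    simp only [Function.comp_apply, Int.cast_mul, pow_add]; ring

lemma tval_neg (p : Terms) : tval X Y Z (tneg p) = -tval X Y Z p := by
  induction p with
  | nil => simp [tneg, tval]
  | cons s p ih => simp [tneg, tval] at ih ⊢; rw [ih]; ring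

lemma tnorm_mul (p q : Terms) : tnorm (tmul p q) = tnorm p * tnorm q := by
  induction p with
  | nil => simp [tmul, tnorm]
  | cons s p ih =>
    have e : tmul (s :: p) q = (q.map fun t =>
      (s.1 * t.1, (s.2.1 + t.2.1, s.2.2.1 + t.2.2.1, s.2.2.2 + t.2.2.2))) ++ tmul p q := rfl
    rw [e]
    simp only [tnorm, List.map_append, List.sum_append, List.map_map, List.map_cons, List.sum_cons] at *
    rw [ih, add_mul, ← List.sum_map_mul_left]
    simp [Int.natAbs_mul, Function.comp_def, List.sum_map_mul_left]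

end terms

namespace Ex

/-- Expansion into terms. -/
def terms : Ex → Terms
  | .num k => [(k, (0, 0, 0))]
  | .x => [(1, (1, 0, 0))]
  | .y => [(1, (0, 1, 0))]
  | .z => [(1, (0, 0, 1))]
  | .add a b => a.terms ++ b.terms
  | .sub a b => a.terms ++ tneg b.terms
  | .mul a b => tmul a.terms b.terms
  | .pow a n => tpow a.terms n

lemma tval_terms {R : Type*} [CommRing R] (X Y Z : R) (e : Ex) :
    tval X Y Z e.terms = e.eval X Y Z := by
  induction e with
  | num k => simp [terms, tval, eval]
  | x => simp [terms, tval, eval]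
  | y => simp [terms, tval, eval]
  | z => simp [terms, tval, eval]
  | add a b ha hb => simp [terms, eval, tval_append, ha, hb]
  | sub a b ha hb => simp [terms, eval, tval_append, tval_neg, ha, hb, sub_eq_add_neg]
  | mul a b ha hb => simp [terms, eval, tval_mul, ha, hb]
  | pow a n ha =>
    simp only [terms, eval]
    induction n with
    | zero => simp [tpow, tval]
    | succ n ih => rw [tpow, tval_mul, ih, ha, pow_succ]

lemma tnorm_terms (e : Ex) : tnorm e.terms ≤ e.norm := by
  induction e with
  | num k => simp [terms, tnorm, norm]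
  | x => simp [terms, tnorm, norm]
  | y => simp [terms, tnorm, norm]
  | z => simp [terms, tnorm, norm]
  | add a b ha hb => simp [terms, tnorm, norm] at *; omega
  | sub a b ha hb =>
    simp only [terms, tnorm, tneg, norm, List.map_append, List.sum_append, List.map_map] at *
    simp only [Function.comp_def, Int.natAbs_neg]
    omega
  | mul a b ha hb => simp only [terms, norm, tnorm_mul]; exact Nat.mul_le_mul ha hb
  | pow a n ha =>
    simp only [terms, norm]
    induction n with
    | zero => simp [tpow, tnorm]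
    | succ n ih => rw [tpow, tnorm_mul, pow_succ]; exact Nat.mul_le_mul ih ha

lemma terms_deg (e : Ex) : ∀ t ∈ e.terms,
    t.2.1 ≤ e.deg.1 ∧ t.2.2.1 ≤ e.deg.2.1 ∧ t.2.2.2 ≤ e.deg.2.2 := by
  induction e with
  | num k => simp [terms, deg]
  | x => simp [terms, deg]
  | y => simp [terms, deg]
  | z => simp [terms, deg]
  | add a b ha hb =>
    intro t ht
    simp only [terms, List.mem_append] at ht
    rcases ht with h | h
    · have := ha t h; simp only [deg]; omega
    · have := hb t h; simp only [deg]; omega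
  | sub a b ha hb =>
    intro t ht
    simp only [terms, List.mem_append, tneg, List.mem_map] at ht
    rcases ht with h | ⟨s, h, rfl⟩
    · have := ha t h; simp only [deg]; omega
    · have := hb s h; simp only [deg]; omega
  | mul a b ha hb =>
    intro t ht
    simp only [terms, tmul, List.mem_flatten, List.mem_map] at ht
    obtain ⟨l, ⟨s, hs, rfl⟩, ht⟩ := ht
    simp only [List.mem_map] at ht
    obtain ⟨u, hu, rfl⟩ := ht
    have := ha s hs; have := hb u hu; simp only [deg]; omega
  | pow a n ha =>
    simp only [terms, deg]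
    induction n with
    | zero => simp [tpow]
    | succ n ih =>
      intro t ht
      simp only [tpow, tmul, List.mem_flatten, List.mem_map] at ht
      obtain ⟨l, ⟨s, hs, rfl⟩, ht⟩ := ht
      simp only [List.mem_map] at ht
      obtain ⟨u, hu, rfl⟩ := ht
      have := ih s hs; have := ha u hu
      simp only [Nat.succ_mul]; omega

lemma ipow_eq (a : Int) (n : Nat) : ipow a n = a ^ n := by
  induction n with
  | zero => simp [ipow]
  | succ n ih => simp [ipow, ih, pow_succ]

lemma evalI_eq (X Y Z : Int) (e : Ex) : e.evalI X Y Z = e.eval X Y Z := by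
  induction e <;> simp [evalI, eval, ipow_eq, *]

end Ex

lemma mask_succ (k D : Nat) : mask k (D + 1) = 2 ^ k + 2 ^ (k + 1) * mask k D := by
  have h2 : 2 ≤ 2 ^ (k + 1) := Nat.le_self_pow (by omega) 2
  simp only [mask, ← Nat.geomSum_eq h2, geom_sum_succ]
  ring

/-- A nonnegative number missing the mask has nonnegative signed digits. -/
lemma mask_sound (k : Nat) : ∀ (D : Nat) (c : Nat → Int) (V : Nat), (∀ i, |c i| < (2 : Int) ^ k) →
    (V : Int) = ∑ i ∈ Finset.range D, c i * ((2 : Int) ^ (k + 1)) ^ i → V &&& mask k D = 0 →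
      ∀ i < D, 0 ≤ c i
  | 0, _, _, _, _, _ => fun i hi => absurd hi (Nat.not_lt_zero i)
  | D + 1, c, V, hc, hV, H => by
    have hB : 2 ^ (k + 1) = 2 * 2 ^ k := by rw [pow_succ']
    have hB' : (2 : Int) ^ (k + 1) = 2 * (2 : Int) ^ k := by rw [pow_succ']
    have hp : 0 < 2 ^ k := Nat.two_pow_pos k
    rw [mask_succ] at H
    have hbit : V % 2 ^ (k + 1) < 2 ^ k := by
      have h1 := congrArg (Nat.testBit · k) H
      rw [Nat.testBit_and, Nat.zero_testBit] at h1
      simp only [Nat.testBit_eq_decide_div_mod_eq] at h1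
      have h2 : (2 ^ k + 2 ^ (k + 1) * mask k D) / 2 ^ k % 2 = 1 := by
        rw [hB, show 2 ^ k + 2 * 2 ^ k * mask k D = 2 ^ k * (1 + 2 * mask k D) by ring,
          Nat.mul_div_cancel_left _ hp]
        omega
      simp only [h2, decide_true, Bool.and_true, decide_eq_false_iff_not] at h1
      rw [pow_succ, Nat.mod_mul, show V / 2 ^ k % 2 = 0 by omega, mul_zero, add_zero]
      exact Nat.mod_lt _ hp
    set S := ∑ i ∈ Finset.range D, c (i + 1) * ((2 : Int) ^ (k + 1)) ^ i with hS
    have hV' : (V : Int) = c 0 + (2 : Int) ^ (k + 1) * S := by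
      rw [hV, Finset.sum_range_succ', hS, Finset.mul_sum, pow_zero, mul_one, add_comm]
      congr 1
      refine Finset.sum_congr rfl fun i _ => ?_
      ring
    have h0 := abs_lt.1 (hc 0)
    have c0 : 0 ≤ c 0 := by
      by_contra hn
      push Not at hn
      have e : ((V % 2 ^ (k + 1) : Nat) : Int) = c 0 + (2 : Int) ^ (k + 1) := by
        push_cast
        rw [hV', Int.add_mul_emod_self_left, ← Int.add_emod_right,
          Int.emod_eq_of_lt (by linarith) (by linarith)]
      have : ((V % 2 ^ (k + 1) : Nat) : Int) < (2 : Int) ^ k := by exact_mod_cast hbit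
      linarith
    have hq : ((V / 2 ^ (k + 1) : Nat) : Int) = S := by
      push_cast
      rw [hV', Int.add_mul_ediv_left _ _ (by positivity : (2 : Int) ^ (k + 1) ≠ 0),
        Int.ediv_eq_zero_of_lt c0 (by linarith), zero_add]
    have hm : V / 2 ^ (k + 1) &&& mask k D = 0 := by
      have h1 := congrArg (· / 2 ^ (k + 1)) H
      simp only [Nat.and_div_two_pow, Nat.zero_div] at h1
      rwa [Nat.add_mul_div_left _ _ (Nat.two_pow_pos _),
        Nat.div_eq_of_lt (show 2 ^ k < 2 ^ (k + 1) by omega), zero_add] at h1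
    intro i hi
    rcases i with _ | i
    · exact c0
    · exact mask_sound k D (fun j => c (j + 1)) _ (fun j => hc _) hq hm i
        (Nat.succ_lt_succ_iff.1 hi)

/-- Position of a monomial. -/
def idx (P Q : Nat) (t : Nat × Nat × Nat) : Nat := t.1 + P * (t.2.1 + Q * t.2.2)

/-- Coefficient at a position. -/
def coeff (P Q : Nat) (l : Terms) (i : Nat) : Int :=
  (l.map fun t => if idx P Q t.2 = i then t.1 else 0).sum

lemma coeff_abs (P Q : Nat) (l : Terms) (i : Nat) : |coeff P Q l i| ≤ tnorm l := by
  induction l with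
  | nil => simp [coeff, tnorm]
  | cons t l ih =>
    simp only [coeff, tnorm, List.map_cons, List.sum_cons, Nat.cast_add] at *
    refine (abs_add_le _ _).trans (add_le_add ?_ ih)
    split_ifs
    · simp
    · simp

lemma sum_coeff {R : Type*} [CommRing R] (P Q D : Nat) (f : Nat → R) (l : Terms)
    (hl : ∀ t ∈ l, idx P Q t.2 < D) :
    (l.map fun t => (t.1 : R) * f (idx P Q t.2)).sum =
      ∑ i ∈ Finset.range D, (coeff P Q l i : R) * f i := by
  induction l with
  | nil => simp [coeff]
  | cons t l ih =>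
    simp only [List.map_cons, List.sum_cons]
    rw [ih fun s hs => hl s (List.mem_cons_of_mem _ hs)]
    have e : ∀ i, coeff P Q (t :: l) i = (if idx P Q t.2 = i then t.1 else 0) + coeff P Q l i :=
      fun i => by simp [coeff]
    simp only [e, Int.cast_add, add_mul, Finset.sum_add_distrib]
    congr 1
    rw [Finset.sum_eq_single (idx P Q t.2)]
    · simp
    · intro b _ hb; simp [Ne.symm hb]
    · intro h; exact absurd (Finset.mem_range.2 (hl t (List.mem_cons_self ..))) h

/-- A checked polynomial is nonnegative on nonnegative reals. -/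
theorem nonneg_of_check {e : Ex} (he : check e = true) {a b c : ℝ} (ha : 0 ≤ a) (hb : 0 ≤ b)
    (hc : 0 ≤ c) : 0 ≤ e.eval a b c := by
  set h : Nat := 2 ^ (Nat.log2 e.norm + 1) with hh
  set P := e.deg.1 + 1 with hP
  set Q := e.deg.2.1 + 1 with hQ
  set D := P * Q * (e.deg.2.2 + 1) with hD
  have hlt : e.norm < h := by rw [hh]; exact Nat.lt_log2_self
  have hP0 : 0 < P := Nat.succ_pos _
  have hQ0 : 0 < Q := Nat.succ_pos _
  have hl : ∀ t ∈ e.terms, idx P Q t.2 < D := by
    intro t ht
    obtain ⟨h1, h2, h3⟩ := e.terms_deg t ht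
    calc idx P Q t.2 < P + P * (t.2.2.1 + Q * t.2.2.2) := by unfold idx; omega
      _ = P * (t.2.2.1 + 1 + Q * t.2.2.2) := by ring
      _ ≤ P * (Q + Q * e.deg.2.2) := by
          exact Nat.mul_le_mul_left _ (Nat.add_le_add (by omega) (Nat.mul_le_mul_left _ h3))
      _ = D := by rw [hD]; ring
  have hdec : ∀ t ∈ e.terms, idx P Q t.2 % P = t.2.1 ∧ idx P Q t.2 / P % Q = t.2.2.1 ∧
      idx P Q t.2 / P / Q = t.2.2.2 := by
    intro t ht
    obtain ⟨h1, h2, _⟩ := e.terms_deg t ht
    have e1 : idx P Q t.2 / P = t.2.2.1 + Q * t.2.2.2 := by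
      rw [idx, Nat.add_mul_div_left _ _ hP0, Nat.div_eq_of_lt (by omega), zero_add]
    refine ⟨?_, ?_, ?_⟩
    · rw [idx, Nat.add_mul_mod_self_left, Nat.mod_eq_of_lt (by omega)]
    · rw [e1, Nat.add_mul_mod_self_left, Nat.mod_eq_of_lt (by omega)]
    · rw [e1, Nat.add_mul_div_left _ _ hQ0, Nat.div_eq_of_lt (by omega), zero_add]
  have hB : (((2 * h : Nat) : Int)) = 2 * (h : Int) := by push_cast; ring
  have hI : e.evalI ((2 * h : Nat) : Int) (((2 * h) ^ P : Nat) : Int)
      (((2 * h) ^ (P * Q) : Nat) : Int) =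
      ∑ i ∈ Finset.range D, coeff P Q e.terms i * (2 * (h : Int)) ^ i := by
    rw [Ex.evalI_eq, ← Ex.tval_terms, tval]
    have := sum_coeff P Q D (fun i => (2 * (h : Int)) ^ i) e.terms hl
    simp only [Int.cast_id] at this ⊢
    rw [← this]
    refine congrArg List.sum (List.map_congr_left fun t _ => ?_)
    rw [Nat.cast_pow, Nat.cast_pow, hB, idx, ← pow_mul, ← pow_mul, mul_assoc, ← pow_add, ← pow_add]
    congr 2; ring
  have hpos : (0 : Int) < h := by exact_mod_cast (show 0 < h by omega)
  have hc : ∀ i, |coeff P Q e.terms i| < (h : Int) := fun i => by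
    calc |coeff P Q e.terms i| ≤ (tnorm e.terms : Int) := coeff_abs ..
      _ ≤ (e.norm : Int) := by exact_mod_cast e.tnorm_terms
      _ < h := by exact_mod_cast hlt
  have hBk : (2 : Int) ^ (Nat.log2 e.norm + 1 + 1) = 2 * (h : Int) := by
    rw [hh]; push_cast; ring
  have hco : ∀ i < D, 0 ≤ coeff P Q e.terms i := by
    have H := he
    simp only [check, ← hP, ← hQ, ← hD] at H
    rw [show 2 ^ (Nat.log2 e.norm + 1 + 1) = 2 * h by rw [hh]; ring, hI] at H
    split at H
    · next n hn =>
      refine mask_sound (Nat.log2 e.norm + 1) D _ n (fun i => ?_) ?_ (Nat.eq_of_beq_eq_true H)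
      · have := hc i
        rw [hh] at this
        exact_mod_cast this
      · rw [hBk, hn]
        rfl
    · simp at H
  have key := sum_coeff (R := ℝ) P Q D
    (fun i => a ^ (i % P) * b ^ (i / P % Q) * c ^ (i / P / Q)) e.terms hl
  have e2 : e.eval a b c = (e.terms.map fun t => (t.1 : ℝ) * ((fun i => a ^ (i % P) *
      b ^ (i / P % Q) * c ^ (i / P / Q)) (idx P Q t.2))).sum := by
    rw [← Ex.tval_terms, tval]
    refine congrArg List.sum (List.map_congr_left fun t ht => ?_)
    obtain ⟨h1, h2, h3⟩ := hdec t ht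
    simp only [h1, h2, h3]
  rw [e2, key]
  exact Finset.sum_nonneg fun i hi =>
    mul_nonneg (by exact_mod_cast hco i (Finset.mem_range.1 hi)) (by positivity)

end Vale.Agent.P100T.PosCheck
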