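import Vale.Agent.P100T.GroundLocal

/-! # Global solutions of a radial system with bounded Lipschitz right-hand sides -/

open Set Filter Topology MeasureTheory
open scoped BoundedContinuousFunction

noncomputable section

namespace Vale.Agent.P100T

/-- `U = d₁ + dbl (f ∘ V)`, `V = d₂ + dbl (g ∘ U)` has a solution on the half line. -/
lemma exists_radial_fix {N L B : ℝ} (hN : 1 ≤ N) (hL : 0 < L) (hB : 0 ≤ B) {f g : ℝ → ℝ}
    (hfc : Continuous f) (hgc : Continuous g) (hfB : ∀ x, |f x| ≤ B) (hgB : ∀ x, |g x| ≤ B)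
    (hf : ∀ x y, |f x - f y| ≤ L * |x - y|) (hg : ∀ x y, |g x - g y| ≤ L * |x - y|)
    (d : ℝ × ℝ) :
    ∃ U V : ℝ → ℝ, Continuous U ∧ Continuous V ∧ ∀ r, 0 ≤ r →
      U r = d.1 + dbl N (fun ρ => f (V ρ)) r ∧ V r = d.2 + dbl N (fun ρ => g (U ρ)) r := by
  have hN0 : 0 < N := by linarith
  set lam := L / N with hlam
  have hlam0 : 0 < lam := by positivity
  set E : ℝ → ℝ := fun r => Real.exp (lam * r ^ 2) with hE
  have hEc : Continuous E := by simp only [hE]; fun_prop
  have hE0 : ∀ r, E r ≠ 0 := fun r => (Real.exp_pos _).ne'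
  have hE1 : ∀ r, 1 ≤ E r := fun r => Real.one_le_exp (by positivity)
  set W1 : (ℝ →ᵇ ℝ × ℝ) → ℝ → ℝ := fun z r => E r * (z r).1
  set W2 : (ℝ →ᵇ ℝ × ℝ) → ℝ → ℝ := fun z r => E r * (z r).2
  have hW1 : ∀ z, Continuous (W1 z) := fun z => hEc.mul z.continuous.fst
  have hW2 : ∀ z, Continuous (W2 z) := fun z => hEc.mul z.continuous.snd
  set K := B / (2 * lam * N)
  have bnd : ∀ (φ W : ℝ → ℝ) (e : ℝ), Continuous φ → Continuous W → (∀ x, |φ x| ≤ B) → ∀ r,
      0 ≤ r → |(e + dbl N (fun ρ => φ (W ρ)) r) / E r| ≤ |e| + K := by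
    intro φ W e hφ hW hφB r hr
    have h := abs_dbl_le_exp (g := fun ρ => φ (W ρ)) hN (hφ.comp hW) hr hlam0 hB fun ρ _ =>
      (hφB (W ρ)).trans (le_mul_of_one_le_right hB (Real.one_le_exp (by positivity)))
    rw [abs_div, abs_of_pos (Real.exp_pos _ : 0 < E r), div_le_iff₀ (Real.exp_pos _)]
    refine (abs_add_le _ _).trans (le_of_le_of_eq (add_le_add
      (le_mul_of_one_le_right (abs_nonneg e) (hE1 r)) h) ?_)
    simp only [K, E]; ring
  let F : (ℝ →ᵇ ℝ × ℝ) → (ℝ →ᵇ ℝ × ℝ) := fun z =>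
    BoundedContinuousFunction.ofNormedAddCommGroup
      (fun r => ((d.1 + dbl N (fun ρ => f (W2 z ρ)) (max r 0)) / E (max r 0),
        (d.2 + dbl N (fun ρ => g (W1 z ρ)) (max r 0)) / E (max r 0)))
      ((((continuous_const.add (continuous_dbl hN (hfc.comp (hW2 z)))).div hEc hE0).comp
          (continuous_id.max continuous_const)).prodMk
        (((continuous_const.add (continuous_dbl hN (hgc.comp (hW1 z)))).div hEc hE0).comp
          (continuous_id.max continuous_const)))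
      (max (|d.1| + K) (|d.2| + K))
      (fun r => by
        rw [Prod.norm_def, Real.norm_eq_abs, Real.norm_eq_abs]
        exact max_le_max (bnd f (W2 z) d.1 hfc (hW2 z) hfB _ (le_max_right _ _))
          (bnd g (W1 z) d.2 hgc (hW1 z) hgB _ (le_max_right _ _)))
  have hF : ContractingWith (1 / 2) F := by
    refine ⟨by norm_num, LipschitzWith.of_dist_le_mul fun z z' => ?_⟩
    rw [BoundedContinuousFunction.dist_le (by positivity)]
    intro r
    set s := max r 0
    have hs : 0 ≤ s := le_max_right _ _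
    have key : ∀ (φ W W' : ℝ → ℝ) (e : ℝ), Continuous φ → Continuous W → Continuous W' →
        (∀ x y, |φ x - φ y| ≤ L * |x - y|) → (∀ ρ, |W ρ - W' ρ| ≤ dist z z' * E ρ) →
        |(e + dbl N (fun ρ => φ (W ρ)) s) / E s - (e + dbl N (fun ρ => φ (W' ρ)) s) / E s|
          ≤ 1 / 2 * dist z z' := by
      intro φ W W' e hφ hW hW' hl hWW
      have h3 := abs_dbl_le_exp (g := fun ρ => φ (W ρ) - φ (W' ρ)) hN
        ((hφ.comp hW).sub (hφ.comp hW')) hs hlam0
        (mul_nonneg hL.le (dist_nonneg (x := z) (y := z'))) fun ρ _ =>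
        (hl (W ρ) (W' ρ)).trans (le_of_le_of_eq (mul_le_mul_of_nonneg_left (hWW ρ) hL.le)
          (mul_assoc _ _ _).symm)
      have hdbl : dbl N (fun ρ => φ (W ρ)) s - dbl N (fun ρ => φ (W' ρ)) s
          = dbl N (fun ρ => φ (W ρ) - φ (W' ρ)) s := dbl_sub hN (hφ.comp hW) (hφ.comp hW') s
      rw [← hdbl] at h3
      rw [← sub_div, abs_div, abs_of_pos (Real.exp_pos _ : 0 < E s), div_le_iff₀ (Real.exp_pos _),
        add_sub_add_left_eq_sub]
      refine h3.trans (le_of_eq ?_)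
      rw [show 2 * lam * N = 2 * L by rw [hlam]; field_simp]
      field_simp
    have hz : ∀ ρ, dist (z ρ) (z' ρ) ≤ dist z z' := fun ρ =>
      BoundedContinuousFunction.dist_coe_le_dist ρ
    have hp1 : ∀ ρ, |W1 z ρ - W1 z' ρ| ≤ dist z z' * E ρ := fun ρ => by
      rw [show W1 z ρ - W1 z' ρ = E ρ * ((z ρ).1 - (z' ρ).1) from (mul_sub _ _ _).symm, abs_mul,
        abs_of_pos (Real.exp_pos _ : 0 < E ρ), mul_comm]
      exact mul_le_mul_of_nonneg_right ((le_max_left _ _).trans (hz ρ)) (Real.exp_pos _).le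
    have hp2 : ∀ ρ, |W2 z ρ - W2 z' ρ| ≤ dist z z' * E ρ := fun ρ => by
      rw [show W2 z ρ - W2 z' ρ = E ρ * ((z ρ).2 - (z' ρ).2) from (mul_sub _ _ _).symm, abs_mul,
        abs_of_pos (Real.exp_pos _ : 0 < E ρ), mul_comm]
      exact mul_le_mul_of_nonneg_right ((le_max_right _ _).trans (hz ρ)) (Real.exp_pos _).le
    rw [show ((1 / 2 : NNReal) : ℝ) = 1 / 2 by norm_num, Prod.dist_eq]
    exact max_le (key f _ _ d.1 hfc (hW2 z) (hW2 z') hf hp2)
      (key g _ _ d.2 hgc (hW1 z) (hW1 z') hg hp1)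
  set z := ContractingWith.fixedPoint F hF
  have hz : F z = z := hF.fixedPoint_isFixedPt
  refine ⟨W1 z, W2 z, hW1 z, hW2 z, fun r hr => ?_⟩
  have e := congrArg (fun w : ℝ →ᵇ ℝ × ℝ => w r) hz
  simp only [F, BoundedContinuousFunction.coe_ofNormedAddCommGroup, max_eq_left hr] at e
  rw [Prod.ext_iff] at e
  have hpos : E r ≠ 0 := hE0 r
  constructor
  · show E r * (z r).1 = _
    rw [← e.1]; field_simp
  · show E r * (z r).2 = _
    rw [← e.2]; field_simp

end Vale.Agent.P100T
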