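import Mathlib

/-! # Smoothness in `z = r²` of solutions of the radial integral system -/

open Set Filter Topology MeasureTheory
open scoped Interval

noncomputable section

namespace Vale.Agent.P100T

/-- `∫₀¹ θ^k g(zθ²) dθ`. -/
def avg2 (k : ℝ) (g : ℝ → ℝ) (z : ℝ) : ℝ := ∫ θ in (0:ℝ)..1, θ ^ k * g (z * θ ^ 2)

variable {b k z : ℝ} {g g' : ℝ → ℝ}

lemma mem_dom (hb : 0 < b) (hz : -b < z) {θ : ℝ} (hθ : θ ∈ Icc (0:ℝ) 1) :
    z * θ ^ 2 ∈ Ioi (-b) := by
  have h1 : θ ^ 2 ≤ 1 := pow_le_one₀ hθ.1 hθ.2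
  rcases le_or_gt 0 z with h | h
  · exact (neg_neg_of_pos hb).trans_le (mul_nonneg h (sq_nonneg θ))
  · exact hz.trans_le (by nlinarith [mul_le_mul_of_nonpos_left h1 h.le])

lemma continuousOn_kernel (hb : 0 < b) (hk : 0 ≤ k) (hg : ContinuousOn g (Ioi (-b)))
    (hz : -b < z) : ContinuousOn (fun θ : ℝ => θ ^ k * g (z * θ ^ 2)) (Icc 0 1) :=
  (Real.continuous_rpow_const hk).continuousOn.mul
    (hg.comp (continuousOn_const.mul (continuousOn_pow 2)) fun _ hθ => mem_dom hb hz hθ)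

lemma continuousOn_avg2 (hb : 0 < b) (hk : 0 ≤ k) (hg : ContinuousOn g (Ioi (-b))) :
    ContinuousOn (avg2 k g) (Ioi (-b)) := by
  intro z (hz : -b < z)
  set c := max ((z - b) / 2) ((z - 3 * b) / 4)
  have hcb : -b < c := lt_max_of_lt_left (by linarith)
  have hgc : Continuous fun x => g (max x (min c 0)) := by
    refine hg.comp_continuous (continuous_id.max continuous_const) fun x => ?_
    exact lt_max_of_lt_right (lt_min hcb (by linarith))
  have hcont : Continuous (avg2 k fun x => g (max x (min c 0))) := by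
    refine intervalIntegral.continuous_parametric_intervalIntegral_of_continuous' ?_ 0 1
    exact ((Real.continuous_rpow_const hk).comp continuous_snd).mul
      (hgc.comp (continuous_fst.mul (continuous_snd.pow 2)))
  refine (hcont.continuousAt.congr ?_).continuousWithinAt
  have hcz : min c 0 < z ∨ z ≥ 0 := by
    rcases le_or_gt 0 z with h | h
    · exact Or.inr h
    · exact Or.inl ((min_le_left _ _).trans_lt (max_lt (by linarith) (by linarith)))
  have hev : ∀ᶠ x in 𝓝 z, min c 0 ≤ x ∨ 0 ≤ x := by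
    rcases hcz with h | h
    · filter_upwards [eventually_ge_nhds h] with x hx using Or.inl hx
    · rcases eq_or_lt_of_le (show 0 ≤ z from h) with h' | h'
      · have hc0 : c < 0 := max_lt (by linarith) (by linarith)
        filter_upwards [eventually_ge_nhds (show c < z by linarith)] with x hx
        exact Or.inl ((min_le_left _ _).trans hx)
      · filter_upwards [eventually_ge_nhds h'] with x hx using Or.inr hx
  filter_upwards [hev] with x hx
  refine intervalIntegral.integral_congr fun θ hθ => ?_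
  rw [uIcc_of_le zero_le_one] at hθ
  have h1 : θ ^ 2 ≤ 1 := pow_le_one₀ hθ.1 hθ.2
  have : min c 0 ≤ x * θ ^ 2 := by
    rcases le_or_gt 0 x with h | h
    · exact (min_le_right _ _).trans (mul_nonneg h (sq_nonneg θ))
    · rcases hx with hx | hx
      · nlinarith [mul_le_mul_of_nonpos_left h1 h.le]
      · linarith
  simp only [max_eq_left this]

lemma hasDerivAt_avg2 (hb : 0 < b) (hk : 0 ≤ k) (hg : ∀ x, -b < x → HasDerivAt g (g' x) x)
    (hg' : ContinuousOn g' (Ioi (-b))) (hz : -b < z) :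
    HasDerivAt (avg2 k g) (avg2 (k + 2) g' z) z := by
  have hgc : ContinuousOn g (Ioi (-b)) := fun x hx => (hg x hx).continuousAt.continuousWithinAt
  set w := (z + b) / 2 with hw
  have hw0 : 0 < w := by linarith
  set K := Icc (min (z - w) 0) (max (z + w) 0)
  have hK : K ⊆ Ioi (-b) := fun x hx =>
    (lt_min (show -b < z - w by linarith) (neg_neg_of_pos hb)).trans_le hx.1
  obtain ⟨C, hC⟩ := isCompact_Icc.exists_bound_of_continuousOn (hg'.mono hK)
  have hsub : ∀ x ∈ Ioo (z - w) (z + w), ∀ θ ∈ Icc (0:ℝ) 1, x * θ ^ 2 ∈ K := by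
    intro x hx θ hθ
    have h1 : θ ^ 2 ≤ 1 := pow_le_one₀ hθ.1 hθ.2
    rcases le_or_gt 0 x with h | h
    · exact ⟨(min_le_right _ _).trans (mul_nonneg h (sq_nonneg θ)),
        (mul_le_of_le_one_right h h1).trans (hx.2.le.trans (le_max_left _ _))⟩
    · exact ⟨(min_le_left _ _).trans (hx.1.le.trans (by nlinarith [mul_le_mul_of_nonpos_left h1 h.le])),
        (mul_nonpos_of_nonpos_of_nonneg h.le (sq_nonneg θ)).trans (le_max_right _ _)⟩
  have hI : Ι (0:ℝ) 1 = Ioc 0 1 := uIoc_of_le zero_le_one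
  have meas : ∀ {f : ℝ → ℝ}, ContinuousOn f (Icc 0 1) →
      AEStronglyMeasurable f (volume.restrict (Ι (0:ℝ) 1)) := fun hf => by
    rw [hI]; exact (hf.mono Ioc_subset_Icc_self).aestronglyMeasurable measurableSet_Ioc
  have e2 : ∀ θ ∈ Icc (0:ℝ) 1, θ ^ (k + 2) = θ ^ k * θ ^ 2 := fun θ hθ => by
    rw [← Real.rpow_natCast θ 2, ← Real.rpow_add' hθ.1 (by push_cast; linarith)]
    norm_num
  refine ((intervalIntegral.hasDerivAt_integral_of_dominated_loc_of_deriv_le
    (F := fun x θ => θ ^ k * g (x * θ ^ 2)) (F' := fun x θ => θ ^ (k + 2) * g' (x * θ ^ 2))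
    (bound := fun _ => C) (s := Ioo (z - w) (z + w)) (Ioo_mem_nhds (by linarith) (by linarith))
    ?_ ?_ ?_ ?_ intervalIntegrable_const ?_).2)
  · filter_upwards [Ioi_mem_nhds hz] with x hx
    exact meas (continuousOn_kernel hb hk hgc hx)
  · exact (continuousOn_kernel hb hk hgc hz).intervalIntegrable_of_Icc zero_le_one
  · exact meas (continuousOn_kernel hb (by linarith) hg' hz)
  · refine Eventually.of_forall fun θ hθ x hx => ?_
    rw [hI] at hθ
    rw [norm_mul, Real.norm_of_nonneg (Real.rpow_nonneg hθ.1.le _)]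
    exact (mul_le_of_le_one_left (norm_nonneg _)
      (Real.rpow_le_one hθ.1.le hθ.2 (by linarith))).trans
      (hC _ (hsub x hx θ (Ioc_subset_Icc_self hθ)))
  · refine Eventually.of_forall fun θ hθ x hx => ?_
    rw [hI] at hθ
    have hI' := Ioc_subset_Icc_self hθ
    refine (((hg _ (hK (hsub x hx θ hI'))).comp x
      ((hasDerivAt_id x).mul_const (θ ^ 2))).const_mul (θ ^ k)).congr_deriv ?_
    rw [e2 θ hI']; simp only [one_mul]; ring

lemma contDiffOn_avg2 (hb : 0 < b) : ∀ n : ℕ, ∀ k : ℝ, 0 ≤ k → ∀ g : ℝ → ℝ,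
    ContDiffOn ℝ n g (Ioi (-b)) → ContDiffOn ℝ n (avg2 k g) (Ioi (-b))
  | 0, k, hk, g, hg => contDiffOn_zero.2 (continuousOn_avg2 hb hk hg.continuousOn)
  | n + 1, k, hk, g, hg => by
    rw [Nat.cast_succ] at hg ⊢
    rw [contDiffOn_succ_iff_deriv_of_isOpen isOpen_Ioi] at hg ⊢
    have hd : ∀ x, -b < x → HasDerivAt (avg2 k g) (avg2 (k + 2) (deriv g) x) x := fun x hx =>
      hasDerivAt_avg2 hb hk
        (fun y hy => (hg.1.differentiableAt (Ioi_mem_nhds hy)).hasDerivAt) hg.2.2.continuousOn hx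
    refine ⟨fun x hx => (hd x hx).differentiableAt.differentiableWithinAt, ?_, ?_⟩
    · intro h; exact absurd h (WithTop.natCast_ne_top n)
    · exact (contDiffOn_avg2 hb n (k + 2) (by linarith) (deriv g) hg.2.2).congr
        fun x hx => (hd x hx).deriv

/-- Solutions of the integral system are smooth. -/
theorem contDiffOn_system {p q : ℝ} {P Q : ℝ → ℝ} (hb : 0 < b) (hk : 0 ≤ k)
    (hPc : ContinuousOn P (Ioi (-b))) (hQc : ContinuousOn Q (Ioi (-b)))
    (hP : ∀ x, -b < x → 0 < P x) (hQ : ∀ x, -b < x → 0 < Q x)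
    (dP : ∀ x, -b < x → HasDerivAt P (-(1/2) * avg2 k (fun y => Q y ^ p) x) x)
    (dQ : ∀ x, -b < x → HasDerivAt Q (-(1/2) * avg2 k (fun y => P y ^ q) x) x) :
    ∀ n : ℕ, ContDiffOn ℝ n P (Ioi (-b)) ∧ ContDiffOn ℝ n Q (Ioi (-b)) := by
  intro n
  induction n with
  | zero => exact ⟨contDiffOn_zero.2 hPc, contDiffOn_zero.2 hQc⟩
  | succ n ih =>
    have step : ∀ {F G : ℝ → ℝ} {a : ℝ}, ContDiffOn ℝ n G (Ioi (-b)) →
        (∀ x, -b < x → 0 < G x) →
        (∀ x, -b < x → HasDerivAt F (-(1/2) * avg2 k (fun y => G y ^ a) x) x) →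
        ContDiffOn ℝ (n + 1 : ℕ) F (Ioi (-b)) := by
      intro F G a hG hG0 dF
      rw [Nat.cast_succ, contDiffOn_succ_iff_deriv_of_isOpen isOpen_Ioi]
      refine ⟨fun x hx => (dF x hx).differentiableAt.differentiableWithinAt, ?_, ?_⟩
      · intro h; exact absurd h (WithTop.natCast_ne_top n)
      · exact ((contDiffOn_avg2 hb n k hk _
          (hG.rpow_const_of_ne fun x hx => (hG0 x hx).ne')).const_smul (-(1/2) : ℝ)).congr
          fun x hx => by rw [(dF x hx).deriv]; rfl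
    exact ⟨step ih.2 hQ dP, step ih.1 hP dQ⟩

/-- Extending a derivative to the one excluded point. -/
lemma hasDerivAt_fill {f g : ℝ → ℝ} {a c d : ℝ} (hca : c < a) (had : a < d)
    (hd : ∀ y ∈ Ioo c d, y ≠ a → HasDerivAt f (g y) y) (hf : ContinuousAt f a)
    (hg : ContinuousAt g a) : HasDerivAt f (g a) a := by
  have hl : ∀ᶠ y in 𝓝[<] a, deriv f y = g y := by
    filter_upwards [Ioo_mem_nhdsLT hca] with y hy
    exact (hd y ⟨hy.1, hy.2.trans had⟩ hy.2.ne).deriv
  have hr : ∀ᶠ y in 𝓝[>] a, deriv f y = g y := by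
    filter_upwards [Ioo_mem_nhdsGT had] with y hy
    exact (hd y ⟨hca.trans hy.1, hy.2⟩ hy.1.ne').deriv
  have A := hasDerivWithinAt_Ici_of_tendsto_deriv (s := Ioo a d)
    (fun y hy => (hd y ⟨hca.trans hy.1, hy.2⟩ hy.1.ne').differentiableAt.differentiableWithinAt)
    hf.continuousWithinAt (Ioo_mem_nhdsGT had)
    ((hg.mono_left nhdsWithin_le_nhds).congr' (hr.mono fun y h => h.symm))
  have B := hasDerivWithinAt_Iic_of_tendsto_deriv (s := Ioo c a)
    (fun y hy => (hd y ⟨hy.1, hy.2.trans had⟩ hy.2.ne).differentiableAt.differentiableWithinAt)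
    hf.continuousWithinAt (Ioo_mem_nhdsLT hca)
    ((hg.mono_left nhdsWithin_le_nhds).congr' (hl.mono fun y h => h.symm))
  simpa using B.union A

end Vale.Agent.P100T
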