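import Vale.Agent.P100T.PosCheck

/-!
Rational functions with denominators in a fixed list of positive factors. A formula written once
with generic `+ - *` is evaluated here to a numerator, whose coefficients `PosCheck.check` tests.
-/

namespace Vale.Agent.P100T.PosCheck

/-- `n` divided by the product of the factors with exponents `d`. -/
@[ext] structure RE where
  n : Ex
  d : List Nat

/-- Entrywise maximum of exponent lists. -/
def dmax : List Nat → List Nat → List Nat
  | [], b => b
  | a, [] => a
  | i :: a, j :: b => max i j :: dmax a b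

/-- Entrywise sum of exponent lists. -/
def dadd : List Nat → List Nat → List Nat
  | [], b => b
  | a, [] => a
  | i :: a, j :: b => (i + j) :: dadd a b

/-- Entrywise truncated difference of exponent lists. -/
def dsub : List Nat → List Nat → List Nat
  | [], _ => []
  | a, [] => a
  | i :: a, j :: b => (i - j) :: dsub a b

/-- Product of the factors with the given exponents. -/
def dprod {R : Type*} [CommRing R] : List R → List Nat → R
  | _, [] => 1
  | [], _ => 1
  | f :: fs, i :: d => f ^ i * dprod fs d

/-- Multiply by the factors with the given exponents. -/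
def lift : List Ex → List Nat → Ex → Ex
  | _, [], e => e
  | [], _, e => e
  | f :: fs, i :: d, e => lift fs d (if i = 0 then e else .mul e (.pow f i))

namespace RE

/-- An integer constant. -/
def num (k : Int) : RE := ⟨.num k, []⟩

/-- An expression without denominator. -/
def of (e : Ex) : RE := ⟨e, []⟩

/-- Sum over the least common denominator. -/
def add (fs : List Ex) (a b : RE) : RE :=
  let m := dmax a.d b.d
  ⟨.add (lift fs (dsub m a.d) a.n) (lift fs (dsub m b.d) b.n), m⟩

/-- Difference over the least common denominator. -/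
def sub (fs : List Ex) (a b : RE) : RE :=
  let m := dmax a.d b.d
  ⟨.sub (lift fs (dsub m a.d) a.n) (lift fs (dsub m b.d) b.n), m⟩

/-- Product. -/
def mul (a b : RE) : RE := ⟨.mul a.n b.n, dadd a.d b.d⟩

/-- Divide by a product of factors. -/
def div (a : RE) (d : List Nat) : RE := ⟨a.n, dadd a.d d⟩

/-- Value in a field. -/
noncomputable def val (fs : List Ex) (X Y Z : ℝ) (a : RE) : ℝ :=
  a.n.eval X Y Z / dprod (fs.map fun f => f.eval X Y Z) a.d

end RE

section

variable {fs : List Ex} {X Y Z : ℝ}

lemma dprod_nil {R : Type*} [CommRing R] : ∀ d : List Nat, dprod ([] : List R) d = 1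
  | [] => rfl
  | _ :: _ => rfl

lemma dprod_dadd {R : Type*} [CommRing R] : ∀ (g : List R) (a b : List Nat),
    dprod g (dadd a b) = dprod g a * dprod g b
  | g, [], b => by simp [dadd, dprod]
  | g, i :: a, [] => by simp [dadd, dprod]
  | [], i :: a, j :: b => by simp [dprod_nil]
  | f :: g, i :: a, j :: b => by simp only [dadd, dprod, dprod_dadd g a b, pow_add]; ring

lemma dprod_pos : ∀ (g : List ℝ) (d : List Nat), (∀ f ∈ g, 0 < f) → 0 < dprod g d
  | g, [], _ => by simp [dprod]
  | [], _ :: _, _ => by simp [dprod]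
  | f :: g, i :: d, h => mul_pos (pow_pos (h f (List.mem_cons_self ..)) i)
      (dprod_pos g d fun x hx => h x (List.mem_cons_of_mem _ hx))

lemma dprod_dsub {R : Type*} [CommRing R] : ∀ (g : List R) (a b : List Nat),
    dprod g (dsub (dmax a b) a) * dprod g a = dprod g (dmax a b) ∧
      dprod g (dsub (dmax a b) b) * dprod g b = dprod g (dmax a b)
  | g, [], [] => by simp [dmax, dsub, dprod]
  | g, [], j :: b => by
    refine ⟨by simp [dmax, dsub, dprod], ?_⟩
    show dprod g (dsub (j :: b) (j :: b)) * _ = dprod g (j :: b)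
    have e : ∀ (g : List R) (b : List Nat), dprod g (dsub b b) = 1 := by
      intro g b
      induction b generalizing g with
      | nil => simp [dsub, dprod]
      | cons k b ih => cases g <;> simp [dsub, dprod, ih]
    rw [e, one_mul]
  | g, i :: a, [] => by
    refine ⟨?_, by simp [dmax, dsub, dprod]⟩
    show dprod g (dsub (i :: a) (i :: a)) * _ = dprod g (i :: a)
    have e : ∀ (g : List R) (b : List Nat), dprod g (dsub b b) = 1 := by
      intro g b
      induction b generalizing g with
      | nil => simp [dsub, dprod]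
      | cons k b ih => cases g <;> simp [dsub, dprod, ih]
    rw [e, one_mul]
  | [], i :: a, j :: b => by simp [dprod_nil]
  | f :: g, i :: a, j :: b => by
    obtain ⟨h1, h2⟩ := dprod_dsub g a b
    simp only [dmax, dsub, dprod]
    constructor
    · rw [mul_mul_mul_comm, ← pow_add, h1, Nat.sub_add_cancel (le_max_left i j)]
    · rw [mul_mul_mul_comm, ← pow_add, h2, Nat.sub_add_cancel (le_max_right i j)]

lemma eval_lift : ∀ (fs : List Ex) (d : List Nat) (e : Ex),
    (lift fs d e).eval X Y Z = e.eval X Y Z * dprod (fs.map fun f => f.eval X Y Z) d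
  | fs, [], e => by cases fs <;> simp [lift, dprod]
  | [], i :: d, e => by simp [lift, dprod]
  | f :: fs, i :: d, e => by
    simp only [lift, List.map_cons, dprod]
    rw [eval_lift fs d]
    split_ifs with h
    · simp [h]
    · simp only [Ex.eval]; ring

variable (hfs : ∀ f ∈ fs, 0 < f.eval X Y Z)

include hfs in
lemma den_pos (d : List Nat) : 0 < dprod (fs.map fun f => f.eval X Y Z) d :=
  dprod_pos _ d (List.forall_mem_map.2 hfs)

include hfs in
lemma val_add (a b : RE) :
    (RE.add fs a b).val fs X Y Z = a.val fs X Y Z + b.val fs X Y Z := by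
  obtain ⟨h1, h2⟩ := dprod_dsub (fs.map fun f => f.eval X Y Z) a.d b.d
  have := den_pos hfs a.d; have := den_pos hfs b.d; have := den_pos hfs (dmax a.d b.d)
  simp only [RE.add, RE.val, Ex.eval, eval_lift, add_div]
  congr 1
  · rw [div_eq_div_iff (by positivity) (by positivity), ← h1]; ring
  · rw [div_eq_div_iff (by positivity) (by positivity), ← h2]; ring

include hfs in
lemma val_sub (a b : RE) :
    (RE.sub fs a b).val fs X Y Z = a.val fs X Y Z - b.val fs X Y Z := by
  obtain ⟨h1, h2⟩ := dprod_dsub (fs.map fun f => f.eval X Y Z) a.d b.d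
  have := den_pos hfs a.d; have := den_pos hfs b.d; have := den_pos hfs (dmax a.d b.d)
  simp only [RE.sub, RE.val, Ex.eval, eval_lift, sub_div]
  congr 1
  · rw [div_eq_div_iff (by positivity) (by positivity), ← h1]; ring
  · rw [div_eq_div_iff (by positivity) (by positivity), ← h2]; ring

lemma val_mul (a b : RE) : (RE.mul a b).val fs X Y Z = a.val fs X Y Z * b.val fs X Y Z := by
  simp only [RE.mul, RE.val, Ex.eval, dprod_dadd]
  rw [div_mul_div_comm]

lemma val_div (a : RE) (d : List Nat) :
    (a.div d).val fs X Y Z = a.val fs X Y Z / dprod (fs.map fun f => f.eval X Y Z) d := by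
  simp only [RE.div, RE.val, dprod_dadd, div_div]

lemma val_num (k : Int) : (RE.num k).val fs X Y Z = k := by
  simp [RE.num, RE.val, Ex.eval, dprod]

lemma val_of (e : Ex) : (RE.of e).val fs X Y Z = e.eval X Y Z := by
  simp [RE.of, RE.val, dprod]

include hfs in
/-- A value with checked numerator is nonnegative. -/
theorem val_nonneg {a : RE} (h : check a.n = true) (hX : 0 ≤ X) (hY : 0 ≤ Y) (hZ : 0 ≤ Z) :
    0 ≤ a.val fs X Y Z :=
  div_nonneg (nonneg_of_check h hX hY hZ) (den_pos hfs a.d).le

end

end Vale.Agent.P100T.PosCheck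

namespace Vale.Agent.P100T.PosCheck

/-- `RE` with a fixed factor list, carrying the arithmetic operations. -/
structure RQ (fs : List Ex) where
  re : RE

namespace RQ

variable {fs : List Ex}

instance : Add (RQ fs) := ⟨fun a b => ⟨RE.add fs a.re b.re⟩⟩
instance : Sub (RQ fs) := ⟨fun a b => ⟨RE.sub fs a.re b.re⟩⟩
instance : Mul (RQ fs) := ⟨fun a b => ⟨RE.mul a.re b.re⟩⟩
instance : IntCast (RQ fs) := ⟨fun k => ⟨RE.num k⟩⟩

/-- An expression without denominator. -/
def of (e : Ex) : RQ fs := ⟨RE.of e⟩

/-- Divide by a product of factors. -/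
def div (a : RQ fs) (d : List Nat) : RQ fs := ⟨a.re.div d⟩

/-- Value in the reals. -/
noncomputable def val (X Y Z : ℝ) (a : RQ fs) : ℝ := a.re.val fs X Y Z

variable {X Y Z : ℝ}

lemma val_cast (k : Int) : ((k : RQ fs)).val X Y Z = k := val_num k
lemma val_mul (a b : RQ fs) : (a * b).val X Y Z = a.val X Y Z * b.val X Y Z :=
  PosCheck.val_mul a.re b.re
lemma val_of (e : Ex) : (RQ.of e : RQ fs).val X Y Z = e.eval X Y Z := PosCheck.val_of e
lemma val_div (a : RQ fs) (d : List Nat) :
    (a.div d).val X Y Z = a.val X Y Z / dprod (fs.map fun f => f.eval X Y Z) d :=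
  PosCheck.val_div a.re d

variable (hfs : ∀ f ∈ fs, 0 < f.eval X Y Z)

include hfs in
lemma val_add (a b : RQ fs) : (a + b).val X Y Z = a.val X Y Z + b.val X Y Z :=
  PosCheck.val_add hfs a.re b.re

include hfs in
lemma val_sub (a b : RQ fs) : (a - b).val X Y Z = a.val X Y Z - b.val X Y Z :=
  PosCheck.val_sub hfs a.re b.re

include hfs in
lemma val_nonneg {a : RQ fs} (h : check a.re.n = true) (hX : 0 ≤ X) (hY : 0 ≤ Y) (hZ : 0 ≤ Z) :
    0 ≤ a.val X Y Z :=
  PosCheck.val_nonneg hfs h hX hY hZ

include hfs in
lemma val_pos {a : RQ fs} (h : check (.sub a.re.n (.num 1)) = true) (hX : 0 ≤ X) (hY : 0 ≤ Y)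
    (hZ : 0 ≤ Z) : 0 < a.val X Y Z := by
  have := nonneg_of_check h hX hY hZ
  simp only [Ex.eval, Int.cast_one] at this
  exact div_pos (by linarith) (den_pos hfs _)

end RQ

end Vale.Agent.P100T.PosCheck
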