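import Vale.Agent.P100T.AssemblyTail
import Vale.Agent.P100T.Tail

/-!
The margins near `τ = -∞` in the form required by `CPar.no_solution_of_curve`, for a curve that
agrees with an orbit there.
-/

open Filter Topology

noncomputable section

namespace Vale.Agent.P100T

variable {N p q τ₀ τ₁ c1 G : ℝ} {S R e Sc W z : ℝ → ℝ}

/-- The certificate parameters with `M = (N-4)/N + 2/((N-2)(p+1))`. -/
def tailPar (N p q c1 G : ℝ) : CPar :=
  ⟨N, p, q, (N - 4) / N + 2 / ((N - 2) * (p + 1)), c1, G, sInf' N p q⟩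

/-- The certificate constant `G` at `σ∞ = 1` satisfies the bound of `tailCert_le`. -/
lemma tail_G_le {N T : ℝ} (hN : 5 ≤ N) (hT : 1 ≤ T) (hT2 : (N - 2) * T ≤ N) :
    0 ≤ (23 / 50 + (T - 1) / T * (17 / 2 / N ^ 2 + 12000 / N ^ 6)) / ((T - 1) * (1 + 3 * (T - 1) / (T + 9)
      * (1 - 3 / 2 / N) + 3 * (T - 1) / (N + 1)) + 1 / (9 + N * (T - 1) / 2)) ∧
    (N - 2) * (1 + T) ^ 2 * ((23 / 50 + (T - 1) / T * (17 / 2 / N ^ 2 + 12000 / N ^ 6)) / ((T - 1) * (1 + 3 * (T - 1)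
      / (T + 9) * (1 - 3 / 2 / N) + 3 * (T - 1) / (N + 1)) + 1 / (9 + N * (T - 1) / 2)))
      ≤ 18 * (N - 2) + (N - 5) / 2 := by
  obtain ⟨n, hn, rfl⟩ : ∃ n : ℝ, 0 ≤ n ∧ N = n + 5 := ⟨N - 5, by linarith, by ring⟩
  obtain ⟨s, hs, hs1, rfl⟩ : ∃ s : ℝ, 0 ≤ s ∧ 0 ≤ 1 - s ∧ T = (n + 3 + 2 * s) / (n + 3) := by
    refine ⟨((n + 3) * T - (n + 3)) / 2, ?_, by linarith, ?_⟩
    · linarith [mul_nonneg (by linarith : 0 ≤ n + 3) (sub_nonneg.2 hT)]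
    · field_simp; ring
  set T := (n + 3 + 2 * s) / (n + 3) with hTd
  set v := T - 1 with hv
  have hv0 : 0 ≤ v := sub_nonneg.2 hT
  have hT0 : 0 < T := by linarith
  have h0 : (0 : ℝ) < n + 3 := by linarith
  set D := v * (1 + 3 * v / (T + 9) * (1 - 3 / 2 / (n + 5)) + 3 * v / (n + 5 + 1))
    + 1 / (9 + (n + 5) * v / 2) with hD
  have hN1 : 0 ≤ 1 - 3 / 2 / (n + 5) := by
    rw [sub_nonneg, div_le_one (by linarith)]; linarith
  have hDv : v + 1 / (9 + (n + 5) * v / 2) ≤ D := by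
    have : 0 ≤ v * (3 * v / (T + 9) * (1 - 3 / 2 / (n + 5)) + 3 * v / (n + 5 + 1)) := by positivity
    rw [hD]; linarith
  have hD0 : 0 < v + 1 / (9 + (n + 5) * v / 2) := by positivity
  refine ⟨div_nonneg (by positivity) (hD0.le.trans hDv), ?_⟩
  have hnum : 23 / 50 + v / T * (17 / 2 / (n + 5) ^ 2 + 12000 / (n + 5) ^ 6)
      ≤ 23 / 50 + v * (17 / 2 / (n + 5) ^ 2 + 12000 / (n + 5) ^ 6) :=
    add_le_add le_rfl (mul_le_mul_of_nonneg_right (div_le_self hv0 hT) (by positivity))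
  refine (mul_le_mul_of_nonneg_left (div_le_div₀ (by positivity) hnum hD0 hDv)
    (mul_nonneg (by linarith) (sq_nonneg _))).trans ?_
  rw [mul_div_assoc', div_le_iff₀ hD0]
  refine le_of_mul_le_mul_left ?_ (show 0 < (n + 5) ^ 6 * (n + 3) ^ 4 * (9 + (n + 5) * v / 2) by
    positivity)
  have key : (n + 5) ^ 6 * (n + 3) ^ 4 * (9 + (n + 5) * v / 2)
      * ((18 * (n + 5 - 2) + (n + 5 - 5) / 2) * (v + 1 / (9 + (n + 5) * v / 2)))
      - (n + 5) ^ 6 * (n + 3) ^ 4 * (9 + (n + 5) * v / 2)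
      * ((n + 5 - 2) * (1 + T) ^ 2 * (23 / 50 + v * (17 / 2 / (n + 5) ^ 2 + 12000 / (n + 5) ^ 6)))
      = (5467500 + (32612625/2) * n + 21893625 * n ^ 2 + (34942725/2) * n ^ 3 + 9209220 * n ^ 4 + (16836613/5) * n ^ 5 + (21793398/25) * n ^ 6 + (799101/5) * n ^ 7 + (101704/5) * n ^ 8 + (17121/10) * n ^ 9 + (429/5) * n ^ 10 + (97/50) * n ^ 11) * (1 - s) ^ 4
      + (277404750 + 810421875 * n + 1004203575 * n ^ 2 + 709179060 * n ^ 3 + 320680468 * n ^ 4 + (490621334/5) * n ^ 5 + (519056094/25) * n ^ 6 + (15113936/5) * n ^ 7 + (1464926/5) * n ^ 8 + (87891/5) * n ^ 9 + (2783/5) * n ^ 10 + (148/25) * n ^ 11) * s * (1 - s) ^ 3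
      + (774589500 + 2371519125 * n + 2982459900 * n ^ 2 + 2106525045 * n ^ 3 + 945486856 * n ^ 4 + (1428667066/5) * n ^ 5 + (1484916536/25) * n ^ 6 + (210703578/25) * n ^ 7 + (3924812/5) * n ^ 8 + (1097713/25) * n ^ 9 + (29708/25) * n ^ 10 + (153/25) * n ^ 11) * s ^ 2 * (1 - s) ^ 2
      + (713857500 + 2350228125 * n + 3026919875 * n ^ 2 + 2151200400 * n ^ 3 + 964759140 * n ^ 4 + (1451972682/5) * n ^ 5 + (1499357042/25) * n ^ 6 + (210642512/25) * n ^ 7 + (19306424/25) * n ^ 8 + 41929 * n ^ 9 + (26251/25) * n ^ 10 + (56/25) * n ^ 11) * s ^ 3 * (1 - s)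
      + (209127750 + (1542413125/2) * n + 1026206425 * n ^ 2 + (1472494105/2) * n ^ 3 + 330721432 * n ^ 4 + (497080817/5) * n ^ 5 + (511701502/25) * n ^ 6 + (71513109/25) * n ^ 7 + (6498474/25) * n ^ 8 + (694329/50) * n ^ 9 + (8313/25) * n ^ 10 + (1/10) * n ^ 11) * s ^ 4 := by
    have : 9 + (n + 5) * v / 2 ≠ 0 := by positivity
    field_simp
    rw [hv, hTd]
    field_simp
    ring
  refine sub_nonneg.1 (key ▸ ?_)
  positivity

/-- The final certificate constant `G` at `σ∞ = 1` satisfies the bound of `tailCert_le`;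
at `T = 1` its common factor `T - 1` is cancelled. -/
lemma tail_G57_le {N T : ℝ} (hN : 5 ≤ N) (hT : 1 ≤ T) (hT2 : (N - 2) * T ≤ N) :
    0 ≤ (4 / 25 + 15 / (2 * N ^ 2)) / ((T - 1 + 19 / 84 - 5 / (7 * N)) * (1 + 6 * T / (5 * N))) ∧
    (N - 2) * (1 + T) ^ 2 * ((4 / 25 + 15 / (2 * N ^ 2))
      / ((T - 1 + 19 / 84 - 5 / (7 * N)) * (1 + 6 * T / (5 * N))))
      ≤ 18 * (N - 2) + (N - 5) / 2 := by
  obtain ⟨n, hn, rfl⟩ : ∃ n : ℝ, 0 ≤ n ∧ N = n + 5 := ⟨N - 5, by linarith, by ring⟩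
  obtain ⟨s, hs, hs1, rfl⟩ : ∃ s : ℝ, 0 ≤ s ∧ 0 ≤ 1 - s ∧ T = (n + 3 + 2 * s) / (n + 3) := by
    refine ⟨((n + 3) * T - (n + 3)) / 2, ?_, by linarith, ?_⟩
    · linarith [mul_nonneg (by linarith : 0 ≤ n + 3) (sub_nonneg.2 hT)]
    · field_simp; ring
  set T := (n + 3 + 2 * s) / (n + 3) with hTd
  have h0 : (0 : ℝ) < n + 3 := by linarith
  have hN0 : (0 : ℝ) < n + 5 := by linarith
  have hb : 0 < T - 1 + 19 / 84 - 5 / (7 * (n + 5)) := by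
    have : 5 / (7 * (n + 5)) ≤ 5 / 35 := div_le_div_of_nonneg_left (by norm_num) (by norm_num)
      (by linarith)
    linarith
  have hc : (1 : ℝ) + 6 / (5 * (n + 5)) ≤ 1 + 6 * T / (5 * (n + 5)) := by
    have := div_le_div_of_nonneg_right (show (6 : ℝ) ≤ 6 * T by linarith)
      (show (0 : ℝ) ≤ 5 * (n + 5) by linarith)
    linarith
  have hd0 : 0 < (T - 1 + 19 / 84 - 5 / (7 * (n + 5))) * (1 + 6 / (5 * (n + 5))) := by positivity
  have hd := mul_le_mul_of_nonneg_left hc hb.le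
  refine ⟨div_nonneg (by positivity) (hd0.le.trans hd), ?_⟩
  refine (mul_le_mul_of_nonneg_left (div_le_div_of_nonneg_left (by positivity) hd0 hd)
    (mul_nonneg (by linarith) (sq_nonneg _))).trans ?_
  rw [mul_div_assoc', div_le_iff₀ hd0]
  refine le_of_mul_le_mul_left ?_ (show 0 < 21000 * (n + 5) ^ 2 * (n + 3) ^ 2 by positivity)
  have key : 21000 * (n + 5) ^ 2 * (n + 3) ^ 2 * ((18 * (n + 5 - 2) + (n + 5 - 5) / 2)
      * ((T - 1 + 19 / 84 - 5 / (7 * (n + 5))) * (1 + 6 / (5 * (n + 5)))))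
      - 21000 * (n + 5) ^ 2 * (n + 3) ^ 2
      * ((n + 5 - 2) * (1 + T) ^ 2 * (4 / 25 + 15 / (2 * (n + 5) ^ 2)))
      = (283500 + 15464025 * n + 17311170 * n ^ 2 + 7098020 * n ^ 3 + 1235090 * n ^ 4 + 74435 * n ^ 5) * (1 - s) ^ 2
      + (194103000 + 235690650 * n + 113235420 * n ^ 2 + 27067360 * n ^ 3 + 3220300 * n ^ 4 + 148870 * n ^ 5) * s * (1 - s)
      + (190921500 + 218857425 * n + 95749530 * n ^ 2 + 19955900 * n ^ 3 + 1985210 * n ^ 4 + 74435 * n ^ 5) * s ^ 2 := by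
    rw [hTd]
    field_simp
    ring
  refine sub_nonneg.1 (key ▸ ?_)
  positivity

/-- The constant `G` with the factor `1 + 69/(5(N²-12))` still satisfies the bound of `tailCert_le`
for `N ≥ 6`. -/
lemma tail_G67_le {N T : ℝ} (hN : 6 ≤ N) (hT : 1 ≤ T) (hT2 : (N - 2) * T ≤ N) :
    0 ≤ (4 / 25 + 15 / (2 * N ^ 2)) * (1 + 69 / (5 * (N ^ 2 - 12)))
        / ((T - 1 + 19 / 84 - 5 / (7 * N)) * (1 + 6 * T / (5 * N))) ∧
    (N - 2) * (1 + T) ^ 2 * ((4 / 25 + 15 / (2 * N ^ 2)) * (1 + 69 / (5 * (N ^ 2 - 12)))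
      / ((T - 1 + 19 / 84 - 5 / (7 * N)) * (1 + 6 * T / (5 * N))))
      ≤ 18 * (N - 2) + (N - 5) / 2 := by
  obtain ⟨n, hn, rfl⟩ : ∃ n : ℝ, 0 ≤ n ∧ N = n + 6 := ⟨N - 6, by linarith, by ring⟩
  obtain ⟨s, hs, hs1, rfl⟩ : ∃ s : ℝ, 0 ≤ s ∧ 0 ≤ 1 - s ∧ T = (n + 4 + 2 * s) / (n + 4) := by
    refine ⟨((n + 4) * T - (n + 4)) / 2, ?_, by linarith, ?_⟩
    · linarith [mul_nonneg (by linarith : 0 ≤ n + 4) (sub_nonneg.2 hT)]
    · field_simp; ring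
  set T := (n + 4 + 2 * s) / (n + 4) with hTd
  have h0 : (0 : ℝ) < n + 4 := by linarith
  have hN0 : (0 : ℝ) < n + 6 := by linarith
  have h4 : (0 : ℝ) < (n + 6) ^ 2 - 12 := by nlinarith
  have hb : 0 < T - 1 + 19 / 84 - 5 / (7 * (n + 6)) := by
    have : 5 / (7 * (n + 6)) ≤ 5 / 42 := div_le_div_of_nonneg_left (by norm_num) (by norm_num)
      (by linarith)
    linarith
  have hc : (1 : ℝ) + 6 / (5 * (n + 6)) ≤ 1 + 6 * T / (5 * (n + 6)) := by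
    have := div_le_div_of_nonneg_right (show (6 : ℝ) ≤ 6 * T by linarith)
      (show (0 : ℝ) ≤ 5 * (n + 6) by linarith)
    linarith
  have hd0 : 0 < (T - 1 + 19 / 84 - 5 / (7 * (n + 6))) * (1 + 6 / (5 * (n + 6))) := by positivity
  have hd := mul_le_mul_of_nonneg_left hc hb.le
  have hf : 0 ≤ (4 / 25 + 15 / (2 * (n + 6) ^ 2)) * (1 + 69 / (5 * ((n + 6) ^ 2 - 12))) := by positivity
  refine ⟨div_nonneg hf (hd0.le.trans hd), ?_⟩
  refine (mul_le_mul_of_nonneg_left (div_le_div_of_nonneg_left hf hd0 hd)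
    (mul_nonneg (by linarith) (sq_nonneg _))).trans ?_
  rw [mul_div_assoc', div_le_iff₀ hd0]
  refine le_of_mul_le_mul_left ?_
    (show 0 < 8400 * (n + 6) ^ 2 * (n + 4) ^ 2 * (5 * ((n + 6) ^ 2 - 12)) by positivity)
  have key : 8400 * (n + 6) ^ 2 * (n + 4) ^ 2 * (5 * ((n + 6) ^ 2 - 12))
      * ((18 * (n + 6 - 2) + (n + 6 - 5) / 2)
      * ((T - 1 + 19 / 84 - 5 / (7 * (n + 6))) * (1 + 6 / (5 * (n + 6)))))
      - 8400 * (n + 6) ^ 2 * (n + 4) ^ 2 * (5 * ((n + 6) ^ 2 - 12))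
      * ((n + 6 - 2) * (1 + T) ^ 2
        * ((4 / 25 + 15 / (2 * (n + 6) ^ 2)) * (1 + 69 / (5 * ((n + 6) ^ 2 - 12)))))
      = (22892544 + 2915951616 * n + 3561741312 * n ^ 2 + 1787236608 * n ^ 3 + 468551824 * n ^ 4 + 67341756 * n ^ 5 + 5000970 * n ^ 6 + 148870 * n ^ 7) * (1 - s) ^ 2
      + (22607631360 + 36343337472 * n + 23489382720 * n ^ 2 + 8050154496 * n ^ 3 + 1596746240 * n ^ 4 + 184429992 * n ^ 5 + 11502180 * n ^ 6 + 297740 * n ^ 7) * s * (1 - s)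
      + (22247913600 + 33187479840 * n + 19860258624 * n ^ 2 + 6253222944 * n ^ 3 + 1127441776 * n ^ 4 + 117061356 * n ^ 5 + 6501210 * n ^ 6 + 148870 * n ^ 7) * s ^ 2 := by
    rw [hTd]
    field_simp
    ring
  refine sub_nonneg.1 (key ▸ ?_)
  positivity

/-- The two tail requirements of `CPar.IsCurveCert`. -/
def TailCert (C : CPar) (S W z : ℝ → ℝ) : Prop :=
  (∃ m0 K0, 0 < m0 ∧ ∀ᶠ τ in atBot, CPar.At C (S τ) (W τ) (z τ) m0 K0) ∧
    ∀ᶠ τ in atBot, C.a (S τ) (W τ) ≤ C.wexp * C.q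

lemma tailPar_adm (hN : 4 < N) (hp : 0 < p) (hq : 0 < q)
    (hcrit : N / (p + 1) + N / (q + 1) = N - 2) : (tailPar N p q c1 G).Adm :=
  ⟨hN, hp, hq, crit_prod hp hq hcrit⟩

lemma tailCert_of_margins (h : IsOrbit N p q τ₀ S R e) (hN : 4 < N) (hp : 0 < p) (hq : 0 < q)
    (hcrit : N / (p + 1) + N / (q + 1) = N - 2)
    (hs : ∀ᶠ τ in atBot, Sc τ = S τ ∧ W τ = orbW S R τ ∧ z τ = 1 / R τ)
    (hm : ∃ a K τ₂, 0 < a ∧ a ≤ K ∧ τ₂ ≤ τ₁ ∧
      ∀ τ ≤ τ₂, TailMargins (tailPt N p q c1 G S R τ) a K ∧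
        (tailPt N p q c1 G S R τ).a ≤ ((N - 4) / N + 2 / ((N - 2) * (p + 1))) * (N / 2) * q) :
    TailCert (tailPar N p q c1 G) Sc W z := by
  obtain ⟨a, K, τ₂, ha, -, -, hall⟩ := hm
  have hA := tailPar_adm (c1 := c1) (G := G) hN hp hq hcrit
  set C := tailPar N p q c1 G
  have key : ∀ᶠ τ in atBot, CPar.At C (Sc τ) (W τ) (z τ) a K ∧
      C.a (Sc τ) (W τ) ≤ C.wexp * C.q := by
    filter_upwards [hs, eventually_le_atBot τ₂, eventually_lt_atBot τ₀] with τ he hτ hτ0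
    obtain ⟨e1, e2, e3⟩ := he
    obtain ⟨hM, hla⟩ := hall τ hτ
    rw [e1, e2, e3]
    have hR := h.R_pos τ hτ0
    have hz : (1 : ℝ) / R τ ≠ 0 := (one_div_pos.2 hR).ne'
    have hpt : C.pt (S τ) (orbW S R τ) (1 / R τ) = tailPt N p q c1 G S R τ := by
      simp only [CPar.pt, C, tailPar, tailPt, CPar.c, CPar.c', CPar.L, CPar.V, orbW, Pt.mk.injEq,
        true_and, and_true]
      constructor <;> field_simp
      ring
    have nN : C.N ≠ 0 := by linarith [hA.hN]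
    have np : C.p + 1 ≠ 0 := by linarith [hA.hp]
    have nq : C.q + 1 ≠ 0 := by linarith [hA.hq]
    have nK : C.K (S τ) ≠ 0 := (CPar.K_pos hA (by linarith [h.one_lt τ hτ0])).ne'
    have nL : C.L (S τ) ≠ 0 := (h.tailPt_good (by linarith) hp hq hcrit c1 G hτ0).hL
    have eabs : (1 : ℝ) + |1 / R τ| = (R τ + 1) / R τ := by
      rw [abs_of_pos (one_div_pos.2 hR)]; field_simp
    have eR : (tailPt N p q c1 G S R τ).R = R τ := rfl
    have eNe := CPar.pt_El (W := orbW S R τ) hz nN np nq nK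
    rw [hpt, eR] at eNe
    have ea := CPar.pt_a (W := orbW S R τ) hz nN np nq nK
    have e0 := CPar.pt_P0 (W := orbW S R τ) hz nN np nq nK
    have e2' := CPar.pt_P2 (W := orbW S R τ) hz nN np nq nK
    have e1' := CPar.pt_P1 (W := orbW S R τ) hz nN np nq nK
    have ek := CPar.pt_kX (W := orbW S R τ) hz nN np nq nK
    have er := CPar.pt_rho (W := orbW S R τ) hz nN np nq nK nL
    rw [hpt] at ea e0 e2' e1' ek er
    have hl := hM.hl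
    rw [eR] at hl
    refine ⟨⟨hM.hσ, ea ▸ hM.ha, ?_, ek ▸ hM.hkX, e2' ▸ hM.h2K, ?_, e2' ▸ hM.h2, ?_, er ▸ hM.hρ, ?_⟩, ?_⟩
    · rwa [eNe] at hl
    · rw [eabs, ← e0, ← eR]; exact hM.h0K
    · rw [eabs, ← e0, ← e1', ← e2', ← eR]; exact hM.hd
    · refine hM.hdet.trans (le_of_eq ?_)
      rw [eR, eabs, show (tailPt N p q c1 G S R τ).N * (tailPt N p q c1 G S R τ).e
        = C.l (S τ) (orbW S R τ) + R τ by linarith]
      field_simp
      ring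
    · rw [← ea, hA.wexp_eq]; exact hla
  exact ⟨⟨a, K, ha, key.mono fun _ h => h.1⟩, key.mono fun _ h => h.2⟩

/-- The tail for `σ∞ > 1`. -/
theorem tailCert_gt (h : IsOrbit N p q τ₀ S R e) (hN : 4 < N) (hp : 0 < p) (hq : 0 < q)
    (hcrit : N / (p + 1) + N / (q + 1) = N - 2) (hq2 : 2 < (N - 2) * q)
    (hτ₁ : τ₁ < τ₀) (hW : ∀ τ ≤ τ₁, 0 ≤ orbW S R τ)
    (hs : ∀ᶠ τ in atBot, Sc τ = S τ ∧ W τ = orbW S R τ ∧ z τ = 1 / R τ)
    (hss : N * (q + 1) < (N - 2) * (p + 1)) {δ : ℝ} (hc1 : c1 = -N / (2 * (N - 2)) - δ)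
    (hδ : 0 < δ) (hδ1 : 20 * N * δ * ((p + 1) / (q + 1)) ≤ 1) :
    TailCert (tailPar N p q c1 G) Sc W z :=
  tailCert_of_margins h hN hp hq hcrit hs
    (h.tail_margins_gt hN.le hp hq hcrit hq2 hτ₁ hW hss hc1 hδ hδ1)

/-- The tail for `σ∞ = 1`. -/
theorem tailCert_le (h : IsOrbit N p q τ₀ S R e) (hN : 5 ≤ N) (hp : 0 < p) (hq : 0 < q)
    (hcrit : N / (p + 1) + N / (q + 1) = N - 2) (hτ₁ : τ₁ < τ₀)
    (hW : ∀ τ ≤ τ₁, 0 ≤ orbW S R τ)
    (hs : ∀ᶠ τ in atBot, Sc τ = S τ ∧ W τ = orbW S R τ ∧ z τ = 1 / R τ)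
    (hss : (N - 2) * (p + 1) ≤ N * (q + 1))
    (hc1 : c1 = -((N - 1) * (p + 1) / ((N - 2) * (p + q + 2)))) (hG : 0 ≤ G)
    (hG1 : (N - 2) * (1 + (p + 1) / (q + 1)) ^ 2 * G ≤ 18 * (N - 2) + (N - 5) / 2) :
    TailCert (tailPar N p q c1 G) Sc W z :=
  tailCert_of_margins h (by linarith) hp hq hcrit hs
    (h.tail_margins_le hN hp hq hcrit hτ₁ hW hss hc1 hG hG1)

end Vale.Agent.P100T
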