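import Vale.Agent.P100T.TailCert

/-!
The tail for `N ∈ [5, 26/5]`, `T ≤ 2`: constant `c`, and `M = (N-4)/N + (1+m) 2/((N-2)(p+1))`
with `0 ≤ m ≤ 5(T-1)/(10+7(T-1))`.
-/

open Filter Topology

noncomputable section

namespace Vale.Agent.P100T

namespace TailFive

variable {N p q τ₀ τ₁ : ℝ} {S R e : ℝ → ℝ}

/-- The certificate parameters. -/
def par (N p q m c1 : ℝ) : CPar :=
  ⟨N, p, q, (N - 4) / N + (1 + m) * (2 / ((N - 2) * (p + 1))), c1, 0, sInf' N p q⟩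

/-- The orbit as a family of calibrated points. -/
def pt (N p q M c1 : ℝ) (S R : ℝ → ℝ) (τ : ℝ) : Pt :=
  ⟨N, p, q, S τ, R τ, Real.exp τ, M, c1, 0⟩

lemma pt_good (h : IsOrbit N p q τ₀ S R e) (hN : 2 < N) (hp : 0 < p) (hq : 0 < q)
    (hcrit : N / (p + 1) + N / (q + 1) = N - 2) (M c1 : ℝ) {τ : ℝ} (hτ : τ < τ₀) :
    (pt N p q M c1 S R τ).Good := by
  obtain ⟨a1, a2, a3, a4, a5, a6, a7⟩ := h.tailPt_good hN hp hq hcrit c1 0 hτ
  exact ⟨a1, a2, a3, a4, a5, a6, a7⟩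

lemma disc_gt {N ε α z : ℝ} (hN : 5 ≤ N) (hN2 : N ≤ 26 / 5) (he : 0 ≤ ε) (he2 : ε ≤ 11 / 100)
    (ha : 0 ≤ α) (ha2 : α ≤ 4 / 5) (hz : 17 / 10 ≤ z) :
    0 < N * (N / 2 + ε) * (2 - α) - (N - 1) / 4 * (4 - α + 2 * ε) ^ 2 ∧
    (N - 2) ^ 2 * (2 + ε - α / 2) ^ 2
      < 4 * (N * (N / 2 + ε) * (2 - α) - (N - 1) / 4 * (4 - α + 2 * ε) ^ 2) * z := by
  set X := N * (N / 2 + ε) * (2 - α) - (N - 1) / 4 * (4 - α + 2 * ε) ^ 2 with hX
  have hX0 : 0 < X := by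
    rw [hX]
    nlinarith [mul_nonneg ha (sub_nonneg.2 ha2), mul_nonneg he (sub_nonneg.2 he2),
      mul_nonneg (sub_nonneg.2 hN) ha, mul_nonneg (sub_nonneg.2 hN) he]
  refine ⟨hX0, lt_of_lt_of_le ?_ (mul_le_mul_of_nonneg_left hz (by positivity))⟩
  rw [hX]
  nlinarith [mul_nonneg ha (sub_nonneg.2 ha2), mul_nonneg he (sub_nonneg.2 he2),
    mul_nonneg (sub_nonneg.2 hN) ha, mul_nonneg (sub_nonneg.2 hN) he,
    mul_nonneg (sub_nonneg.2 hN2) ha, mul_nonneg (sub_nonneg.2 hN2) he, mul_nonneg ha he]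

/-- A concave quadratic is positive between two points where it is positive. -/
lemma quad_pos {a b c x l u : ℝ} (ha : a ≤ 0) (hl : l ≤ x) (hu : x ≤ u)
    (h0 : 0 < a * l ^ 2 + b * l + c) (h1 : 0 < a * u ^ 2 + b * u + c) :
    0 < a * x ^ 2 + b * x + c := by
  by_contra hn
  push Not at hn
  rcases eq_or_lt_of_le hl with rfl | hl'
  · linarith
  nlinarith [mul_nonneg (mul_nonneg (neg_nonneg.2 ha) (sub_nonneg.2 hl)) (sub_nonneg.2 hu),
    mul_le_mul_of_nonneg_left hn (show (0:ℝ) ≤ u - l by linarith),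
    mul_pos h1 (sub_pos.2 hl'), mul_nonneg h0.le (sub_nonneg.2 hu)]

/-- The discriminant at `σ∞ = 1`. -/
def fle (N T β : ℝ) : ℝ :=
  (4 * N * T * (1 + T) * (2 - β) - ((N + 2) * T - N + 4 - β * (1 + T)) ^ 2) * (2 * T ^ 2 - 1)
    - ((N + 2) * T - N + 4 - 2 * T * (N - (N - 2) * T) - β * (1 + T)) ^ 2

lemma fle_corner {T : ℝ} (hT : 1 ≤ T) (hT2 : T ≤ 5 / 3) :
    0 < fle 5 T 0 ∧ 0 < fle 5 T 1 ∧ 0 < fle (26 / 5) T 0 ∧ 0 < fle (26 / 5) T 1 := by
  have h := mul_nonneg (sub_nonneg.2 hT) (sub_nonneg.2 hT2)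
  refine ⟨?_, ?_, ?_, ?_⟩ <;>
  · unfold fle
    nlinarith [mul_nonneg h h, mul_nonneg h (sub_nonneg.2 hT), mul_nonneg h (sub_nonneg.2 hT2)]

lemma disc_le {N T β : ℝ} (hN : 5 ≤ N) (hN2 : N ≤ 26 / 5) (hT : 1 ≤ T) (hT2 : T ≤ 5 / 3)
    (hb : 0 ≤ β) (hb2 : β ≤ 1) : 0 < fle N T β := by
  have hS : 0 ≤ 2 * T ^ 2 - 1 := by nlinarith
  obtain ⟨c1, c2, c3, c4⟩ := fle_corner hT hT2
  have key : ∀ b, 0 < fle 5 T b → 0 < fle (26 / 5) T b → 0 < fle N T b := fun b e1 e2 => by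
    set u := (T - 1) with hu
    set w := 2 * T + 4 - b * (1 + T) with hw
    set v := 2 * T ^ 2 - T - 1 with hv
    set z := 2 * T + 4 - 4 * T ^ 2 - b * (1 + T) with hz
    have e : ∀ n, fle n T b = (-(u ^ 2 * (2 * T ^ 2 - 1)) - v ^ 2) * n ^ 2
        + ((4 * T * (1 + T) * (2 - b) - 2 * u * w) * (2 * T ^ 2 - 1) - 2 * v * z) * n
        + (-(w ^ 2) * (2 * T ^ 2 - 1) - z ^ 2) := fun n => by
      simp only [fle, hu, hw, hv, hz]; ring
    rw [e] at e1 e2 ⊢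
    exact quad_pos (by nlinarith [mul_nonneg (sq_nonneg u) hS, sq_nonneg v]) hN hN2 e1 e2
  set u := (N + 2) * T - N + 4 with hu
  set z := (N + 2) * T - N + 4 - 2 * T * (N - (N - 2) * T) with hz
  have e : ∀ b, fle N T b = (-((1 + T) ^ 2 * (2 * T ^ 2 - 1)) - (1 + T) ^ 2) * b ^ 2
      + ((-(4 * N * T * (1 + T)) + 2 * u * (1 + T)) * (2 * T ^ 2 - 1) + 2 * z * (1 + T)) * b
      + ((8 * N * T * (1 + T) - u ^ 2) * (2 * T ^ 2 - 1) - z ^ 2) := fun b => by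
    simp only [fle, hu, hz]; ring
  have g0 := key 0 c1 c3
  have g1 := key 1 c2 c4
  rw [e] at g0 g1 ⊢
  exact quad_pos (by nlinarith [mul_nonneg (sq_nonneg (1 + T)) hS, sq_nonneg (1 + T)]) hb hb2 g0 g1
/-- The limit point when `σ∞ > 1`. -/
lemma gt_point {N p q T c1 δ ss M m : ℝ} {Q : Pt} (hN : 5 ≤ N) (hN2 : N ≤ 26 / 5) (hp : 0 < p)
    (hq2 : 2 < (N - 2) * q) (hT : 0 < T) (hTd : T = (p + 1) / (q + 1))
    (hpT : p = N * (1 + T) / (N - 2) - 1) (hqT : q = N * (1 + T) / ((N - 2) * T) - 1)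
    (hc1 : c1 = -N / (2 * (N - 2)) - δ) (hδ : δ = 7 / 50 * (ss - 1)) (hTle : T ≤ 2)
    (hm : 0 ≤ m) (hm1 : 5 * N * m ≤ 4 * T)
    (hssd : ss = (N - 2) * T / N) (hs1 : 1 < ss) (hTs : ss < T)
    (hM : M = (N - 4) / N + (1 + m) * (2 / ((N - 2) * (p + 1)))) (hQ : Q = ⟨N, p, q, ss, ss - 1, 0, M, c1, 0⟩) :
    0 < Q.N * Q.e ∧ 0 < Q.P2 ∧
      (Q.P0' * ((Q.R + 1) / Q.R)) ^ 2 < 4 * Q.P2 * (Q.P0 * ((Q.R + 1) / Q.R) ^ 2) ∧
      0 < Q.rhoR / Q.R ∧ Q.a = (N - 4) / (N - 2) + N * m / ((N - 2) * T) := by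
  have hh : (0:ℝ) < N - 2 := by linarith
  have eV : Q.V = ss * (ss - 1) := by simp only [hQ, Pt.V]; ring
  have eW : Q.W = 0 := by rw [Pt.W, eV]; simp only [hQ]; ring
  have ene : N ≠ 0 ∧ N - 2 ≠ 0 ∧ T ≠ 0 := ⟨by linarith, by linarith, hT.ne'⟩
  obtain ⟨nN, nh, nT⟩ := ene
  have eK : Q.K = 2 * (N - 1) * (1 + T) / (N - 2) := by
    simp only [hQ, Pt.K, hssd]; rw [hpT, hqT]; field_simp; ring
  have eL : Q.L = 2 * (1 + T) / (N - 2) := by
    simp only [hQ, Pt.L, hssd]; rw [hpT, hqT]; field_simp; ring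
  have nT1 : 1 + T ≠ 0 := by linarith
  have nN1 : N - 1 ≠ 0 := by linarith
  have emu : Q.mu = N * (1 + T) / (2 * (N - 2) * T) := by
    simp only [Pt.mu, eK]; simp only [hQ]; rw [hpT, hqT]; field_simp; ring
  have ee : Q.e = T / N := by
    simp only [Pt.e, eK]; simp only [hQ, hssd]; rw [hpT, hqT]; field_simp; ring
  have ebe : Q.be1 = (N - 2) * T / (N * (1 + T)) - 1 := by
    simp only [Pt.be1, ee]; simp only [hQ]; rw [hpT]; field_simp; ring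
  have ece : Q.ce - Q.c = (ss - 1) / ((N - 2) * T) + δ := by
    simp only [Pt.ce, emu, ebe]; simp only [hQ, hssd, hc1]; rw [hpT]; field_simp; ring
  have eE1 : Q.E1 = 0 := by
    simp only [Pt.E1, ee]; simp only [hQ, hssd]; field_simp; ring
  have eKp : Q.Kp = 0 := by
    simp only [Pt.Kp, ee, eE1]; simp only [hQ, hssd]; rw [hqT]; field_simp; ring
  have ea : Q.a = (N - 4) / (N - 2) + N * m / ((N - 2) * T) := by
    simp only [Pt.a, Pt.H, eL, ee, emu]; simp only [hQ, hssd, hM]; rw [hpT, hqT]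
    field_simp; ring
  set ε := (N - 2) * δ with hε
  set α := N * m / T with hα
  set X := N * (N / 2 + ε) * (2 - α) - (N - 1) / 4 * (4 - α + 2 * ε) ^ 2 with hX
  have e2 : Q.P2 = X / ((N - 2) ^ 2 * N) := by
    simp only [Pt.P2, ea]; simp only [hQ, hc1, hX, hε, hα]; field_simp; ring
  have e1 : Q.P0' = ss * (ss - 1) * ((2 + ε - α / 2) / (N - 2)) / T := by
    simp only [Pt.P0', eV, eW, ea, emu]; simp only [hQ, hc1, hε, hα]; rw [hpT]; field_simp; ring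
  have hu : 0 < ss - 1 := sub_pos.2 hs1
  have hδ0 : 0 ≤ δ := by rw [hδ]; positivity
  have hε0 : 0 ≤ ε := mul_nonneg hh.le hδ0
  have hε1 : ε ≤ 11 / 100 := by
    have h1 : (N - 2) * T ≤ (N - 2) * 2 := mul_le_mul_of_nonneg_left hTle hh.le
    have h2 : ss - 1 ≤ (N - 4) / N := by
      rw [hssd, le_div_iff₀ (by linarith), sub_mul, div_mul_cancel₀ _ nN]; linarith
    rw [hε, hδ]
    have h3 : (N - 4) / N ≤ 6 / 26 := by
      rw [div_le_iff₀ (by linarith)]; linarith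
    have h4 := mul_le_mul (show N - 2 ≤ 16 / 5 by linarith) (h2.trans h3) hu.le (by norm_num)
    linarith
  have hα0 : 0 ≤ α := div_nonneg (mul_nonneg (by linarith) hm) hT.le
  have hα1 : α ≤ 4 / 5 := by rw [hα, div_le_iff₀ hT]; linarith
  have hz : 17 / 10 ≤ 1 + 7 / 50 * ((N - 2) * T) := by
    rw [hssd, lt_div_iff₀ (by linarith)] at hs1; linarith
  obtain ⟨hXp, hXd⟩ := disc_gt hN hN2 hε0 hε1 hα0 hα1 hz
  rw [← hX] at hXp hXd
  have hk : 0 < Q.k := by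
    have e : Q.k = (Q.ce - Q.c) + Q.mu * Q.R / (p + 1) := by
      simp only [Pt.k, Pt.ce]; rw [show Q.p = p by rw [hQ]]; ring
    have : 0 < Q.R := by simp only [hQ]; linarith
    rw [e, ece, emu]
    positivity
  have hP2 : 0 < Q.P2 := by rw [e2]; positivity
  have hd : (Q.P0' * ((Q.R + 1) / Q.R)) ^ 2
      < 4 * Q.P2 * (Q.P0 * ((Q.R + 1) / Q.R) ^ 2) := by
    have key : 4 * Q.P2 * (Q.P0 * ((Q.R + 1) / Q.R) ^ 2) - (Q.P0' * ((Q.R + 1) / Q.R)) ^ 2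
        = ((Q.R + 1) / Q.R) ^ 2 * (ss * (ss - 1) ^ 2 / ((N - 2) ^ 3 * N * T)
          * (4 * X * (1 + 7 / 50 * ((N - 2) * T)) - (N - 2) ^ 2 * (2 + ε - α / 2) ^ 2)) := by
      rw [e2, e1, Pt.P0, eV, ece, hδ, hssd]; field_simp
    have : 0 < Q.R := by simp only [hQ]; linarith
    have : 0 < 4 * X * (1 + 7 / 50 * ((N - 2) * T)) - (N - 2) ^ 2 * (2 + ε - α / 2) ^ 2 := by
      linarith
    have : 0 < ((Q.R + 1) / Q.R) ^ 2 * (ss * (ss - 1) ^ 2 / ((N - 2) ^ 3 * N * T)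
          * (4 * X * (1 + 7 / 50 * ((N - 2) * T)) - (N - 2) ^ 2 * (2 + ε - α / 2) ^ 2)) := by
      positivity
    linarith
  have hρ : 0 < Q.rhoR / Q.R := by
    refine div_pos ?_ (by simp only [hQ]; linarith)
    simp only [Pt.rhoR, eKp, eW, eE1, ea]
    rw [hQ] at hk
    simp only [hQ]
    have : 0 < (N - 4) / (N - 2) + N * m / ((N - 2) * T) - 1 + q := by
      have : (N - 4) / (N - 2) - 1 + q = ((N - 2) * q - 2) / (N - 2) := by field_simp; ring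
      have : 0 < ((N - 2) * q - 2) / (N - 2) := div_pos (by linarith) hh
      have : 0 ≤ N * m / ((N - 2) * T) := by positivity
      linarith
    simpa using mul_pos hk this
  exact ⟨by rw [ee]; simp only [hQ]; positivity, hP2, hd, hρ, ea⟩

/-- The weight of `u` dominates `a` at `t = 0`, `σ∞ > 1`. -/
lemma a_lt_gt {N p q T m a : ℝ} (hN : 5 ≤ N) (hN2 : N ≤ 26 / 5) (hp : 0 < p) (hT : 0 < T)
    (hpT : p = N * (1 + T) / (N - 2) - 1) (hqT : q = N * (1 + T) / ((N - 2) * T) - 1)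
    (hm1 : m ≤ 1 / 2)
    (ha : a = (N - 4) / (N - 2) + N * m / ((N - 2) * T)) :
    a < ((N - 4) / N + (1 + m) * (2 / ((N - 2) * (p + 1)))) * (N / 2) * q := by
  have hh : 0 < N - 2 := by linarith
  have e0 : (N - 2) * q - 2 = N / T := by rw [hqT]; field_simp; ring
  have hq2 : 2 < (N - 2) * q := by linarith [show 0 < N / T by positivity]
  have hmq : m < q := by nlinarith
  have e : ((N - 4) / N + (1 + m) * (2 / ((N - 2) * (p + 1)))) * (N / 2) * q - a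
      = (N - 4) * ((N - 2) * q / 2 - 1) / (N - 2) + N * (q - m) / ((N - 2) * (p + 1)) := by
    rw [ha, hpT, hqT]; field_simp; ring
  have : 0 ≤ (N - 4) * ((N - 2) * q / 2 - 1) / (N - 2) :=
    div_nonneg (mul_nonneg (by linarith) (by linarith)) hh.le
  have : 0 < N * (q - m) / ((N - 2) * (p + 1)) :=
    div_pos (mul_pos (by linarith) (sub_pos.2 hmq)) (by positivity)
  linarith

/-- The weight of `u` dominates `a` at `t = 0`, `σ∞ = 1`. -/
lemma a_lt_le {N p q T β a : ℝ} (hN : 5 ≤ N) (hT1 : 1 < T) (hT2 : T ≤ 5 / 3)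
    (hp : 0 < p) (hq : 0 < q) (hqT : q = N * (1 + T) / ((N - 2) * T) - 1)
    (hpT : p = N * (1 + T) / (N - 2) - 1) (hb : β ≤ 1) {m : ℝ} (hm : 0 ≤ m)
    (ha : a = (N - 4 + β) / (N - 2)) :
    a < ((N - 4) / N + (1 + m) * (2 / ((N - 2) * (p + 1)))) * (N / 2) * q := by
  have hh : 0 < N - 2 := by linarith
  have hT : 0 < T := by linarith
  have e : ((N - 4) / N + (1 + 0) * (2 / ((N - 2) * (p + 1)))) * (N / 2) * q - a
      = ((N - 4) * (N / T) / 2 + (N + 2 * T) / (T * (1 + T)) - β) / (N - 2) := by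
    rw [ha, hpT, hqT]; field_simp; ring
  have h1 : 3 / 2 ≤ (N - 4) * (N / T) / 2 := by
    have : 3 ≤ N / T := by rw [le_div_iff₀ hT]; linarith
    nlinarith
  have h2 : 0 < (N + 2 * T) / (T * (1 + T)) := by positivity
  have h3 : 0 < ((N - 4) * (N / T) / 2 + (N + 2 * T) / (T * (1 + T)) - β) / (N - 2) :=
    div_pos (by linarith) hh
  have h4 : ((N - 4) / N + (1 + 0) * (2 / ((N - 2) * (p + 1)))) * (N / 2) * q
      ≤ ((N - 4) / N + (1 + m) * (2 / ((N - 2) * (p + 1)))) * (N / 2) * q := by gcongr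
  linarith

/-- Uniform margins near `t = 0` when `σ∞ > 1`, for `c₁ = -N/(2(N-2)) - δ`. -/
theorem margins_gt (h : IsOrbit N p q τ₀ S R e) (hN : 5 ≤ N) (hN5 : N ≤ 26 / 5) (hp : 0 < p)
    (hq : 0 < q) (hcrit : N / (p + 1) + N / (q + 1) = N - 2)
    (hτ₁ : τ₁ < τ₀) (hW : ∀ τ ≤ τ₁, 0 ≤ orbW S R τ)
    (hss : N * (q + 1) < (N - 2) * (p + 1)) {c1 m M : ℝ}
    (hM : M = (N - 4) / N + (1 + m) * (2 / ((N - 2) * (p + 1)))) (hT2 : (p + 1) / (q + 1) ≤ 2)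
    (hm : 0 ≤ m) (hm1 : 5 * N * m ≤ 4 * ((p + 1) / (q + 1))) (hm2 : m ≤ 1 / 2)
    (hc1 : c1 = -N / (2 * (N - 2)) - 7 / 50 * (sInf' N p q - 1)) :
    ∃ a K τ₂, 0 < a ∧ a ≤ K ∧ τ₂ ≤ τ₁ ∧
      ∀ τ ≤ τ₂, TailMargins (pt N p q M c1 S R τ) a K ∧
        (pt N p q M c1 S R τ).a ≤ M * (N / 2) * q := by
  obtain ⟨hS, hW0, hR, hlt⟩ := h.tail_limits (by linarith) hp hq hτ₁ hW
  obtain ⟨T, hT, hTd, hpT, hqT⟩ := crit_param (by linarith) hp hq hcrit
  have hN2 : (0:ℝ) < N - 2 := by linarith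
  have hsd : sInf' N p q = (N - 2) * T / N := by
    rw [sInf', max_eq_right]
    · rw [hTd]; field_simp
    · rw [le_div_iff₀ (by positivity)]; linarith
  have hs1 : 1 < (N - 2) * T / N := by
    rw [hTd, lt_div_iff₀ (by linarith), mul_div_assoc', lt_div_iff₀ (by linarith)]; linarith
  have hq2 : 2 < (N - 2) * q := by
    have e : (N - 2) * q - 2 = N / T := by rw [hqT]; field_simp; ring
    linarith [show 0 < N / T by positivity]
  set ss := (N - 2) * T / N with hssd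
  have hTs : ss < T := by rw [hssd, div_lt_iff₀ (by linarith)]; nlinarith
  have hLp : (p + 1) - (q + 1) * ss = (q + 1) * (T - ss) := by rw [hTd]; field_simp
  have hL0 : (p + 1) - (q + 1) * sInf' N p q ≠ 0 := by
    rw [hsd, hLp]; exact mul_ne_zero (by linarith) (by linarith)
  have hK0 : (p + 1) + (q + 1) * sInf' N p q ≠ 0 := by rw [hsd]; positivity
  set Q : Pt := ⟨N, p, q, sInf' N p q, sInf' N p q - 1, 0, M, c1, 0⟩ with hQ
  have hl : PtLim (pt N p q M c1 S R) Q :=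
    ptLim hS hR Real.tendsto_exp_atBot tendsto_const_nhds tendsto_const_nhds (by linarith) hL0 hK0
  have hR0 : Q.R ≠ 0 := by simp only [hQ]; rw [hsd]; linarith
  have hr1 : Tendsto (fun τ => ((pt N p q M c1 S R τ).R + 1) / (pt N p q M c1 S R τ).R)
      atBot (𝓝 ((Q.R + 1) / Q.R)) := (hl.hR.add_const 1).div hl.hR hR0
  have hc' : Tendsto (fun τ => (pt N p q M c1 S R τ).c') atBot (𝓝 Q.c') := tendsto_const_nhds
  have h0 : Tendsto (fun τ => (pt N p q M c1 S R τ).P0) atBot (𝓝 Q.P0) :=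
    hl.hV.mul (hl.hce.sub hl.hc)
  have h1 : Tendsto (fun τ => (pt N p q M c1 S R τ).P0') atBot (𝓝 Q.P0') :=
    (((((hl.hmu.div_const (p + 1)).mul hl.hV).mul (hl.ha.add (hl.hc.const_mul 2))).neg).add
      (((hl.hW.mul_const (q + 1)).div (hl.hL.mul hl.hK) (mul_ne_zero hL0 hK0)).mul
        ((hl.hc.mul ((hl.hσ.const_mul (q + 1)).const_sub (3 * (p + 1)))).add
          (hl.hmu.mul_const (p + 1))))).add (hl.hL.mul hc')
  have hr : Tendsto (fun τ => (pt N p q M c1 S R τ).rhoR) atBot (𝓝 Q.rhoR) :=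
    ((hl.hk.mul ((hl.ha.sub_const 1).add_const q)).add
      ((tendsto_const_nhds.div hl.hL hL0).mul
        (((hl.hKp.mul hl.hk).add
          ((((hl.hmu.mul hl.hbe).mul hl.hW).mul_const (q + 1)).div hl.hK hK0)).sub
          ((hl.hmu.mul (hl.hbe.add_const 1)).mul hl.hE1)))).add (hc'.const_mul (q + 1))
  have hQ' : Q = ⟨N, p, q, ss, ss - 1, 0, M, c1, 0⟩ := by rw [hQ, hsd]
  obtain ⟨hdet, hP2, hd, hρ, ea⟩ := gt_point hN hN5 hp hq2 hT hTd hpT hqT (hsd ▸ hc1) rfl (hTd ▸ hT2) hm (hTd ▸ hm1) hssd hs1 hTs hM hQ'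
  obtain ⟨a, K, ha, haK, hev⟩ := margins_of_limits (A := M * (N / 2) * q) hl (fun _ => rfl)
    (by simp only [hQ]; rw [hsd]; linarith) (h0.mul (hr1.pow 2)) (h1.mul hr1)
    (hr.div hl.hR hR0) (hl.hk.div hl.hR hR0) hdet hP2 hd hρ (by rw [hM]; exact a_lt_gt hN hN5 hp hT hpT hqT hm2 ea)
  obtain ⟨τ₂, hτ₂⟩ := eventually_atBot.1 hev
  exact ⟨a, K, min τ₂ τ₁, ha, haK, min_le_right _ _, fun τ hτ => hτ₂ τ (hτ.trans (min_le_left _ _))⟩

lemma pt_dR (h : IsOrbit N p q τ₀ S R e) (hN : 2 < N) (hp : 0 < p) (hq : 0 < q)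
    (hcrit : N / (p + 1) + N / (q + 1) = N - 2) (hsi : sInf' N p q = 1) {M c1 τ : ℝ}
    (hc1 : c1 = -((N - 1) * (p + 1) / ((N - 2) * (p + q + 2)))) (hτ : τ < τ₀) :
    (pt N p q M c1 S R τ).ce - (pt N p q M c1 S R τ).c
      = R τ * dR N p q 0 (S τ) (Real.exp τ) ((S τ - 1) / R τ) := by
  have e := tailPt_dR (G := 0) h hN hp hq hcrit hsi hc1 hτ
  rw [show (tailPt N p q c1 0 S R τ).c = c1 by simp [tailPt]] at e
  exact e

/-- The limit point when `σ∞ = 1`. -/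
lemma le_point {N p q T c1 M m β v w D p1 ex ρ : ℝ} {Q : Pt} (hN : 5 ≤ N) (hN5 : N ≤ 26 / 5)
    (hT1 : 1 < T) (hT2 : (N - 2) * T ≤ N)
    (hpT : p = N * (1 + T) / (N - 2) - 1) (hqT : q = N * (1 + T) / ((N - 2) * T) - 1)
    (hc1 : c1 = -((N - 1) * (p + 1) / ((N - 2) * (p + q + 2)))) (hβ : β = 2 * m / (T - 1)) (hm : 0 ≤ m)
    (hm1 : 2 * m ≤ T - 1) (hM : M = (N - 4) / N + (1 + m) * (2 / ((N - 2) * (p + 1))))
    (hQ : Q = ⟨N, p, q, 1, 0, 0, M, c1, 0⟩) (hv : v = (N - 2) * T / N) (hw : w = 1 - 0 - 1 * v)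
    (hD : D = dR N p q 0 1 0 v)
    (hp1 : p1 = -(Q.mu / (p + 1) * (1 - 0) * (Q.a + 2 * Q.c))
      + w * (q + 1) / (Q.L * Q.K) * (Q.c * (3 * (p + 1) - (q + 1) * 1) + Q.mu * (p + 1))
      + 0)
    (hex : ex = 1 - (N - 2) * (v * (1 - N / ((N - 2) * (p + 1))) + Q.T1)
      / (N * (Q.K / ((p + 1) * (q + 1)))))
    (hρ : ρ = (D + Q.mu / (p + 1)) * (Q.a - 1 + q) + (q + 1) / Q.L * (Q.Kp * (D + Q.mu / (p + 1))
      + Q.mu * Q.be1 * w * (q + 1) / Q.K - Q.mu * (Q.be1 + 1) * ex)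
      + (q + 1) * 0) :
    0 < Q.N * Q.e ∧ 0 < Q.P2 ∧ p1 ^ 2 < 4 * Q.P2 * D ∧ 0 < ρ ∧ Q.a = (N - 4 + β) / (N - 2) := by
  have nN : N ≠ 0 := by linarith
  have nh : N - 2 ≠ 0 := by linarith
  have nT : T ≠ 0 := by linarith
  have nT1 : 1 + T ≠ 0 := by linarith
  have nT2 : T - 1 ≠ 0 := by linarith
  have eK1 : p + q + 2 = N * (1 + T) ^ 2 / ((N - 2) * T) := by rw [hpT, hqT]; field_simp; ring
  have ec : c1 = -((N - 1) * T / ((N - 2) * (1 + T))) := by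
    rw [hc1, eK1, hpT]; field_simp; ring
  have eK : Q.K = N * (1 + T) ^ 2 / ((N - 2) * T) := by
    rw [← eK1, hQ]; simp only [Pt.K]; ring
  have eL : Q.L = N * (1 + T) * (T - 1) / ((N - 2) * T) := by
    simp only [hQ, Pt.L]; rw [hpT, hqT]; field_simp; ring
  have emu : Q.mu = (N - 1) / (N - 2) := by
    simp only [Pt.mu, eK]; simp only [hQ]; rw [hpT, hqT]; field_simp; ring
  have ee : Q.e = 1 / (N - 2) := by
    simp only [Pt.e, eK]; simp only [hQ]; rw [hpT, hqT]; field_simp; ring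
  have ebe : Q.be1 = 1 / (1 + T) - 1 := by
    simp only [Pt.be1, ee]; simp only [hQ]; rw [hpT]; field_simp; ring
  have eKp : Q.Kp = N / ((N - 2) * T) - 1 := by
    simp only [Pt.Kp, Pt.E1, ee]; simp only [hQ]; rw [hqT]; field_simp; ring
  have ea : Q.a = (N - 4 + β) / (N - 2) := by
    simp only [Pt.a, Pt.H, eL, ee, emu]; simp only [hQ, hM, hβ]; rw [hpT, hqT]; field_simp; ring
  have eD : D = (N - 1) * (2 * T ^ 2 - 1) / (N * (1 + T) ^ 2) := by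
    simp only [hD, dR, hv]; rw [show (p + 1) + (q + 1) * 1 = p + q + 2 by ring, eK1, hpT, hqT]; field_simp; ring
  have eP2 : Q.P2 = (N - 1) * (4 * N * T * (1 + T) * (2 - β)
      - ((N + 2) * T - N + 4 - β * (1 + T)) ^ 2) / (4 * N * (N - 2) ^ 2 * (1 + T) ^ 2) := by
    simp only [Pt.P2, ea]; simp only [hQ, ec]; field_simp; ring
  have ep1 : p1 = (N - 1) * ((N + 2) * T - N + 4 - 2 * T * (N - (N - 2) * T) - β * (1 + T))
      / (N * (N - 2) * (1 + T) ^ 2) := by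
    rw [hp1, hw, hv, ea, eL, eK, emu]; simp only [hQ, ec]; rw [hpT, hqT]; field_simp; ring
  have eex : ex = 1 - (N - 2) * (v * (1 - 1 / (1 + T)) + T * (N - 2) / (N * (1 + T)))
      / (N - 2) := by
    rw [hex, eK]; simp only [hQ, Pt.T1]; rw [hpT, hqT]; field_simp; ring
  have eρ : ρ = (N / ((N - 2) * T) + β / (N - 2)) * ((N - 1) / (N * (1 + T)) + D) := by
    rw [hρ, eD, eex, hw, hv, ea, eL, eK, eKp, emu, ebe]; rw [hpT, hqT]; field_simp; ring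
  have hN1 : (0:ℝ) < N - 1 := by clear * - hN; linarith
  have hN2 : (0:ℝ) < N - 2 := by clear * - hN; linarith
  have hT0 : 0 < T := by clear * - hT1; linarith
  have hT53 : T ≤ 5 / 3 := by clear * - hT2 hN; nlinarith
  have hb0 : 0 ≤ β := hβ ▸ div_nonneg (by linarith) (by linarith)
  have hb1 : β ≤ 1 := by rw [hβ, div_le_one (by linarith)]; exact hm1
  have hf := disc_le hN hN5 hT1.le hT53 hb0 hb1
  have hS : 0 < 2 * T ^ 2 - 1 := by clear * - hT1; nlinarith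
  simp only [fle] at hf
  set E := 4 * N * T * (1 + T) * (2 - β) - ((N + 2) * T - N + 4 - β * (1 + T)) ^ 2
  set P := (N + 2) * T - N + 4 - 2 * T * (N - (N - 2) * T) - β * (1 + T)
  have hE : 0 < E := pos_of_mul_pos_left
    (show 0 < E * (2 * T ^ 2 - 1) by linarith [sq_nonneg P]) hS.le
  have hDp : 0 < D := by rw [eD]; positivity
  refine ⟨by rw [ee]; simp only [hQ]; positivity, by rw [eP2]; positivity, ?_, ?_, ea⟩
  · have key : 4 * Q.P2 * D - p1 ^ 2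
        = (N - 1) ^ 2 / (N ^ 2 * (N - 2) ^ 2 * (1 + T) ^ 4) * (E * (2 * T ^ 2 - 1) - P ^ 2) := by
      rw [ep1, eP2, eD]; field_simp
    linarith [show 0 < (N - 1) ^ 2 / (N ^ 2 * (N - 2) ^ 2 * (1 + T) ^ 4)
      * (E * (2 * T ^ 2 - 1) - P ^ 2) from mul_pos (by positivity) hf]
  · rw [eρ]; positivity

/-- Uniform margins near `t = 0` when `σ∞ = 1`, for `c₁ = ce(1,0)`; here `(σ-1)/R → (N-2)T/N`. -/
theorem margins_le (h : IsOrbit N p q τ₀ S R e) (hN : 5 ≤ N) (hN5 : N ≤ 26 / 5) (hp : 0 < p)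
    (hq : 0 < q) (hcrit : N / (p + 1) + N / (q + 1) = N - 2)
    (hτ₁ : τ₁ < τ₀) (hW : ∀ τ ≤ τ₁, 0 ≤ orbW S R τ)
    (hss : (N - 2) * (p + 1) ≤ N * (q + 1)) {c1 m M : ℝ}
    (hM : M = (N - 4) / N + (1 + m) * (2 / ((N - 2) * (p + 1)))) (hm : 0 ≤ m)
    (hm1 : 2 * m ≤ (p + 1) / (q + 1) - 1)
    (hc1 : c1 = -((N - 1) * (p + 1) / ((N - 2) * (p + q + 2)))) :
    ∃ a K τ₂, 0 < a ∧ a ≤ K ∧ τ₂ ≤ τ₁ ∧
      ∀ τ ≤ τ₂, TailMargins (pt N p q M c1 S R τ) a K ∧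
        (pt N p q M c1 S R τ).a ≤ M * (N / 2) * q := by
  have hN2 : (0:ℝ) < N - 2 := by linarith
  obtain ⟨hS, hW0, hR, hlt⟩ := h.tail_limits (by linarith) hp hq hτ₁ hW
  have hv := h.tail_ratio (by linarith) hp hq hcrit hτ₁ hW hss
  obtain ⟨T, hT, hTd, hpT, hqT⟩ := crit_param (by linarith) hp hq hcrit
  have hsi : sInf' N p q = 1 := by rw [sInf', max_eq_left]; rwa [div_le_one (by positivity)]
  rw [hsi] at hS hR hlt
  rw [sub_self] at hR
  rw [show (N - 2) * (p + 1) / (N * (q + 1)) = (N - 2) * T / N by rw [hTd]; field_simp] at hv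
  have hT1 : 1 < T := hTd ▸ hlt
  have hT2 : (N - 2) * T ≤ N := by
    rw [hTd, mul_div_assoc', div_le_iff₀ (by linarith)]; linarith
  set Q : Pt := ⟨N, p, q, 1, 0, 0, M, c1, 0⟩ with hQ
  have hL0 : (p + 1) - (q + 1) * 1 ≠ 0 := by
    have := (lt_div_iff₀ (by linarith : 0 < q + 1)).1 hlt
    linarith
  have hK0 : (p + 1) + (q + 1) * 1 ≠ 0 := by positivity
  have ht := Real.tendsto_exp_atBot
  have hl : PtLim (pt N p q M c1 S R) Q := ptLim hS hR ht tendsto_const_nhds tendsto_const_nhds (by linarith) hL0 hK0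
  set v := (N - 2) * T / N with hvd
  set D := dR N p q 0 1 0 v with hD
  have hlt' : ∀ᶠ τ in atBot, τ < τ₀ := (eventually_le_atBot τ₁).mono fun x hx => hx.trans_lt hτ₁
  have hDl : Tendsto (fun τ => dR N p q 0 (S τ) (Real.exp τ) ((S τ - 1) / R τ)) atBot (𝓝 D) := by
    have hK2 : N * ((p + 1) + (q + 1) * 1) ^ 2 ≠ 0 :=
      mul_ne_zero (by linarith) (pow_ne_zero _ hK0)
    exact (hv.mul (((((hS.add_const 1).const_mul (q + 1)).const_add (2 * (p + 1))).const_mul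
      ((N - 1) * (q + 1) ^ 2 * (p + 1) ^ 2)).div
      (((((hS.const_mul (q + 1)).const_add (p + 1)).pow 2).const_mul N).mul_const
        ((p + q + 2) ^ 2)) (mul_ne_zero hK2 (pow_ne_zero _ (by linarith))) |>.add_const 0)).sub
      (((hS.sub ht).const_mul ((N - 1) * (q + 1) ^ 2)).div
        ((((hS.const_mul (q + 1)).const_add (p + 1)).pow 2).const_mul N) hK2)
  have hw : Tendsto (fun τ => (S τ - Real.exp τ) - S τ * ((S τ - 1) / R τ)) atBot (𝓝 (1 - 0 - 1 * v)) :=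
    (hS.sub ht).sub (hS.mul hv)
  set w := 1 - 0 - 1 * v with hwd
  have h0 : Tendsto (fun τ => (pt N p q M c1 S R τ).P0
      * (((pt N p q M c1 S R τ).R + 1) / (pt N p q M c1 S R τ).R) ^ 2) atBot
      (𝓝 ((1 - 0) * D * (0 + 1) ^ 2)) := by
    refine (((hS.sub ht).mul hDl).mul ((hR.add_const 1).pow 2)).congr' ?_
    filter_upwards [hlt'] with τ hτ
    have := (h.R_pos τ hτ).ne'
    rw [Pt.P0, pt_dR h (by linarith) hp hq hcrit hsi hc1 hτ]
    simp only [pt, Pt.V]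
    field_simp
  set p1 := -(Q.mu / (p + 1) * (1 - 0) * (Q.a + 2 * Q.c))
      + w * (q + 1) / (Q.L * Q.K) * (Q.c * (3 * (p + 1) - (q + 1) * 1) + Q.mu * (p + 1))
      + 0 with hp1
  have h1 : Tendsto (fun τ => (pt N p q M c1 S R τ).P0'
      * (((pt N p q M c1 S R τ).R + 1) / (pt N p q M c1 S R τ).R)) atBot
      (𝓝 (p1 * (0 + 1))) := by
    refine (((((((hl.hmu.div_const (p + 1)).mul (hS.sub ht)).mul
      (hl.ha.add (hl.hc.const_mul 2))).neg).add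
        (((hw.mul_const (q + 1)).div (hl.hL.mul hl.hK) (mul_ne_zero hL0 hK0)).mul
        ((hl.hc.mul ((hS.const_mul (q + 1)).const_sub (3 * (p + 1)))).add
          (hl.hmu.mul_const (p + 1))))).add (tendsto_const_nhds (x := (0 : ℝ)))).mul
      (hR.add_const 1)).congr' ?_
    filter_upwards [hlt'] with τ hτ
    have := (h.R_pos τ hτ).ne'
    have hg := pt_good h (by linarith) hp hq hcrit M c1 hτ
    have := hg.hL
    have := hg.hK
    simp only [Pi.div_apply, Pt.P0', show (pt N p q M c1 S R τ).W = orbW S R τ from rfl, Pt.V]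
    have eR : (pt N p q M c1 S R τ).R = R τ := rfl
    have eS : (pt N p q M c1 S R τ).σ = S τ := rfl
    have et : (pt N p q M c1 S R τ).t = Real.exp τ := rfl
    have ep : (pt N p q M c1 S R τ).p = p := rfl
    have eq' : (pt N p q M c1 S R τ).q = q := rfl
    have ec : (pt N p q M c1 S R τ).c' = 0 := rfl
    rw [ec, eR, eS, et, ep, eq']
    simp only [orbW]
    field_simp
    ring
  have hkx : Tendsto (fun τ => (pt N p q M c1 S R τ).kX) atBot (𝓝 (D + Q.mu / (p + 1))) := by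
    refine (hDl.add (hl.hmu.div_const (p + 1))).congr' ?_
    filter_upwards [hlt'] with τ hτ
    have := (h.R_pos τ hτ).ne'
    have e1 : (pt N p q M c1 S R τ).k = ((pt N p q M c1 S R τ).ce
        - (pt N p q M c1 S R τ).c)
        + (pt N p q M c1 S R τ).mu * R τ / (p + 1) := by
      simp only [Pt.k, Pt.ce]; simp only [pt]; ring
    rw [Pt.kX, e1, pt_dR h (by linarith) hp hq hcrit hsi hc1 hτ,
      show (pt N p q M c1 S R τ).R = R τ from rfl]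
    field_simp
  set ex := 1 - (N - 2) * (v * (1 - N / ((N - 2) * (p + 1))) + Q.T1)
      / (N * (Q.K / ((p + 1) * (q + 1)))) with hex
  have hE1 : Tendsto (fun τ => (pt N p q M c1 S R τ).E1 / R τ) atBot (𝓝 ex) := by
    refine ((((hv.mul_const (1 - N / ((N - 2) * (p + 1)))).add hl.hT).const_mul (N - 2)).div
      ((hl.hK.div_const ((p + 1) * (q + 1))).const_mul N)
      (mul_ne_zero (by linarith) (div_ne_zero hK0 (by positivity))) |>.const_sub 1).congr' ?_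
    filter_upwards [hlt'] with τ hτ
    have := (h.R_pos τ hτ).ne'
    have hg := pt_good h (by linarith) hp hq hcrit M c1 hτ
    have := hg.hK
    have hN' : N ≠ 0 := by linarith
    rcases Pt.E1_eq hg with he | he
    · rw [he]
      simp only [Pi.div_apply, show (pt N p q M c1 S R τ).R = R τ from rfl,
        show (pt N p q M c1 S R τ).σ = S τ from rfl,
        show (pt N p q M c1 S R τ).p = p from rfl,
        show (pt N p q M c1 S R τ).q = q from rfl,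
        show (pt N p q M c1 S R τ).N = N from rfl]
      field_simp
    · exact absurd (show N = 2 from he) (by linarith)
  set ρ := (D + Q.mu / (p + 1)) * (Q.a - 1 + q) + (q + 1) / Q.L * (Q.Kp * (D + Q.mu / (p + 1))
      + Q.mu * Q.be1 * w * (q + 1) / Q.K - Q.mu * (Q.be1 + 1) * ex)
      + (q + 1) * 0 with hρd
  have hr : Tendsto (fun τ => (pt N p q M c1 S R τ).rhoR / (pt N p q M c1 S R τ).R) atBot
      (𝓝 ρ) := by
    refine (((hkx.mul ((hl.ha.sub_const 1).add_const q)).add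
      ((tendsto_const_nhds.div hl.hL hL0).mul
        (((hl.hKp.mul hkx).add
          ((((hl.hmu.mul hl.hbe).mul hw).mul_const (q + 1)).div hl.hK hK0)).sub
          ((hl.hmu.mul (hl.hbe.add_const 1)).mul hE1)))).add
      ((tendsto_const_nhds (x := (0 : ℝ))).const_mul (q + 1))).congr' ?_
    filter_upwards [hlt'] with τ hτ
    have := (h.R_pos τ hτ).ne'
    have hg := pt_good h (by linarith) hp hq hcrit M c1 hτ
    have := hg.hL
    have := hg.hK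
    simp only [Pi.div_apply, Pt.rhoR, Pt.kX, show (pt N p q M c1 S R τ).W = orbW S R τ from rfl]
    have eR : (pt N p q M c1 S R τ).R = R τ := rfl
    have eq' : (pt N p q M c1 S R τ).q = q := rfl
    have ec : (pt N p q M c1 S R τ).c' = 0 := rfl
    rw [ec, eR, eq']
    simp only [orbW]
    field_simp
    ring
  obtain ⟨hdet, hP2, hd, hρ, ea⟩ := le_point hN hN5 hT1 hT2 hpT hqT hc1 rfl hm (hTd ▸ hm1) hM hQ hvd hwd
    hD hp1 hex hρd
  obtain ⟨a, K, ha, haK, hev⟩ := margins_of_limits (A := M * (N / 2) * q) hl (fun _ => rfl)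
    (by simp only [hQ]; exact le_rfl) h0 h1 hr hkx hdet hP2
    (by simpa using hd) hρ (by
      rw [hM]
      exact a_lt_le hN hT1 (by nlinarith) hp hq hqT hpT
        ((div_le_one (sub_pos.2 hT1)).2 (hTd ▸ hm1)) hm ea)
  obtain ⟨τ₂, hτ₂⟩ := eventually_atBot.1 hev
  exact ⟨a, K, min τ₂ τ₁, ha, haK, min_le_right _ _, fun τ hτ => hτ₂ τ (hτ.trans (min_le_left _ _))⟩

lemma cert_of_margins {Sc W z : ℝ → ℝ} {m c1 : ℝ} (h : IsOrbit N p q τ₀ S R e) (hN : 4 < N) (hp : 0 < p) (hq : 0 < q)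
    (hcrit : N / (p + 1) + N / (q + 1) = N - 2)
    (hs : ∀ᶠ τ in atBot, Sc τ = S τ ∧ W τ = orbW S R τ ∧ z τ = 1 / R τ)
    (hm : ∃ a K τ₂, 0 < a ∧ a ≤ K ∧ τ₂ ≤ τ₁ ∧
      ∀ τ ≤ τ₂, TailMargins (pt N p q ((N - 4) / N + (1 + m) * (2 / ((N - 2) * (p + 1)))) c1 S R τ) a K ∧
        (pt N p q ((N - 4) / N + (1 + m) * (2 / ((N - 2) * (p + 1)))) c1 S R τ).a ≤ ((N - 4) / N + (1 + m) * (2 / ((N - 2) * (p + 1)))) * (N / 2) * q) :
    TailCert (par N p q m c1) Sc W z := by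
  obtain ⟨a, K, τ₂, ha, -, -, hall⟩ := hm
  have hA : (par N p q m c1).Adm := ⟨hN, hp, hq, crit_prod hp hq hcrit⟩
  set C := par N p q m c1
  have key : ∀ᶠ τ in atBot, CPar.At C (Sc τ) (W τ) (z τ) a K ∧
      C.a (Sc τ) (W τ) ≤ C.wexp * C.q := by
    filter_upwards [hs, eventually_le_atBot τ₂, eventually_lt_atBot τ₀] with τ he hτ hτ0
    obtain ⟨e1, e2, e3⟩ := he
    obtain ⟨hM, hla⟩ := hall τ hτ
    rw [e1, e2, e3]
    have hR := h.R_pos τ hτ0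
    have hz : (1 : ℝ) / R τ ≠ 0 := (one_div_pos.2 hR).ne'
    have hpt : C.pt (S τ) (orbW S R τ) (1 / R τ) = pt N p q ((N - 4) / N + (1 + m) * (2 / ((N - 2) * (p + 1)))) c1 S R τ := by
      simp only [CPar.pt, C, par, pt, CPar.c, CPar.c', CPar.L, CPar.V, orbW, Pt.mk.injEq,
        true_and, and_true, zero_mul, sub_zero, neg_zero]
      constructor <;> field_simp
      ring
    have nN : C.N ≠ 0 := by linarith [hA.hN]
    have np : C.p + 1 ≠ 0 := by linarith [hA.hp]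
    have nq : C.q + 1 ≠ 0 := by linarith [hA.hq]
    have nK : C.K (S τ) ≠ 0 := (CPar.K_pos hA (by linarith [h.one_lt τ hτ0])).ne'
    have nL : C.L (S τ) ≠ 0 := (pt_good h (by linarith) hp hq hcrit C.M c1 hτ0).hL
    have eabs : (1 : ℝ) + |1 / R τ| = (R τ + 1) / R τ := by
      rw [abs_of_pos (one_div_pos.2 hR)]; field_simp
    have eR : (pt N p q ((N - 4) / N + (1 + m) * (2 / ((N - 2) * (p + 1)))) c1 S R τ).R = R τ := rfl
    have eNe := CPar.pt_El (W := orbW S R τ) hz nN np nq nK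
    rw [hpt, eR] at eNe
    have ea := CPar.pt_a (W := orbW S R τ) hz nN np nq nK
    have e0 := CPar.pt_P0 (W := orbW S R τ) hz nN np nq nK
    have e2' := CPar.pt_P2 (W := orbW S R τ) hz nN np nq nK
    have e1' := CPar.pt_P1 (W := orbW S R τ) hz nN np nq nK
    have ek := CPar.pt_kX (W := orbW S R τ) hz nN np nq nK
    have er := CPar.pt_rho (W := orbW S R τ) hz nN np nq nK nL
    rw [hpt] at ea e0 e2' e1' ek er
    have hl := hM.hl
    rw [eR] at hl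
    refine ⟨⟨hM.hσ, ea ▸ hM.ha, ?_, ek ▸ hM.hkX, e2' ▸ hM.h2K, ?_, e2' ▸ hM.h2, ?_, er ▸ hM.hρ, ?_⟩, ?_⟩
    · rwa [eNe] at hl
    · rw [eabs, ← e0, ← eR]; exact hM.h0K
    · rw [eabs, ← e0, ← e1', ← e2', ← eR]; exact hM.hd
    · refine hM.hdet.trans (le_of_eq ?_)
      rw [eR, eabs, show (pt N p q ((N - 4) / N + (1 + m) * (2 / ((N - 2) * (p + 1)))) c1 S R τ).N * (pt N p q ((N - 4) / N + (1 + m) * (2 / ((N - 2) * (p + 1)))) c1 S R τ).e
        = C.l (S τ) (orbW S R τ) + R τ by linarith]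
      field_simp
      ring
    · rw [← ea, hA.wexp_eq]; exact hla
  exact ⟨⟨a, K, ha, key.mono fun _ h => h.1⟩, key.mono fun _ h => h.2⟩

/-- `0 ≤ m ≤ 5(T-1)/(10+7(T-1))` gives the bounds used in the margins. -/
lemma m_bounds {N T m : ℝ} (hN : 0 ≤ N) (hN2 : N ≤ 26 / 5) (hT : 1 ≤ T) (hT2 : T ≤ 2)
    (hm : 0 ≤ m) (hm1 : m ≤ 5 * (T - 1) / (10 + 7 * (T - 1))) :
    2 * m ≤ T - 1 ∧ 5 * N * m ≤ 4 * T ∧ m ≤ 1 / 2 := by
  rw [le_div_iff₀ (by linarith)] at hm1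
  have h1 : 2 * m ≤ T - 1 := by nlinarith
  refine ⟨h1, ?_, by linarith⟩
  have h2 : 26 * m ≤ 4 * T := by
    refine le_of_mul_le_mul_right ?_ (show (0 : ℝ) < 10 + 7 * (T - 1) by linarith)
    nlinarith [sq_nonneg (28 * (T - 1) - 31)]
  nlinarith [mul_le_mul_of_nonneg_right hN2 hm]

/-- **The tail for `σ∞ > 1`.** -/
theorem cert_gt {Sc W z : ℝ → ℝ} {m c1 : ℝ} (h : IsOrbit N p q τ₀ S R e) (hN : 5 ≤ N)
    (hN5 : N ≤ 26 / 5) (hp : 0 < p) (hq : 0 < q) (hcrit : N / (p + 1) + N / (q + 1) = N - 2)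
    (hT2 : (p + 1) / (q + 1) ≤ 2) (hm : 0 ≤ m)
    (hm1 : m ≤ 5 * ((p + 1) / (q + 1) - 1) / (10 + 7 * ((p + 1) / (q + 1) - 1)))
    (hτ₁ : τ₁ < τ₀) (hW : ∀ τ ≤ τ₁, 0 ≤ orbW S R τ)
    (hs : ∀ᶠ τ in atBot, Sc τ = S τ ∧ W τ = orbW S R τ ∧ z τ = 1 / R τ)
    (hss : N * (q + 1) < (N - 2) * (p + 1))
    (hc1 : c1 = -N / (2 * (N - 2)) - 7 / 50 * (sInf' N p q - 1)) :
    TailCert (par N p q m c1) Sc W z := by
  have hT1 : 1 ≤ (p + 1) / (q + 1) := by rw [le_div_iff₀ (by linarith)]; nlinarith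
  obtain ⟨-, b2, b3⟩ := m_bounds (by linarith) hN5 hT1 hT2 hm hm1
  exact cert_of_margins h (by linarith) hp hq hcrit hs
    (margins_gt h hN hN5 hp hq hcrit hτ₁ hW hss rfl hT2 hm b2 b3 hc1)

/-- **The tail for `σ∞ = 1`.** -/
theorem cert_le {Sc W z : ℝ → ℝ} {m c1 : ℝ} (h : IsOrbit N p q τ₀ S R e) (hN : 5 ≤ N)
    (hN5 : N ≤ 26 / 5) (hp : 0 < p) (hq : 0 < q) (hcrit : N / (p + 1) + N / (q + 1) = N - 2)
    (hqp : q ≤ p) (hm : 0 ≤ m)
    (hm1 : m ≤ 5 * ((p + 1) / (q + 1) - 1) / (10 + 7 * ((p + 1) / (q + 1) - 1)))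
    (hτ₁ : τ₁ < τ₀) (hW : ∀ τ ≤ τ₁, 0 ≤ orbW S R τ)
    (hs : ∀ᶠ τ in atBot, Sc τ = S τ ∧ W τ = orbW S R τ ∧ z τ = 1 / R τ)
    (hss : (N - 2) * (p + 1) ≤ N * (q + 1))
    (hc1 : c1 = -((N - 1) * (p + 1) / ((N - 2) * (p + q + 2)))) :
    TailCert (par N p q m c1) Sc W z := by
  have hT1 : 1 ≤ (p + 1) / (q + 1) := by rw [le_div_iff₀ (by linarith)]; linarith
  have hT2 : (p + 1) / (q + 1) ≤ 2 := by rw [div_le_iff₀ (by linarith)]; nlinarith
  obtain ⟨b1, -, -⟩ := m_bounds (by linarith) hN5 hT1 hT2 hm hm1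
  exact cert_of_margins h (by linarith) hp hq hcrit hs
    (margins_le h hN hN5 hp hq hcrit hτ₁ hW hss rfl hm b1 hc1)

end TailFive

end Vale.Agent.P100T
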