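import Vale.Agent.P100T.BarrierPoly

/-!
Polynomial checks for the slope bound on `U`: with the atoms of `BarrierPoly`, the numerators of
`U' U - Wd(σ, U)` and of `2qσ(σ+tb) + (N+2)(wm - U)`.
-/

namespace Vale.Agent.P100T.UpperCert

open PosCheck

section templates

variable (N h D K S T W A1 : Ex)

def Qn : Ex := N * (D + T) - h * T
def ln : Ex := N * (D + T) * S * K - h * Vn D K S W
def Bn : Ex := ln N h D K S T W - N * D * K * (S + T)
def Mq : Ex := Qn N h D T * S * K * (S + T) - T * ln N h D K S T W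
def En2 : Ex := (N * (D + T) + h * D - c 2 * h * S) * K * (S + T) - ln N h D K S T W
def GSn : Ex :=
  (N + c 4) * h * T * (S + T) * S * W * A1 - (N + c 4) * T * S * En2 N h D K S T W * W
    - Mq N h D K S T W * Bn N h D K S T W * S
    + (N + c 2) * ln N h D K S T W * W * T * (S + T)
def RSn : Ex := c 2 * Qn N h D T * S * (S + T) * K + Cn N h D K S T W

end templates

/-! `σ∞ = 1`, `ε = 1/(1+z)`. -/

namespace A

def S1 : Ex := D + M
def W1 : Ex := c 2 * D0 * M * (c 4 * Ed - c 3) * M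
def A11 : Ex := c 2 * D0 * M * (c 4 * Ed - c 6)
def GS : Ex := GSn eN eh D K S1 T W1 A11
def RS : Ex := RSn eN eh D K S1 T W1

end A

/-! `σ∞ = 1 + y`, `ε = 1/(1+z)`. -/

def GSB : Ex :=
  GSn eN eh (DB Ex.y (c 1) (c 1 + Ex.z)) (KB Ex.y (c 1)) (SB Ex.y (c 1) (c 1) (c 1 + Ex.z))
    (TB Ex.y (c 1) (c 1 + Ex.z)) (WB Ex.y (c 1) (c 1) (c 1 + Ex.z))
    (A1B Ex.y (c 1) (c 1) (c 1 + Ex.z))
def RSB : Ex :=
  RSn eN eh (DB Ex.y (c 1) (c 1 + Ex.z)) (KB Ex.y (c 1)) (SB Ex.y (c 1) (c 1) (c 1 + Ex.z))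
    (TB Ex.y (c 1) (c 1 + Ex.z)) (WB Ex.y (c 1) (c 1) (c 1 + Ex.z))

theorem checkAGS : check (A.GS - Ex.y * Ex.y * Ex.y) = true := by decide +kernel

theorem checkARS : check (A.RS - Ex.y) = true := by decide +kernel

theorem checkBGS : check (GSB - c 1) = true := by decide +kernel

theorem checkBRS : check (RSB - c 1) = true := by decide +kernel

end Vale.Agent.P100T.UpperCert
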