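import Vale.Agent.P100T.BarrierSign
import Vale.Agent.P100T.UpperExtCert

/-!
`Wd(σ, U) < U' U` and `0 < 2qσ(σ+tb) + (N+2)(wm - U)` on `σ∞ < σ ≤ s₂`, in `N`, `tb`.
-/

noncomputable section

namespace Vale.Agent.P100T.UpperCert

open PosCheck

variable (N tb s u a : ℝ)

/-- `l`. -/
def llR : ℝ := (pone N tb * s - (s * (s - 1) + u)) / (s + tb)
/-- `Wd`. -/
def wdR : ℝ :=
  (pone N tb + 1 - llR N tb s u - 2 * s) * u - (s + tb) *
    ((-(((pone N tb / tb - 1) * s - llR N tb s u) * ((N - 2) * (llR N tb s u - 1) - 2))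
      + (N + 2) * llR N tb s u * u / s) / (N + 4))
/-- The slack of the inequality (N+2)(U - wm) ≤ 2qσ(σ+tb). -/
def rgR : ℝ := 2 * (pone N tb / tb - 1) * s * (s + tb) + N * cfR N tb s u

section eval

variable {N tb s u a : ℝ} {N' h' D K S T W A1 : Ex} {x y z : ℝ}
  (hN' : N'.eval x y z = N) (hh' : h'.eval x y z = N - 2)
  (hs : S.eval x y z = s * D.eval x y z) (ht : T.eval x y z = tb * D.eval x y z)
  (hu : W.eval x y z = u * (D.eval x y z ^ 2 * K.eval x y z))
  (ha : A1.eval x y z = a * (D.eval x y z * K.eval x y z))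
  (hN : 2 < N) (htb : 0 < tb) (hs0 : 0 < s)

include hN' hh' hs ht hu ha hN htb hs0 in
lemma GSn_eval : (GSn N' h' D K S T W A1).eval x y z =
    (u * a - wdR N tb s u) *
      ((N + 4) * (N - 2) * tb * s * (s + tb) * D.eval x y z ^ 6 * K.eval x y z ^ 2) := by
  have : N - 2 ≠ 0 := by linarith
  have : N + 4 ≠ 0 := by linarith
  have : tb ≠ 0 := htb.ne'
  have : s + tb ≠ 0 := by linarith
  have : s ≠ 0 := hs0.ne'
  simp only [GSn, Mq, Bn, En2, Qn, ln, Vn, eval_add', eval_sub', eval_mul', eval_c, hN', hh', hs,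
    ht, hu, ha, wdR, llR, pone]
  generalize D.eval x y z = D₀
  generalize K.eval x y z = K₀
  push_cast
  field_simp
  ring

include hN' hh' hs ht hu hN htb in
lemma RSn_eval : (RSn N' h' D K S T W).eval x y z =
    rgR N tb s u * ((N - 2) * tb * D.eval x y z ^ 3 * K.eval x y z) := by
  have : N - 2 ≠ 0 := by linarith
  have : tb ≠ 0 := htb.ne'
  simp only [RSn, Qn, eval_add', eval_sub', eval_mul', eval_c,
    Cn_eval hN' hh' hs ht hu hN htb, hN', hh', hs, ht, rgR, pone]
  generalize D.eval x y z = D₀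
  generalize K.eval x y z = K₀
  push_cast
  field_simp

end eval

variable {N tb}

/-- The case `σ∞ = 1`. -/
lemma ext_le (hN : 6 ≤ N) (htb : 1 < tb) (hss : tb * (N - 2) < N) {z : ℝ} (hz : 0 ≤ z) :
    wdR N tb (1 + rI N tb * (1 / (1 + z))) (uI N tb (1 + rI N tb * (1 / (1 + z))))
      < uI N tb (1 + rI N tb * (1 / (1 + z))) * uI' N tb (1 + rI N tb * (1 / (1 + z))) ∧
    0 < rgR N tb (1 + rI N tb * (1 / (1 + z))) (uI N tb (1 + rI N tb * (1 / (1 + z)))) := by
  have hh : 0 < N - 2 := by linarith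
  obtain ⟨y, hy, hyt⟩ : ∃ y, 0 < y ∧ tb = 1 + 2 * y / ((N - 2) * (1 + y)) := by
    have hg : 0 < 2 - (N - 2) * (tb - 1) := by nlinarith
    refine ⟨(N - 2) * (tb - 1) / (2 - (N - 2) * (tb - 1)),
      div_pos (mul_pos hh (by linarith)) hg, ?_⟩
    rw [show 1 + (N - 2) * (tb - 1) / (2 - (N - 2) * (tb - 1)) = 2 / (2 - (N - 2) * (tb - 1)) by
      rw [one_add_div hg.ne']; ring]
    field_simp
    ring
  have hz1 : 0 < 1 + z := by linarith
  have hsI : sI N tb = 1 := max_eq_left (by rw [div_le_one (by linarith)]; linarith)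
  have hd : dI N tb = 0 := by simp [dI, hsI]
  set Dv : ℝ := (N - 2) * (1 + y) with hDv
  have hDp : 0 < Dv := mul_pos hh (by linarith)
  have hTd : A.Td.eval (N - 6) y z = Dv := by simp [A.Td, eh_eval, Ex.eval, hDv]
  have hTn : A.Tn.eval (N - 6) y z = tb * Dv := by
    simp [A.Tn, hTd, Ex.eval, hyt, hDv]; field_simp
  have hQ : A.Q.eval (N - 6) y z = (N * N * (1 + tb) + 2 * (N - 2) * tb) * Dv := by
    simp [A.Q, hTd, hTn, eN_eval, eh_eval]; ring
  have hM : A.M.eval (N - 6) y z = N * N * (1 + tb) * (tb - 1) * Dv ^ 2 := by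
    simp [A.M, hTd, hTn, eN_eval]; ring
  have hr : rI N tb = N * N * (1 + tb) * (tb - 1) / (N * N * (1 + tb) + 2 * (N - 2) * tb) := by
    simp only [rI, hsI, pone]
    have : 0 < N * N * (1 + tb) + 2 * (N - 2) * tb := by positivity
    field_simp
    ring
  have hNN : 0 < N * N * (1 + tb) + 2 * (N - 2) * tb := by positivity
  have htb1 : 0 < tb - 1 := by linarith
  have hr0 : 0 < rI N tb := by rw [hr]; positivity
  have hD0 : A.D0.eval (N - 6) y z = (N * N * (1 + tb) + 2 * (N - 2) * tb) * Dv ^ 2 := by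
    simp [A.D0, hTd, hQ]; ring
  have hD : A.D.eval (N - 6) y z = (N * N * (1 + tb) + 2 * (N - 2) * tb) * Dv ^ 2 * (1 + z) := by
    simp [A.D, hD0, A.Ed, Ex.eval]
  have hK : A.K.eval (N - 6) y z = 4 * (N - 2) * (N * N * (1 + tb) * (tb - 1) * Dv ^ 2) := by
    simp only [A.K, eval_mul', eval_c, Int.cast_ofNat, hM, eh_eval]; ring
  have hS : A.S1.eval (N - 6) y z = (1 + rI N tb * (1 / (1 + z))) * A.D.eval (N - 6) y z := by
    simp only [A.S1, eval_add', hM, hD, hr]; field_simp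
  have hT : A.T.eval (N - 6) y z = tb * A.D.eval (N - 6) y z := by
    simp only [eval_mul', A.T, A.Ed, eval_add', eval_c, Int.cast_one, hTn, hQ, hD, Ex.eval]; ring
  have hu : A.W1.eval (N - 6) y z = uI N tb (1 + rI N tb * (1 / (1 + z)))
      * (A.D.eval (N - 6) y z ^ 2 * A.K.eval (N - 6) y z) := by
    simp only [A.W1, A.Ed, eval_add', eval_sub', eval_mul', eval_c, Ex.eval, Int.cast_ofNat,
      Int.cast_one, hM, hD0, hD, hK, uI, aI, bI, beI, hd, hsI, hr]
    field_simp
    ring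
  have ha : A.A11.eval (N - 6) y z = uI' N tb (1 + rI N tb * (1 / (1 + z)))
      * (A.D.eval (N - 6) y z * A.K.eval (N - 6) y z) := by
    simp only [A.A11, A.Ed, eval_add', eval_sub', eval_mul', eval_c, Ex.eval, Int.cast_ofNat,
      Int.cast_one, hM, hD0, hD, hK, uI', aI, beI, hd, hsI, hr]
    field_simp
    ring
  have hs0 : 0 < 1 + rI N tb * (1 / (1 + z)) := by positivity
  have hX : 0 ≤ N - 6 := by linarith
  have e1 := pos_of_sub checkAGS hX hy.le hz
    (show 0 < (Ex.y * Ex.y * Ex.y).eval (N - 6) y z by simp [Ex.eval]; positivity)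
  have e2 := pos_of_sub checkARS hX hy.le hz
    (show 0 < Ex.y.eval (N - 6) y z by simpa [Ex.eval] using hy)
  rw [A.GS, GSn_eval (eN_eval y z) (eh_eval y z) hS hT hu ha (by linarith) (by linarith) hs0] at e1
  rw [A.RS, RSn_eval (eN_eval y z) (eh_eval y z) hS hT hu (by linarith) (by linarith)] at e2
  rw [hD, hK] at e1 e2
  exact ⟨sub_pos.1 (pos_of_mul_pos_left e1 (by positivity)),
    pos_of_mul_pos_left e2 (by positivity)⟩

/-- The case `σ∞ = 1 + d`. -/
lemma ext_ge (hN : 6 ≤ N) {d : ℝ} (htd : tb = N * (1 + d) / (N - 2)) (hd : 0 ≤ d) {z : ℝ}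
    (hz : 0 ≤ z) :
    wdR N tb (1 + d + rI N tb * (1 / (1 + z))) (uI N tb (1 + d + rI N tb * (1 / (1 + z))))
      < uI N tb (1 + d + rI N tb * (1 / (1 + z))) * uI' N tb (1 + d + rI N tb * (1 / (1 + z))) ∧
    0 < rgR N tb (1 + d + rI N tb * (1 / (1 + z)))
      (uI N tb (1 + d + rI N tb * (1 / (1 + z)))) := by
  have hh : 0 < N - 2 := by linarith
  have hN1 : 0 < N - 1 := by linarith
  have hz1 : 0 < 1 + z := by linarith
  have hN4 : 0 < N ^ 2 + 2 * N - 4 := by nlinarith
  have hN2 : 0 < N ^ 2 - 2 := by nlinarith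
  set G : ℝ := 2 * (N ^ 2 - 2) + (N ^ 2 + 2 * N - 4) * d with hG
  have hG0 : 0 < G := by positivity
  have hsI : sI N tb = 1 + d := by
    rw [sI, show tb * (N - 2) / N = 1 + d by rw [htd]; field_simp]
    exact max_eq_right (by linarith)
  have hdI : dI N tb = d := by simp [dI, hsI]
  have htb : 0 < tb := by rw [htd]; positivity
  have hr : rI N tb = 4 * (1 + d) * (N - 1) * (N + 2 * d) / ((N - 2) * G) := by
    have : 1 + d ≠ 0 := by linarith
    have hB : N * (pone N tb / tb) + 2 = G / ((N - 2) * (1 + d)) := by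
      simp only [pone, htd, hG]
      field_simp
      ring
    rw [rI, hsI, hB]
    simp only [pone, htd]
    field_simp
    rw [hG]
    ring
  set dn := Ex.y with hdn'
  set dd := c 1 with hdd'
  set ed := c 1 + Ex.z with hed'
  have hdn : dn.eval (N - 6) d z = d := rfl
  have hDd : dd.eval (N - 6) d z = 1 := by simp [hdd']
  have hEd : ed.eval (N - 6) d z = 1 + z := by simp [hed', hdd', Ex.eval]
  have hM : (MB dn dd).eval (N - 6) d z = 4 * (1 + d) * (N - 1) * (N + 2 * d) := by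
    simp [MB, hdn, hDd, eN_eval]
  have hD2 : (D2 dn dd).eval (N - 6) d z = G := by
    simp [D2, hdn, hDd, eN_eval, hG]; ring
  have hD0 : (D0B dn dd).eval (N - 6) d z = (N - 2) * G := by
    simp [D0B, hD2, hDd, eh_eval]
  have hD : (DB dn dd ed).eval (N - 6) d z = (N - 2) * G * (1 + z) := by
    simp [DB, hD0, hEd]
  have hAn : (An dn dd).eval (N - 6) d z = 20 * (N - 1) + 19 * (N - 2) * d := by
    simp [An, hdn, hDd, eN_eval, eh_eval]
  have hB6 : (B6 dn dd).eval (N - 6) d z = (N - 2) * d + 6 := by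
    simp [B6, hdn, hDd, eh_eval]
  have hH : (HB dn dd).eval (N - 6) d z = 4 * (1 + 2 * (N - 2) * d) := by
    simp [HB, hdn, hDd, eh_eval]
  have hK : (KB dn dd).eval (N - 6) d z = 100 * (10 * (N - 2) * (N - 1)) * ((N - 2) * d + 6)
      * (4 * (1 + 2 * (N - 2) * d)) * (4 * (1 + d) * (N - 1) * (N + 2 * d)) := by
    simp [KB, hB6, hH, hM, hDd, eN_eval, eh_eval]
  have hS : (SB dn dd dd ed).eval (N - 6) d z
      = (1 + d + rI N tb * (1 / (1 + z))) * (DB dn dd ed).eval (N - 6) d z := by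
    simp only [SB, eval_add', eval_mul', hM, hD2, hD, hr, hdn, hDd, hEd, eh_eval]
    field_simp
  have hT : (TB dn dd ed).eval (N - 6) d z = tb * (DB dn dd ed).eval (N - 6) d z := by
    simp only [TB, eval_add', eval_mul', hD2, hD, hdn, hDd, hEd, htd, eN_eval]
    field_simp
  have hu : (WB dn dd dd ed).eval (N - 6) d z = uI N tb (1 + d + rI N tb * (1 / (1 + z)))
      * ((DB dn dd ed).eval (N - 6) d z ^ 2 * (KB dn dd).eval (N - 6) d z) := by
    simp only [WB, eval_add', eval_sub', eval_mul', eval_c, Int.cast_ofNat, hAn, hM, hD0, hB6, hH,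
      hD, hK, uI, aI, bI, beI, hdI, hsI, hr, hdn, hDd, hEd, eh_eval]
    field_simp
    ring
  have ha : (A1B dn dd dd ed).eval (N - 6) d z = uI' N tb (1 + d + rI N tb * (1 / (1 + z)))
      * ((DB dn dd ed).eval (N - 6) d z * (KB dn dd).eval (N - 6) d z) := by
    simp only [A1B, eval_sub', eval_mul', eval_c, Int.cast_ofNat, hAn, hM, hD0, hB6, hH,
      hD, hK, uI', aI, beI, hdI, hsI, hr, hDd, hEd]
    field_simp
    ring
  have hs0 : 0 < 1 + d + rI N tb * (1 / (1 + z)) := by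
    have : 0 ≤ rI N tb := by rw [hr]; positivity
    positivity
  have hX : 0 ≤ N - 6 := by linarith
  have e1 := pos_of_sub checkBGS hX hd hz (by simp [Ex.eval])
  have e2 := pos_of_sub checkBRS hX hd hz (by simp [Ex.eval])
  rw [GSB, ← hdn', ← hdd', ← hed',
    GSn_eval (eN_eval d z) (eh_eval d z) hS hT hu ha (by linarith) htb hs0] at e1
  rw [RSB, ← hdn', ← hdd', ← hed',
    RSn_eval (eN_eval d z) (eh_eval d z) hS hT hu (by linarith) htb] at e2
  rw [hD, hK] at e1 e2
  exact ⟨sub_pos.1 (pos_of_mul_pos_left e1 (by positivity)),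
    pos_of_mul_pos_left e2 (by positivity)⟩

/-- Both bounds on `σ∞ < σ ≤ s₂`. -/
theorem ext_pos (hN : 6 ≤ N) (htb : 1 < tb) {s : ℝ} (h0 : sI N tb < s)
    (h1 : s ≤ sI N tb + rI N tb) :
    wdR N tb s (uI N tb s) < uI N tb s * uI' N tb s ∧ 0 < rgR N tb s (uI N tb s) := by
  have hr : 0 < rI N tb := by linarith
  obtain ⟨z, hz, rfl⟩ : ∃ z, 0 ≤ z ∧ s = sI N tb + rI N tb * (1 / (1 + z)) := by
    have hy : 0 < s - sI N tb := by linarith
    refine ⟨rI N tb / (s - sI N tb) - 1, ?_, ?_⟩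
    · rw [sub_nonneg, one_le_div hy]; linarith
    · rw [add_sub_cancel, one_div_div, mul_div_assoc', mul_div_cancel_left₀ _ hr.ne']; ring
  rcases lt_or_ge (tb * (N - 2)) N with h | h
  · rw [show sI N tb = 1 from max_eq_left (by rw [div_le_one (by linarith)]; linarith)]
    exact ext_le hN htb h hz
  · obtain ⟨d, hd, htd⟩ : ∃ d, 0 ≤ d ∧ tb = N * (1 + d) / (N - 2) := by
      refine ⟨tb * (N - 2) / N - 1, ?_, ?_⟩
      · rw [sub_nonneg, one_le_div (by linarith)]; exact h
      · have : N - 2 ≠ 0 := by linarith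
        field_simp; ring
    rw [show sI N tb = 1 + d by
      rw [sI, show tb * (N - 2) / N = 1 + d by
        rw [htd]; have : N - 2 ≠ 0 := by linarith
        field_simp]
      exact max_eq_right (by linarith)]
    exact ext_ge hN htd hd hz

end Vale.Agent.P100T.UpperCert
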